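import Crest.Agent.R206.PSDefs

/-! # Row 206: geometric definitions on a plane shortest path tree (walks, left/right, ramps). -/

set_option autoImplicit false

namespace Crest.Agent.R206

namespace PS

variable {W : Type} {η : ℝ} (P : PS W η)

/-- `P.Wk S u v L`: a walk from `u` to `v` inside `S` of length `L` -/
inductive Wk (S : Set W) (u : W) : W → ℝ → Prop
  | nil : u ∈ S → Wk S u u 0
  | snoc {v w : W} {L : ℝ} : Wk S u v L → P.G.Adj v w → w ∈ S → Wk S u w (L + |P.f v - P.f w|)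

/-- intrinsic distance inside `S` -/
noncomputable def dS (S : Set W) (u v : W) : ℝ := sInf {L | P.Wk S u v L}

/-- any two points of `S` are joined inside `S` -/
def Conn (S : Set W) : Prop := ∀ u ∈ S, ∀ v ∈ S, ∃ L, P.Wk S u v L

/-- column convex -/
def Cvx (S : Set W) : Prop := ∀ w ∈ S, ∀ v ∈ S, ∀ u, P.Anc w u → P.Anc u v → u ∈ S

/-- `u` is strictly to the left of `v` -/
def Lt (u v : W) : Prop := P.last u < P.first v

/-- the axioms of a left/right relation (satisfied by `P.Lt` and by `flip P.Lt`) -/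
structure LR (R : W → W → Prop) : Prop where
  tri : ∀ u v, P.Anc u v ∨ P.Anc v u ∨ R u v ∨ R v u
  notrel : ∀ u v, R u v → ¬ P.Anc u v ∧ ¬ P.Anc v u
  trans : ∀ u v w, R u v → R v w → R u w
  down : ∀ u v u' v', R u v → P.Anc u u' → P.Anc v v' → R u' v'
  nc : ∀ p q r s, P.ch p q → P.ch r s → R p r → R r q → R q s → False

/-- `b` is enclosed by no chord of `S` -/
def Out (S : Set W) (b : W) : Prop :=
  ∀ p ∈ S, ∀ q ∈ S, P.ch p q → ¬ (P.Lt p b ∧ P.Lt b q)

/-- the chord `p q` (in either orientation) encloses `x` -/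
def Enc (p q x : W) : Prop := P.ch p q ∧ ((P.Lt p x ∧ P.Lt x q) ∨ (P.Lt q x ∧ P.Lt x p))

/-- horizontal band -/
def band (a b : ℝ) : Set W := {v | a ≤ P.f v ∧ P.f v < b}

/-- the component of `v` in `S` -/
def comp (S : Set W) (v : W) : Set W := {w | ∃ L, P.Wk S v w L}

/-- the vertices of `C` that hang from a common ancestor in `C` with a point of `M` -/
def hull (C M : Set W) : Set W := {v | v ∈ C ∧ ∃ n ∈ M, ∃ r ∈ C, P.Anc r v ∧ P.Anc r n}

/-- `N` is a union of trees of `C` -/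
def TClosed (C N : Set W) : Prop :=
  N ⊆ C ∧ ∀ u ∈ C, ∀ v ∈ C, P.Anc u v → (u ∈ N ↔ v ∈ N)

/-- the ramp: `F>` for `R = P.Lt`, `F<` for `R = flip P.Lt` -/
noncomputable def FF (R : W → W → Prop) (C N : Set W) (cap : ℝ) (w : W) : ℝ :=
  sInf ({cap} ∪ {x | ∃ b ∈ N, R b w ∧ ∃ z L, P.Wk C b z L ∧ ¬ R z w ∧ x = L + |P.f z - P.f w|})

/-- `u` and `v` have the same points of `N` on their left -/
def SameGap (R : W → W → Prop) (N : Set W) (u v : W) : Prop := ∀ b ∈ N, R b u ↔ R b v

end PS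

end Crest.Agent.R206
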