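import Crest.Agent.R206.GDefs

/-! # Row 206: basic API for ancestors, walks, intrinsic distance, left/right. -/

set_option autoImplicit false

namespace Crest.Agent.R206

namespace PS

variable {W : Type} {η : ℝ} {P : PS W η}

theorem eta_nonneg (P : PS W η) : 0 ≤ η := by
  have h := P.f_le P.root
  rw [P.par_root] at h
  linarith

/-! ### ancestors -/

theorem Anc.refl (P : PS W η) (u : W) : P.Anc u u := ⟨0, rfl⟩

theorem anc_par (P : PS W η) (u : W) : P.Anc (P.par u) u := ⟨1, rfl⟩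

theorem Anc.trans {u v w : W} (h1 : P.Anc u v) (h2 : P.Anc v w) : P.Anc u w := by
  obtain ⟨n, rfl⟩ := h1
  obtain ⟨m, rfl⟩ := h2
  exact ⟨n + m, Function.iterate_add_apply _ _ _ _⟩

theorem f_par_le (P : PS W η) (v : W) : P.f (P.par v) ≤ P.f v := by
  by_cases h : v = P.root
  · rw [h, P.par_root]
  · exact (P.f_lt v h).le

theorem Anc.f_le {u v : W} (h : P.Anc u v) : P.f u ≤ P.f v := by
  obtain ⟨n, rfl⟩ := h
  induction n with
  | zero => exact le_rfl
  | succ n ih => rw [Function.iterate_succ_apply']; exact (P.f_par_le _).trans ih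

theorem Anc.nest {u v : W} (h : P.Anc u v) : P.first u ≤ P.first v ∧ P.last v ≤ P.last u := by
  obtain ⟨n, rfl⟩ := h
  induction n with
  | zero => exact ⟨le_rfl, le_rfl⟩
  | succ n ih =>
    rw [Function.iterate_succ_apply']
    exact ⟨(P.nest _).1.trans ih.1, ih.2.trans (P.nest _).2⟩

/-- two ancestors of one vertex are related -/
theorem Anc.total {u v w : W} (h1 : P.Anc u w) (h2 : P.Anc v w) : P.Anc u v ∨ P.Anc v u := by
  obtain ⟨n, rfl⟩ := h1
  obtain ⟨m, rfl⟩ := h2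
  rcases le_total n m with h | h
  · obtain ⟨k, rfl⟩ := Nat.exists_eq_add_of_le h
    exact Or.inr ⟨k, by rw [add_comm, Function.iterate_add_apply]⟩
  · obtain ⟨k, rfl⟩ := Nat.exists_eq_add_of_le h
    exact Or.inl ⟨k, by rw [add_comm, Function.iterate_add_apply]⟩

theorem Anc.eq_or_par {u v : W} (h : P.Anc u v) : u = v ∨ P.Anc u (P.par v) := by
  obtain ⟨n, rfl⟩ := h
  cases n with
  | zero => exact Or.inl rfl
  | succ n => exact Or.inr ⟨n, rfl⟩

theorem ch_anc {p q v : W} (h : P.ch p q) (hv : P.Anc p v) : v = p := (P.ch_leaf p q h).2 v hv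

theorem ch_adj {p q : W} (h : P.ch p q) : P.G.Adj p q := ⟨P.ch_ne p q h, Or.inr (Or.inr h)⟩

theorem adj_len_le {u v : W} (h : P.G.Adj u v) : |P.f u - P.f v| ≤ η := by
  have h0 := P.eta_nonneg
  rcases h.2 with h | h | h
  · have h1 := P.f_le u
    have h2 := P.f_par_le u
    rw [h] at h1 h2
    rw [abs_le]; constructor <;> linarith
  · have h1 := P.f_le v
    have h2 := P.f_par_le v
    rw [h] at h1 h2
    rw [abs_le]; constructor <;> linarith
  · rw [P.ch_f u v h]; simpa using h0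

/-! ### left and right -/

theorem lr (P : PS W η) : P.LR P.Lt where
  tri u v := by
    by_cases h1 : P.Anc u v
    · exact Or.inl h1
    by_cases h2 : P.Anc v u
    · exact Or.inr (Or.inl h2)
    exact Or.inr (Or.inr (P.disj u v h1 h2))
  notrel u v h := by
    have h1 := P.fl u
    have h2 := P.fl v
    unfold Lt at h
    constructor
    · intro h'
      have := h'.nest
      omega
    · intro h'
      have := h'.nest
      omega
  trans u v w h1 h2 := by
    have := P.fl v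
    unfold Lt at *
    omega
  down u v u' v' h h1 h2 := by
    have := h1.nest
    have := h2.nest
    unfold Lt at *
    omega
  nc p q r s h1 h2 a b c := by
    have := P.fl p
    have := P.fl r
    have := P.fl q
    unfold Lt at *
    exact P.nc p q r s h1 h2 ⟨by omega, by omega, by omega⟩

theorem LR.flip {R : W → W → Prop} (h : P.LR R) : P.LR (flip R) where
  tri u v := by
    rcases h.tri u v with a | a | a | a
    · exact Or.inl a
    · exact Or.inr (Or.inl a)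
    · exact Or.inr (Or.inr (Or.inr a))
    · exact Or.inr (Or.inr (Or.inl a))
  notrel u v a := (h.notrel v u a).symm
  trans u v w a b := h.trans w v u b a
  down u v u' v' a b c := h.down v u v' u' a c b
  nc p q r s h1 h2 a b c := h.nc s r q p (P.ch_symm _ _ h2) (P.ch_symm _ _ h1) c b a

theorem lr' (P : PS W η) : P.LR (flip P.Lt) := P.lr.flip

theorem LR.irrefl {R : W → W → Prop} (h : P.LR R) (u : W) : ¬ R u u :=
  fun a => (h.notrel u u a).1 (Anc.refl P u)

theorem LR.asymm {R : W → W → Prop} (h : P.LR R) {u v : W} (a : R u v) : ¬ R v u :=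
  fun b => h.irrefl u (h.trans _ _ _ a b)

theorem LR.not_of_anc {R : W → W → Prop} (h : P.LR R) {u v : W} (a : P.Anc u v) :
    ¬ R u v ∧ ¬ R v u :=
  ⟨fun b => (h.notrel _ _ b).1 a, fun b => (h.notrel _ _ b).2 a⟩

/-- the ends of a chord are unrelated -/
theorem LR.ch_lt {R : W → W → Prop} (h : P.LR R) {p q : W} (hc : P.ch p q) : R p q ∨ R q p := by
  rcases h.tri p q with a | a | a
  · exact absurd (ch_anc hc a).symm (P.ch_ne p q hc)
  · exact absurd (ch_anc (P.ch_symm _ _ hc) a) (P.ch_ne p q hc)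
  · exact a

/-- every `LR` relation is `P.Lt` or its flip on the pairs that matter: `Out` in generic form -/
def OutR (P : PS W η) (R : W → W → Prop) (S : Set W) (b : W) : Prop :=
  ∀ p ∈ S, ∀ q ∈ S, P.ch p q → ¬ (R p b ∧ R b q)

theorem Out.outR {S : Set W} {b : W} (h : P.Out S b) : P.OutR P.Lt S b := h

theorem Out.outR' {S : Set W} {b : W} (h : P.Out S b) : P.OutR (flip P.Lt) S b :=
  fun p hp q hq hc a => h q hq p hp (P.ch_symm _ _ hc) ⟨a.2, a.1⟩

theorem out_of_min_first {S : Set W} {b : W} (h : ∀ v ∈ S, P.first b ≤ P.first v) :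
    P.Out S b := by
  intro p hp q _ _ a
  have h1 := h p hp
  have h2 := P.fl p
  have h3 := a.1
  unfold Lt at h3
  omega

theorem not_lt_of_min_first {S : Set W} {b : W} (h : ∀ v ∈ S, P.first b ≤ P.first v) :
    ∀ v ∈ S, ¬ P.Lt v b := by
  intro p hp a
  have h1 := h p hp
  have h2 := P.fl p
  unfold Lt at a
  omega

theorem Out.mono {S T : Set W} {b : W} (h : P.Out T b) (hST : S ⊆ T) : P.Out S b :=
  fun p hp q hq => h p (hST hp) q (hST hq)

/-! ### walks -/

namespace Wk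

variable {S T : Set W} {u v w : W} {L L' : ℝ}

theorem left_mem (h : P.Wk S u v L) : u ∈ S := by
  induction h with
  | nil h => exact h
  | snoc _ _ _ ih => exact ih

theorem right_mem (h : P.Wk S u v L) : v ∈ S := by
  cases h with
  | nil h => exact h
  | snoc _ _ h => exact h

theorem abs_le (h : P.Wk S u v L) : |P.f u - P.f v| ≤ L := by
  induction h with
  | nil h => simp
  | @snoc v w L _ _ _ ih =>
    have := abs_sub_le (P.f u) (P.f v) (P.f w)
    linarith

theorem nonneg (h : P.Wk S u v L) : 0 ≤ L := (abs_nonneg _).trans h.abs_le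

theorem mono (h : P.Wk S u v L) (hST : S ⊆ T) : P.Wk T u v L := by
  induction h with
  | nil h => exact Wk.nil (hST h)
  | snoc _ a b ih => exact Wk.snoc ih a (hST b)

theorem congr (h : P.Wk S u v L) (e : L = L') : P.Wk S u v L' := e ▸ h

theorem single (hu : u ∈ S) (hv : v ∈ S) (h : P.G.Adj u v) : P.Wk S u v |P.f u - P.f v| :=
  (Wk.snoc (Wk.nil hu) h hv).congr (zero_add _)

theorem append (h1 : P.Wk S u v L) (h2 : P.Wk S v w L') : P.Wk S u w (L + L') := by
  induction h2 with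
  | nil _ => exact h1.congr (add_zero _).symm
  | snoc _ a b ih => exact (Wk.snoc ih a b).congr (add_assoc _ _ _)

theorem symm (h : P.Wk S u v L) : P.Wk S v u L := by
  induction h with
  | nil h => exact Wk.nil h
  | @snoc v w L h a b ih =>
    refine ((single b h.right_mem a.symm).append ih).congr ?_
    rw [abs_sub_comm, add_comm]

theorem cons (hu : u ∈ S) (a : P.G.Adj u v) (h : P.Wk S v w L) :
    P.Wk S u w (|P.f u - P.f v| + L) := (single hu h.left_mem a).append h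

/-- a function that is `c`-Lipschitz on the edges inside `S` is `c`-Lipschitz along walks -/
theorem lip (h : P.Wk S u v L) (g : W → ℝ) (c : ℝ)
    (hg : ∀ x ∈ S, ∀ y ∈ S, P.G.Adj x y → g y ≤ g x + c * |P.f x - P.f y|) :
    g v ≤ g u + c * L := by
  induction h with
  | nil _ => simp
  | @snoc v w L h a b ih =>
    have := hg v h.right_mem w b a
    rw [mul_add]; linarith

/-- a walk that starts in `A` and ends outside `A` has an edge that leaves `A` -/
theorem exit (h : P.Wk S u v L) (A : W → Prop) (hu : A u) (hv : ¬ A v) :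
    ∃ x y L1 L2, A x ∧ ¬ A y ∧ P.G.Adj x y ∧ P.Wk S u x L1 ∧ P.Wk S y v L2 ∧
      L1 + |P.f x - P.f y| + L2 = L := by
  induction h with
  | nil _ => exact absurd hu hv
  | @snoc v w L h a b ih =>
    by_cases hA : A v
    · exact ⟨v, w, L, 0, hA, hv, a, h, Wk.nil b, add_zero _⟩
    · obtain ⟨x, y, L1, L2, h1, h2, h3, h4, h5, h6⟩ := ih hA
      exact ⟨x, y, L1, L2 + |P.f v - P.f w|, h1, h2, h3, h4, Wk.snoc h5 a b, by rw [← h6]; ring⟩

/-- first exit: the part of the walk before the exit edge stays in `A` -/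
theorem exit_first (h : P.Wk S u v L) (A : Set W) (hu : u ∈ A) (hv : v ∉ A) :
    ∃ x y L1 L2, y ∉ A ∧ P.G.Adj x y ∧ P.Wk (S ∩ A) u x L1 ∧ P.Wk S y v L2 ∧
      L1 + |P.f x - P.f y| + L2 = L := by
  have key : ∀ {v L}, P.Wk S u v L → P.Wk (S ∩ A) u v L ∨ ∃ x y L1 L2, y ∉ A ∧ P.G.Adj x y ∧
      P.Wk (S ∩ A) u x L1 ∧ P.Wk S y v L2 ∧ L1 + |P.f x - P.f y| + L2 = L := by
    intro v L h
    induction h with
    | nil h => exact Or.inl (Wk.nil ⟨h, hu⟩)
    | @snoc v w L h a b ih =>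
      rcases ih with ih | ⟨x, y, L1, L2, h2, h3, h4, h5, h6⟩
      · by_cases hw : w ∈ A
        · exact Or.inl (Wk.snoc ih a ⟨b, hw⟩)
        · exact Or.inr ⟨v, w, L, 0, hw, a, ih, Wk.nil b, add_zero _⟩
      · exact Or.inr ⟨x, y, L1, L2 + |P.f v - P.f w|, h2, h3, h4, Wk.snoc h5 a b,
          by rw [← h6]; ring⟩
  rcases key h with h' | h'
  · exact absurd h'.right_mem.2 hv
  · exact h'

/-- a walk stays inside any set that contains the ball it can reach -/
theorem restrict (h : P.Wk S u v L) (A : Set W)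
    (hA : ∀ x L1, P.Wk S u x L1 → L1 ≤ L → x ∈ A) : P.Wk (S ∩ A) u v L := by
  induction h with
  | nil h => exact Wk.nil ⟨h, hA u 0 (Wk.nil h) le_rfl⟩
  | @snoc v w L h a b ih =>
    refine Wk.snoc (ih fun x L1 h1 h2 => hA x L1 h1 ?_) a ⟨b, hA w _ (Wk.snoc h a b) le_rfl⟩
    have := abs_nonneg (P.f v - P.f w)
    linarith

end Wk

/-- walk along a column -/
theorem Cvx.wk {S : Set W} (hS : P.Cvx S) {u v : W} (hu : u ∈ S) (hv : v ∈ S) (h : P.Anc u v) :
    P.Wk S v u |P.f v - P.f u| := by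
  obtain ⟨n, rfl⟩ := h
  induction n with
  | zero => simpa using Wk.nil hv
  | succ n ih =>
    rw [Function.iterate_succ_apply'] at hu ⊢
    have hm : P.par^[n] v ∈ S := hS _ hu _ hv _ (P.anc_par _) ⟨n, rfl⟩
    by_cases e : P.par (P.par^[n] v) = P.par^[n] v
    · rw [e]; exact ih hm
    · refine (Wk.snoc (ih hm) ⟨Ne.symm e, Or.inl rfl⟩ hu).congr ?_
      have h1 : P.f (P.par^[n] v) ≤ P.f v := Anc.f_le ⟨n, rfl⟩
      have h2 := P.f_par_le (P.par^[n] v)
      rw [abs_of_nonneg (by linarith), abs_of_nonneg (by linarith), abs_of_nonneg (by linarith)]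
      ring

theorem Cvx.wk_rel {S : Set W} (hS : P.Cvx S) {u v : W} (hu : u ∈ S) (hv : v ∈ S)
    (h : P.Anc u v ∨ P.Anc v u) : P.Wk S u v |P.f u - P.f v| := by
  rcases h with h | h
  · exact (hS.wk hu hv h).symm.congr (abs_sub_comm _ _)
  · exact hS.wk hv hu h

theorem cvx_univ (P : PS W η) : P.Cvx Set.univ := fun _ _ _ _ _ _ _ => trivial

theorem cvx_band (P : PS W η) (a b : ℝ) : P.Cvx (P.band a b) :=
  fun _ hw _ hv _ h1 h2 => ⟨hw.1.trans h1.f_le, h2.f_le.trans_lt hv.2⟩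

theorem comp_sub (P : PS W η) (S : Set W) (v : W) : P.comp S v ⊆ S :=
  fun _ ⟨_, h⟩ => h.right_mem

theorem mem_comp_self {S : Set W} {v : W} (hv : v ∈ S) : v ∈ P.comp S v := ⟨0, Wk.nil hv⟩

theorem Wk.to_comp {S : Set W} {x u v : W} {L : ℝ} (h : P.Wk S u v L) (hu : u ∈ P.comp S x) :
    P.Wk (P.comp S x) u v L := by
  obtain ⟨L0, h0⟩ := hu
  induction h with
  | nil _ => exact Wk.nil ⟨L0, h0⟩
  | snoc h a b ih => exact Wk.snoc ih a ⟨_, h0.append (Wk.snoc h a b)⟩

theorem conn_comp (P : PS W η) (S : Set W) (x : W) : P.Conn (P.comp S x) := by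
  rintro u ⟨L1, h1⟩ v ⟨L2, h2⟩
  exact ⟨_, (h1.symm.append h2).to_comp ⟨L1, h1⟩⟩

theorem mem_comp_of_adj {S : Set W} {x u v : W} (hu : u ∈ P.comp S x) (a : P.G.Adj u v)
    (hv : v ∈ S) : v ∈ P.comp S x := by
  obtain ⟨L, h⟩ := hu
  exact ⟨_, Wk.snoc h a hv⟩

theorem comp_eq {S : Set W} {x u : W} (hu : u ∈ P.comp S x) : P.comp S u = P.comp S x := by
  obtain ⟨L, h⟩ := hu
  ext w
  exact ⟨fun ⟨_, h'⟩ => ⟨_, h.append h'⟩, fun ⟨_, h'⟩ => ⟨_, h.symm.append h'⟩⟩

theorem Cvx.comp {S : Set W} (hS : P.Cvx S) (x : W) : P.Cvx (P.comp S x) := by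
  rintro w ⟨L1, h1⟩ v ⟨L2, h2⟩ u a b
  have hu : u ∈ S := hS w h1.right_mem v h2.right_mem u a b
  exact ⟨_, h2.append (hS.wk hu h2.right_mem b)⟩

theorem comp_mono {S T : Set W} (h : S ⊆ T) (x : W) : P.comp S x ⊆ P.comp T x :=
  fun _ ⟨L, hw⟩ => ⟨L, hw.mono h⟩

/-- a connected subset of `T` lies in one component of `T` -/
theorem Conn.sub_comp {S T : Set W} (hS : P.Conn S) (h : S ⊆ T) {x u : W} (hu : u ∈ S)
    (hx : u ∈ P.comp T x) : S ⊆ P.comp T x := by
  intro v hv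
  obtain ⟨L, h1⟩ := hS u hu v hv
  obtain ⟨L0, h0⟩ := hx
  exact ⟨_, h0.append (h1.mono h)⟩

theorem band_abs {a b : ℝ} {u v : W} (hu : u ∈ P.band a b) (hv : v ∈ P.band a b) :
    |P.f u - P.f v| ≤ b - a := by
  have := hu.1; have := hu.2; have := hv.1; have := hv.2
  rw [abs_le]; constructor <;> linarith

/-! ### intrinsic distance -/

theorem dS_nonneg (P : PS W η) (S : Set W) (u v : W) : 0 ≤ P.dS S u v :=
  Real.sInf_nonneg fun _ h => Wk.nonneg h

theorem Wk.dS_le {S : Set W} {u v : W} {L : ℝ} (h : P.Wk S u v L) : P.dS S u v ≤ L :=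
  csInf_le ⟨0, fun _ h => Wk.nonneg h⟩ h

theorem le_dS {S : Set W} {u v : W} {m : ℝ} (h0 : ∃ L, P.Wk S u v L)
    (h : ∀ L, P.Wk S u v L → m ≤ L) : m ≤ P.dS S u v := le_csInf h0 h

theorem exists_wk_lt {S : Set W} {u v : W} {m : ℝ} (h0 : ∃ L, P.Wk S u v L)
    (h : P.dS S u v < m) : ∃ L, P.Wk S u v L ∧ L < m := exists_lt_of_csInf_lt h0 h

theorem dS_comm (P : PS W η) (S : Set W) (u v : W) : P.dS S u v = P.dS S v u := by
  unfold dS
  congr 1
  ext L
  exact ⟨Wk.symm, Wk.symm⟩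

theorem dS_self {S : Set W} {u : W} (hu : u ∈ S) : P.dS S u u = 0 :=
  le_antisymm (Wk.nil hu).dS_le (P.dS_nonneg _ _ _)

theorem abs_le_dS {S : Set W} {u v : W} (h0 : ∃ L, P.Wk S u v L) :
    |P.f u - P.f v| ≤ P.dS S u v := le_dS h0 fun _ h => h.abs_le

theorem dS_le_add_wk {S : Set W} {u v w : W} {L : ℝ} (h0 : ∃ L, P.Wk S u v L)
    (h : P.Wk S v w L) : P.dS S u w ≤ P.dS S u v + L := by
  have : P.dS S u w - L ≤ P.dS S u v := le_dS h0 fun L' h' => by
    have := (h'.append h).dS_le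
    linarith
  linarith

theorem dS_triangle' {S : Set W} {u v w : W} (h0 : ∃ L, P.Wk S u v L)
    (h1 : ∃ L, P.Wk S v w L) : P.dS S u w ≤ P.dS S u v + P.dS S v w := by
  have : P.dS S u w - P.dS S u v ≤ P.dS S v w := le_dS h1 fun L' h' => by
    have := dS_le_add_wk h0 h'
    linarith
  linarith

theorem Conn.triangle {S : Set W} (hS : P.Conn S) {u v w : W} (hu : u ∈ S) (hv : v ∈ S)
    (hw : w ∈ S) : P.dS S u w ≤ P.dS S u v + P.dS S v w :=
  dS_triangle' (hS u hu v hv) (hS v hv w hw)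

theorem Conn.abs_le {S : Set W} (hS : P.Conn S) {u v : W} (hu : u ∈ S) (hv : v ∈ S) :
    |P.f u - P.f v| ≤ P.dS S u v := abs_le_dS (hS u hu v hv)

theorem Conn.le_add_wk {S : Set W} (hS : P.Conn S) {b v w : W} {L : ℝ} (hb : b ∈ S)
    (h : P.Wk S v w L) : P.dS S b w ≤ P.dS S b v + L :=
  dS_le_add_wk (hS b hb v h.left_mem) h

/-- `dS S b` is 1-Lipschitz on the edges of `S` -/
theorem Conn.lip_adj {S : Set W} (hS : P.Conn S) {b v w : W} (hb : b ∈ S) (hv : v ∈ S)
    (hw : w ∈ S) (a : P.G.Adj v w) : |P.dS S b v - P.dS S b w| ≤ |P.f v - P.f w| := by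
  have h1 := hS.le_add_wk hb (Wk.single hv hw a)
  have h2 := hS.le_add_wk hb (Wk.single hv hw a).symm
  rw [_root_.abs_le]; constructor <;> linarith

theorem Conn.lip {S : Set W} (hS : P.Conn S) {b v w : W} (hb : b ∈ S) (hv : v ∈ S)
    (hw : w ∈ S) : |P.dS S b v - P.dS S b w| ≤ P.dS S v w := by
  have h1 := hS.triangle hb hv hw
  have h2 := hS.triangle hb hw hv
  rw [P.dS_comm S w v] at h2
  rw [_root_.abs_le]; constructor <;> linarith

theorem dS_anti {S T : Set W} (hST : S ⊆ T) {u v : W} (h0 : ∃ L, P.Wk S u v L) :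
    P.dS T u v ≤ P.dS S u v := le_dS h0 fun _ h => (h.mono hST).dS_le

theorem Cvx.dS_rel {S : Set W} (hS : P.Cvx S) {u v : W} (hu : u ∈ S) (hv : v ∈ S)
    (h : P.Anc u v ∨ P.Anc v u) : P.dS S u v ≤ |P.f u - P.f v| := (hS.wk_rel hu hv h).dS_le

theorem dS_adj {S : Set W} {u v : W} (hu : u ∈ S) (hv : v ∈ S) (a : P.G.Adj u v) :
    P.dS S u v ≤ |P.f u - P.f v| := (Wk.single hu hv a).dS_le

theorem dS_ch {S : Set W} {p q : W} (hp : p ∈ S) (hq : q ∈ S) (h : P.ch p q) :
    P.dS S p q = 0 := by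
  have := dS_adj hp hq (ch_adj h)
  rw [P.ch_f p q h, sub_self, abs_zero] at this
  exact le_antisymm this (P.dS_nonneg _ _ _)

theorem wk_ch {S : Set W} {p q : W} (hp : p ∈ S) (hq : q ∈ S) (h : P.ch p q) :
    P.Wk S p q 0 :=
  (Wk.single hp hq (ch_adj h)).congr (by rw [P.ch_f p q h, sub_self, abs_zero])

/-- a function that is `c`-Lipschitz on the edges inside `S` is `c`-Lipschitz for `dS S` -/
theorem lip_dS {S : Set W} {u v : W} (h0 : ∃ L, P.Wk S u v L) (g : W → ℝ) {c : ℝ} (hc : 0 < c)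
    (hg : ∀ x ∈ S, ∀ y ∈ S, P.G.Adj x y → g y ≤ g x + c * |P.f x - P.f y|) :
    g v ≤ g u + c * P.dS S u v := by
  have : (g v - g u) / c ≤ P.dS S u v := le_dS h0 fun L h => by
    have := h.lip g c hg
    rw [div_le_iff₀ hc]; linarith
  rw [div_le_iff₀ hc] at this
  linarith

/-! ### hulls -/

theorem hull_closed (P : PS W η) (C M : Set W) : P.TClosed C (P.hull C M) := by
  refine ⟨fun _ h => h.1, fun u hu v hv a => ⟨?_, ?_⟩⟩
  · rintro ⟨_, n, hn, r, hr, h1, h2⟩
    exact ⟨hv, n, hn, r, hr, h1.trans a, h2⟩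
  · rintro ⟨_, n, hn, r, hr, h1, h2⟩
    rcases a.total h1 with h | h
    · exact ⟨hu, n, hn, u, hu, Anc.refl P u, h.trans h2⟩
    · exact ⟨hu, n, hn, r, hr, h, h2⟩

theorem sub_hull {C M : Set W} (h : M ⊆ C) : M ⊆ P.hull C M :=
  fun v hv => ⟨h hv, v, hv, v, h hv, Anc.refl P v, Anc.refl P v⟩

/-- a point of the hull is within `2h` of `M` -/
theorem hull_near {C M : Set W} (hC : P.Cvx C) (hM : M ⊆ C) {h : ℝ}
    (hh : ∀ u ∈ C, ∀ v ∈ C, |P.f u - P.f v| ≤ h) {v : W} (hv : v ∈ P.hull C M) :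
    ∃ n ∈ M, ∃ L, P.Wk C n v L ∧ L ≤ 2 * h := by
  obtain ⟨hv, n, hn, r, hr, h1, h2⟩ := hv
  refine ⟨n, hn, _, (hC.wk hr (hM hn) h2).append (hC.wk hr hv h1).symm, ?_⟩
  have := hh n (hM hn) r hr
  have := hh v hv r hr
  linarith

end PS

end Crest.Agent.R206
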