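import Crest.Agent.R206.Geo1

/-! # Row 206: entering a pocket, mouth lemmas, ramps and gaps. -/

set_option autoImplicit false

namespace Crest.Agent.R206

namespace PS

variable {W : Type} {η : ℝ} {P : PS W η} {R : W → W → Prop}

/-- (E1) an edge that enters the pocket of the chord `p q` comes from the column of `p` or `q` -/
theorem LR.e1 (hR : P.LR R) {p q x y : W} (hc : P.ch p q) (a : P.G.Adj x y)
    (hx : ¬ (R p x ∧ R x q)) (hy : R p y ∧ R y q) : P.Anc x p ∨ P.Anc x q := by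
  have hc' := P.ch_symm _ _ hc
  rcases a.2 with h | h | h
  · have hyx : P.Anc y x := h ▸ P.anc_par x
    exact absurd ⟨hR.down _ _ _ _ hy.1 (Anc.refl P p) hyx,
      hR.down _ _ _ _ hy.2 hyx (Anc.refl P q)⟩ hx
  · have hxy : P.Anc x y := h ▸ P.anc_par y
    rcases hR.tri x p with h1 | h1 | h1 | h1
    · exact Or.inl h1
    · exact Or.inl (ch_anc hc h1 ▸ Anc.refl P _)
    · exact absurd (hR.down _ _ _ _ h1 hxy (Anc.refl P p)) (hR.asymm hy.1)
    rcases hR.tri x q with h2 | h2 | h2 | h2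
    · exact Or.inr h2
    · exact Or.inr (ch_anc hc' h2 ▸ Anc.refl P _)
    · exact absurd ⟨h1, h2⟩ hx
    · exact absurd (hR.down _ _ _ _ h2 (Anc.refl P q) hxy) (hR.asymm hy.2)
  · rcases hR.tri x p with h1 | h1 | h1 | h1
    · exact Or.inl h1
    · exact Or.inl (ch_anc hc h1 ▸ Anc.refl P _)
    · exact (hR.nc x y p q h hc h1 hy.1 hy.2).elim
    rcases hR.tri x q with h2 | h2 | h2 | h2
    · exact Or.inr h2
    · exact Or.inr (ch_anc hc' h2 ▸ Anc.refl P _)
    · exact absurd ⟨h1, h2⟩ hx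
    · exact (hR.nc p q y x hc (P.ch_symm _ _ h) hy.1 hy.2 h2).elim

/-- a walk that enters the pocket of `p q` meets the column of `p` or of `q` -/
theorem Wk.entry (hR : P.LR R) {S : Set W} {p q b w : W} {L : ℝ} (h : P.Wk S b w L)
    (hc : P.ch p q) (hb : ¬ (R p b ∧ R b q)) (hw : R p w ∧ R w q) :
    ∃ x L1 L2, (P.Anc x p ∨ P.Anc x q) ∧ P.Wk S b x L1 ∧ P.Wk S x w L2 ∧ L1 + L2 = L := by
  obtain ⟨x, y, L1, L2, h1, h2, h3, h4, h5, h6⟩ :=
    h.exit (fun v => ¬ (R p v ∧ R v q)) hb (not_not.2 hw)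
  exact ⟨x, L1, _, hR.e1 hc h3 h1 (not_not.1 h2), h4, Wk.cons h4.right_mem h3 h5,
    by rw [← h6]; ring⟩

/-- a walk that leaves the pocket of `p q` meets the column of `p` or of `q` -/
theorem Wk.leave (hR : P.LR R) {S : Set W} {p q b w : W} {L : ℝ} (h : P.Wk S w b L)
    (hc : P.ch p q) (hb : ¬ (R p b ∧ R b q)) (hw : R p w ∧ R w q) :
    ∃ x L1 L2, (P.Anc x p ∨ P.Anc x q) ∧ P.Wk S w x L1 ∧ P.Wk S x b L2 ∧ L1 + L2 = L := by
  obtain ⟨x, L1, L2, h1, h2, h3, h4⟩ := h.symm.entry hR hc hb hw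
  exact ⟨x, L2, L1, h1, h3.symm, h2.symm, by rw [← h4]; ring⟩

/-- the same, for the symmetric enclosure predicate -/
theorem Wk.leave_enc {S : Set W} {p q b w : W} {L : ℝ} (h : P.Wk S w b L)
    (hw : P.Enc p q w) (hb : ¬ P.Enc p q b) :
    ∃ x L1 L2, (P.Anc x p ∨ P.Anc x q) ∧ P.Wk S w x L1 ∧ P.Wk S x b L2 ∧ L1 + L2 = L := by
  rcases hw.2 with h1 | h1
  · exact h.leave P.lr hw.1 (fun a => hb ⟨hw.1, Or.inl a⟩) h1
  · obtain ⟨x, L1, L2, h2, h3⟩ :=
      h.leave P.lr (P.ch_symm _ _ hw.1) (fun a => hb ⟨hw.1, Or.inr a⟩) h1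
    exact ⟨x, L1, L2, h2.symm, h3⟩

theorem Enc.symm {p q x : W} (h : P.Enc p q x) : P.Enc q p x := ⟨P.ch_symm _ _ h.1, h.2.symm⟩

theorem Enc.desc {p q x y : W} (h : P.Enc p q x) (a : P.Anc x y) : P.Enc p q y := by
  refine ⟨h.1, h.2.imp (fun h => ?_) fun h => ?_⟩ <;>
    exact ⟨P.lr.down _ _ _ _ h.1 (Anc.refl P _) a, P.lr.down _ _ _ _ h.2 a (Anc.refl P _)⟩

theorem Enc.not_anc {p q x : W} (h : P.Enc p q x) : ¬ P.Anc x p ∧ ¬ P.Anc x q := by
  rcases h.2 with h | h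
  · exact ⟨(P.lr.notrel _ _ h.1).2, (P.lr.notrel _ _ h.2).1⟩
  · exact ⟨(P.lr.notrel _ _ h.2).1, (P.lr.notrel _ _ h.1).2⟩

theorem Out.not_enc {S : Set W} {b p q : W} (h : P.Out S b) (hp : p ∈ S) (hq : q ∈ S) :
    ¬ P.Enc p q b := fun a =>
  a.2.elim (h p hp q hq a.1) (h q hq p hp (P.ch_symm _ _ a.1))

/-- from a point on the column of `p` or `q` one reaches `p` by a vertical walk -/
theorem Cvx.wk_col {S : Set W} (hS : P.Cvx S) {p q x : W} (hp : p ∈ S) (hq : q ∈ S) (hx : x ∈ S)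
    (hc : P.ch p q) (h : P.Anc x p ∨ P.Anc x q) : P.Wk S x p |P.f x - P.f p| := by
  rcases h with h | h
  · exact hS.wk_rel hx hp (Or.inl h)
  · refine ((hS.wk_rel hx hq (Or.inl h)).append (wk_ch hq hp (P.ch_symm _ _ hc))).congr ?_
    rw [add_zero, P.ch_f p q hc]

/-- walk form of the mouth lemma -/
theorem Wk.mouth (hR : P.LR R) {S : Set W} (hS : P.Cvx S) {p q b w : W} {L : ℝ}
    (h : P.Wk S b w L) (hc : P.ch p q) (hp : p ∈ S) (hq : q ∈ S) (hb : ¬ (R p b ∧ R b q))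
    (hw : R p w ∧ R w q) : ∃ L', P.Wk S b p L' ∧ L' ≤ L + |P.f p - P.f w| := by
  obtain ⟨x, L1, L2, h1, h2, h3, h4⟩ := h.entry hR hc hb hw
  refine ⟨_, h2.append (hS.wk_col hp hq h2.right_mem hc h1), ?_⟩
  have a1 := h3.abs_le
  have a2 := abs_sub_le (P.f x) (P.f w) (P.f p)
  rw [abs_sub_comm (P.f w) (P.f p)] at a2
  linarith

/-- (E2) the mouth lemma -/
theorem mouth (hR : P.LR R) {S : Set W} (hS : P.Cvx S) (hC : P.Conn S) {p q b w : W}
    (hc : P.ch p q) (hp : p ∈ S) (hq : q ∈ S) (hbS : b ∈ S) (hwS : w ∈ S)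
    (hb : ¬ (R p b ∧ R b q)) (hw : R p w ∧ R w q) :
    P.dS S b p - |P.f p - P.f w| ≤ P.dS S b w :=
  le_dS (hC b hbS w hwS) fun L h => by
    obtain ⟨L', h1, h2⟩ := h.mouth hR hS hc hp hq hb hw
    have := h1.dS_le
    linarith

/-- the mouth lemma for the symmetric enclosure predicate (`p` is any end of the chord) -/
theorem mouth_enc {S : Set W} (hS : P.Cvx S) (hC : P.Conn S) {p q b w : W}
    (hp : p ∈ S) (hq : q ∈ S) (hbS : b ∈ S) (hwS : w ∈ S) (hb : ¬ P.Enc p q b)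
    (hw : P.Enc p q w) : P.dS S b p - |P.f p - P.f w| ≤ P.dS S b w := by
  rcases hw.2 with h | h
  · exact mouth P.lr hS hC hw.1 hp hq hbS hwS (fun a => hb ⟨hw.1, Or.inl a⟩) h
  · exact mouth P.lr' hS hC hw.1 hp hq hbS hwS (fun a => hb ⟨hw.1, Or.inr ⟨a.2, a.1⟩⟩) ⟨h.2, h.1⟩

/-- an edge from the left of `w` to a point that is not left of `w` -/
theorem LR.cross (hR : P.LR R) {x y w : W} (a : P.G.Adj x y) (hx : R x w) (hy : ¬ R y w) :
    P.Anc y w ∨ P.Anc w y ∨ (P.ch x y ∧ R w y) := by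
  rcases hR.tri y w with h | h | h | h
  · exact Or.inl h
  · exact Or.inr (Or.inl h)
  · exact absurd h hy
  rcases a.2 with e | e | e
  · exact absurd (hR.down _ _ _ _ h (Anc.refl P w) (e ▸ P.anc_par x)) (hR.asymm hx)
  · exact absurd (hR.down _ _ _ _ hx (e ▸ P.anc_par y) (Anc.refl P w)) hy
  · exact Or.inr (Or.inr ⟨e, h⟩)

/-- path version of the mouth lemma -/
theorem path_mouth (hR : P.LR R) {S : Set W} (hS : P.Cvx S) (hC : P.Conn S) {b0 b z w : W} {L : ℝ}
    (hb0 : b0 ∈ S) (ho : P.OutR R S b0) (hw : w ∈ S) (h : P.Wk S b z L) (hb : R b w)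
    (hz : ¬ R z w) : P.dS S b0 b - L - |P.f z - P.f w| ≤ P.dS S b0 w := by
  obtain ⟨x, y, L1, L2, h1, h2, h3, h4, h5, h6⟩ := h.exit (fun v => R v w) hb hz
  have hy := h5.left_mem
  have a1 := h5.abs_le
  have a2 := abs_sub_le (P.f y) (P.f z) (P.f w)
  have a3 := hC.le_add_wk hb0 (Wk.snoc h4 h3 hy).symm
  have a4 : P.dS S b0 y - |P.f y - P.f w| ≤ P.dS S b0 w := by
    rcases hR.cross h3 h1 h2 with e | e | e
    · have := hC.le_add_wk hb0 (hS.wk_rel hy hw (Or.inl e)).symm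
      linarith
    · have := hC.le_add_wk hb0 (hS.wk_rel hy hw (Or.inr e)).symm
      linarith
    · exact mouth hR.flip hS hC (P.ch_symm _ _ e.1) hy h4.right_mem hb0 hw
        (fun a => ho x h4.right_mem y hy e.1 ⟨a.2, a.1⟩) ⟨e.2, h1⟩
  linarith

/-! ### ramps -/

section FF

variable {C N : Set W} {cap : ℝ}

theorem FF_bdd (R : W → W → Prop) (C N : Set W) (cap : ℝ) (w : W) :
    BddBelow ({cap} ∪ {x | ∃ b ∈ N, R b w ∧ ∃ z L, P.Wk C b z L ∧ ¬ R z w ∧
      x = L + |P.f z - P.f w|}) := by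
  refine ⟨min cap 0, ?_⟩
  rintro x (rfl | ⟨b, _, _, z, L, h, _, rfl⟩)
  · exact min_le_left _ _
  · exact (min_le_right _ _).trans (add_nonneg h.nonneg (abs_nonneg _))

theorem FF_le_cap (P : PS W η) (R : W → W → Prop) (C N : Set W) (cap : ℝ) (w : W) :
    P.FF R C N cap w ≤ cap := csInf_le (FF_bdd R C N cap w) (Or.inl rfl)

theorem FF_le {b z w : W} {L : ℝ} (hb : b ∈ N) (hbw : R b w) (h : P.Wk C b z L) (hz : ¬ R z w) :
    P.FF R C N cap w ≤ L + |P.f z - P.f w| :=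
  csInf_le (FF_bdd R C N cap w) (Or.inr ⟨b, hb, hbw, z, L, h, hz, rfl⟩)

theorem le_FF {w : W} {m : ℝ} (h1 : m ≤ cap)
    (h2 : ∀ b ∈ N, R b w → ∀ z L, P.Wk C b z L → ¬ R z w → m ≤ L + |P.f z - P.f w|) :
    m ≤ P.FF R C N cap w := by
  refine le_csInf ⟨cap, Or.inl rfl⟩ ?_
  rintro x (rfl | ⟨b, hb, hbw, z, L, h, hz, rfl⟩)
  · exact h1
  · exact h2 b hb hbw z L h hz

theorem FF_nonneg (P : PS W η) (R : W → W → Prop) (C N : Set W) (hcap : 0 ≤ cap) (w : W) :
    0 ≤ P.FF R C N cap w :=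
  le_FF hcap fun _ _ _ _ _ h _ => add_nonneg h.nonneg (abs_nonneg _)

/-- a walk from a point of `N` on the left bounds the ramp -/
theorem FF_le_wk (hR : P.LR R) {b w : W} {L : ℝ} (hb : b ∈ N) (hbw : R b w) (h : P.Wk C b w L) :
    P.FF R C N cap w ≤ L := by
  simpa using FF_le (cap := cap) hb hbw h (hR.irrefl w)

/-- near `N` one of the two ramps is small -/
theorem FF_near (hN : P.TClosed C N) {b w : W} {L : ℝ} (hb : b ∈ N) (hw : w ∉ N)
    (h : P.Wk C b w L) :
    min (P.FF P.Lt C N cap w) (P.FF (flip P.Lt) C N cap w) ≤ L := by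
  rcases P.lr.tri b w with e | e | e | e
  · exact absurd ((hN.2 b h.left_mem w h.right_mem e).1 hb) hw
  · exact absurd ((hN.2 w h.right_mem b h.left_mem e).2 hb) hw
  · exact (min_le_left _ _).trans (FF_le_wk P.lr hb e h)
  · exact (min_le_right _ _).trans (FF_le_wk P.lr' hb e h)

/-- time monotonicity -/
theorem FF_mono {x w : W} (hN : ∀ b ∈ N, R b w → R b x) (hxw : ∀ z, R z x → R z w) :
    P.FF R C N cap x ≤ P.FF R C N cap w + |P.f x - P.f w| := by
  have : P.FF R C N cap x - |P.f x - P.f w| ≤ P.FF R C N cap w := by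
    refine le_FF ?_ fun b hb hbw z L h hz => ?_
    · have := P.FF_le_cap R C N cap x
      have := abs_nonneg (P.f x - P.f w)
      linarith
    · have a1 := FF_le (cap := cap) hb (hN b hb hbw) h fun a => hz (hxw z a)
      have a2 := abs_sub_le (P.f z) (P.f w) (P.f x)
      rw [abs_sub_comm (P.f w) (P.f x)] at a2
      linarith
  linarith

theorem lt_of_first_le {x w : W} (h : P.first x ≤ P.first w) : ∀ z, P.Lt z x → P.Lt z w :=
  fun _ a => lt_of_lt_of_le a h

theorem lt_of_last_le {x w : W} (h : P.last w ≤ P.last x) :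
    ∀ z, flip P.Lt z x → flip P.Lt z w :=
  fun _ a => lt_of_le_of_lt h a

/-- one-sided Lipschitz bound on an edge -/
theorem FF_lip' (hR : P.LR R) (hC : P.Cvx C) {w w' : W} (hw : w ∈ C) (hw' : w' ∈ C)
    (a : P.G.Adj w w') (hN : ∀ b ∈ N, R b w' → R b w) :
    P.FF R C N cap w ≤ P.FF R C N cap w' + |P.f w - P.f w'| := by
  have : P.FF R C N cap w - |P.f w - P.f w'| ≤ P.FF R C N cap w' := by
    refine le_FF ?_ fun b hb hbw z L h hz => ?_
    · have := P.FF_le_cap R C N cap w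
      have := abs_nonneg (P.f w - P.f w')
      linarith
    have hbw0 := hN b hb hbw
    have hzC := h.right_mem
    by_cases hzw : R z w
    · have rel : (P.Anc z w' ∨ P.Anc w' z) → P.FF R C N cap w - |P.f w - P.f w'| ≤
          L + |P.f z - P.f w'| := fun e => by
        have := FF_le_wk (cap := cap) hR hb hbw0
          (Wk.snoc (h.append (hC.wk_rel hzC hw' e)) a.symm hw)
        rw [abs_sub_comm (P.f w') (P.f w)] at this
        linarith
      rcases hR.tri z w' with e | e | e | e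
      · exact rel (Or.inl e)
      · exact rel (Or.inr e)
      · exact absurd e hz
      rcases a.2 with c | c | c
      · exact absurd (hR.down _ _ _ _ e (c ▸ P.anc_par w) (Anc.refl P z)) (hR.asymm hzw)
      · exact absurd (hR.down _ _ _ _ hzw (Anc.refl P z) (c ▸ P.anc_par w')) hz
      · obtain ⟨L', h1, h2⟩ := h.mouth hR.flip hC c hw hw'
          (fun t => hR.asymm hbw t.2) ⟨hzw, e⟩
        have a1 := FF_le_wk (cap := cap) hR hb hbw0 h1
        rw [P.ch_f _ _ c, abs_sub_comm] at h2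
        have := abs_nonneg (P.f w - P.f w')
        linarith
    · have a1 := FF_le (cap := cap) hb hbw0 h hzw
      have a2 := abs_sub_le (P.f z) (P.f w') (P.f w)
      rw [abs_sub_comm (P.f w') (P.f w)] at a2
      linarith
  linarith

/-- the ramp is 1-Lipschitz on the edges of a gap -/
theorem FF_lip (hR : P.LR R) (hC : P.Cvx C) {w w' : W} (hw : w ∈ C) (hw' : w' ∈ C)
    (a : P.G.Adj w w') (hN : SameGap R N w w') :
    |P.FF R C N cap w - P.FF R C N cap w'| ≤ |P.f w - P.f w'| := by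
  have h1 := FF_lip' (cap := cap) hR hC hw hw' a fun b hb => (hN b hb).2
  have h2 := FF_lip' (cap := cap) hR hC hw' hw a.symm fun b hb => (hN b hb).1
  rw [abs_sub_comm (P.f w') (P.f w)] at h2
  rw [abs_le]; constructor <;> linarith

/-- a small ramp value forces a large value of the ambient distance function -/
theorem FF_mouth (hR : P.LR R) {S : Set W} (hS : P.Cvx S) (hC : P.Conn S) (hCS : C ⊆ S) {b0 w : W}
    (hb0 : b0 ∈ S) (ho : P.OutR R S b0) (hw : w ∈ S) {m : ℝ}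
    (hm : ∀ b ∈ N, m ≤ P.dS S b0 b) (hF : P.FF R C N cap w < cap) :
    m - P.FF R C N cap w ≤ P.dS S b0 w := by
  have : min cap (m - P.dS S b0 w) ≤ P.FF R C N cap w := by
    refine le_FF (min_le_left _ _) fun b hb hbw z L h hz => (min_le_right _ _).trans ?_
    have := path_mouth hR hS hC hb0 ho hw (h.mono hCS) hbw hz
    have := hm b hb
    linarith
  rcases min_le_iff.1 this with h | h <;> linarith

end FF

/-! ### gaps -/

section Gap

variable {C N : Set W}

theorem SameGap.refl (R : W → W → Prop) (N : Set W) (u : W) : SameGap R N u u :=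
  fun _ _ => Iff.rfl

theorem SameGap.symm {u v : W} (h : SameGap R N u v) : SameGap R N v u :=
  fun b hb => (h b hb).symm

theorem SameGap.trans {u v w : W} (h : SameGap R N u v) (h' : SameGap R N v w) :
    SameGap R N u w := fun b hb => (h b hb).trans (h' b hb)

/-- a point of `N` is left or right of a point of `C \ N` -/
theorem TClosed.side (hR : P.LR R) (hN : P.TClosed C N) {b w : W} (hb : b ∈ N) (hwC : w ∈ C)
    (hw : w ∉ N) : R b w ∨ R w b := by
  rcases hR.tri b w with e | e | e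
  · exact absurd ((hN.2 b (hN.1 hb) w hwC e).1 hb) hw
  · exact absurd ((hN.2 w hwC b (hN.1 hb) e).2 hb) hw
  · exact e

theorem SameGap.flip (hR : P.LR R) (hN : P.TClosed C N) {u v : W} (huC : u ∈ C) (hu : u ∉ N)
    (hvC : v ∈ C) (hv : v ∉ N) (h : SameGap R N u v) : SameGap (flip R) N u v := by
  intro b hb
  constructor
  · intro a
    exact (hN.side hR hb hvC hv).resolve_left fun c => hR.asymm a ((h b hb).2 c)
  · intro a
    exact (hN.side hR hb huC hu).resolve_left fun c => hR.asymm a ((h b hb).1 c)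

/-- related points outside `N` are in the same gap -/
theorem gap_anc (hR : P.LR R) (hN : P.TClosed C N) {u v : W} (huC : u ∈ C) (hu : u ∉ N)
    (a : P.Anc u v) : SameGap R N u v := by
  intro b hb
  refine ⟨fun c => hR.down _ _ _ _ c (Anc.refl P b) a, fun c => ?_⟩
  exact (hN.side hR hb huC hu).resolve_right fun d =>
    hR.asymm c (hR.down _ _ _ _ d a (Anc.refl P b))

/-- an edge between a point of `N` and a point of `C \ N` is a chord -/
theorem TClosed.ch_of_adj (hN : P.TClosed C N) {b w : W} (hb : b ∈ N) (hwC : w ∈ C) (hw : w ∉ N)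
    (a : P.G.Adj b w) : P.ch b w := by
  rcases a.2 with e | e | e
  · exact absurd ((hN.2 w hwC b (hN.1 hb) (e ▸ P.anc_par b)).2 hb) hw
  · exact absurd ((hN.2 b (hN.1 hb) w hwC (e ▸ P.anc_par w)).1 hb) hw
  · exact e

/-- an edge between two different gaps is a chord that encloses a point of `N` -/
theorem gap_cross (hR : P.LR R) (hN : P.TClosed C N) {u v : W} (huC : u ∈ C) (hu : u ∉ N)
    (hvC : v ∈ C) (hv : v ∉ N) (a : P.G.Adj u v) (h : ¬ SameGap R N u v) :
    P.ch u v ∧ ∃ b ∈ N, (R u b ∧ R b v) ∨ (R v b ∧ R b u) := by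
  have hc : P.ch u v := by
    rcases a.2 with e | e | e
    · exact absurd (gap_anc hR hN hvC hv (e ▸ P.anc_par u)).symm h
    · exact absurd (gap_anc hR hN huC hu (e ▸ P.anc_par v)) h
    · exact e
  refine ⟨hc, ?_⟩
  by_contra hn
  refine h fun b hb => ⟨fun c => ?_, fun c => ?_⟩
  · exact (hN.side hR hb hvC hv).resolve_right fun d => hn ⟨b, hb, Or.inr ⟨d, c⟩⟩
  · exact (hN.side hR hb huC hu).resolve_right fun d => hn ⟨b, hb, Or.inl ⟨d, c⟩⟩

theorem gap_cross_enc (hN : P.TClosed C N) {u v : W} (huC : u ∈ C) (hu : u ∉ N)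
    (hvC : v ∈ C) (hv : v ∉ N) (a : P.G.Adj u v) (h : ¬ SameGap P.Lt N u v) :
    ∃ b ∈ N, P.Enc u v b := by
  obtain ⟨hc, b, hb, e⟩ := gap_cross P.lr hN huC hu hvC hv a h
  exact ⟨b, hb, hc, e⟩

/-- a walk inside `N` cannot leave the pocket of a chord whose ends are outside `N` -/
theorem enc_stay (hN : P.TClosed C N) {p q b b' : W} {L : ℝ} (hpC : p ∈ C) (hp : p ∉ N)
    (hqC : q ∈ C) (hq : q ∉ N) (hb : P.Enc p q b) (h : P.Wk N b b' L) : P.Enc p q b' := by
  by_contra hb'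
  obtain ⟨x, _, _, e, h1, _⟩ := h.leave_enc hb hb'
  have hx := h1.right_mem
  rcases e with e | e
  · exact hp ((hN.2 x (hN.1 hx) p hpC e).1 hx)
  · exact hq ((hN.2 x (hN.1 hx) q hqC e).1 hx)

/-- points of `N` in one tree of `C` are enclosed together -/
theorem enc_tree (hN : P.TClosed C N) {p q r b b' : W} (hpC : p ∈ C) (hp : p ∉ N)
    (hqC : q ∈ C) (hq : q ∉ N) (hr : r ∈ N) (hb : P.Enc p q b) (h1 : P.Anc r b) (h2 : P.Anc r b') :
    P.Enc p q b' := by
  have key : ∀ {R : W → W → Prop}, P.LR R → ∀ {p}, p ∈ C → p ∉ N → R p b → R p b' :=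
    fun {R} hR {p} hpC hp a => by
      rcases hN.side hR hr hpC hp with e | e
      · exact absurd (hR.down _ _ _ _ e h1 (Anc.refl P p)) (hR.asymm a)
      · exact hR.down _ _ _ _ e (Anc.refl P p) h2
  refine ⟨hb.1, hb.2.imp (fun h => ?_) fun h => ?_⟩
  · exact ⟨key P.lr hpC hp h.1, key P.lr' hqC hq h.2⟩
  · exact ⟨key P.lr hqC hq h.1, key P.lr' hpC hp h.2⟩

end Gap

end PS

end Crest.Agent.R206
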