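import Crest.Agent.R206.GDefs

/-! # Row 206: slab components of a band component have bounded diameter (P1). -/

set_option autoImplicit false

namespace Crest.Agent.R206

namespace PS

variable {W : Type} {η : ℝ} {P : PS W η}

theorem h94_anc_refl (u : W) : P.Anc u u := ⟨0, rfl⟩

theorem h94_anc_par (u : W) : P.Anc (P.par u) u := ⟨1, rfl⟩

theorem h94_anc_trans {u v w : W} (h1 : P.Anc u v) (h2 : P.Anc v w) : P.Anc u w := by
  obtain ⟨n, rfl⟩ := h1
  obtain ⟨m, rfl⟩ := h2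
  exact ⟨n + m, by rw [Function.iterate_add_apply]⟩

theorem h94_anc_nest {u v : W} (h : P.Anc u v) : P.first u ≤ P.first v ∧ P.last v ≤ P.last u := by
  obtain ⟨n, rfl⟩ := h
  induction n with
  | zero => exact ⟨le_rfl, le_rfl⟩
  | succ n ih =>
    rw [Function.iterate_succ_apply']
    exact ⟨(P.nest _).1.trans ih.1, ih.2.trans (P.nest _).2⟩

theorem h94_f_par_le (v : W) : P.f (P.par v) ≤ P.f v := by
  by_cases h : v = P.root
  · rw [h, P.par_root]
  · exact (P.f_lt v h).le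

theorem h94_anc_f {u v : W} (h : P.Anc u v) : P.f u ≤ P.f v := by
  obtain ⟨n, rfl⟩ := h
  induction n with
  | zero => exact le_rfl
  | succ n ih =>
    rw [Function.iterate_succ_apply']
    exact (h94_f_par_le _).trans ih

theorem h94_lr : P.LR P.Lt where
  tri u v := by
    by_cases h1 : P.Anc u v
    · exact Or.inl h1
    by_cases h2 : P.Anc v u
    · exact Or.inr (Or.inl h2)
    exact Or.inr (Or.inr (P.disj u v h1 h2))
  notrel u v h := by
    unfold Lt at h
    have := P.fl u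
    have := P.fl v
    exact ⟨fun h1 => by have := h94_anc_nest h1; omega, fun h1 => by have := h94_anc_nest h1; omega⟩
  trans u v w h1 h2 := by
    unfold Lt at *
    have := P.fl v
    omega
  down u v u' v' h h1 h2 := by
    unfold Lt at *
    have := h94_anc_nest h1
    have := h94_anc_nest h2
    omega
  nc p q r s h1 h2 a b c := by
    unfold Lt at *
    have := P.fl p
    have := P.fl r
    have := P.fl q
    exact P.nc p q r s h1 h2 ⟨by omega, by omega, by omega⟩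

theorem h94_lr_flip {R : W → W → Prop} (hR : P.LR R) : P.LR (flip R) where
  tri u v := by
    rcases hR.tri u v with h | h | h | h
    · exact Or.inl h
    · exact Or.inr (Or.inl h)
    · exact Or.inr (Or.inr (Or.inr h))
    · exact Or.inr (Or.inr (Or.inl h))
  notrel u v h := (hR.notrel v u h).symm
  trans u v w h1 h2 := hR.trans w v u h2 h1
  down u v u' v' h h1 h2 := hR.down v u v' u' h h2 h1
  nc p q r s h1 h2 a b c := hR.nc s r q p (P.ch_symm _ _ h2) (P.ch_symm _ _ h1) c b a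

theorem h94_lr_irrefl {R : W → W → Prop} (hR : P.LR R) (u : W) : ¬ R u u :=
  fun h => (hR.notrel u u h).1 (h94_anc_refl u)

theorem h94_adj_le (hη : 0 ≤ η) {u v : W} (h : P.G.Adj u v) : |P.f u - P.f v| ≤ η := by
  rcases h.2 with h | h | h
  · subst h
    have := h94_f_par_le (P := P) u
    have := P.f_le u
    rw [abs_le]; constructor <;> linarith
  · subst h
    have := h94_f_par_le (P := P) v
    have := P.f_le v
    rw [abs_le]; constructor <;> linarith
  · rw [P.ch_f _ _ h, sub_self, abs_zero]; exact hη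

theorem h94_wk_left {S : Set W} {u v : W} {L : ℝ} (h : P.Wk S u v L) : u ∈ S := by
  induction h with
  | nil h => exact h
  | snoc _ _ _ ih => exact ih

theorem h94_wk_right {S : Set W} {u v : W} {L : ℝ} (h : P.Wk S u v L) : v ∈ S := by
  cases h with
  | nil h => exact h
  | snoc _ _ h => exact h

theorem h94_wk_abs {S : Set W} {u v : W} {L : ℝ} (h : P.Wk S u v L) : |P.f u - P.f v| ≤ L := by
  induction h with
  | nil h => simp
  | snoc _ _ _ ih => exact (abs_sub_le _ _ _).trans (by linarith)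

theorem h94_wk_nonneg {S : Set W} {u v : W} {L : ℝ} (h : P.Wk S u v L) : 0 ≤ L :=
  (abs_nonneg _).trans (h94_wk_abs h)

theorem h94_wk_mono {S T : Set W} (hST : S ⊆ T) {u v : W} {L : ℝ} (h : P.Wk S u v L) :
    P.Wk T u v L := by
  induction h with
  | nil h => exact Wk.nil (hST h)
  | snoc _ ha hw ih => exact Wk.snoc ih ha (hST hw)

theorem h94_wk_append {S : Set W} {u v w : W} {L M : ℝ} (h1 : P.Wk S u v L)
    (h2 : P.Wk S v w M) : P.Wk S u w (L + M) := by
  induction h2 with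
  | nil h => simpa using h1
  | snoc _ ha hw ih => rw [← add_assoc]; exact Wk.snoc ih ha hw

theorem h94_wk_edge {S : Set W} {u v : W} (hu : u ∈ S) (hv : v ∈ S) (h : P.G.Adj u v) :
    P.Wk S u v |P.f u - P.f v| := by
  simpa using Wk.snoc (Wk.nil hu) h hv

theorem h94_wk_symm {S : Set W} {u v : W} {L : ℝ} (h : P.Wk S u v L) : P.Wk S v u L := by
  induction h with
  | nil h => exact Wk.nil h
  | snoc h ha hw ih =>
    have := h94_wk_append (h94_wk_edge hw (h94_wk_right h) ha.symm) ih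
    rwa [abs_sub_comm, add_comm] at this

theorem h94_wk_col {S : Set W} (hS : P.Cvx S) {u v : W} (hu : u ∈ S) (hv : v ∈ S)
    (h : P.Anc u v) : P.Wk S u v |P.f u - P.f v| := by
  obtain ⟨n, hn⟩ := h
  induction n generalizing v with
  | zero => 
    simp only [Function.iterate_zero, id_eq] at hn
    subst hn
    simpa using Wk.nil hv
  | succ n ih =>
    rw [Function.iterate_succ_apply] at hn
    have hp : P.par v ∈ S := hS u hu v hv _ ⟨n, hn⟩ (h94_anc_par v)
    have h1 := ih hp hn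
    by_cases hv' : P.par v = v
    · rwa [hv'] at h1
    · have h2 := Wk.snoc h1 (show P.G.Adj (P.par v) v from ⟨hv', Or.inr (Or.inl rfl)⟩) hv
      have a1 : P.f u ≤ P.f (P.par v) := h94_anc_f ⟨n, hn⟩
      have a2 := h94_f_par_le (P := P) v
      rw [abs_of_nonpos (by linarith), abs_of_nonpos (by linarith)] at h2
      rw [abs_of_nonpos (by linarith)]
      convert h2 using 1
      ring

theorem h94_wk_rel {S : Set W} (hS : P.Cvx S) {u v : W} (hu : u ∈ S) (hv : v ∈ S)
    (h : P.Anc u v ∨ P.Anc v u) : P.Wk S u v |P.f u - P.f v| := by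
  rcases h with h | h
  · exact h94_wk_col hS hu hv h
  · rw [abs_sub_comm]; exact h94_wk_symm (h94_wk_col hS hv hu h)

theorem h94_dS_le {S : Set W} {u v : W} {L : ℝ} (h : P.Wk S u v L) : P.dS S u v ≤ L :=
  csInf_le ⟨0, fun _ h => h94_wk_nonneg h⟩ h

theorem h94_dS_approx {S : Set W} {u v : W} (h : ∃ L, P.Wk S u v L) {ε : ℝ} (hε : 0 < ε) :
    ∃ L, P.Wk S u v L ∧ L < P.dS S u v + ε := by
  obtain ⟨L, hL, h'⟩ := exists_lt_of_csInf_lt (s := {L | P.Wk S u v L}) h
    (show P.dS S u v < P.dS S u v + ε by linarith)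
  exact ⟨L, hL, h'⟩

theorem h94_dS_step {S : Set W} {a u v : W} {M : ℝ} (h : ∃ L, P.Wk S a u L)
    (h2 : P.Wk S u v M) : P.dS S a v ≤ P.dS S a u + M := by
  refine le_of_forall_pos_le_add fun ε hε => ?_
  obtain ⟨L, hL, h'⟩ := h94_dS_approx h hε
  have := h94_dS_le (h94_wk_append hL h2)
  linarith

/-- a walk that starts in `A` and ends outside `A` has an edge leaving `A` -/
theorem h94_wk_split {S : Set W} {u v : W} {L : ℝ} (h : P.Wk S u v L) (A : W → Prop)
    (hu : A u) (hv : ¬ A v) : ∃ y y' L1 L2, P.Wk S u y L1 ∧ P.G.Adj y y' ∧ P.Wk S y' v L2 ∧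
      A y ∧ ¬ A y' ∧ L = L1 + |P.f y - P.f y'| + L2 := by
  induction h with
  | nil h => exact absurd hu hv
  | @snoc v w L h ha hw ih =>
    by_cases hv' : A v
    · exact ⟨v, w, L, 0, h, ha, Wk.nil hw, hv', hv, by ring⟩
    · obtain ⟨y, y', L1, L2, h1, h2, h3, h4, h5, h6⟩ := ih hv'
      exact ⟨y, y', L1, L2 + |P.f v - P.f w|, h1, h2, Wk.snoc h3 ha hw, h4, h5, by rw [h6]; ring⟩

/-- a walk from the left of `w` to a point not on the left of `w` meets a relative of `w` or uses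
a chord enclosing `w` -/
theorem h94_cross {R : W → W → Prop} (hR : P.LR R) {S : Set W} {b z w : W} {L : ℝ}
    (h : P.Wk S b z L) (hb : R b w) (hz : ¬ R z w) :
    (∃ y L1 L2, P.Wk S b y L1 ∧ P.Wk S y z L2 ∧ L = L1 + L2 ∧ (P.Anc y w ∨ P.Anc w y)) ∨
    (∃ p q L1 L2, P.Wk S b p L1 ∧ P.Wk S q z L2 ∧ L = L1 + L2 ∧ P.ch p q ∧ R p w ∧ R w q) := by
  obtain ⟨y, y', L1, L2, h1, h2, h3, h4, h5, h6⟩ := h94_wk_split h (fun y => R y w) hb hz
  rcases hR.tri y' w with h7 | h7 | h7 | h7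
  · exact Or.inl ⟨y', _, L2, Wk.snoc h1 h2 (h94_wk_left h3), h3, h6, Or.inl h7⟩
  · exact Or.inl ⟨y', _, L2, Wk.snoc h1 h2 (h94_wk_left h3), h3, h6, Or.inr h7⟩
  · exact absurd h7 h5
  · rcases h2.2 with h8 | h8 | h8
    · exfalso
      have : R w y := hR.down w y' w y h7 (h94_anc_refl w) (h8 ▸ h94_anc_par y)
      exact h94_lr_irrefl hR y (hR.trans _ _ _ h4 this)
    · exact absurd (hR.down y w y' w h4 (h8 ▸ h94_anc_par y') (h94_anc_refl w)) h5
    · refine Or.inr ⟨y, y', L1, L2, h1, h3, ?_, h8, h4, h7⟩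
      rw [h6, P.ch_f _ _ h8]; simp

/-- a walk entering the inside of a chord passes through one of its two columns -/
theorem h94_entry {R : W → W → Prop} (hR : P.LR R) {S : Set W} {a w p q : W} {L : ℝ}
    (h : P.Wk S a w L) (hpq : P.ch p q) (ha : ¬ (R p a ∧ R a q)) (hp : R p w) (hq : R w q) :
    ∃ c L1 L2, P.Wk S a c L1 ∧ P.Wk S c w L2 ∧ L = L1 + L2 ∧ (P.Anc c p ∨ P.Anc c q) := by
  obtain ⟨y, y', L1, L2, h1, h2, h3, h4, h5, h6⟩ :=
    h94_wk_split h (fun y => ¬ (R p y ∧ R y q)) ha (not_not.2 ⟨hp, hq⟩)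
  have h5' : R p y' ∧ R y' q := not_not.1 h5
  refine ⟨y, L1, |P.f y - P.f y'| + L2, h1,
    h94_wk_append (h94_wk_edge (h94_wk_right h1) (h94_wk_left h3) h2) h3, by rw [h6]; ring, ?_⟩
  have lp : P.Anc p y → P.Anc y p := fun h => by
    rw [(P.ch_leaf _ _ hpq).2 y h]; exact h94_anc_refl _
  have lq : P.Anc q y → P.Anc y q := fun h => by
    rw [(P.ch_leaf _ _ (P.ch_symm _ _ hpq)).2 y h]; exact h94_anc_refl _
  rcases hR.tri p y with a1 | a1 | a1 | a1
  · exact Or.inl (lp a1)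
  · exact Or.inl a1
  · rcases hR.tri y q with a2 | a2 | a2 | a2
    · exact Or.inr a2
    · exact Or.inr (lq a2)
    · exact absurd ⟨a1, a2⟩ h4
    · exfalso
      rcases h2.2 with h8 | h8 | h8
      · have : R y q := hR.down y' q y q h5'.2 (h8 ▸ h94_anc_par y) (h94_anc_refl q)
        exact h4 ⟨a1, this⟩
      · have : R q y' := hR.down q y q y' a2 (h94_anc_refl q) (h8 ▸ h94_anc_par y')
        exact h94_lr_irrefl hR q (hR.trans _ _ _ this h5'.2)
      · exact hR.nc p q y' y hpq (P.ch_symm _ _ h8) h5'.1 h5'.2 a2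
  · exfalso
    rcases h2.2 with h8 | h8 | h8
    · have : R p y := hR.down p y' p y h5'.1 (h94_anc_refl p) (h8 ▸ h94_anc_par y)
      exact h94_lr_irrefl hR p (hR.trans _ _ _ this a1)
    · have : R y' p := hR.down y p y' p a1 (h8 ▸ h94_anc_par y') (h94_anc_refl p)
      exact h94_lr_irrefl hR p (hR.trans _ _ _ h5'.1 this)
    · exact hR.nc y y' p q h8 hpq a1 h5'.1 h5'.2

/-- mouth inequality -/
theorem h94_mouth {R : W → W → Prop} (hR : P.LR R) {S : Set W} (hc : P.Conn S) (hx : P.Cvx S)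
    {a w p q : W} (haS : a ∈ S) (hw : w ∈ S) (hpS : p ∈ S) (hqS : q ∈ S)
    (hpq : P.ch p q) (ha : ¬ (R p a ∧ R a q)) (hp : R p w) (hq : R w q) :
    P.dS S a p - |P.f p - P.f w| ≤ P.dS S a w := by
  refine le_of_forall_pos_le_add fun ε hε => ?_
  obtain ⟨L, hL, h'⟩ := h94_dS_approx (hc a haS w hw) hε
  obtain ⟨c, L1, L2, h1, h2, h3, h4⟩ := h94_entry hR hL hpq ha hp hq
  have hcS := h94_wk_right h1
  have hcp : P.Wk S c p |P.f c - P.f p| := by
    rcases h4 with h4 | h4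
    · exact h94_wk_col hx hcS hpS h4
    · have := Wk.snoc (h94_wk_col hx hcS hqS h4)
        (show P.G.Adj q p from ⟨(P.ch_ne _ _ hpq).symm, Or.inr (Or.inr (P.ch_symm _ _ hpq))⟩) hpS
      rw [← P.ch_f _ _ hpq] at this
      simpa using this
  have e1 := h94_dS_le (h94_wk_append h1 hcp)
  have e2 := h94_wk_abs h2
  have e3 : |P.f c - P.f p| ≤ |P.f c - P.f w| + |P.f p - P.f w| := by
    rw [abs_sub_comm (P.f p)]; exact abs_sub_le _ _ _
  linarith

/-- two near-geodesics that pass on the same side of the slab component are close -/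
theorem h94_side {R : W → W → Prop} (hR : P.LR R) {C : Set W} (hx : P.Cvx C) {h : ℝ}
    (hh : ∀ u ∈ C, ∀ v ∈ C, |P.f u - P.f v| ≤ h) {a : W}
    (ha : ∀ p ∈ C, ∀ q ∈ C, P.ch p q → ¬ (R p a ∧ R a q)) {ε m B : ℝ}
    {u v z z' : W} {L1 L2 M1 M2 : ℝ}
    (h1 : P.Wk C a z L1) (h2 : P.Wk C z u L2) (h3 : L1 + L2 < P.dS C a u + ε)
    (h4 : m ≤ L1) (h5 : P.dS C a u ≤ m + B)
    (k1 : P.Wk C a z' M1) (k2 : P.Wk C z' v M2) (k3 : M1 + M2 < P.dS C a v + ε)
    (k4 : m ≤ M1) (k5 : P.dS C a v ≤ m + B)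
    (hzz : R z z') (hu : R z' u) : P.dS C u v ≤ 2 * B + 2 * h + 3 * ε := by
  have hz'C := h94_wk_right k1
  have hε : 0 < ε := by
    have := h94_dS_le (h94_wk_append h1 h2); linarith
  have hnu : ¬ R u z' := fun h => h94_lr_irrefl hR u (hR.trans _ _ _ h hu)
  rcases h94_cross hR h2 hzz hnu with ⟨y, N1, N2, a1, a2, a3, a4⟩ | ⟨p, q, N1, N2, a1, a2, a3, a4, a5, a6⟩
  · have hy := h94_wk_right a1
    have w1 := h94_wk_append (h94_wk_append (h94_wk_symm a2) (h94_wk_rel hx hy hz'C a4)) k2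
    have e1 := h94_dS_le w1
    have e2 := hh y hy z' hz'C
    have e3 := h94_wk_nonneg a1
    have e4 : 0 ≤ h := (abs_nonneg _).trans e2
    linarith
  · have hp := h94_wk_right a1
    have hq := h94_wk_left a2
    obtain ⟨c, K1, K2, b1, b2, b3, b4⟩ := h94_entry hR k1 a4 (ha p hp q hq a4) a5 a6
    have hcC := h94_wk_right b1
    have hcq : P.Wk C c q |P.f c - P.f q| := by
      rcases b4 with b4 | b4
      · have := Wk.snoc (h94_wk_col hx hcC hp b4)
          (show P.G.Adj p q from ⟨P.ch_ne _ _ a4, Or.inr (Or.inr a4)⟩) hq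
        rw [P.ch_f _ _ a4] at this
        simpa using this
      · exact h94_wk_col hx hcC hq b4
    have e1 := h94_dS_le (h94_wk_append (h94_wk_append b1 hcq) a2)
    have e2 := hh c hcC q hq
    have e3 := h94_dS_le
      (h94_wk_append (h94_wk_append (h94_wk_append (h94_wk_symm a2) (h94_wk_symm hcq)) b2) k2)
    have e4 := h94_wk_nonneg a1
    linarith

/-- **P1**: a connected subset of a slab of `dS C a` has bounded diameter in `C` -/
theorem h94_p1 (hη : 0 ≤ η) {C : Set W} (hc : P.Conn C) (hx : P.Cvx C) {h : ℝ}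
    (hh : ∀ u ∈ C, ∀ v ∈ C, |P.f u - P.f v| ≤ h) {a : W} (haC : a ∈ C) (ha : P.Out C a)
    {S : Set W} (hSC : S ⊆ C) (hS : P.Conn S) {c Wd : ℝ}
    (hα : ∀ v ∈ S, c ≤ P.dS C a v ∧ P.dS C a v ≤ c + Wd) {u v : W} (hu : u ∈ S) (hv : v ∈ S) :
    P.dS C u v ≤ 4 * Wd + 8 * h + 5 * η := by
  have hh0 : 0 ≤ h := (abs_nonneg _).trans (hh a haC a haC)
  have hW : 0 ≤ Wd := by have := hα u hu; linarith
  by_cases hc0 : c ≤ h
  · refine le_of_forall_pos_le_add fun ε hε => ?_
    obtain ⟨L, hL, h1⟩ := h94_dS_approx (hc a haC u (hSC hu)) (half_pos hε)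
    obtain ⟨M, hM, h2⟩ := h94_dS_approx (hc a haC v (hSC hv)) (half_pos hε)
    have := h94_dS_le (h94_wk_append (h94_wk_symm hL) hM)
    have := hα u hu
    have := hα v hv
    linarith
  push Not at hc0
  have lr : P.LR P.Lt := h94_lr
  have ha' : ∀ p ∈ C, ∀ q ∈ C, P.ch p q → ¬ (flip P.Lt p a ∧ flip P.Lt a q) :=
    fun p hp q hq hpq h => ha q hq p hp (P.ch_symm _ _ hpq) ⟨h.2, h.1⟩
  -- low points are on one side of `S`
  have side : ∀ {R : W → W → Prop}, P.LR R →
      (∀ p ∈ C, ∀ q ∈ C, P.ch p q → ¬ (R p a ∧ R a q)) → ∀ z ∈ C, P.dS C a z < c - h →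
      ∀ x ∈ S, ∀ y ∈ S, R x z → R y z := by
    intro R hR haR z hz hlow x hxS y hyS hxz
    by_contra hyz
    obtain ⟨L, hL⟩ := hS x hxS y hyS
    rcases h94_cross hR hL hxz hyz with ⟨w, N1, N2, a1, a2, a3, a4⟩ |
      ⟨p, q, N1, N2, a1, a2, a3, a4, a5, a6⟩
    · have hw := h94_wk_right a1
      have e1 := h94_dS_step (hc a haC z hz) (h94_wk_rel hx hz (hSC hw) a4.symm)
      have e2 := hh z hz w (hSC hw)
      have := hα w hw
      linarith
    · have hp := h94_wk_right a1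
      have hq := h94_wk_left a2
      have e1 := h94_mouth hR hc hx haC hz (hSC hp) (hSC hq) a4
        (haR p (hSC hp) q (hSC hq) a4) a5 a6
      have e2 := hh p (hSC hp) z hz
      have := hα p hp
      linarith
  have unrel : ∀ z ∈ C, P.dS C a z < c - h → ∀ x ∈ S, P.Lt x z ∨ P.Lt z x := by
    intro z hz hlow x hxS
    have key : ¬ (P.Anc z x ∨ P.Anc x z) := fun h' => by
      have e1 := h94_dS_step (hc a haC z hz) (h94_wk_rel hx hz (hSC hxS) h')
      have e2 := hh z hz x (hSC hxS)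
      have := hα x hxS
      linarith
    rcases lr.tri x z with h' | h' | h' | h'
    · exact absurd (Or.inr h') key
    · exact absurd (Or.inl h') key
    · exact Or.inl h'
    · exact Or.inr h'
  refine le_of_forall_pos_le_add fun ε hε => ?_
  have hε6 : 0 < ε / 8 := by linarith
  -- the data attached to a point of `S`
  let D : (W → W → Prop) → W → Prop := fun R x => ∃ z L1 L2, P.Wk C a z L1 ∧ P.Wk C z x L2 ∧
    L1 + L2 < P.dS C a x + ε / 8 ∧ c - h - η ≤ L1 ∧ ∀ y ∈ S, R z y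
  have hD : ∀ x ∈ S, D P.Lt x ∨ D (flip P.Lt) x := by
    intro x hxS
    obtain ⟨L, hL, h1⟩ := h94_dS_approx (hc a haC x (hSC hxS)) hε6
    have h0 : P.dS C a a < c - h := by
      have := h94_dS_le (Wk.nil (P := P) haC); linarith
    obtain ⟨z, z', L1, L2, a1, a2, a3, a4, a5, a6⟩ :=
      h94_wk_split hL (fun y => P.dS C a y < c - h) h0 (by have := hα x hxS; intro h; linarith)
    have hz := h94_wk_right a1
    have w2 := h94_wk_append (h94_wk_edge hz (h94_wk_left a3) a2) a3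
    have e1 := h94_dS_le (Wk.snoc a1 a2 (h94_wk_left a3))
    have e2 := h94_adj_le hη a2
    have e3 : c - h - η ≤ L1 := by push Not at a5; linarith
    rcases unrel z hz a4 x hxS with h' | h'
    · exact Or.inr ⟨z, L1, _, a1, w2, by linarith, e3,
        fun y hy => side lr ha z hz a4 x hxS y hy h'⟩
    · exact Or.inl ⟨z, L1, _, a1, w2, by linarith, e3,
        fun y hy => side (h94_lr_flip lr) ha' z hz a4 x hxS y hy h'⟩
  have close : ∀ {R : W → W → Prop}, P.LR R →
      (∀ p ∈ C, ∀ q ∈ C, P.ch p q → ¬ (R p a ∧ R a q)) → ∀ x ∈ S, ∀ y ∈ S, D R x → D R y →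
      ∃ L, P.Wk C x y L ∧ L ≤ 2 * Wd + 4 * h + 2 * η + ε / 2 := by
    intro R hR haR x hxS y hyS ⟨z, L1, L2, a1, a2, a3, a4, a5⟩ ⟨z', M1, M2, b1, b2, b3, b4, b5⟩
    have hx' := hα x hxS
    have hy' := hα y hyS
    have fin : P.dS C x y ≤ 2 * Wd + 4 * h + 2 * η + 3 * ε / 8 →
        ∃ L, P.Wk C x y L ∧ L ≤ 2 * Wd + 4 * h + 2 * η + ε / 2 := fun h' => by
      obtain ⟨L, hL, h1⟩ := h94_dS_approx (hc x (hSC hxS) y (hSC hyS)) (show 0 < ε / 12 by linarith)
      exact ⟨L, hL, by linarith⟩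
    have fin' : P.dS C y x ≤ 2 * Wd + 4 * h + 2 * η + 3 * ε / 8 →
        ∃ L, P.Wk C x y L ∧ L ≤ 2 * Wd + 4 * h + 2 * η + ε / 2 := fun h' => by
      obtain ⟨L, hL, h1⟩ := h94_dS_approx (hc y (hSC hyS) x (hSC hxS)) (show 0 < ε / 12 by linarith)
      exact ⟨L, h94_wk_symm hL, by linarith⟩
    have rel : (P.Anc z z' ∨ P.Anc z' z) →
        ∃ L, P.Wk C x y L ∧ L ≤ 2 * Wd + 4 * h + 2 * η + ε / 2 := fun h' => by
      have w := h94_wk_append (h94_wk_append (h94_wk_symm a2)
        (h94_wk_rel hx (h94_wk_right a1) (h94_wk_right b1) h')) b2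
      have e := hh z (h94_wk_right a1) z' (h94_wk_right b1)
      exact ⟨_, w, by linarith⟩
    rcases hR.tri z z' with h' | h' | h' | h'
    · exact rel (Or.inl h')
    · exact rel (Or.inr h')
    · have := h94_side hR hx hh haR (m := c - h - η) (B := Wd + h + η) a1 a2 a3 a4 (by linarith)
        b1 b2 b3 b4 (by linarith) h' (b5 x hxS)
      exact fin (by linarith)
    · have := h94_side hR hx hh haR (m := c - h - η) (B := Wd + h + η) b1 b2 b3 b4 (by linarith)
        a1 a2 a3 a4 (by linarith) h' (a5 y hyS)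
      exact fin' (by linarith)
  have one : ∀ L, P.Wk C u v L → L ≤ 2 * Wd + 4 * h + 2 * η + ε / 2 →
      P.dS C u v ≤ 4 * Wd + 8 * h + 5 * η + ε := fun L hL h1 => by
    have := h94_dS_le hL; linarith
  have two : ∀ {R R' : W → W → Prop}, P.LR R →
      (∀ p ∈ C, ∀ q ∈ C, P.ch p q → ¬ (R p a ∧ R a q)) → P.LR R' →
      (∀ p ∈ C, ∀ q ∈ C, P.ch p q → ¬ (R' p a ∧ R' a q)) → (∀ x ∈ S, D R x ∨ D R' x) →
      D R u → P.dS C u v ≤ 4 * Wd + 8 * h + 5 * η + ε := by
    intro R R' hR haR hR' haR' hD' hDu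
    by_cases hDv : D R v
    · obtain ⟨L, hL, h1⟩ := close hR haR u hu v hv hDu hDv
      exact one L hL h1
    · obtain ⟨L, hL⟩ := hS u hu v hv
      obtain ⟨y, y', L1, L2, a1, a2, a3, a4, a5, a6⟩ := h94_wk_split hL (D R) hDu hDv
      have hy := h94_wk_right a1
      have hy' := h94_wk_left a3
      obtain ⟨M1, hM1, b1⟩ := close hR haR u hu y hy hDu a4
      obtain ⟨M2, hM2, b2⟩ := close hR' haR' y' hy' v hv ((hD' y' hy').resolve_left a5)
        ((hD' v hv).resolve_left hDv)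
      have e1 := h94_dS_le (h94_wk_append (Wk.snoc hM1 a2 (hSC hy')) hM2)
      have e2 := h94_adj_le hη a2
      linarith
  rcases hD u hu with h' | h'
  · exact two lr ha (h94_lr_flip lr) ha' hD h'
  · exact two (h94_lr_flip lr) ha' lr ha (fun x hx => (hD x hx).symm) h'

end PS

end Crest.Agent.R206
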