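import Crest.Agent.R206.Geo2
import Crest.Agent.R206.GeoP1h

/-! # Row 206: components of slabs have small diameter (P1). -/

set_option autoImplicit false

namespace Crest.Agent.R206

namespace PS

variable {W : Type} {η : ℝ} {P : PS W η}

section

variable {R : W → W → Prop} {C K : Set W} {a : W} {h c Wd : ℝ}

/-- a chord of `C` that encloses one point of `K` but not another one -/
theorem p1_chord (hR : P.LR R) (hC : P.Cvx C) (hCc : P.Conn C)
    (hh : ∀ u ∈ C, ∀ v ∈ C, |P.f u - P.f v| ≤ h) (ha : a ∈ C) (hKC : K ⊆ C) (hK : P.Conn K)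
    (hα : ∀ v ∈ K, c ≤ P.dS C a v ∧ P.dS C a v ≤ c + Wd) {p q w z : W} (hc : P.ch p q)
    (hp : p ∈ C) (hq : q ∈ C) (hw : w ∈ K) (hz : z ∈ K) (hwI : R p w ∧ R w q)
    (hzI : ¬ (R p z ∧ R z q)) (haI : ¬ (R p a ∧ R a q)) :
    c - h ≤ P.dS C a p ∧ P.dS C p w ≤ Wd + 3 * h := by
  have h1 : c - h ≤ P.dS C a p := by
    obtain ⟨L, hL⟩ := hK z hz w hw
    obtain ⟨x, L1, L2, e, h2, -, -⟩ := hL.entry hR hc hzI hwI
    have hx := h2.right_mem
    have a1 := hCc.le_add_wk ha (hC.wk_col hp hq (hKC hx) hc e).symm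
    have a2 := hh x (hKC hx) p hp
    have a3 := (hα x hx).1
    linarith
  refine ⟨h1, ?_⟩
  have h2 : P.dS C p w + c - 3 * h ≤ P.dS C a w := le_dS (hCc a ha w (hKC hw)) fun L hL => by
    obtain ⟨x, L1, L2, e, h2, h3, h4⟩ := hL.entry hR hc haI hwI
    have hx := h2.right_mem
    have w1 := hC.wk_col hp hq hx hc e
    have a1 := (h2.append w1).dS_le
    have a2 := (w1.symm.append h3).dS_le
    have a3 := hh x hx p hp
    linarith
  have := (hα w hw).2
  linarith

theorem p1_front (hR : P.LR R) (hC : P.Cvx C) (hCc : P.Conn C)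
    (hh : ∀ u ∈ C, ∀ v ∈ C, |P.f u - P.f v| ≤ h) (ha : a ∈ C) (hal : ∀ v ∈ C, ¬ R v a)
    (hKC : K ⊆ C) (hK : P.Conn K) (hW : 0 ≤ Wd)
    (hα : ∀ v ∈ K, c ≤ P.dS C a v ∧ P.dS C a v ≤ c + Wd) {w z : W} (hw : w ∈ K) (hz : z ∈ K)
    {y : W} {L : ℝ} (hy : P.Wk C a y L) (h1 : ¬ R y w) (h2 : ¬ R z y) :
    min (P.dS C y w) (P.dS C y z) ≤ L - c + Wd + 4 * h := by
  have h0 : 0 ≤ h := (abs_nonneg _).trans (hh a ha a ha)
  have rel : ∀ {y L}, P.Wk C a y L → ∀ {t}, t ∈ K → (P.Anc y t ∨ P.Anc t y) →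
      P.dS C y t ≤ L - c + Wd + 4 * h := fun {y L} hy {t} ht e => by
    have w1 := hC.wk_rel hy.right_mem (hKC ht) e
    have a1 := w1.dS_le
    have a2 := (hy.append w1).dS_le
    have a3 := hh y hy.right_mem t (hKC ht)
    have a4 := (hα t ht).1
    linarith
  have btw : ∀ {y L}, P.Wk C a y L → ¬ R y w → ¬ R z y →
      min (P.dS C y w) (P.dS C y z) ≤ L - c + Wd + 4 * h ∨ (R w y ∧ R y z) :=
    fun {y L} hy h1 h2 => by
      rcases hR.tri y w with e | e | e | e
      · exact Or.inl ((min_le_left _ _).trans (rel hy hw (Or.inl e)))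
      · exact Or.inl ((min_le_left _ _).trans (rel hy hw (Or.inr e)))
      · exact absurd e h1
      rcases hR.tri y z with e' | e' | e' | e'
      · exact Or.inl ((min_le_right _ _).trans (rel hy hz (Or.inl e')))
      · exact Or.inl ((min_le_right _ _).trans (rel hy hz (Or.inr e')))
      · exact Or.inr ⟨e, e'⟩
      · exact absurd e' h2
  induction hy with
  | nil hy =>
    rcases btw (Wk.nil hy) h1 h2 with e | e
    · exact e
    · exact absurd e.1 (hal w (hKC hw))
  | @snoc x y L hx adj hyC ih =>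
    have hy := Wk.snoc hx adj hyC
    rcases btw hy h1 h2 with e | ⟨e1, e2⟩
    · exact e
    have hxC := hx.right_mem
    by_cases c1 : R x w
    · have hc : P.ch x y := by
        rcases hR.cross adj c1 h1 with e | e | e
        · exact absurd e (hR.notrel _ _ e1).2
        · exact absurd e (hR.notrel _ _ e1).1
        · exact e.1
      obtain ⟨a1, a2⟩ := p1_chord hR.flip hC hCc hh ha hKC hK hα (P.ch_symm _ _ hc) hyC hxC hw hz
        ⟨e1, c1⟩ (fun t => hR.asymm e2 t.1) (fun t => hal x hxC t.2)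
      have a3 := hy.dS_le
      exact (min_le_left _ _).trans (by linarith)
    by_cases c2 : R z x
    · have hc : P.ch x y := by
        rcases hR.flip.cross adj c2 h2 with e | e | e
        · exact absurd e (hR.notrel _ _ e2).1
        · exact absurd e (hR.notrel _ _ e2).2
        · exact e.1
      obtain ⟨a1, a2⟩ := p1_chord hR hC hCc hh ha hKC hK hα (P.ch_symm _ _ hc) hyC hxC hz hw
        ⟨e2, c2⟩ (fun t => hR.asymm e1 t.1) (fun t => hal y hyC t.1)
      have a3 := hy.dS_le
      exact (min_le_right _ _).trans (by linarith)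
    · have a1 := ih c1 c2
      have w1 := (Wk.single hxC hyC adj).symm
      have a2 := dS_triangle' ⟨_, w1⟩ (hCc x hxC w (hKC hw))
      have a3 := dS_triangle' ⟨_, w1⟩ (hCc x hxC z (hKC hz))
      have a4 := w1.dS_le
      rcases min_le_iff.1 a1 with t | t
      · exact (min_le_left _ _).trans (by linarith)
      · exact (min_le_right _ _).trans (by linarith)

theorem LR.exists_min [Finite W] (hR : P.LR R) {K : Set W} {x : W} (hx : x ∈ K) :
    ∃ w ∈ K, ∀ v ∈ K, ¬ R v w := by
  have : IsTrans W R := ⟨hR.trans⟩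
  have : Std.Irrefl R := ⟨hR.irrefl⟩
  have wf : WellFounded R := Finite.wellFounded_of_trans_of_irrefl R
  exact ⟨wf.min K ⟨x, hx⟩, wf.min_mem K _, fun v hv => wf.not_lt_min K hv⟩

/-- (P1) a connected part of a slab of `dS C a` has small diameter in `C` -/
theorem p1_gen [Finite W] (hR : P.LR R) (hC : P.Cvx C) (hCc : P.Conn C)
    (hh : ∀ u ∈ C, ∀ v ∈ C, |P.f u - P.f v| ≤ h) (ha : a ∈ C) (hal : ∀ v ∈ C, ¬ R v a)
    (hKC : K ⊆ C) (hK : P.Conn K)
    (hα : ∀ v ∈ K, c ≤ P.dS C a v ∧ P.dS C a v ≤ c + Wd) {x y : W} (hx : x ∈ K) (hy : y ∈ K) :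
    P.dS C x y ≤ 8 * Wd + 16 * h + η := by
  have h0 : 0 ≤ h := (abs_nonneg _).trans (hh a ha a ha)
  have hW : 0 ≤ Wd := by have := hα x hx; linarith [this.1, this.2]
  have hη := P.eta_nonneg
  obtain ⟨w, hw, hwl⟩ := hR.exists_min hx
  obtain ⟨z, hz, hzl⟩ := hR.flip.exists_min hx
  have B : ∀ t ∈ K, P.dS C t w ≤ 2 * Wd + 4 * h ∨ P.dS C t z ≤ 2 * Wd + 4 * h := fun t ht => by
    have : min (P.dS C t w) (P.dS C t z) + c - Wd - 4 * h ≤ P.dS C a t :=
      le_dS (hCc a ha t (hKC ht)) fun L hL => by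
        have := p1_front hR hC hCc hh ha hal hKC hK hW hα hw hz hL (hwl t ht) (hzl t ht)
        linarith
    have a1 := (hα t ht).2
    exact min_le_iff.1 (by linarith)
  have key : ∀ {t L}, P.Wk K w t L →
      P.dS C t w ≤ 2 * Wd + 4 * h ∨ P.dS C w z ≤ 4 * Wd + 8 * h + η := fun {t L} ht => by
    induction ht with
    | nil _ => left; rw [dS_self (hKC hw)]; linarith
    | @snoc s t L hs adj ht ih =>
      rcases ih with ih | ih
      · rcases B t ht with e | e
        · exact Or.inl e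
        · right
          have hsC := hKC hs.right_mem
          have a1 := hCc.triangle (hKC hw) hsC (hKC hz)
          have a2 := hCc.triangle hsC (hKC ht) (hKC hz)
          have a3 := (dS_adj hsC (hKC ht) adj).trans (adj_len_le adj)
          rw [P.dS_comm C w s] at a1
          linarith
      · exact Or.inr ih
  have hwz : P.dS C w z ≤ 4 * Wd + 8 * h + η := by
    obtain ⟨L, hL⟩ := hK w hw z hz
    rcases key hL with e | e
    · rw [P.dS_comm] at e; linarith
    · exact e
  have hzw : P.dS C z w ≤ 4 * Wd + 8 * h + η := by rw [P.dS_comm]; exact hwz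
  have hxC := hKC hx
  have hyC := hKC hy
  have hwC := hKC hw
  have hzC := hKC hz
  rcases B x hx with e | e <;> rcases B y hy with e' | e' <;> rw [P.dS_comm C y] at e'
  · have := hCc.triangle hxC hwC hyC
    linarith
  · have := hCc.triangle hxC hwC hyC
    have := hCc.triangle hwC hzC hyC
    linarith
  · have := hCc.triangle hxC hzC hyC
    have := hCc.triangle hzC hwC hyC
    linarith
  · have := hCc.triangle hxC hzC hyC
    linarith

end

/-- (P1) for a component `C` of a band, base point `a` with minimal `first` -/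
theorem p1 [Finite W] (P : PS W η) {t h c Wd : ℝ} {v0 a : W} {K : Set W}
    (ha : a ∈ P.comp (P.band t (t + h)) v0)
    (hal : ∀ v ∈ P.comp (P.band t (t + h)) v0, P.first a ≤ P.first v)
    (hKC : K ⊆ P.comp (P.band t (t + h)) v0) (hK : P.Conn K)
    (hα : ∀ v ∈ K, c ≤ P.dS (P.comp (P.band t (t + h)) v0) a v ∧
      P.dS (P.comp (P.band t (t + h)) v0) a v ≤ c + Wd) {x y : W} (hx : x ∈ K) (hy : y ∈ K) :
    P.dS (P.comp (P.band t (t + h)) v0) x y ≤ 8 * Wd + 16 * h + η :=
  p1_gen P.lr ((P.cvx_band _ _).comp v0) (P.conn_comp _ _)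
    (fun u hu v hv => by simpa using band_abs (P.comp_sub _ _ hu) (P.comp_sub _ _ hv))
    ha (not_lt_of_min_first hal) hKC hK hα hx hy

end PS

end Crest.Agent.R206
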