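import Crest.Agent.R206.Geo1

/-! # Row 206 (planar): raw geometric facts behind the operation O4 (helper99). -/

set_option autoImplicit false
set_option linter.unusedVariables false

namespace Crest.Agent.R206

namespace PS

variable {W : Type} {η : ℝ} {P : PS W η}

/-- a function that is `c`-Lipschitz on the edges of `S` is `c`-Lipschitz along walks of `S` -/
theorem o4_lip {S : Set W} {g : W → ℝ} {c : ℝ}
    (hg : ∀ u ∈ S, ∀ v ∈ S, P.G.Adj u v → |g u - g v| ≤ c * |P.f u - P.f v|) {u v : W} {L : ℝ}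
    (h : P.Wk S u v L) : |g u - g v| ≤ c * L := by
  induction h with
  | nil _ => simp
  | @snoc v w L h ha hw ih =>
    have h1 := hg v h.right_mem w hw ha
    have h2 := abs_sub_le (g u) (g v) (g w)
    rw [mul_add]; linarith

theorem o4_lip1 {S : Set W} {g : W → ℝ}
    (hg : ∀ u ∈ S, ∀ v ∈ S, P.G.Adj u v → |g u - g v| ≤ |P.f u - P.f v|) {u v : W} {L : ℝ}
    (h : P.Wk S u v L) : |g u - g v| ≤ L := by
  simpa using o4_lip (c := 1) (g := g) (by simpa using hg) h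

/-- (E1) a neighbour of an enclosed point is enclosed or lies on one of the two columns -/
theorem o4_E1 {R : W → W → Prop} (hR : P.LR R) {p q u v : W} (hc : P.ch p q) (h1 : R p u)
    (h2 : R u q) (ha : P.G.Adj u v) : (R p v ∧ R v q) ∨ P.Anc v p ∨ P.Anc v q := by
  have hc' := P.ch_symm _ _ hc
  rcases hR.tri p v with a | a | a | a
  · exact Or.inr (Or.inl (ch_anc hc a ▸ Anc.refl P _))
  · exact Or.inr (Or.inl a)
  · rcases hR.tri v q with b | b | b | b
    · exact Or.inr (Or.inr b)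
    · exact Or.inr (Or.inr (ch_anc hc' b ▸ Anc.refl P _))
    · exact Or.inl ⟨a, b⟩
    · exfalso
      have huv := hR.trans _ _ _ h2 b
      rcases ha.2 with e | e | e
      · exact (hR.notrel _ _ huv).2 (e ▸ P.anc_par u)
      · exact (hR.notrel _ _ huv).1 (e ▸ P.anc_par v)
      · exact hR.nc p q u v hc e h1 h2 b
  · exfalso
    have hvu := hR.trans _ _ _ a h1
    rcases ha.2 with e | e | e
    · exact (hR.notrel _ _ hvu).1 (e ▸ P.anc_par u)
    · exact (hR.notrel _ _ hvu).2 (e ▸ P.anc_par v)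
    · exact hR.nc v u p q (P.ch_symm _ _ e) hc a h1 h2

/-- a walk that avoids the two columns stays enclosed -/
theorem o4_stay {R : W → W → Prop} (hR : P.LR R) {p q : W} (hc : P.ch p q) {S : Set W}
    (hS : ∀ z ∈ S, ¬ P.Anc z p ∧ ¬ P.Anc z q) {u v : W} {L : ℝ} (h : P.Wk S u v L)
    (hu : R p u ∧ R u q) : R p v ∧ R v q := by
  induction h with
  | nil _ => exact hu
  | @snoc v w L h ha hw ih =>
    rcases o4_E1 hR hc ih.1 ih.2 ha with a | a | a
    · exact a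
    · exact absurd a (hS w hw).1
    · exact absurd a (hS w hw).2

/-- an edge of `C` outside `N` that changes the gap is a chord enclosing a point of `N` -/
theorem o4_gap_ch {R : W → W → Prop} (hR : P.LR R) {C N : Set W} (hN : P.TClosed C N) {u v : W}
    (hu : u ∈ C) (hv : v ∈ C) (hu' : u ∉ N) (hv' : v ∉ N) (ha : P.G.Adj u v) {b : W} (hb : b ∈ N)
    (h1 : R b v) (h2 : ¬ R b u) : P.ch u v ∧ R u b := by
  have hbC := hN.1 hb
  have hub : R u b := by
    rcases hR.tri u b with a | a | a | a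
    · exact absurd ((hN.2 u hu b hbC a).2 hb) hu'
    · exact absurd ((hN.2 b hbC u hu a).1 hb) hu'
    · exact a
    · exact absurd a h2
  have huv := hR.trans _ _ _ hub h1
  refine ⟨?_, hub⟩
  rcases ha.2 with e | e | e
  · exact absurd (e ▸ P.anc_par u) (hR.notrel _ _ huv).2
  · exact absurd (e ▸ P.anc_par v) (hR.notrel _ _ huv).1
  · exact e

/-- a chord of `C` with both ends outside the hull of `M` that encloses a point of the hull encloses
every point `x` joined to `M` by a walk inside the hull -/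
theorem o4_enc_hull {R : W → W → Prop} (hR : P.LR R) {C M : Set W} (hM : M ⊆ C) {p q : W}
    (hc : P.ch p q) (hp : p ∈ C) (hq : q ∈ C) (hp' : p ∉ P.hull C M) (hq' : q ∉ P.hull C M)
    {b : W} (hb : b ∈ P.hull C M) (h1 : R p b) (h2 : R b q) :
    ∃ n ∈ M, R p n ∧ R n q := by
  have hT := P.hull_closed C M
  obtain ⟨hbC, n, hn, r, hr, a1, a2⟩ := hb
  have hrN : r ∈ P.hull C M := ⟨hr, n, hn, r, hr, Anc.refl P r, a2⟩
  have e1 : R p r := by
    rcases hR.tri p r with a | a | a | a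
    · exact absurd ((hT.2 p hp r hr a).2 hrN) hp'
    · exact absurd ((hT.2 r hr p hp a).1 hrN) hp'
    · exact a
    · exact absurd (hR.down _ _ _ _ a a1 (Anc.refl P p)) (hR.asymm h1)
  have e2 : R r q := by
    rcases hR.tri r q with a | a | a | a
    · exact absurd ((hT.2 r hr q hq a).1 hrN) hq'
    · exact absurd ((hT.2 q hq r hr a).2 hrN) hq'
    · exact a
    · exact absurd (hR.down _ _ _ _ a (Anc.refl P q) a1) (hR.asymm h2)
  exact ⟨n, hn, hR.down _ _ _ _ e1 (Anc.refl P p) a2, hR.down _ _ _ _ e2 a2 (Anc.refl P q)⟩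

/-- a walk inside a tree-closed set `N` keeps being enclosed by a chord whose ends are off `N` -/
theorem o4_stay_N {R : W → W → Prop} (hR : P.LR R) {C N : Set W} (hN : P.TClosed C N) {p q : W}
    (hc : P.ch p q) (hp : p ∈ C) (hq : q ∈ C) (hp' : p ∉ N) (hq' : q ∉ N) {u v : W} {L : ℝ}
    (h : P.Wk N u v L) (hu : R p u ∧ R u q) : R p v ∧ R v q :=
  o4_stay hR hc (fun z hz => ⟨fun a => hp' ((hN.2 z (hN.1 hz) p hp a).1 hz),
    fun a => hq' ((hN.2 z (hN.1 hz) q hq a).1 hz)⟩) h hu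

/-- gap-crossing edges: `M` is a set of points joined to `X` by walks inside `M` -/
theorem o4_gap_core {C M X : Set W} (hM : M ⊆ C)
    (hX : ∀ n ∈ M, ∃ x ∈ X, ∃ L, P.Wk M x n L) {u v : W} (hu : u ∈ C) (hv : v ∈ C)
    (hu' : u ∉ P.hull C M) (hv' : v ∉ P.hull C M) (ha : P.G.Adj u v)
    (hg : ¬ SameGap P.Lt (P.hull C M) u v) : ∃ x ∈ X, P.Enc u v x := by
  have hT := P.hull_closed C M
  have key : ∀ u v : W, u ∈ C → v ∈ C → u ∉ P.hull C M → v ∉ P.hull C M → P.G.Adj u v →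
      ∀ b ∈ P.hull C M, P.Lt b v → ¬ P.Lt b u → P.ch u v ∧ ∃ x ∈ X, P.Lt u x ∧ P.Lt x v := by
    intro u v hu hv hu' hv' ha b hb h1 h2
    obtain ⟨hc, h3⟩ := o4_gap_ch P.lr hT hu hv hu' hv' ha hb h1 h2
    obtain ⟨n, hn, h4⟩ := o4_enc_hull P.lr hM hc hu hv hu' hv' hb h3 h1
    obtain ⟨x, hx, L, hw⟩ := hX n hn
    exact ⟨hc, x, hx, o4_stay_N P.lr hT hc hu hv hu' hv' (hw.symm.mono (sub_hull hM)) h4⟩
  unfold SameGap at hg
  push Not at hg
  obtain ⟨b, hb, h | h⟩ := hg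
  · obtain ⟨hc, x, hx, h3⟩ := key v u hv hu hv' hu' ha.symm b hb h.1 h.2
    exact ⟨x, hx, P.ch_symm _ _ hc, Or.inr h3⟩
  · obtain ⟨hc, x, hx, h3⟩ := key u v hu hv hu' hv' ha b hb h.2 h.1
    exact ⟨x, hx, hc, Or.inl h3⟩

/-- walk neighbourhoods (strict) are joined to the centre set inside themselves -/
theorem o4_near_wk_lt {C X : Set W} {r : ℝ} :
    ∀ n ∈ {v | ∃ x ∈ X, ∃ L, L < r ∧ P.Wk C x v L},
      ∃ x ∈ X, ∃ L, P.Wk {v | ∃ x ∈ X, ∃ L, L < r ∧ P.Wk C x v L} x n L := by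
  rintro n ⟨x, hx, L, hL, hw⟩
  exact ⟨x, hx, L, (hw.restrict {v | ∃ x ∈ X, ∃ L, L < r ∧ P.Wk C x v L}
    fun y L1 h1 h2 => ⟨x, hx, L1, h2.trans_lt hL, h1⟩).mono Set.inter_subset_right⟩

/-- walk neighbourhoods (weak) are joined to the centre set inside themselves -/
theorem o4_near_wk_le {C X : Set W} {r : ℝ} :
    ∀ n ∈ {v | ∃ x ∈ X, ∃ L, L ≤ r ∧ P.Wk C x v L},
      ∃ x ∈ X, ∃ L, P.Wk {v | ∃ x ∈ X, ∃ L, L ≤ r ∧ P.Wk C x v L} x n L := by
  rintro n ⟨x, hx, L, hL, hw⟩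
  exact ⟨x, hx, L, (hw.restrict {v | ∃ x ∈ X, ∃ L, L ≤ r ∧ P.Wk C x v L}
    fun y L1 h1 h2 => ⟨x, hx, L1, h2.trans hL, h1⟩).mono Set.inter_subset_right⟩

/-- lower bound of `G` on the hull -/
theorem o4_hull_ge {C M : Set W} (hC : P.Cvx C) (hM : M ⊆ C) {G : W → ℝ} {h m : ℝ}
    (hh : ∀ u ∈ C, ∀ v ∈ C, |P.f u - P.f v| ≤ h)
    (hG : ∀ u ∈ C, ∀ v ∈ C, P.G.Adj u v → |G u - G v| ≤ |P.f u - P.f v|)
    (hm : ∀ n ∈ M, m ≤ G n) {b : W} (hb : b ∈ P.hull C M) : m - 2 * h ≤ G b := by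
  obtain ⟨n, hn, L, hw, hL⟩ := hull_near hC hM hh hb
  have e1 := abs_le.1 (o4_lip1 hG hw)
  linarith [hm n hn, e1.1, e1.2]

/-- two points off a tree-closed set: same left gap iff same right gap -/
theorem o4_sameGap_flip {R : W → W → Prop} (hR : P.LR R) {C N : Set W} (hN : P.TClosed C N)
    {u v : W} (hu : u ∈ C) (hv : v ∈ C) (hu' : u ∉ N) (hv' : v ∉ N) (h : SameGap R N u v) :
    SameGap (flip R) N u v := by
  have key : ∀ w ∈ C, w ∉ N → ∀ b ∈ N, (R w b ↔ ¬ R b w) := by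
    intro w hw hw' b hb
    refine ⟨fun a => hR.asymm a, fun a => ?_⟩
    rcases hR.tri w b with c | c | c | c
    · exact absurd ((hN.2 w hw b (hN.1 hb) c).2 hb) hw'
    · exact absurd ((hN.2 b (hN.1 hb) w hw c).1 hb) hw'
    · exact c
    · exact absurd c a
  intro b hb
  change R u b ↔ R v b
  rw [key u hu hu' b hb, key v hv hv' b hb, h b hb]

end PS

end Crest.Agent.R206
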