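import Crest.Agent.R206.Geo1

/-! # Row 206 (planar): boundary of a cluster (helper66). -/

set_option autoImplicit false

namespace Crest.Agent.R206

namespace PS

variable {W : Type} {η : ℝ} {P : PS W η}

/-- a neighbour outside the band: the point is `η`-close to the top or the bottom -/
theorem band_bdry {a b : ℝ} {u w : W} (hu : u ∈ P.band a b) (hw : w ∉ P.band a b)
    (h : P.G.Adj u w) : P.f u - a - η ≤ 0 ∨ b - P.f u - η ≤ 0 := by
  have h1 := abs_le.1 (adj_len_le h)
  have h2 := hu.1
  have h3 := hu.2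
  by_contra hc
  push Not at hc
  exact hw ⟨by linarith [h1.1, h1.2, hc.1], by linarith [h1.1, h1.2, hc.2]⟩

/-- a point of a cluster with a neighbour outside the cluster is `η`-close to the boundary of
the band or of the slab -/
theorem cluster_bdry {a b c c' : ℝ} {r o x u w : W} (ho : o ∈ P.comp (P.band a b) r)
    (hu : u ∈ P.comp {v | v ∈ P.comp (P.band a b) r ∧ c ≤ P.dS (P.comp (P.band a b) r) o v ∧
      P.dS (P.comp (P.band a b) r) o v < c'} x)
    (hw : w ∉ P.comp {v | v ∈ P.comp (P.band a b) r ∧ c ≤ P.dS (P.comp (P.band a b) r) o v ∧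
      P.dS (P.comp (P.band a b) r) o v < c'} x)
    (h : P.G.Adj u w) :
    P.f u - a - η ≤ 0 ∨ b - P.f u - η ≤ 0 ∨ P.dS (P.comp (P.band a b) r) o u - c - η ≤ 0 ∨
      c' - P.dS (P.comp (P.band a b) r) o u - η ≤ 0 := by
  have hu1 := P.comp_sub _ _ hu
  by_cases hb : w ∈ P.band a b
  · have hwC : w ∈ P.comp (P.band a b) r := mem_comp_of_adj hu1.1 h hb
    have h1 := abs_le.1 (((P.conn_comp (P.band a b) r).lip_adj ho hu1.1 hwC h).trans
      (adj_len_le h))
    by_contra hc
    push Not at hc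
    exact hw (mem_comp_of_adj hu h ⟨hwC, by linarith [h1.1, h1.2, hc.2.2.1],
      by linarith [h1.1, h1.2, hc.2.2.2]⟩)
  · rcases band_bdry (P.comp_sub _ _ hu1.1) hb h with h1 | h1
    · exact Or.inl h1
    · exact Or.inr (Or.inl h1)

end PS

end Crest.Agent.R206
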