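import Crest.Agent.R206.ZDefs
import Crest.Agent.R206.Geo2
import Crest.Agent.R206.OGeo

/-! # Row 206 (planar): generic facts on one operation (helper66). -/

set_option autoImplicit false
set_option linter.dupNamespace false

namespace Crest.Agent.R206

open scoped BigOperators Classical
open ZS hiding St flip gap

theorem og_flo_le {a : ℝ} (ha : 0 < a) (o t : ℝ) : flo a o t ≤ t := by
  unfold flo
  have h := Int.floor_le ((t - o) / a)
  rw [le_div_iff₀ ha] at h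
  linarith

theorem og_lt_flo_add {a : ℝ} (ha : 0 < a) (o t : ℝ) : t < flo a o t + a := by
  unfold flo
  have h := Int.lt_floor_add_one ((t - o) / a)
  rw [div_lt_iff₀ ha] at h
  linarith

theorem og_flo_eq {a : ℝ} (ha : 0 < a) {o t t' : ℝ} (h1 : flo a o t ≤ t') (h2 : t' < flo a o t + a) :
    flo a o t' = flo a o t := by
  have : ⌊(t' - o) / a⌋ = ⌊(t - o) / a⌋ := by
    unfold flo at h1 h2
    rw [Int.floor_eq_iff, le_div_iff₀ ha, div_lt_iff₀ ha]
    constructor <;> linarith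
  unfold flo
  rw [this]

theorem am6_le (a : Fin 6 → ℝ) (j : Fin 6) : a (am6 a) ≤ a j := by
  have h : ∃ k, ∀ j, a k ≤ a j := by
    obtain ⟨k, _, hk⟩ := Finset.exists_min_image Finset.univ a Finset.univ_nonempty
    exact ⟨k, fun j => hk j (Finset.mem_univ j)⟩
  exact Classical.epsilon_spec h j

theorem og_off_nonneg {a : ℝ} (ha : 0 ≤ a) {M : ℕ} (i : Fin M) : 0 ≤ off a i := by
  unfold off; positivity

theorem og_off_lt {a : ℝ} (ha : 0 < a) {M : ℕ} (i : Fin M) : off a i < a := by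
  unfold off
  have h1 : (0 : ℝ) < M := by exact_mod_cast i.pos
  have h2 : ((i : ℕ) : ℝ) < M := by exact_mod_cast i.2
  rw [div_lt_iff₀ h1]
  exact mul_lt_mul_of_pos_left h2 ha

theorem Lv.og_th_pos {θ h η : ℝ} (hL : Lv θ h η) : 0 < θ := by
  rcases hL.th with e | e <;> rw [e] <;> norm_num

theorem Lv.og_th_le {θ h η : ℝ} (hL : Lv θ h η) : θ ≤ 2 / 10000 := by
  rcases hL.th with e | e <;> rw [e] <;> norm_num

theorem Lv.le_th {θ h η : ℝ} (hL : Lv θ h η) : 1 / 10000 ≤ θ := by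
  rcases hL.th with e | e <;> rw [e] <;> norm_num

namespace PS

variable {W : Type} {η : ℝ} {n : ℕ} {P : PS W η}

theorem lr_Lf (P : PS W η) (b : Bool) : P.LR (P.Lf b) := by
  cases b
  · exact P.lr'
  · exact P.lr

theorem og_base_spec (P : PS W η) {C : Set W} (hC : C.Nonempty) :
    P.base C ∈ C ∧ ∀ v ∈ C, P.first (P.base C) ≤ P.first v := by
  have h : ∃ a, a ∈ C ∧ ∀ v ∈ C, P.first a ≤ P.first v := by
    obtain ⟨a, ha, h⟩ := (measure P.first).wf.has_min C hC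
    exact ⟨a, ha, fun v hv => not_lt.1 (h v hv)⟩
  exact @Classical.epsilon_spec W _ h

/-- the shape of a cluster -/
structure ClOK (P : PS W η) (h : ℝ) (K : Cl W) : Prop where
  hC : ∃ r, K.C = P.comp (P.band K.lo (K.lo + h)) r
  ne : K.C.Nonempty
  hR : ∃ x, K.R = P.comp (P.slab h K.C K.c0) x

theorem mem_bandC_self (P : PS W η) {h : ℝ} (hh : 0 < h) (ob : ℝ) (x : W) : x ∈ P.bandC h ob x :=
  mem_comp_self ⟨og_flo_le hh _ _, og_lt_flo_add hh _ _⟩

theorem mem_cl_self (P : PS W η) {h : ℝ} (hh : 0 < h) (ob os : ℝ) (x : W) :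
    x ∈ (P.cl h ob os x).R :=
  mem_comp_self ⟨P.mem_bandC_self hh ob x, og_flo_le (by linarith) _ _,
    og_lt_flo_add (by linarith) _ _⟩

theorem cl_ok (P : PS W η) {h : ℝ} (hh : 0 < h) (ob os : ℝ) (x : W) :
    P.ClOK h (P.cl h ob os x) :=
  ⟨⟨x, rfl⟩, ⟨x, P.mem_bandC_self hh ob x⟩, ⟨x, rfl⟩⟩

theorem bandC_congr {h ob : ℝ} (hh : 0 < h) {x y : W} (hy : y ∈ P.bandC h ob x) :
    flo h ob (P.f y) = flo h ob (P.f x) ∧ P.bandC h ob y = P.bandC h ob x := by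
  have h1 := P.comp_sub _ _ hy
  have h2 : flo h ob (P.f y) = flo h ob (P.f x) := og_flo_eq hh h1.1 h1.2
  refine ⟨h2, ?_⟩
  unfold bandC at hy ⊢
  rw [h2]
  exact comp_eq hy

theorem cl_congr {h ob os : ℝ} (hh : 0 < h) {x y : W} (hy : y ∈ (P.cl h ob os x).R) :
    P.cl h ob os y = P.cl h ob os x := by
  have h1 := P.comp_sub _ _ hy
  obtain ⟨h2, h3⟩ := bandC_congr hh h1.1
  have h4 : flo (1000 * h) os (P.al (P.bandC h ob x) y) =
      flo (1000 * h) os (P.al (P.bandC h ob x) x) := og_flo_eq (by linarith) h1.2.1 h1.2.2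
  unfold cl at hy ⊢
  simp only at hy
  rw [h2, h3, h4, comp_eq hy]

namespace ClOK

variable {h : ℝ} {K : Cl W}

theorem conn (hK : P.ClOK h K) : P.Conn K.C := by
  obtain ⟨r, e⟩ := hK.hC
  rw [e]; exact P.conn_comp _ _

theorem cvx (hK : P.ClOK h K) : P.Cvx K.C := by
  obtain ⟨r, e⟩ := hK.hC
  rw [e]; exact (P.cvx_band _ _).comp r

theorem C_band (hK : P.ClOK h K) : K.C ⊆ P.band K.lo (K.lo + h) := by
  obtain ⟨r, e⟩ := hK.hC
  rw [e]; exact P.comp_sub _ _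

theorem C_abs (hK : P.ClOK h K) {u v : W} (hu : u ∈ K.C) (hv : v ∈ K.C) :
    |P.f u - P.f v| ≤ h := by
  have := band_abs (hK.C_band hu) (hK.C_band hv)
  linarith

theorem C_closed (hK : P.ClOK h K) {v w : W} (hv : v ∈ K.C) (a : P.G.Adj v w)
    (h1 : K.lo ≤ P.f w) (h2 : P.f w < K.lo + h) : w ∈ K.C := by
  obtain ⟨r, e⟩ := hK.hC
  rw [e] at hv ⊢
  exact mem_comp_of_adj hv a ⟨h1, h2⟩

theorem base_mem (hK : P.ClOK h K) : P.base K.C ∈ K.C := (P.og_base_spec hK.ne).1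

theorem base_out (hK : P.ClOK h K) : P.Out K.C (P.base K.C) :=
  out_of_min_first (P.og_base_spec hK.ne).2

theorem R_slab (hK : P.ClOK h K) : K.R ⊆ P.slab h K.C K.c0 := by
  obtain ⟨r, e⟩ := hK.hR
  rw [e]; exact P.comp_sub _ _

theorem R_sub (hK : P.ClOK h K) : K.R ⊆ K.C := fun _ hv => (hK.R_slab hv).1

theorem R_conn (hK : P.ClOK h K) : P.Conn K.R := by
  obtain ⟨r, e⟩ := hK.hR
  rw [e]; exact P.conn_comp _ _

theorem R_closed (hK : P.ClOK h K) {v w : W} (hv : v ∈ K.R) (a : P.G.Adj v w)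
    (hw : w ∈ P.slab h K.C K.c0) : w ∈ K.R := by
  obtain ⟨r, e⟩ := hK.hR
  rw [e] at hv ⊢
  exact mem_comp_of_adj hv a hw

theorem al_lip (hK : P.ClOK h K) {u v : W} (hu : u ∈ K.C) (hv : v ∈ K.C) (a : P.G.Adj u v) :
    |P.al K.C u - P.al K.C v| ≤ |P.f u - P.f v| := hK.conn.lip_adj hK.base_mem hu hv a

theorem al_UOn (hK : P.ClOK h K) : P.UOn K.C (P.al K.C) :=
  ⟨fun u hu v hv a => by rw [one_mul]; exact hK.al_lip hu hv a,
    fun _ hp _ hq _ hw e => mouth_enc hK.cvx hK.conn hp hq hK.base_mem hw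
      (hK.base_out.not_enc hp hq) e⟩

theorem bdry (hK : P.ClOK h K) {u w : W} (hu : u ∈ K.R) (hw : w ∉ K.R) (a : P.G.Adj u w) :
    P.f u - K.lo - η ≤ 0 ∨ K.lo + h - P.f u - η ≤ 0 ∨ P.al K.C u - K.c0 - η ≤ 0 ∨
      K.c0 + 1000 * h - P.al K.C u - η ≤ 0 := by
  have hu1 := hK.R_slab hu
  by_cases hb : w ∈ P.band K.lo (K.lo + h)
  · have hwC : w ∈ K.C := hK.C_closed hu1.1 a hb.1 hb.2
    have h1 := abs_le.1 ((hK.al_lip hu1.1 hwC a).trans (adj_len_le a))
    by_contra hc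
    push Not at hc
    exact hw (hK.R_closed hu a ⟨hwC, by linarith [h1.1, h1.2, hc.2.2.1],
      by linarith [h1.1, h1.2, hc.2.2.2]⟩)
  · rcases band_bdry (hK.C_band hu1.1) hb a with h1 | h1
    · exact Or.inl h1
    · exact Or.inr (Or.inl h1)

end ClOK

section vals

variable {θ h u : ℝ} {K : Cl W} {q : Prm W} {G : W → ℝ}

theorem hp0_val (P : PS W η) (θ h u : ℝ) (K : Cl W) (q : Prm W) (w : W) :
    (P.hp θ h u K q 0).val P.f w = q.A - 3 * u := by simp [hp, Piece.val]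

theorem hp1_val (P : PS W η) (θ h u : ℝ) (K : Cl W) (q : Prm W) (w : W) :
    (P.hp θ h u K q 1).val P.f w = q.B + (P.f w - K.lo - η) / θ - 4 * u := by
  simp only [hp, Piece.val]; ring

theorem hp2_val (P : PS W η) (θ h u : ℝ) (K : Cl W) (q : Prm W) (w : W) :
    (P.hp θ h u K q 2).val P.f w = q.B + (K.lo + h - P.f w - η) / θ - 5 * u := by
  simp only [hp, Piece.val]; ring

theorem hp3_val (P : PS W η) (θ h u : ℝ) (K : Cl W) (q : Prm W) (w : W) :
    (P.hp θ h u K q 3).val P.f w = (q.e - P.f w) / θ - 6 * u := by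
  simp only [hp, Piece.val]; ring

theorem hp4_val (P : PS W η) (θ h u : ℝ) (K : Cl W) (q : Prm W) (w : W) :
    (P.hp θ h u K q 4).val P.f w = q.B + (P.al K.C w - K.c0 - η) - 7 * u := by
  simp only [hp, Piece.val]; ring

theorem hp5_val (P : PS W η) (θ h u : ℝ) (K : Cl W) (q : Prm W) (w : W) :
    (P.hp θ h u K q 5).val P.f w = q.B + (K.c0 + 1000 * h - P.al K.C w - η) - 8 * u := by
  simp only [hp, Piece.val]; ring

theorem rp_val (P : PS W η) (h u : ℝ) (K : Cl W) (q : Prm W) (w v : W) (b : Bool) :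
    (P.rp h u K q w b).val P.f v =
      q.A + h / 50000 - (if b then 1 else 2) * u - P.ramp h K q b v := by
  simp only [rp, Piece.val]; ring

theorem Hp_le (P : PS W η) (θ h u : ℝ) (K : Cl W) (q : Prm W) (w : W) (k : Fin 6) :
    (P.Hp θ h u K q w).val P.f w ≤ (P.hp θ h u K q k).val P.f w :=
  am6_le (fun k => (P.hp θ h u K q k).val P.f w) k

theorem le_Hp {w : W} {m : ℝ} (hm : ∀ k, m ≤ (P.hp θ h u K q k).val P.f w) :
    m ≤ (P.Hp θ h u K q w).val P.f w := hm _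

theorem Qp_val (P : PS W η) (h u : ℝ) (K : Cl W) (q : Prm W) (w : W) :
    (P.Qp h u K q w).val P.f w =
      max ((P.rp h u K q w true).val P.f w) ((P.rp h u K q w false).val P.f w) := by
  unfold Qp; split_ifs with h1
  · exact (max_eq_left h1).symm
  · exact (max_eq_right (not_le.1 h1).le).symm

theorem Mp_val (P : PS W η) (θ h u : ℝ) (K : Cl W) (q : Prm W) (w : W) :
    (P.Mp θ h u K q w).val P.f w =
      min ((P.Hp θ h u K q w).val P.f w) ((P.Qp h u K q w).val P.f w) := by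
  unfold Mp; split_ifs with h1
  · exact (min_eq_left h1).symm
  · exact (min_eq_right (not_le.1 h1).le).symm

theorem Mp_le_hp (P : PS W η) (θ h u : ℝ) (K : Cl W) (q : Prm W) (w : W) (k : Fin 6) :
    (P.Mp θ h u K q w).val P.f w ≤ (P.hp θ h u K q k).val P.f w := by
  rw [Mp_val]; exact (min_le_left _ _).trans (P.Hp_le θ h u K q w k)

theorem Mp_le_Qp (P : PS W η) (θ h u : ℝ) (K : Cl W) (q : Prm W) (w : W) :
    (P.Mp θ h u K q w).val P.f w ≤ (P.Qp h u K q w).val P.f w := by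
  rw [Mp_val]; exact min_le_right _ _

theorem rp_le_Qp (P : PS W η) (h u : ℝ) (K : Cl W) (q : Prm W) (w : W) (b : Bool) :
    (P.rp h u K q w b).val P.f w ≤ (P.Qp h u K q w).val P.f w := by
  rw [Qp_val]; cases b
  · exact le_max_right _ _
  · exact le_max_left _ _

/-- lower bound for the selected piece -/
theorem le_Mp {w : W} {m : ℝ} (hm : ∀ k, m ≤ (P.hp θ h u K q k).val P.f w) (b : Bool)
    (hb : m ≤ (P.rp h u K q w b).val P.f w) : m ≤ (P.Mp θ h u K q w).val P.f w := by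
  rw [Mp_val]; exact le_min (le_Hp hm) (hb.trans (P.rp_le_Qp h u K q w b))

/-- the new value `G'` -/
noncomputable def pv (P : PS W η) (θ h u : ℝ) (K : Cl W) (q : Prm W) (G : W → ℝ) (w : W) : ℝ :=
  max (G w) ((P.Mp θ h u K q w).val P.f w)

theorem pick_none {w : W} :
    P.pick θ h u K q G w = none ↔ (P.Mp θ h u K q w).val P.f w ≤ G w := by
  unfold pick; split_ifs with h1 <;> simp [h1]

theorem pick_some {w : W} {p : Piece W (Kd W)} (hp : P.pick θ h u K q G w = some p) :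
    p = P.Mp θ h u K q w ∧ G w < (P.Mp θ h u K q w).val P.f w := by
  unfold pick at hp
  split_ifs at hp with h1
  exact ⟨(Option.some.inj hp).symm, not_le.1 h1⟩

theorem pick_of_lt {w : W} (h1 : G w < (P.Mp θ h u K q w).val P.f w) :
    P.pick θ h u K q G w = some (P.Mp θ h u K q w) := by
  unfold pick; rw [if_neg (not_le.2 h1)]

theorem pv_none {w : W} (h1 : P.pick θ h u K q G w = none) : P.pv θ h u K q G w = G w :=
  max_eq_left (pick_none.1 h1)

theorem pv_some {w : W} {p : Piece W (Kd W)} (h1 : P.pick θ h u K q G w = some p) :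
    P.pv θ h u K q G w = p.val P.f w := by
  obtain ⟨rfl, h2⟩ := pick_some h1
  exact max_eq_right h2.le

theorem Gn_pick' {s : ZSt W n} {ch : Ch W (Kd W)} {w : W} (hG : (s w).G w = G w)
    (h1 : ch w = P.pick θ h u K q G w) : Gn P.f s ch w = P.pv θ h u K q G w := by
  cases hc : ch w with
  | none => rw [Gn_none hc, pv_none (h1 ▸ hc)]; exact hG
  | some p => rw [Gn_some hc, pv_some (h1 ▸ hc)]

theorem Mp_cases (P : PS W η) (θ h u : ℝ) (K : Cl W) (q : Prm W) (w : W) :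
    (∃ k, P.Mp θ h u K q w = P.hp θ h u K q k) ∨
      ((P.Qp h u K q w).val P.f w < (P.Hp θ h u K q w).val P.f w ∧
        ∃ b, P.Mp θ h u K q w = P.rp h u K q w b) := by
  unfold Mp; split_ifs with h1
  · exact Or.inl ⟨_, rfl⟩
  · refine Or.inr ⟨not_le.1 h1, ?_⟩
    unfold Qp; split_ifs
    · exact ⟨true, rfl⟩
    · exact ⟨false, rfl⟩

theorem hp_ok (hθ : 0 < θ) (k : Fin 6) : (P.hp θ h u K q k).ok θ := by
  have h1 : θ * (1 / θ) = 1 := by field_simp
  have h2 : θ * (-1 / θ) = -1 := by field_simp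
  fin_cases k
  · show |θ * 0| ≤ 1
    simp
  · show |θ * (1 / θ)| ≤ 1
    rw [h1]; simp
  · show |θ * (-1 / θ)| ≤ 1
    rw [h2]; simp
  · show |θ * (-1 / θ)| ≤ 1
    rw [h2]; simp
  · exact Or.inl rfl
  · exact Or.inr rfl

theorem pick_ok (hθ : 0 < θ) {w : W} {p : Piece W (Kd W)} (hp : P.pick θ h u K q G w = some p) :
    p.ok θ := by
  obtain ⟨rfl, _⟩ := pick_some hp
  rcases P.Mp_cases θ h u K q w with ⟨k, e⟩ | ⟨_, b, e⟩ <;> rw [e]
  · exact hp_ok hθ k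
  · exact Or.inr rfl

theorem kept_low (hu : 0 ≤ u) (hq : P.OpOK θ h K G q) {w : W} (hw : w ∈ K.R) (h1 : G w < q.B) :
    P.pick θ h u K q G w = none := by
  refine pick_none.2 ((P.Mp_le_Qp θ h u K q w).trans ?_)
  have h2 := (hq.low w hw h1).2
  rw [Qp_val, rp_val, rp_val]
  refine max_le ?_ ?_
  · have := h2 true
    simp only [if_true]; linarith
  · have := h2 false
    simp only [Bool.false_eq_true, if_false]; linarith

theorem kept_e (hθ : 0 < θ) (hu : 0 ≤ u) {w : W} (h1 : q.e ≤ P.f w + θ * G w) :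
    P.pick θ h u K q G w = none := by
  refine pick_none.2 ((P.Mp_le_hp θ h u K q w 3).trans ?_)
  rw [hp3_val]
  have : (q.e - P.f w) / θ ≤ G w := by rw [div_le_iff₀ hθ]; linarith
  linarith

theorem pv_ge (P : PS W η) (θ h u : ℝ) (K : Cl W) (q : Prm W) (G : W → ℝ) (w : W) :
    G w ≤ P.pv θ h u K q G w := le_max_left _ _

theorem pick_amp (hh : 0 < h) (hu : 0 ≤ u) (hq : P.OpOK θ h K G q) {w : W} (hw : w ∈ K.R) :
    P.pv θ h u K q G w ≤ G w + 200 * h := by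
  rcases lt_or_ge (G w) q.B with h1 | h1
  · rw [pv_none (kept_low hu hq hw h1)]; linarith
  · refine max_le (by linarith) ((P.Mp_le_hp θ h u K q w 0).trans ?_)
    rw [hp0_val]
    linarith [hq.amp]

theorem pick_bdry (hθ : 0 < θ) (hu : 0 ≤ u) (hK : P.ClOK h K) (hq : P.OpOK θ h K G q) {w v : W}
    (hw : w ∈ K.R) (a : P.G.Adj w v) (hv : v ∉ K.R) : P.pick θ h u K q G w = none := by
  rcases lt_or_ge (G w) q.B with h1 | h1
  · exact kept_low hu hq hw h1
  refine pick_none.2 ?_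
  rcases hK.bdry hw hv a with h2 | h2 | h2 | h2
  · refine (P.Mp_le_hp θ h u K q w 1).trans ?_
    rw [hp1_val]
    have := div_nonpos_of_nonpos_of_nonneg h2 hθ.le
    linarith
  · refine (P.Mp_le_hp θ h u K q w 2).trans ?_
    rw [hp2_val]
    have := div_nonpos_of_nonpos_of_nonneg h2 hθ.le
    linarith
  · refine (P.Mp_le_hp θ h u K q w 4).trans ?_
    rw [hp4_val]; linarith
  · refine (P.Mp_le_hp θ h u K q w 5).trans ?_
    rw [hp5_val]; linarith

theorem hp_lip (hθ : 0 < θ) (hθ1 : θ ≤ 1) (hK : P.ClOK h K) {x y : W} (hx : x ∈ K.C)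
    (hy : y ∈ K.C) (a : P.G.Adj x y) (k : Fin 6) :
    θ * ((P.hp θ h u K q k).val P.f x - (P.hp θ h u K q k).val P.f y) ≤ |P.f x - P.f y| := by
  have h0 := abs_nonneg (P.f x - P.f y)
  have h1 := le_abs_self (P.f x - P.f y)
  have h2 := neg_abs_le (P.f x - P.f y)
  have h3 := abs_le.1 (hK.al_lip hx hy a)
  have hne := hθ.ne'
  fin_cases k
  · show θ * ((P.hp θ h u K q 0).val P.f x - (P.hp θ h u K q 0).val P.f y) ≤ _
    rw [hp0_val, hp0_val]; simp
  · show θ * ((P.hp θ h u K q 1).val P.f x - (P.hp θ h u K q 1).val P.f y) ≤ _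
    rw [hp1_val, hp1_val]
    refine le_of_eq_of_le (b := P.f x - P.f y) ?_ h1
    field_simp; ring
  · show θ * ((P.hp θ h u K q 2).val P.f x - (P.hp θ h u K q 2).val P.f y) ≤ _
    rw [hp2_val, hp2_val]
    refine le_of_eq_of_le (b := -(P.f x - P.f y)) ?_ (by linarith)
    field_simp; ring
  · show θ * ((P.hp θ h u K q 3).val P.f x - (P.hp θ h u K q 3).val P.f y) ≤ _
    rw [hp3_val, hp3_val]
    refine le_of_eq_of_le (b := -(P.f x - P.f y)) ?_ (by linarith)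
    field_simp; ring
  · show θ * ((P.hp θ h u K q 4).val P.f x - (P.hp θ h u K q 4).val P.f y) ≤ _
    rw [hp4_val, hp4_val]
    nlinarith [h3.1, h3.2]
  · show θ * ((P.hp θ h u K q 5).val P.f x - (P.hp θ h u K q 5).val P.f y) ≤ _
    rw [hp5_val, hp5_val]
    nlinarith [h3.1, h3.2]

theorem Hp_lip (hθ : 0 < θ) (hθ1 : θ ≤ 1) (hK : P.ClOK h K) {x y : W} (hx : x ∈ K.C)
    (hy : y ∈ K.C) (a : P.G.Adj x y) :
    θ * ((P.Hp θ h u K q x).val P.f x - (P.Hp θ h u K q y).val P.f y) ≤ |P.f x - P.f y| := by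
  have h1 := hp_lip (u := u) (q := q) hθ hθ1 hK hx hy a
    (am6 fun k => (P.hp θ h u K q k).val P.f y)
  have h2 := P.Hp_le θ h u K q x (am6 fun k => (P.hp θ h u K q k).val P.f y)
  refine le_trans (mul_le_mul_of_nonneg_left ?_ hθ.le) h1
  exact sub_le_sub h2 le_rfl

theorem ramp_N {w : W} (hw : w ∈ q.N) (b : Bool) : P.ramp h K q b w = 0 := by
  unfold ramp; rw [if_pos hw]

theorem ramp_nN {w : W} (hw : w ∉ q.N) (b : Bool) :
    P.ramp h K q b w = 2 * P.FF (P.Lf b) K.C q.N (10000 * h) w := by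
  unfold ramp; rw [if_neg hw]

theorem ramp_nonneg (hh : 0 ≤ h) (b : Bool) (w : W) : 0 ≤ P.ramp h K q b w := by
  unfold ramp; split_ifs
  · exact le_rfl
  · exact mul_nonneg zero_le_two (P.FF_nonneg _ _ _ (by linarith) w)

/-- near `N` one of the ramps is small -/
theorem ramp_near (hN : P.TClosed K.C q.N) {b w : W} {L : ℝ} (hb : b ∈ q.N)
    (hw : P.Wk K.C b w L) : ∃ c, P.ramp h K q c w ≤ 2 * L := by
  by_cases h1 : w ∈ q.N
  · exact ⟨true, by rw [ramp_N h1]; linarith [hw.nonneg]⟩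
  · rcases min_le_iff.1 (FF_near (cap := 10000 * h) hN hb h1 hw) with h2 | h2
    · exact ⟨true, by rw [ramp_nN h1]; exact mul_le_mul_of_nonneg_left h2 zero_le_two⟩
    · exact ⟨false, by rw [ramp_nN h1]; exact mul_le_mul_of_nonneg_left h2 zero_le_two⟩

/-- within `h / 100000` of `N` the ramps are inactive -/
theorem Hp_le_Qp (hu : 0 ≤ u) (hN : P.TClosed K.C q.N) {b w : W} {L : ℝ} (hb : b ∈ q.N)
    (hw : P.Wk K.C b w L) (hL : L ≤ h / 100000) :
    (P.Hp θ h u K q w).val P.f w ≤ (P.Qp h u K q w).val P.f w := by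
  obtain ⟨c, hc⟩ := ramp_near (h := h) hN hb hw
  refine (P.Hp_le θ h u K q w 0).trans (le_trans ?_ (P.rp_le_Qp h u K q w c))
  rw [hp0_val, rp_val]
  split_ifs <;> linarith

theorem Mp_eq_Hp (hu : 0 ≤ u) (hN : P.TClosed K.C q.N) {b w : W} {L : ℝ} (hb : b ∈ q.N)
    (hw : P.Wk K.C b w L) (hL : L ≤ h / 100000) : P.Mp θ h u K q w = P.Hp θ h u K q w := by
  unfold Mp; rw [if_pos (Hp_le_Qp hu hN hb hw hL)]

theorem sameGap_Lf (hN : P.TClosed K.C q.N) {x y : W} (hx : x ∈ K.C) (hxN : x ∉ q.N)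
    (hy : y ∈ K.C) (hyN : y ∉ q.N) (g : SameGap P.Lt q.N x y) (b : Bool) :
    SameGap (P.Lf b) q.N x y := by
  cases b
  · exact SameGap.flip P.lr hN hx hxN hy hyN g
  · exact g

theorem ramp_lip (hK : P.ClOK h K) (hN : P.TClosed K.C q.N) {x y : W} (hx : x ∈ K.C)
    (hxN : x ∉ q.N) (hy : y ∈ K.C) (hyN : y ∉ q.N) (g : SameGap P.Lt q.N x y)
    (a : P.G.Adj x y) (b : Bool) :
    |P.ramp h K q b x - P.ramp h K q b y| ≤ 2 * |P.f x - P.f y| := by
  rw [ramp_nN hxN, ramp_nN hyN, ← mul_sub, abs_mul, abs_two]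
  exact mul_le_mul_of_nonneg_left (FF_lip (P.lr_Lf b) hK.cvx hx hy a
    (sameGap_Lf hN hx hxN hy hyN g b)) zero_le_two

theorem Mp_lip (hθ : 0 < θ) (hθ1 : θ ≤ 1 / 2) (hh : 0 < h) (hu : 0 ≤ u) (hK : P.ClOK h K)
    (hN : P.TClosed K.C q.N) {x y : W} (hx : x ∈ K.C) (hy : y ∈ K.C) (a : P.G.Adj x y)
    (g : x ∈ q.N ∨ y ∈ q.N ∨ SameGap P.Lt q.N x y) :
    θ * ((P.Mp θ h u K q x).val P.f x - (P.Mp θ h u K q y).val P.f y) ≤ |P.f x - P.f y| := by
  have hH := Hp_lip (u := u) (q := q) hθ (by linarith) hK hx hy a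
  have h0 : (0 : ℝ) ≤ h / 100000 := by positivity
  by_cases hyN : y ∈ q.N
  · rw [Mp_eq_Hp hu hN hyN (Wk.nil hy) h0]
    refine le_trans (mul_le_mul_of_nonneg_left (sub_le_sub ?_ le_rfl) hθ.le) hH
    rw [Mp_val]; exact min_le_left _ _
  by_cases hxN : x ∈ q.N
  · rw [Mp_eq_Hp hu hN hxN (wk_ch hx hy (hN.ch_of_adj hxN hy hyN a)) h0]
    refine le_trans (mul_le_mul_of_nonneg_left (sub_le_sub ?_ le_rfl) hθ.le) hH
    rw [Mp_val]; exact min_le_left _ _
  have g' : SameGap P.Lt q.N x y := (g.resolve_left hxN).resolve_left hyN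
  have hQ : θ * ((P.Qp h u K q x).val P.f x - (P.Qp h u K q y).val P.f y) ≤
      |P.f x - P.f y| := by
    have h1 : (P.Qp h u K q x).val P.f x ≤ (P.Qp h u K q y).val P.f y + 2 * |P.f x - P.f y| := by
      rw [P.Qp_val h u K q x]
      have k : ∀ b, (P.rp h u K q x b).val P.f x ≤
          (P.Qp h u K q y).val P.f y + 2 * |P.f x - P.f y| := fun b => by
        have h2 := P.rp_le_Qp h u K q y b
        have h3 := abs_le.1 (ramp_lip hK hN hx hxN hy hyN g' a b)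
        rw [rp_val] at h2 ⊢
        linarith [h3.1]
      exact max_le (k true) (k false)
    have h2 := abs_nonneg (P.f x - P.f y)
    nlinarith
  rw [P.Mp_val θ h u K q y]
  rcases le_total ((P.Hp θ h u K q y).val P.f y) ((P.Qp h u K q y).val P.f y) with e | e
  · rw [min_eq_left e]
    refine le_trans (mul_le_mul_of_nonneg_left (sub_le_sub ?_ le_rfl) hθ.le) hH
    rw [Mp_val]; exact min_le_left _ _
  · rw [min_eq_right e]
    exact le_trans (mul_le_mul_of_nonneg_left (sub_le_sub (P.Mp_le_Qp θ h u K q x) le_rfl)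
      hθ.le) hQ

theorem kept_cross (hθ : 0 < θ) (hu : 0 ≤ u) (hq : P.OpOK θ h K G q) {p p' w : W} {L : ℝ}
    (hp : p ∈ K.C) (hp' : p' ∈ K.C) (hpN : p ∉ q.N) (hpN' : p' ∉ q.N) (hc : P.ch p p')
    (g : ¬ SameGap P.Lt q.N p p') (hw : w ∈ K.R) (hL : P.Wk K.C p w L) (hL1 : L ≤ h / 100000) :
    P.pick θ h u K q G w = none := by
  rcases hq.cross p hp p' hp' hpN hpN' hc g w hw L hL hL1 with h1 | h1
  · exact kept_low hu hq hw h1
  · exact kept_e hθ hu h1

theorem pick_edge (hθ : 0 < θ) (hθ1 : θ ≤ 1 / 2) (hh : 0 < h) (hu : 0 ≤ u) (hK : P.ClOK h K)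
    (hq : P.OpOK θ h K G q) {x y : W} (hx : x ∈ K.R) (hy : y ∈ K.R) (a : P.G.Adj x y)
    (hG : |G x - G y| ≤ 2 * |P.f x - P.f y|) :
    (P.pick θ h u K q G x = none ∧ P.pick θ h u K q G y = none) ∨
      |θ * (P.pv θ h u K q G x - P.pv θ h u K q G y)| ≤ |P.f x - P.f y| := by
  have hxC := hK.R_sub hx
  have hyC := hK.R_sub hy
  by_cases g : x ∈ q.N ∨ y ∈ q.N ∨ SameGap P.Lt q.N x y
  · right
    have h1 := Mp_lip hθ hθ1 hh hu hK hq.tcl hxC hyC a g
    have h2 := Mp_lip hθ hθ1 hh hu hK hq.tcl hyC hxC a.symm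
      (g.elim (fun e => Or.inr (Or.inl e)) fun e => e.elim Or.inl fun e => Or.inr (Or.inr e.symm))
    rw [abs_sub_comm (P.f y)] at h2
    have h3 := abs_le.1 hG
    have h0 := abs_nonneg (P.f x - P.f y)
    have h4 : θ * (G x - G y) ≤ |P.f x - P.f y| := by nlinarith [h3.2]
    have h5 : θ * (G y - G x) ≤ |P.f x - P.f y| := by nlinarith [h3.1]
    have key : ∀ a b c d e : ℝ, θ * (a - c) ≤ e → θ * (b - d) ≤ e →
        θ * (max a b - max c d) ≤ e := fun a b c d e i1 i2 => by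
      rcases le_total a b with e1 | e1
      · rw [max_eq_right e1]
        exact le_trans (mul_le_mul_of_nonneg_left (sub_le_sub le_rfl (le_max_right c d)) hθ.le) i2
      · rw [max_eq_left e1]
        exact le_trans (mul_le_mul_of_nonneg_left (sub_le_sub le_rfl (le_max_left c d)) hθ.le) i1
    have h6 := key _ _ _ _ _ h4 h1
    have h7 := key _ _ _ _ _ h5 h2
    unfold pv
    rw [abs_le]
    constructor <;> linarith
  · left
    push Not at g
    have hc := (gap_cross P.lr hq.tcl hxC g.1 hyC g.2.1 a g.2.2).1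
    have h0 : (0 : ℝ) ≤ h / 100000 := by positivity
    exact ⟨kept_cross hθ hu hq hxC hyC g.1 g.2.1 hc g.2.2 hx (Wk.nil hxC) h0,
      kept_cross hθ hu hq hyC hxC g.2.1 g.1 (P.ch_symm _ _ hc) (fun e => g.2.2 e.symm) hy
        (Wk.nil hyC) h0⟩

theorem isM_dead (P : PS W η) (θ : ℝ) (k : ℕ) (l : Lab W (Kd W) n) (a sl : ℝ) (b : Bool) :
    P.IsM b (l.relabel θ k (.dead a sl)) :=
  ⟨fun u _ v _ _ => by
      show |(0 : ℝ) - 0| ≤ _
      rw [sub_self, abs_zero]; positivity,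
    fun x _ w _ _ => by
      show (0 : ℝ) ≤ 0 + _
      positivity⟩

theorem isU_al (hK : P.ClOK h K) (θ : ℝ) (k : ℕ) (l : Lab W (Kd W) n) (a e : ℝ) :
    P.IsU (l.relabel θ k (.live a e (P.al K.C) ⟨K.C, K.lo, K.lo + h⟩)) :=
  ⟨_, rfl, hK.al_UOn, fun _ hv _ a h1 h2 => hK.C_closed hv a h1 h2⟩

theorem isM_ramp (hK : P.ClOK h K) (hN : P.TClosed K.C q.N) (θ : ℝ) (k : ℕ)
    (l : Lab W (Kd W) n) (w : W) (b : Bool) :
    P.IsM b (l.relabel θ k (P.rp h u K q w b)) := by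
  refine ⟨fun x hx y hy a => ?_, fun x hx y hy a => ?_⟩
  · exact ramp_lip hK hN hx.1 hx.2.1 hy.1 hy.2.1 (hx.2.2.trans hy.2.2.symm) a b
  · show P.ramp h K q b x ≤ P.ramp h K q b y + 2 * |P.f x - P.f y|
    have g := sameGap_Lf hN hx.1 hx.2.1 hy.1 hy.2.1 (hx.2.2.trans hy.2.2.symm) b
    have := FF_mono (P := P) (C := K.C) (cap := 10000 * h) (fun c hc => (g c hc).2)
      fun z e => (P.lr_Lf b).trans _ _ _ e a
    rw [ramp_nN hx.2.1, ramp_nN hy.2.1]
    linarith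

theorem pick_kinv (hh : 0 < h) (hu : 0 ≤ u) (hK : P.ClOK h K) (hN : P.TClosed K.C q.N) {w : W}
    (hw : w ∈ K.C) {p : Piece W (Kd W)} (hp : P.pick θ h u K q G w = some p) (k : ℕ)
    (l : Lab W (Kd W) n) : w ∈ (l.relabel θ k p).dom ∧
      (P.IsU (l.relabel θ k p) ∨ ∃ b, P.IsM b (l.relabel θ k p)) := by
  obtain ⟨rfl, _⟩ := pick_some hp
  rcases P.Mp_cases θ h u K q w with ⟨i, e⟩ | ⟨h1, b, e⟩ <;> rw [e]
  · fin_cases i
    · exact ⟨trivial, Or.inr ⟨true, P.isM_dead θ k l _ _ true⟩⟩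
    · exact ⟨trivial, Or.inr ⟨true, P.isM_dead θ k l _ _ true⟩⟩
    · exact ⟨trivial, Or.inr ⟨true, P.isM_dead θ k l _ _ true⟩⟩
    · exact ⟨trivial, Or.inr ⟨true, P.isM_dead θ k l _ _ true⟩⟩
    · exact ⟨hw, Or.inl (isU_al hK θ k l _ _)⟩
    · exact ⟨hw, Or.inl (isU_al hK θ k l _ _)⟩
  · refine ⟨⟨hw, fun hN' => ?_, SameGap.refl _ _ _⟩, Or.inr ⟨b, isM_ramp hK hN θ k l w b⟩⟩
    exact absurd (Hp_le_Qp hu hN hN' (Wk.nil hw) (by positivity)) (not_le.2 h1)

theorem n0_le [Finite W] (K : Cl W) (G : W → ℝ) {w : W} (hw : w ∈ K.R) : n0 K G ≤ G w :=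
  csInf_le (Set.toFinite _).bddBelow ⟨w, hw, rfl⟩

theorem le_n0 {K : Cl W} {G : W → ℝ} {m : ℝ} (hne : K.R.Nonempty) (hm : ∀ w ∈ K.R, m ≤ G w) :
    m ≤ n0 K G := le_csInf (hne.image G) (by rintro _ ⟨w, hw, rfl⟩; exact hm w hw)

theorem opOK2 [Finite W] (P : PS W η) (θ h : ℝ) (K : Cl W) (G : W → ℝ) :
    P.OpOK θ h K G (prm2 θ h K G) where
  tcl := ⟨fun _ h => h, fun _ hu _ hv _ => ⟨fun _ => hv, fun _ => hu⟩⟩
  amp := le_rfl
  low := fun _ hw h1 => absurd (n0_le K G hw) (not_le.2 h1)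
  cross := fun _ hp _ _ h1 => absurd hp h1

end vals

section level

variable {θ h : ℝ} {M : ℕ} {s : ZSt W n}

theorem clJ_ok (P : PS W η) (hh : 0 < h) (j : Jit M) (x : W) : P.ClOK h (P.clJ h j x) :=
  P.cl_ok hh _ _ x

theorem mem_clJ_self (P : PS W η) (hh : 0 < h) (j : Jit M) (x : W) : x ∈ (P.clJ h j x).R :=
  P.mem_cl_self hh _ _ x

theorem clJ_congr (hh : 0 < h) {j : Jit M} {x y : W} (hy : y ∈ (P.clJ h j x).R) :
    P.clJ h j y = P.clJ h j x := cl_congr hh hy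

theorem Allowed.congr {t : Fin 3} {K : Cl W} {x y : W} (hA : P.Allowed s t K x) (hy : y ∈ K.R) :
    P.Allowed s t K y := by
  have e := hA.1 y hy
  exact ⟨fun z hz => (hA.1 z hz).trans e.symm, by rw [e]; exact hA.2⟩

theorem KInv.lip (hs : P.KInv s) {x y : W} (e : s y = s x) (a : P.G.Adj x y) :
    |(s x).G x - (s x).G y| ≤ 2 * |P.f x - P.f y| := by
  have hy : y ∈ (s x).dom := e ▸ (hs y).1
  have hx := (hs x).1
  rcases (hs x).2 with ⟨κ, h1, h2, _⟩ | ⟨b, h1, _⟩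
  · unfold Lab.dom at hx hy
    rw [h1] at hx hy
    have := h2.1 x hx y hy a
    linarith [abs_nonneg (P.f x - P.f y)]
  · exact h1 x hx y hy a

theorem chs_pos {ω : Om M W} {x : W}
    (h1 : P.Allowed s ω.2.1 (P.clJ h ω.1 x) x ∧ ω.2.2 (P.clJ h ω.1 x).R = true) :
    P.chs θ h s ω x = P.pickJ θ h s ω.1 ω.2.1 x := by unfold chs; rw [if_pos h1]

theorem chs_neg {ω : Om M W} {x : W}
    (h1 : ¬ (P.Allowed s ω.2.1 (P.clJ h ω.1 x) x ∧ ω.2.2 (P.clJ h ω.1 x).R = true)) :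
    P.chs θ h s ω x = none := by unfold chs; rw [if_neg h1]

/-- the operation is admissible on every allowed cluster -/
def HOp (P : PS W η) (θ h : ℝ) (M : ℕ) (s : ZSt W n) : Prop :=
  ∀ (j : Jit M) (t : Fin 3) (x : W), P.Allowed s t (P.clJ h j x) x →
    P.OpOK θ h (P.clJ h j x) (s x).G (P.prmJ θ h j t (P.clJ h j x) (s x).G)

theorem chs_bdry (hL : Lv θ h η) (hop : P.HOp θ h M s) (ω : Om M W) {x y : W} (a : P.G.Adj x y)
    (hy : y ∉ (P.clJ h ω.1 x).R) : P.chs θ h s ω x = none := by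
  by_cases h1 : P.Allowed s ω.2.1 (P.clJ h ω.1 x) x ∧ ω.2.2 (P.clJ h ω.1 x).R = true
  · rw [chs_pos h1]
    exact pick_bdry hL.og_th_pos (og_off_nonneg (by linarith [hL.pos]) _) (P.clJ_ok hL.pos _ x)
      (hop _ _ x h1.1) (P.mem_clJ_self hL.pos _ x) a hy
  · exact chs_neg h1

theorem chs_ok (hL : Lv θ h η) (hs : P.KInv s) (hop : P.HOp θ h M s) (ω : Om M W) :
    OK θ P.f P.G.Adj s (P.chs θ h s ω) (200 * h) := by
  have hh := hL.pos
  have hu : 0 ≤ off (h / 1000) ω.1.2.2.2 := og_off_nonneg (by linarith) _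
  refine ⟨fun v p hp => ?_, fun x y a => ?_, fun v => ?_⟩
  · by_cases h1 : P.Allowed s ω.2.1 (P.clJ h ω.1 v) v ∧ ω.2.2 (P.clJ h ω.1 v).R = true
    · rw [chs_pos h1] at hp
      exact pick_ok hL.og_th_pos hp
    · rw [chs_neg h1] at hp; cases hp
  · by_cases hy : y ∈ (P.clJ h ω.1 x).R
    · have e := clJ_congr hh hy
      have hx := P.mem_clJ_self hh ω.1 x
      by_cases h1 : P.Allowed s ω.2.1 (P.clJ h ω.1 x) x ∧ ω.2.2 (P.clJ h ω.1 x).R = true
      · have es := h1.1.1 y hy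
        have h2 : P.Allowed s ω.2.1 (P.clJ h ω.1 y) y ∧ ω.2.2 (P.clJ h ω.1 y).R = true := by
          rw [e]; exact ⟨h1.1.congr hy, h1.2⟩
        have c1 := chs_pos (θ := θ) h1
        have c2 := chs_pos (θ := θ) h2
        unfold pickJ at c1 c2
        rw [e, es] at c2
        rcases pick_edge (u := off (h / 1000) ω.1.2.2.2) hL.og_th_pos (by linarith [hL.og_th_le]) hh hu
          (P.clJ_ok hh ω.1 x) (hop _ _ x h1.1) hx hy a (hs.lip es a) with h3 | h3
        · exact Or.inl ⟨Gn_none (c1.trans h3.1), Gn_none (c2.trans h3.2)⟩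
        · refine Or.inr ⟨es.symm, ?_⟩
          rw [Gn_pick' rfl c1, Gn_pick' (by rw [es]) c2]
          exact h3
      · have h2 : ¬ (P.Allowed s ω.2.1 (P.clJ h ω.1 y) y ∧ ω.2.2 (P.clJ h ω.1 y).R = true) := by
          rw [e]; exact fun h3 => h1 ⟨h3.1.congr hx, h3.2⟩
        exact Or.inl ⟨Gn_none (chs_neg h1), Gn_none (chs_neg h2)⟩
    · have hx : x ∉ (P.clJ h ω.1 y).R := fun hx => hy (by
        rw [clJ_congr hh hx]; exact P.mem_clJ_self hh ω.1 y)
      exact Or.inl ⟨Gn_none (chs_bdry hL hop ω a hy), Gn_none (chs_bdry hL hop ω a.symm hx)⟩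
  · by_cases h1 : P.Allowed s ω.2.1 (P.clJ h ω.1 v) v ∧ ω.2.2 (P.clJ h ω.1 v).R = true
    · have c1 := chs_pos (θ := θ) h1
      unfold pickJ at c1
      rw [Gn_pick' rfl c1, abs_le]
      have h2 := pick_amp hh hu (hop _ _ v h1.1) (P.mem_clJ_self hh ω.1 v)
      have h3 := P.pv_ge θ h (off (h / 1000) ω.1.2.2.2) (P.clJ h ω.1 v)
        (P.prmJ θ h ω.1 ω.2.1 (P.clJ h ω.1 v) (s v).G) (s v).G v
      unfold Gv
      constructor <;> linarith
    · rw [Gn_none (chs_neg h1), sub_self, abs_zero]; linarith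

theorem kinv_stp (hL : Lv θ h η) (hs : P.KInv s) (hop : P.HOp θ h M s) (k : ℕ) (ω : Om M W) :
    P.KInv (P.stp θ h k s ω) := by
  intro v
  unfold stp
  cases hc : P.chs θ h s ω v with
  | none => rw [step_none hc]; exact hs v
  | some p =>
    rw [step_some hc]
    by_cases h1 : P.Allowed s ω.2.1 (P.clJ h ω.1 v) v ∧ ω.2.2 (P.clJ h ω.1 v).R = true
    · rw [chs_pos h1] at hc
      exact pick_kinv hL.pos (og_off_nonneg (by linarith [hL.pos]) _) (P.clJ_ok hL.pos _ v)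
        (hop _ _ v h1.1).tcl ((P.clJ_ok hL.pos _ v).R_sub (P.mem_clJ_self hL.pos _ v)) hc k _
    · rw [chs_neg h1] at hc; cases hc

theorem good_stp (hL : Lv θ h η) {k : ℕ} (hs : P.Good θ k s) (hop : P.HOp θ h M s)
    (ω : Om M W) : P.Good θ (k + 1) (P.stp θ h k s ω) :=
  ⟨hs.1.step (chs_ok hL hs.2 hop ω), kinv_stp hL hs.2 hop k ω⟩

theorem og_good_init (P : PS W η) (θ : ℝ) : P.Good θ 0 (init : ZSt W n) :=
  ⟨inv_init, fun _ => ⟨trivial, Or.inr ⟨true,
    fun u _ v _ _ => by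
      show |(0 : ℝ) - 0| ≤ _
      rw [sub_self, abs_zero]; positivity,
    fun x _ w _ _ => by
      show (0 : ℝ) ≤ 0 + _
      positivity⟩⟩⟩

/-- `HOp` follows from the facts on O4 -/
theorem hop_of [Finite W]
    (h4 : ∀ (ν : ℝ) (K : Cl W) (G : W → ℝ), 0 ≤ ν → ν ≤ 10000 * h → P.ClOK h K → P.UOn K.C G →
      P.OpOK θ h K G (P.prm4 θ h ν K G)) (hh : 0 < h) : P.HOp θ h M s := by
  intro j t x hA
  unfold prmJ
  split_ifs with ht
  · exact P.opOK2 θ h _ _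
  · exact h4 _ _ _ (og_off_nonneg (by linarith) _) (og_off_lt (by linarith) _).le (P.clJ_ok hh j x)
      (hA.2.resolve_left ht).2

end level

end PS

end Crest.Agent.R206
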