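import Crest.Agent.R206.ZState

/-! # Row 206 (planar): selection of the active piece of `max (x 0) (min …)` (helper66). -/

set_option autoImplicit false

namespace Crest.Agent.R206.ZS

open Classical in
/-- index of the first minimum of `x` over `a :: l` -/
noncomputable def amin (x : ℕ → ℝ) (a : ℕ) (l : List ℕ) : ℕ :=
  l.foldl (fun c j => if x j < x c then j else c) a

theorem amin_nil (x : ℕ → ℝ) (a : ℕ) : amin x a [] = a := rfl

open Classical in
theorem amin_cons (x : ℕ → ℝ) (a j : ℕ) (l : List ℕ) :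
    amin x a (j :: l) = amin x (if x j < x a then j else a) l := rfl

theorem amin_mem (x : ℕ → ℝ) (a : ℕ) (l : List ℕ) : amin x a l ∈ a :: l := by
  induction l generalizing a with
  | nil => simp [amin_nil]
  | cons j l ih =>
    rw [amin_cons]
    have := ih (if x j < x a then j else a)
    rcases List.mem_cons.1 this with h | h
    · rw [h]; split_ifs <;> simp
    · simp [h]

theorem amin_val (x : ℕ → ℝ) (a : ℕ) (l : List ℕ) :
    x (amin x a l) = (l.map x).foldl min (x a) := by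
  induction l generalizing a with
  | nil => rfl
  | cons j l ih =>
    rw [amin_cons, ih, List.map_cons, List.foldl_cons]
    congr 1
    split_ifs with h
    · exact (min_eq_right h.le).symm
    · exact (min_eq_left (not_lt.1 h)).symm

theorem amin_congr {x y : ℕ → ℝ} {a : ℕ} {l : List ℕ}
    (h : ∀ i ∈ a :: l, ∀ j ∈ a :: l, (x i < x j ↔ y i < y j)) : amin x a l = amin y a l := by
  induction l generalizing a with
  | nil => rfl
  | cons j l ih =>
    rw [amin_cons, amin_cons]
    have h1 : x j < x a ↔ y j < y a := h j (by simp) a (by simp)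
    have h2 : (if x j < x a then j else a) = (if y j < y a then j else a) := by
      by_cases h3 : x j < x a
      · rw [if_pos h3, if_pos (h1.1 h3)]
      · rw [if_neg h3, if_neg (fun h4 => h3 (h1.2 h4))]
    rw [← h2]
    refine ih fun i hi k hk => h i ?_ k ?_
    · rcases List.mem_cons.1 hi with e | e
      · rw [e]; split_ifs <;> simp
      · simp [e]
    · rcases List.mem_cons.1 hk with e | e
      · rw [e]; split_ifs <;> simp
      · simp [e]

/-- the minimum of the pieces of O2 -/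
noncomputable def m2 (x : ℕ → ℝ) : ℝ := min (x 1) (min (x 2) (min (x 3) (min (x 4) (x 5))))

/-- the minimum of the pieces `1 … 6` of O4 -/
noncomputable def m6 (x : ℕ → ℝ) : ℝ :=
  min (x 1) (min (x 2) (min (x 3) (min (x 4) (min (x 5) (x 6)))))

/-- the minimum of the pieces of O4 -/
noncomputable def m4 (x : ℕ → ℝ) : ℝ := min (m6 x) (max (x 7) (x 8))

open Classical in
/-- active index of `max (x 0) (m2 x)`; `0` = kept (also at ties) -/
noncomputable def sel2 (x : ℕ → ℝ) : ℕ :=
  if x 0 < x (amin x 1 [2, 3, 4, 5]) then amin x 1 [2, 3, 4, 5] else 0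

open Classical in
/-- the larger ramp -/
noncomputable def rmp (x : ℕ → ℝ) : ℕ := if x 7 < x 8 then 8 else 7

open Classical in
/-- the active min-piece of O4 -/
noncomputable def a4 (x : ℕ → ℝ) : ℕ :=
  if x (rmp x) < x (amin x 1 [2, 3, 4, 5, 6]) then rmp x else amin x 1 [2, 3, 4, 5, 6]

open Classical in
/-- active index of `max (x 0) (m4 x)`; `0` = kept (also at ties) -/
noncomputable def sel4 (x : ℕ → ℝ) : ℕ := if x 0 < x (a4 x) then a4 x else 0

theorem amin2_val (x : ℕ → ℝ) : x (amin x 1 [2, 3, 4, 5]) = m2 x := by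
  rw [amin_val x]; simp only [List.map, List.foldl, m2, min_assoc]

theorem amin6_val (x : ℕ → ℝ) : x (amin x 1 [2, 3, 4, 5, 6]) = m6 x := by
  rw [amin_val x]; simp only [List.map, List.foldl, m6, min_assoc]

theorem rmp_val (x : ℕ → ℝ) : x (rmp x) = max (x 7) (x 8) := by
  unfold rmp; split_ifs with h
  · exact (max_eq_right h.le).symm
  · exact (max_eq_left (not_lt.1 h)).symm

theorem a4_val (x : ℕ → ℝ) : x (a4 x) = m4 x := by
  unfold a4 m4; split_ifs with h
  · rw [rmp_val x, amin6_val x] at h; rw [rmp_val x, min_eq_right h.le]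
  · rw [rmp_val x, amin6_val x] at h; rw [amin6_val x, min_eq_left (not_lt.1 h)]

theorem sel2_val (x : ℕ → ℝ) : x (sel2 x) = max (x 0) (m2 x) := by
  unfold sel2; split_ifs with h
  · rw [amin2_val x] at h ⊢; exact (max_eq_right h.le).symm
  · rw [amin2_val x] at h; exact (max_eq_left (not_lt.1 h)).symm

theorem sel4_val (x : ℕ → ℝ) : x (sel4 x) = max (x 0) (m4 x) := by
  unfold sel4; split_ifs with h
  · rw [a4_val x] at h ⊢; exact (max_eq_right h.le).symm
  · rw [a4_val x] at h; exact (max_eq_left (not_lt.1 h)).symm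

theorem amin2_range (x : ℕ → ℝ) : 1 ≤ amin x 1 [2, 3, 4, 5] ∧ amin x 1 [2, 3, 4, 5] ≤ 5 := by
  have := amin_mem x 1 [2, 3, 4, 5]
  simp only [List.mem_cons, List.not_mem_nil, or_false] at this
  omega

theorem amin6_range (x : ℕ → ℝ) :
    1 ≤ amin x 1 [2, 3, 4, 5, 6] ∧ amin x 1 [2, 3, 4, 5, 6] ≤ 6 := by
  have := amin_mem x 1 [2, 3, 4, 5, 6]
  simp only [List.mem_cons, List.not_mem_nil, or_false] at this
  omega

theorem rmp_range (x : ℕ → ℝ) : rmp x = 7 ∨ rmp x = 8 := by
  unfold rmp; split_ifs <;> simp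

theorem a4_range (x : ℕ → ℝ) : 1 ≤ a4 x ∧ a4 x ≤ 8 := by
  have h1 := amin6_range x
  have h2 := rmp_range x
  unfold a4; split_ifs <;> omega

theorem sel2_le (x : ℕ → ℝ) : sel2 x ≤ 5 := by
  have := amin2_range x
  unfold sel2; split_ifs <;> omega

theorem sel4_le (x : ℕ → ℝ) : sel4 x ≤ 8 := by
  have := a4_range x
  unfold sel4; split_ifs <;> omega

theorem sel2_eq_zero {x : ℕ → ℝ} : sel2 x = 0 ↔ m2 x ≤ x 0 := by
  have := amin2_range x
  unfold sel2; rw [amin2_val x]
  split_ifs with h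
  · exact ⟨fun e => by omega, fun e => absurd h (not_lt.2 e)⟩
  · exact ⟨fun _ => not_lt.1 h, fun _ => rfl⟩

theorem sel4_eq_zero {x : ℕ → ℝ} : sel4 x = 0 ↔ m4 x ≤ x 0 := by
  have := a4_range x
  unfold sel4; rw [a4_val x]
  split_ifs with h
  · exact ⟨fun e => by omega, fun e => absurd h (not_lt.2 e)⟩
  · exact ⟨fun _ => not_lt.1 h, fun _ => rfl⟩

theorem m6_le_one (x : ℕ → ℝ) : m6 x ≤ x 1 := min_le_left _ _

/-- an active ramp lies strictly between the old value and the piece `1` -/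
theorem sel4_ramp {x : ℕ → ℝ} (h : 7 ≤ sel4 x) :
    x 0 < x (sel4 x) ∧ x (sel4 x) < x 1 ∧ x (sel4 x) = max (x 7) (x 8) := by
  have h1 := amin6_range x
  have h0 : x 0 < x (a4 x) := by
    by_contra h0
    unfold sel4 at h; rw [if_neg h0] at h; omega
  have e : sel4 x = a4 x := by unfold sel4; rw [if_pos h0]
  rw [e] at h ⊢
  have h2 : x (rmp x) < x (amin x 1 [2, 3, 4, 5, 6]) := by
    by_contra h2
    unfold a4 at h; rw [if_neg h2] at h; omega
  have e2 : a4 x = rmp x := by unfold a4; rw [if_pos h2]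
  refine ⟨h0, ?_, by rw [e2, rmp_val x]⟩
  rw [e2]; rw [amin6_val x] at h2
  exact h2.trans_le (m6_le_one x)

private theorem ite_cg {p q : Prop} [Decidable p] [Decidable q] (h : p ↔ q) {a b c d : ℕ}
    (h1 : a = c) (h2 : b = d) : (if p then a else b) = (if q then c else d) := by
  subst h1 h2
  by_cases hp : p
  · rw [if_pos hp, if_pos (h.1 hp)]
  · rw [if_neg hp, if_neg fun hq => hp (h.2 hq)]

theorem sel2_congr {x y : ℕ → ℝ} (h : ∀ i ≤ 5, ∀ j ≤ 5, (x i < x j ↔ y i < y j)) :
    sel2 x = sel2 y := by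
  have e : amin x 1 [2, 3, 4, 5] = amin y 1 [2, 3, 4, 5] := amin_congr fun i hi j hj => by
    simp only [List.mem_cons, List.not_mem_nil, or_false] at hi hj
    exact h i (by omega) j (by omega)
  unfold sel2
  refine ite_cg ?_ e rfl
  rw [← e]; exact h 0 (by omega) _ (amin2_range x).2

theorem amin6_congr {x y : ℕ → ℝ} (h : ∀ i ≤ 6, ∀ j ≤ 6, (x i < x j ↔ y i < y j)) :
    amin x 1 [2, 3, 4, 5, 6] = amin y 1 [2, 3, 4, 5, 6] := amin_congr fun i hi j hj => by
  simp only [List.mem_cons, List.not_mem_nil, or_false] at hi hj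
  exact h i (by omega) j (by omega)

theorem sel4_congr {x y : ℕ → ℝ} (h : ∀ i ≤ 8, ∀ j ≤ 8, (x i < x j ↔ y i < y j)) :
    sel4 x = sel4 y := by
  have e := amin6_congr (x := x) (y := y) fun i hi j hj => h i (by omega) j (by omega)
  have e1 : rmp x = rmp y := by
    unfold rmp; exact ite_cg (h 7 (by omega) 8 (by omega)) rfl rfl
  have e2 : a4 x = a4 y := by
    unfold a4
    refine ite_cg ?_ e1 e
    rw [← e, ← e1]
    exact h _ (by rcases rmp_range x with h | h <;> omega) _ (by have := amin6_range x; omega)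
  unfold sel4
  refine ite_cg ?_ e2 rfl
  rw [← e2]; exact h 0 (by omega) _ (a4_range x).2

theorem a4_of_inactive {x : ℕ → ℝ} (hx : x 1 ≤ max (x 7) (x 8)) :
    a4 x = amin x 1 [2, 3, 4, 5, 6] := by
  unfold a4
  rw [if_neg]
  rw [rmp_val x, amin6_val x]
  exact not_lt.2 ((m6_le_one x).trans hx)

theorem m4_of_inactive {x : ℕ → ℝ} (hx : x 1 ≤ max (x 7) (x 8)) : m4 x = m6 x :=
  min_eq_left ((m6_le_one x).trans hx)

/-- inactive ramps are ignored -/
theorem sel4_congr_inactive {x y : ℕ → ℝ} (hx : x 1 ≤ max (x 7) (x 8))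
    (hy : y 1 ≤ max (y 7) (y 8)) (h : ∀ i ≤ 6, ∀ j ≤ 6, (x i < x j ↔ y i < y j)) :
    sel4 x = sel4 y := by
  have e := amin6_congr h
  have e2 : a4 x = a4 y := by rw [a4_of_inactive hx, a4_of_inactive hy, e]
  unfold sel4
  refine ite_cg ?_ e2 rfl
  rw [← e2, a4_of_inactive hx]; exact h 0 (by omega) _ (amin6_range x).2

theorem sel4_le_of_inactive {x : ℕ → ℝ} (hx : x 1 ≤ max (x 7) (x 8)) : sel4 x ≤ 6 := by
  have := amin6_range x
  unfold sel4; rw [a4_of_inactive hx]; split_ifs <;> omega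

/-- gaps larger than `2 δ` survive moves of size `δ` -/
theorem order_stable {x y : ℕ → ℝ} {m : ℕ} {δ : ℝ}
    (hg : ∀ i ≤ m, ∀ j ≤ m, i ≠ j → 2 * δ < |x i - x j|) (hm : ∀ i ≤ m, |x i - y i| ≤ δ) :
    ∀ i ≤ m, ∀ j ≤ m, (x i < x j ↔ y i < y j) := by
  intro i hi j hj
  by_cases e : i = j
  · subst e; simp
  have h1 := hg i hi j hj e
  have h2 := abs_le.1 (hm i hi)
  have h3 := abs_le.1 (hm j hj)
  rcases lt_abs.1 h1 with h4 | h4
  · constructor <;> intro h5 <;> linarith [h2.1, h2.2, h3.1, h3.2]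
  · constructor <;> intro h5 <;> linarith [h2.1, h2.2, h3.1, h3.2]

theorem abs_min_le {a b c d L : ℝ} (h1 : |a - c| ≤ L) (h2 : |b - d| ≤ L) :
    |min a b - min c d| ≤ L := (abs_min_sub_min_le_max a b c d).trans (max_le h1 h2)

theorem abs_max_le {a b c d L : ℝ} (h1 : |a - c| ≤ L) (h2 : |b - d| ≤ L) :
    |max a b - max c d| ≤ L := (abs_max_sub_max_le_max a b c d).trans (max_le h1 h2)

theorem m2_lip {x y : ℕ → ℝ} {L : ℝ} (h : ∀ i, 1 ≤ i → i ≤ 5 → |x i - y i| ≤ L) :
    |m2 x - m2 y| ≤ L :=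
  abs_min_le (h 1 (by omega) (by omega)) (abs_min_le (h 2 (by omega) (by omega))
    (abs_min_le (h 3 (by omega) (by omega))
      (abs_min_le (h 4 (by omega) (by omega)) (h 5 (by omega) (by omega)))))

theorem m6_lip {x y : ℕ → ℝ} {L : ℝ} (h : ∀ i, 1 ≤ i → i ≤ 6 → |x i - y i| ≤ L) :
    |m6 x - m6 y| ≤ L :=
  abs_min_le (h 1 (by omega) (by omega)) (abs_min_le (h 2 (by omega) (by omega))
    (abs_min_le (h 3 (by omega) (by omega)) (abs_min_le (h 4 (by omega) (by omega))
      (abs_min_le (h 5 (by omega) (by omega)) (h 6 (by omega) (by omega))))))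

theorem m4_lip {x y : ℕ → ℝ} {L : ℝ} (h : ∀ i, 1 ≤ i → i ≤ 8 → |x i - y i| ≤ L) :
    |m4 x - m4 y| ≤ L :=
  abs_min_le (m6_lip fun i h1 h2 => h i h1 (by omega))
    (abs_max_le (h 7 (by omega) (by omega)) (h 8 (by omega) (by omega)))

variable {W K : Type}

/-- the choice attached to an active index (`0` = kept) -/
def pick (ps : ℕ → Piece W K) (i : ℕ) : Option (Piece W K) := if i = 0 then none else some (ps i)

/-- the vector of values at `v`: old value `g` and the values of the pieces -/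
def vals (f : W → ℝ) (g : ℝ) (ps : ℕ → Piece W K) (v : W) (i : ℕ) : ℝ :=
  if i = 0 then g else (ps i).val f v

theorem vals_zero (f : W → ℝ) (g : ℝ) (ps : ℕ → Piece W K) (v : W) : vals f g ps v 0 = g := rfl

theorem vals_pos (f : W → ℝ) (g : ℝ) (ps : ℕ → Piece W K) (v : W) {i : ℕ} (h : i ≠ 0) :
    vals f g ps v i = (ps i).val f v := if_neg h

theorem pick_zero (ps : ℕ → Piece W K) : pick ps 0 = none := rfl

theorem pick_eq_some {ps : ℕ → Piece W K} {i : ℕ} {p : Piece W K} (h : pick ps i = some p) :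
    i ≠ 0 ∧ p = ps i := by
  unfold pick at h
  split_ifs at h with h0
  exact ⟨h0, (Option.some.inj h).symm⟩

theorem Gn_pick {n : ℕ} {f : W → ℝ} {s : St W K n} {ch : Ch W K} {v : W}
    {ps : ℕ → Piece W K} {i : ℕ} (h : ch v = pick ps i) :
    Gn f s ch v = vals f (Gv s v) ps v i := by
  by_cases h0 : i = 0
  · subst h0; rw [Gn_none h]; rfl
  · rw [Gn_some (p := ps i) (by rw [h]; exact if_neg h0), vals_pos _ _ _ _ h0]

end Crest.Agent.R206.ZS
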