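import Crest.Agent.R206.P4

/-! # Row 206: the triangulated box as a map on the sphere. -/

set_option autoImplicit false
set_option maxHeartbeats 400000

namespace Crest.Agent.R206

/-- edges of the triangular lattice: `(a, 0)` joins `a` to `a + (1, 0)`, `(a, 1)` to `a + (0, 1)`,
`(a, 2)` to `a + (1, 1)` -/
abbrev LE : Type := (ℤ × ℤ) × Fin 3
/-- faces: `(a, false)` has corners `a, a + (1, 0), a + (1, 1)`; `(a, true)` has corners
`a, a + (0, 1), a + (1, 1)` -/
abbrev LF : Type := (ℤ × ℤ) × Bool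

def eT (e : LE) : ℤ × ℤ :=
  if e.2 = 0 then (e.1.1 + 1, e.1.2) else if e.2 = 1 then (e.1.1, e.1.2 + 1) else (e.1.1 + 1, e.1.2 + 1)
def eL (e : LE) : LF :=
  if e.2 = 0 then (e.1, false) else if e.2 = 1 then ((e.1.1 - 1, e.1.2), false) else (e.1, true)
def eR (e : LE) : LF :=
  if e.2 = 0 then ((e.1.1, e.1.2 - 1), true) else if e.2 = 1 then (e.1, true) else (e.1, false)
def fC (f : LF) : Set (ℤ × ℤ) :=
  {f.1, if f.2 then (f.1.1, f.1.2 + 1) else (f.1.1 + 1, f.1.2), (f.1.1 + 1, f.1.2 + 1)}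

/-- the closed box -/
def InB (N : ℕ) (a : ℤ × ℤ) : Prop := 0 ≤ a.1 ∧ a.1 ≤ N ∧ 0 ≤ a.2 ∧ a.2 ≤ N
/-- cells of the box -/
def InF (N : ℕ) (f : LF) : Prop := 0 ≤ f.1.1 ∧ f.1.1 < N ∧ 0 ≤ f.1.2 ∧ f.1.2 < N

instance (N : ℕ) : DecidablePred (InB N) := fun a => by unfold InB; infer_instance
instance (N : ℕ) : DecidablePred (InF N) := fun a => by unfold InF; infer_instance

abbrev BE (N : ℕ) : Type := {e : LE // InB N e.1 ∧ InB N (eT e)}
abbrev BF (N : ℕ) : Type := Option {f : LF // InF N f}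

theorem finite_BE (N : ℕ) : Finite (BE N) := by
  refine Set.Finite.to_subtype (s := {e : LE | InB N e.1 ∧ InB N (eT e)}) ?_
  refine (((Set.finite_Icc (0 : ℤ) N).prod (Set.finite_Icc (0 : ℤ) N)).prod
    Set.finite_univ).subset fun e he => ?_
  obtain ⟨⟨h1, h2, h3, h4⟩, -⟩ := he
  exact ⟨⟨⟨h1, h2⟩, h3, h4⟩, trivial⟩

theorem finite_BF (N : ℕ) : Finite (BF N) := by
  have : Finite {f : LF // InF N f} := by
    refine Set.Finite.to_subtype (s := {f : LF | InF N f}) ?_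
    refine (((Set.finite_Icc (0 : ℤ) N).prod (Set.finite_Icc (0 : ℤ) N)).prod
      Set.finite_univ).subset fun e he => ?_
    obtain ⟨h1, h2, h3, h4⟩ := he
    exact ⟨⟨⟨h1, h2.le⟩, h3, h4.le⟩, trivial⟩
  infer_instance

noncomputable instance (N : ℕ) : Fintype (BE N) := @Fintype.ofFinite _ (finite_BE N)
noncomputable instance (N : ℕ) : Fintype (BF N) := @Fintype.ofFinite _ (finite_BF N)

/-- the face of the box map containing a lattice face -/
def fc (N : ℕ) (f : LF) : BF N := if h : InF N f then some ⟨f, h⟩ else none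

def bCor (N : ℕ) : BF N → Set (ℤ × ℤ)
  | none => {a | InB N a ∧ ¬ (0 < a.1 ∧ a.1 < N ∧ 0 < a.2 ∧ a.2 < N)}
  | some f => fC f.1

/-- extension by zero -/
def ext0 {N : ℕ} (z : BE N → ZMod 2) (e : LE) : ZMod 2 :=
  if h : InB N e.1 ∧ InB N (eT e) then z ⟨e, h⟩ else 0

/-- conservation at every vertex of the lattice -/
def GLoc (Z : LE → ZMod 2) : Prop := ∀ i j : ℤ,
  Z ((i, j), 0) + Z ((i, j), 1) + Z ((i, j), 2) + Z ((i - 1, j), 0) + Z ((i, j - 1), 1) +
    Z ((i - 1, j - 1), 2) = 0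

/-- cycles are the chains with even degrees -/
theorem ev_iff_vertex {D U : Type} [Fintype D] [DecidableEq U] (s t : D → U) (z : D → ZMod 2) :
    Ev s t z ↔ ∀ u, ∑ d, z d * ((if s d = u then 1 else 0) + (if t d = u then 1 else 0)) = 0 := by
  refine ⟨fun h u => h fun x => if x = u then 1 else 0, fun h σ => ?_⟩
  have key : ∀ x ∈ Finset.univ.image s ∪ Finset.univ.image t, σ x =
      ∑ u ∈ Finset.univ.image s ∪ Finset.univ.image t, σ u * if x = u then 1 else 0 := by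
    intro x hx
    simp only [mul_ite, mul_one, mul_zero, Finset.sum_ite_eq, if_pos hx]
  calc ∑ d, z d * (σ (s d) + σ (t d)) = ∑ d, ∑ u ∈ Finset.univ.image s ∪ Finset.univ.image t,
        σ u * (z d * ((if s d = u then 1 else 0) + (if t d = u then 1 else 0))) := by
        refine Finset.sum_congr rfl fun d _ => ?_
        rw [key (s d) (by simp), key (t d) (by simp), ← Finset.sum_add_distrib, Finset.mul_sum]
        exact Finset.sum_congr rfl fun u _ => by ring
    _ = 0 := by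
        rw [Finset.sum_comm]
        exact Finset.sum_eq_zero fun u _ => by rw [← Finset.mul_sum, h u, mul_zero]

theorem ev_iff_loc {N : ℕ} (z : BE N → ZMod 2) :
    Ev (fun e : BE N => e.1.1) (fun e => eT e.1) z ↔ GLoc (ext0 z) := by
  have e0 : ∀ e : LE, ext0 z e = ∑ d : BE N, z d * if d.1 = e then 1 else 0 := by
    intro e
    unfold ext0
    split_ifs with h
    · rw [Finset.sum_eq_single (⟨e, h⟩ : BE N) (fun d _ hd => by
        rw [if_neg fun h' => hd (Subtype.ext h'), mul_zero]) (by simp), if_pos rfl, mul_one]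
    · exact (Finset.sum_eq_zero fun d _ => by
        rw [if_neg fun h' : d.1 = e => h (h' ▸ d.2), mul_zero]).symm
  have e1 : ∀ (i j : ℤ) (d : LE), ((if d.1 = (i, j) then 1 else 0) +
      (if eT d = (i, j) then 1 else 0) : ZMod 2) =
      (if d = ((i, j), 0) then 1 else 0) + (if d = ((i, j), 1) then 1 else 0) +
      (if d = ((i, j), 2) then 1 else 0) + (if d = ((i - 1, j), 0) then 1 else 0) +
      (if d = ((i, j - 1), 1) then 1 else 0) + (if d = ((i - 1, j - 1), 2) then 1 else 0) := by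
    rintro i j ⟨⟨a, b⟩, k⟩
    fin_cases k <;> simp [eT, eq_sub_iff_add_eq]
  rw [ev_iff_vertex, Prod.forall]
  refine forall₂_congr fun i j => ?_
  simp only [e0, e1, mul_add, Finset.sum_add_distrib]

/-- outside the box both sides are the outer face -/
theorem fc_out {N : ℕ} {e : LE} (h : ¬ (InB N e.1 ∧ InB N (eT e))) :
    fc N (eL e) = none ∧ fc N (eR e) = none := by
  obtain ⟨⟨i, j⟩, k⟩ := e
  refine ⟨dif_neg fun h' => h ?_, dif_neg fun h' => h ?_⟩ <;> fin_cases k <;>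
    simp [InB, InF, eT, eL, eR] at h' ⊢ <;> omega

theorem h67_mem_bCor {N : ℕ} {f : LF} {a : ℤ × ℤ} (h1 : a ∈ fC f) (h2 : InB N a) :
    a ∈ bCor N (fc N f) := by
  unfold fc
  split_ifs with h
  · exact h1
  · refine ⟨h2, fun h3 => h ?_⟩
    obtain ⟨⟨i, j⟩, b⟩ := f
    obtain ⟨x, y⟩ := a
    cases b <;> simp [fC, InF] at h1 h3 ⊢ <;> omega

theorem box_cor {N : ℕ} (e : BE N) : e.1.1 ∈ bCor N (fc N (eL e.1)) ∧
    eT e.1 ∈ bCor N (fc N (eL e.1)) ∧ e.1.1 ∈ bCor N (fc N (eR e.1)) ∧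
    eT e.1 ∈ bCor N (fc N (eR e.1)) := by
  obtain ⟨⟨⟨i, j⟩, k⟩, h1, h2⟩ := e
  refine ⟨h67_mem_bCor ?_ h1, h67_mem_bCor ?_ h2, h67_mem_bCor ?_ h1, h67_mem_bCor ?_ h2⟩ <;>
    fin_cases k <;> simp [fC, eT, eL, eR]

/-- `ev_iff_loc`, `fc_out`: the six faces around a vertex appear twice each -/
theorem box_ev_bd {N : ℕ} (φ : BF N → ZMod 2) : Ev (fun e : BE N => e.1.1) (fun e => eT e.1)
    fun e => φ (fc N (eL e.1)) + φ (fc N (eR e.1)) := by
  have e0 : ∀ e : LE, ext0 (fun e : BE N => φ (fc N (eL e.1)) + φ (fc N (eR e.1))) e =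
      φ (fc N (eL e)) + φ (fc N (eR e)) := by
    intro e
    unfold ext0
    split_ifs with h
    · rfl
    · rw [(fc_out h).1, (fc_out h).2, CharTwo.add_self_eq_zero]
  have key : ∀ a b c d e f : ZMod 2,
      a + b + (c + d) + (d + a) + (c + e) + (f + b) + (e + f) = 0 := by decide
  rw [ev_iff_loc]
  intro i j
  simp only [e0]
  exact key _ _ _ _ _ _

/-- integrate upwards: `ψ ((i, j), false) = ∑_{0 ≤ y ≤ j} Z ((i, y), 0) + ∑_{0 ≤ y < j} Z ((i, y), 2)`,
`ψ ((i, j), true) = ψ ((i, j), false) + Z ((i, j), 2)`; vertical edges by induction on `j`; rows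
`j ≥ N` are constant, hence zero -/
theorem loc_bd {N : ℕ} {Z : LE → ZMod 2} (hZ : GLoc Z)
    (h0 : ∀ e, ¬ (InB N e.1 ∧ InB N (eT e)) → Z e = 0) :
    ∃ ψ : LF → ZMod 2, (∀ f, ¬ InF N f → ψ f = 0) ∧ ∀ e, Z e = ψ (eL e) + ψ (eR e) := by
  have z0 : ∀ i j : ℤ, ¬ (0 ≤ i ∧ i < N ∧ 0 ≤ j ∧ j ≤ N) → Z ((i, j), 0) = 0 :=
    fun i j h => h0 _ (by simp [InB, eT]; omega)
  have z1 : ∀ i j : ℤ, ¬ (0 ≤ i ∧ i ≤ N ∧ 0 ≤ j ∧ j < N) → Z ((i, j), 1) = 0 :=
    fun i j h => h0 _ (by simp [InB, eT]; omega)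
  have z2 : ∀ i j : ℤ, ¬ (0 ≤ i ∧ i < N ∧ 0 ≤ j ∧ j < N) → Z ((i, j), 2) = 0 :=
    fun i j h => h0 _ (by simp [InB, eT]; omega)
  obtain ⟨F, hF0, hF⟩ : ∃ F : ℤ → ℤ → ZMod 2, (∀ i j, j < 0 → F i j = 0) ∧
      ∀ i j, F i j = F i (j - 1) + Z ((i, j), 0) + Z ((i, j - 1), 2) := by
    refine ⟨fun i j => ∑ y ∈ Finset.range (j + 1).toNat,
      (Z ((i, (y : ℤ)), 0) + Z ((i, (y : ℤ) - 1), 2)), fun i j hj => ?_, fun i j => ?_⟩
    · simp [show (j + 1).toNat = 0 by omega]
    · by_cases hj : j < 0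
      · simp [show (j + 1).toNat = 0 by omega, show j.toNat = 0 by omega, z0 i j (by omega),
          z2 i (j - 1) (by omega)]
      · obtain ⟨n, rfl⟩ := Int.eq_ofNat_of_zero_le (not_lt.1 hj)
        have e1 : ((n : ℤ) + 1).toNat = n + 1 := by omega
        have e2 : ((n : ℤ) - 1 + 1).toNat = n := by omega
        simp only [e1, e2, Finset.sum_range_succ, add_assoc]
  have ind : ∀ P : ℤ → Prop, (∀ j, j < 0 → P j) → (∀ j, P (j - 1) → P j) → ∀ j, P j := by
    intro P h1 h2 j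
    by_cases hj : j < 0
    · exact h1 j hj
    obtain ⟨n, rfl⟩ := Int.eq_ofNat_of_zero_le (not_lt.1 hj)
    clear hj
    induction n with
    | zero => exact h2 _ (h1 _ (by omega))
    | succ n ih => exact h2 _ (by simpa using ih)
  have two : (2 : ZMod 2) = 0 := rfl
  have h1 : ∀ i j, Z ((i, j), 1) = F (i - 1) j + (F i j + Z ((i, j), 2)) := fun i =>
    ind _ (fun j hj => by simp [z1 i j (by omega), z2 i j (by omega), hF0 _ j hj]) fun j ih => by
      linear_combination hZ i j - ih - hF (i - 1) j - hF i j -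
        (Z ((i, j), 2) + Z ((i, j), 0) + Z ((i - 1, j), 0) + Z ((i - 1, j - 1), 2) +
          F (i - 1) (j - 1) + F i (j - 1) + Z ((i, j - 1), 2)) * two
  have h2 : ∀ i : ℤ, ¬ (0 ≤ i ∧ i < N) → ∀ j, F i j = 0 := fun i hi =>
    ind _ (hF0 i) fun j ih => by
      rw [hF, ih, z0 i j (by omega), z2 i (j - 1) (by omega), add_zero, add_zero]
  have h3 : ∀ j : ℤ, N ≤ j → ∀ i, F i j = 0 := fun j hj =>
    ind _ (fun i hi => h2 i (by omega) j) fun i ih => by
      have := h1 i j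
      rw [ih, z1 i j (by omega), z2 i j (by omega), add_zero, zero_add] at this
      exact this.symm
  refine ⟨fun f => if f.2 then F f.1.1 f.1.2 + Z (f.1, 2) else F f.1.1 f.1.2, ?_, ?_⟩
  · rintro ⟨⟨i, j⟩, b⟩ hf
    have h4 : F i j = 0 := by
      by_cases hi : 0 ≤ i ∧ i < N
      · by_cases hj : j < 0
        · exact hF0 i j hj
        · exact h3 j (by simp only [InF] at hf; omega) i
      · exact h2 i hi j
    simp [h4, z2 i j hf]
  · rintro ⟨⟨i, j⟩, c⟩
    fin_cases c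
    · simp [eL, eR]
      linear_combination -hF i j - (Z ((i, j - 1), 2) + F i (j - 1)) * two
    · simpa [eL, eR] using h1 i j
    · simp [eL, eR]
      linear_combination (-F i j) * two

theorem box_bd_ev {N : ℕ} (z : BE N → ZMod 2) (hz : Ev (fun e : BE N => e.1.1) (fun e => eT e.1) z) :
    ∃ φ : BF N → ZMod 2, ∀ e, z e = φ (fc N (eL e.1)) + φ (fc N (eR e.1)) := by
  obtain ⟨ψ, h1, h2⟩ := loc_bd ((ev_iff_loc z).1 hz) fun e h => dif_neg h
  have e0 : ∀ f, (fc N f).elim 0 (fun f => ψ f.1) = ψ f := by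
    intro f
    unfold fc
    split_ifs with h
    · rfl
    · exact (h1 f h).symm
  refine ⟨fun f => f.elim 0 fun f => ψ f.1, fun e => ?_⟩
  simp only [e0]
  rw [← h2, ext0, dif_pos e.2]

/-- go down to the outer face -/
theorem box_conn {N : ℕ} (φ : BF N → ZMod 2)
    (h : ∀ e : BE N, φ (fc N (eL e.1)) = φ (fc N (eR e.1))) (f g : BF N) : φ f = φ g := by
  have H : ∀ e : LE, φ (fc N (eL e)) = φ (fc N (eR e)) := fun e => by
    by_cases he : InB N e.1 ∧ InB N (eT e)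
    · exact h ⟨e, he⟩
    · rw [(fc_out he).1, (fc_out he).2]
  have key : ∀ (n : ℕ) (i : ℤ) (b : Bool), φ (fc N ((i, (n : ℤ) - 1), b)) = φ none := by
    intro n
    induction n with
    | zero => intro i b; rw [fc, dif_neg (by simp [InF])]
    | succ n ih =>
      intro i b
      have h1 : φ (fc N ((i, (n : ℤ)), false)) = φ none := (H ((i, n), 0)).trans (ih i true)
      rw [show ((n + 1 : ℕ) : ℤ) - 1 = n by omega]
      cases b
      · exact h1
      · exact (H ((i, n), 2)).trans h1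
  have k2 : ∀ f, φ f = φ none := by
    rintro (_ | ⟨⟨⟨i, j⟩, b⟩, hf⟩)
    · rfl
    · have := key (j + 1).toNat i b
      have hj : 0 ≤ j := hf.2.2.1
      rwa [show (((j + 1).toNat : ℕ) : ℤ) - 1 = j by omega, fc, dif_pos hf] at this
  rw [k2 f, k2 g]

/-- `φ ∘ fc N` is constant on the six lattice faces around `u` (`fc_out`); one of them is outside the
box when `u` is on the boundary -/
theorem box_link {N : ℕ} (u : ℤ × ℤ) (φ : BF N → ZMod 2)
    (h : ∀ e : BE N, e.1.1 = u ∨ eT e.1 = u → φ (fc N (eL e.1)) = φ (fc N (eR e.1))) (f g : BF N)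
    (hf : u ∈ bCor N f) (hg : u ∈ bCor N g) : φ f = φ g := by
  obtain ⟨i, j⟩ := u
  have H : ∀ e : LE, e.1 = (i, j) ∨ eT e = (i, j) → φ (fc N (eL e)) = φ (fc N (eR e)) :=
    fun e hu => by
      by_cases he : InB N e.1 ∧ InB N (eT e)
      · exact h ⟨e, he⟩ hu
      · rw [(fc_out he).1, (fc_out he).2]
  have hG : φ (fc N ((i, j - 1), true)) = φ (fc N ((i, j), false)) :=
    (H ((i, j), 0) (Or.inl rfl)).symm
  have hB : φ (fc N ((i, j), true)) = φ (fc N ((i, j), false)) := H ((i, j), 2) (Or.inl rfl)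
  have hC : φ (fc N ((i - 1, j), false)) = φ (fc N ((i, j), false)) :=
    (H ((i, j), 1) (Or.inl rfl)).trans hB
  have hD : φ (fc N ((i - 1, j - 1), true)) = φ (fc N ((i, j), false)) :=
    (H ((i - 1, j), 0) (Or.inr (by simp [eT]))).symm.trans hC
  have hE : φ (fc N ((i - 1, j - 1), false)) = φ (fc N ((i, j), false)) :=
    (H ((i - 1, j - 1), 2) (Or.inr (by simp [eT]))).symm.trans hD
  have key : ∀ f, (i, j) ∈ bCor N f → φ f = φ (fc N ((i, j), false)) := by
    rintro (_ | ⟨⟨⟨a, b⟩, t⟩, hf⟩) hu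
    · obtain ⟨h1, h2⟩ := hu
      simp only [InB] at h1 h2
      by_cases hi : i = 0
      · rw [← hC, fc, dif_neg (by simp only [InF]; omega)]
      by_cases hj : j = 0
      · rw [← hG, fc, dif_neg (by simp only [InF]; omega)]
      · rw [fc, dif_neg (by simp only [InF]; omega)]
    · rw [show some ⟨((a, b), t), hf⟩ = fc N ((a, b), t) by rw [fc, dif_pos hf]]
      cases t <;> simp only [bCor, fC, Set.mem_insert_iff, Set.mem_singleton_iff, Prod.mk.injEq,
        if_true, Bool.false_eq_true, if_false] at hu <;>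
        rcases hu with ⟨rfl, rfl⟩ | ⟨rfl, rfl⟩ | ⟨rfl, rfl⟩
      · rfl
      · simpa using hC
      · simpa using hE
      · exact hB
      · simpa using hG
      · simpa using hD
  rw [key f hf, key g hg]

/-- the triangulated box -/
def boxMap (N : ℕ) : SMap (ℤ × ℤ) (BE N) (BF N) where
  s e := e.1.1
  t e := eT e.1
  l e := fc N (eL e.1)
  r e := fc N (eR e.1)
  cor := bCor N
  s_l e := (box_cor e).1
  t_l e := (box_cor e).2.1
  s_r e := (box_cor e).2.2.1
  t_r e := (box_cor e).2.2.2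
  ev_bd := box_ev_bd
  bd_ev := box_bd_ev
  conn := box_conn
  link := box_link

theorem h67_fc_eq {N : ℕ} {g : LF} {f : {f : LF // InF N f}} (h : fc N g = some f) : g = f.1 := by
  unfold fc at h
  split_ifs at h
  exact congrArg Subtype.val (Option.some.inj h)

theorem box_deg {N : ℕ} (f : BF N) (hf : f ≠ none) :
    {d | (boxMap N).l d = f ∨ (boxMap N).r d = f}.ncard ≤ 3 := by
  obtain ⟨⟨⟨⟨i, j⟩, b⟩, h⟩, rfl⟩ := Option.ne_none_iff_exists'.1 hf
  let S : Finset LE := {((i, j), 2), if b then ((i, j + 1), 0) else ((i, j), 0),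
    if b then ((i, j), 1) else ((i + 1, j), 1)}
  refine (Set.ncard_le_ncard_of_injOn (t := (S : Set LE)) Subtype.val ?_
    Subtype.val_injective.injOn S.finite_toSet).trans ?_
  · rintro ⟨⟨⟨x, y⟩, k⟩, hd⟩ (h1 | h1) <;> have h2 := h67_fc_eq h1 <;> fin_cases k <;> cases b <;>
      simp [S, eL, eR] at h2 ⊢ <;> omega
  · rw [Set.ncard_coe_finset]
    exact Finset.card_le_three

/-- grid edges inside the closed box are edges of the box map -/
theorem box_adj {N : ℕ} {a b : ℤ × ℤ} (hab : grid.Adj a b) (ha : InB N a) (hb : InB N b) :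
    ∃ d, s((boxMap N).s d, (boxMap N).t d) = s(a, b) := by
  obtain ⟨i, j⟩ := a
  obtain ⟨x, y⟩ := b
  rcases hab with ⟨h1, h2 | h2⟩ | ⟨h1, h2 | h2⟩ <;> dsimp only at h1 h2 <;> subst h1 h2
  · exact ⟨⟨((i, j), 1), ha, hb⟩, rfl⟩
  · exact ⟨⟨((i, y), 1), hb, ha⟩, Sym2.eq_swap⟩
  · exact ⟨⟨((i, j), 0), ha, hb⟩, rfl⟩
  · exact ⟨⟨((x, j), 0), hb, ha⟩, Sym2.eq_swap⟩

theorem box_cor_inB {N : ℕ} {f : BF N} {a : ℤ × ℤ} (h : a ∈ bCor N f) : InB N a := by
  rcases f with _ | ⟨⟨⟨i, j⟩, b⟩, hf⟩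
  · exact h.1
  · obtain ⟨x, y⟩ := a
    cases b <;> simp [bCor, fC, InF, InB] at h hf ⊢ <;> omega

/-- `σ ∘ clamp` is constant along the walks of a fibre (`clamp` = coordinatewise projection to
`[0, N]`; it keeps `π` by `far`, and sends neighbours to neighbours or to one point) -/
theorem box_FC {V : Type} {G : SimpleGraph V} (m : GridModel G) : (boxMap m.N).FC m.π := by
  intro σ hσ u u' f f' hu hu' e
  let c : ℤ × ℤ → ℤ × ℤ := fun a => (max 0 (min a.1 m.N), max 0 (min a.2 m.N))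
  have c0 : ∀ a, InB m.N a → c a = a := fun a ha => by
    simp only [InB] at ha
    refine Prod.ext ?_ ?_ <;> simp only [c] <;> omega
  have c1 : ∀ a, m.π (c a) = m.π a := fun a => by
    by_cases ha : 0 < a.1 ∧ a.1 < m.N ∧ 0 < a.2 ∧ a.2 < m.N
    · rw [c0 a (by simp only [InB]; omega)]
    · rw [m.far a ha, m.far _ (by simp only [c]; omega)]
  have c2 : ∀ a, InB m.N (c a) := fun a => by simp only [InB, c]; omega
  have c3 : ∀ a b, grid.Adj a b → m.π a = m.π b → σ (c a) = σ (c b) := fun a b hab h => by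
    by_cases hc : c a = c b
    · rw [hc]
    have h1 : grid.Adj (c a) (c b) := by
      simp only [c, grid, Prod.mk.injEq] at hab hc ⊢
      omega
    obtain ⟨d, hd⟩ := box_adj h1 (c2 a) (c2 b)
    have h2 := hσ d
    rcases Sym2.eq_iff.1 hd with ⟨e1, e2⟩ | ⟨e1, e2⟩ <;> rw [e1, e2, c1, c1] at h2
    · exact h2 h
    · exact (h2 h.symm).symm
  have c4 : ∀ (v : V) (a b : m.π ⁻¹' {v}), (grid.induce (m.π ⁻¹' {v})).Walk a b →
      σ (c a) = σ (c b) := fun v a b w => by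
    induction w with
    | nil => rfl
    | @cons x y _ h _ ih => exact (c3 x y h (x.2.trans y.2.symm)).trans ih
  obtain ⟨w⟩ := (m.conn (m.π u')).preconnected ⟨u, e⟩ ⟨u', rfl⟩
  have := c4 _ _ _ w
  rwa [c0 u (box_cor_inB hu), c0 u' (box_cor_inB hu')] at this

end Crest.Agent.R206
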