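import Crest.Agent.R206.P3
import Crest.Agent.R206.P5

/-! # Row 206: combinatorial consequences of planarity. -/

set_option autoImplicit false
set_option maxHeartbeats 400000

namespace Crest.Agent.R206

open Crest.GeometryTopology.GraphMetric

variable {V : Type} {G : SimpleGraph V}

/-- `SMap.contract` applied to `boxMap` (`box_FC`, `box_deg`, `box_adj`, `far`) -/
theorem GridModel.exists_tri (m : GridModel G) :
    ∃ (D F : Type) (_ : Fintype D) (_ : Fintype F) (M : SMap V D F) (f₀ : F), IsTri G M f₀ := by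
  obtain ⟨D', _, M', ι, hinj, hsurj, hs, ht, hl, hr, hcor⟩ := (boxMap m.N).contract m.π (box_FC m)
  have hnone : M'.cor none ⊆ {m.out} := by
    rw [hcor]
    rintro _ ⟨a, ha, rfl⟩
    exact m.far a ha.2
  refine ⟨D', BF m.N, inferInstance, inferInstance, M', none, ?_, ⟨m.out, hnone⟩, ?_, ?_, ?_⟩
  · intro f
    rcases f with _ | f
    · exact ⟨m.out, m.out, m.out, hnone.trans (by simp)⟩
    · refine ⟨m.π f.1.1, m.π (if f.1.2 then (f.1.1.1, f.1.1.2 + 1) else (f.1.1.1 + 1, f.1.1.2)),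
        m.π (f.1.1.1 + 1, f.1.1.2 + 1), ?_⟩
      rw [hcor]
      rintro _ ⟨a, ha, rfl⟩
      have ha' : a ∈ fC f.1 := ha
      simp only [fC, Set.mem_insert_iff, Set.mem_singleton_iff] at ha' ⊢
      rcases ha' with h | h | h
      · exact Or.inl (by rw [h])
      · exact Or.inr (Or.inl (by rw [h]))
      · exact Or.inr (Or.inr (by rw [h]))
  · intro v
    obtain ⟨⟨a, ha⟩⟩ := (m.conn v).nonempty
    have hav : m.π a = v := ha
    by_cases hb : 0 < a.1 ∧ a.1 < m.N ∧ 0 < a.2 ∧ a.2 < m.N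
    · refine ⟨some ⟨(a, false), ⟨hb.1.le, hb.2.1, hb.2.2.1.le, hb.2.2.2⟩⟩, ?_⟩
      rw [hcor]
      refine ⟨a, ?_, hav⟩
      show a ∈ fC (a, false)
      exact Set.mem_insert _ _
    · refine ⟨none, ?_⟩
      rw [hcor]
      have h0 : ¬ (0 < ((0, 0) : ℤ × ℤ).1 ∧ ((0, 0) : ℤ × ℤ).1 < m.N ∧ 0 < ((0, 0) : ℤ × ℤ).2 ∧
          ((0, 0) : ℤ × ℤ).2 < m.N) := fun h => lt_irrefl _ h.1
      refine ⟨(0, 0), ⟨⟨le_rfl, Int.natCast_nonneg _, le_rfl, Int.natCast_nonneg _⟩, h0⟩, ?_⟩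
      rw [m.far _ h0, ← hav, m.far _ hb]
  · intro x y hxy
    obtain ⟨a, b, hab, ha, hb⟩ := m.adj x y hxy
    have hne : m.π a ≠ m.π b := by rw [ha, hb]; exact hxy.ne
    have hab' : (a.1 = b.1 ∧ (a.2 + 1 = b.2 ∨ b.2 + 1 = a.2)) ∨
      (a.2 = b.2 ∧ (a.1 + 1 = b.1 ∨ b.1 + 1 = a.1)) := hab
    have hin : InB m.N a ∧ InB m.N b := by
      by_cases h1 : 0 < a.1 ∧ a.1 < m.N ∧ 0 < a.2 ∧ a.2 < m.N
      · unfold InB; omega
      · by_cases h2 : 0 < b.1 ∧ b.1 < m.N ∧ 0 < b.2 ∧ b.2 < m.N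
        · unfold InB; omega
        · exact absurd ((m.far a h1).trans (m.far b h2).symm) hne
    obtain ⟨d, hd⟩ := box_adj hab hin.1 hin.2
    have hd' : s(m.π ((boxMap m.N).s d), m.π ((boxMap m.N).t d)) = s(x, y) := by
      have := congrArg (Sym2.map m.π) hd
      rwa [Sym2.map_mk, Sym2.map_mk, ha, hb] at this
    have hne' : m.π ((boxMap m.N).s d) ≠ m.π ((boxMap m.N).t d) := by
      intro h
      rw [h] at hd'
      rcases Sym2.eq_iff.1 hd' with h' | h'
      · exact hxy.ne (h'.1.symm.trans h'.2)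
      · exact hxy.ne (h'.2.symm.trans h'.1)
    obtain ⟨d', rfl⟩ := hsurj d hne'
    exact ⟨d', by rw [hs, ht]; exact hd'⟩
  · intro f hf
    refine le_trans (Set.ncard_le_ncard_of_injOn ι ?_ hinj.injOn (Set.toFinite _)) (box_deg f hf)
    intro d hd
    simpa only [Set.mem_ofPred_eq, hl, hr] using hd

theorem exists_tri [Finite V] [Nonempty V] (h : IsPlanar G) :
    ∃ (D F : Type) (_ : Fintype D) (_ : Fintype F) (M : SMap V D F) (f₀ : F), IsTri G M f₀ :=
  (exists_gridModel h).elim fun m => m.exists_tri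

/-- **PL2**: contract the six sets (`π : V → V ⊕ Fin 3 ⊕ Fin 3`, `SMap.contract`; `FC` from the
connectivity of the sets and `IsTri.adj`), then `SMap.no_K33` -/
theorem IsTri.no_K33 {D F : Type} [Fintype D] {M : SMap V D F} {f₀ : F} (h : IsTri G M f₀)
    (A B : Fin 3 → Set V) (hA : ∀ i, (G.induce (A i)).Connected)
    (hB : ∀ j, (G.induce (B j)).Connected) (hAA : ∀ i j, i ≠ j → Disjoint (A i) (A j))
    (hBB : ∀ i j, i ≠ j → Disjoint (B i) (B j)) (hAB : ∀ i j, Disjoint (A i) (B j))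
    (hadj : ∀ i j, ∃ a ∈ A i, ∃ b ∈ B j, G.Adj a b) : False := by
  classical
  let C : Fin 3 ⊕ Fin 3 → Set V := Sum.elim A B
  have hC : ∀ k, (G.induce (C k)).Connected := fun k => by
    cases k
    exacts [hA _, hB _]
  have hCC : ∀ k k' v, v ∈ C k → v ∈ C k' → k = k' := by
    rintro (i | i) (j | j) v h1 h2
    · by_contra h
      exact Set.disjoint_left.1 (hAA i j fun e => h (congrArg _ e)) h1 h2
    · exact (Set.disjoint_left.1 (hAB i j) h1 h2).elim
    · exact (Set.disjoint_left.1 (hAB j i) h2 h1).elim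
    · by_contra h
      exact Set.disjoint_left.1 (hBB i j fun e => h (congrArg _ e)) h1 h2
  obtain ⟨π, h1, h2⟩ : ∃ π : V → V ⊕ (Fin 3 ⊕ Fin 3), (∀ k, ∀ v ∈ C k, π v = .inr k) ∧
      ∀ u u', π u = π u' → u = u' ∨ ∃ k, u ∈ C k ∧ u' ∈ C k := by
    refine ⟨fun v => if h : ∃ k, v ∈ C k then .inr h.choose else .inl v, fun k v hv => ?_,
      fun u u' h => ?_⟩
    · have h : ∃ k, v ∈ C k := ⟨k, hv⟩
      simp only [dif_pos h, hCC _ _ v h.choose_spec hv]
    · by_cases hu : ∃ k, u ∈ C k <;> by_cases hu' : ∃ k, u' ∈ C k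
      · simp only [dif_pos hu, dif_pos hu', Sum.inr.injEq] at h
        exact .inr ⟨_, hu.choose_spec, h ▸ hu'.choose_spec⟩
      · simp only [dif_pos hu, dif_neg hu', reduceCtorEq] at h
      · simp only [dif_neg hu, dif_pos hu', reduceCtorEq] at h
      · simp only [dif_neg hu, dif_neg hu', Sum.inl.injEq] at h
        exact .inl h
  have hFC : M.FC π := by
    intro σ hσ u u' _ _ _ _ huu
    rcases h2 u u' huu with rfl | ⟨k, hu, hu'⟩
    · rfl
    have key : ∀ x y : C k, (G.induce (C k)).Walk x y → σ x = σ y := by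
      intro x y p
      induction p with
      | nil => rfl
      | @cons x y z hxy _ ih =>
        refine Eq.trans ?_ ih
        obtain ⟨d, hd⟩ := h.adj x y hxy
        have e : π x = π y := (h1 k x x.2).trans (h1 k y y.2).symm
        rcases Sym2.eq_iff.1 hd with ⟨a1, a2⟩ | ⟨a1, a2⟩
        · rw [← a1, ← a2] at e ⊢
          exact hσ d e
        · rw [← a1, ← a2] at e ⊢
          exact (hσ d e.symm).symm
    exact (hC k ⟨u, hu⟩ ⟨u', hu'⟩).elim (key _ _)
  obtain ⟨D', _, M', ι, -, hι, hs, ht, -⟩ := M.contract π hFC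
  have hd : ∀ e : Fin 3 × Fin 3, ∃ d,
      s(M'.s d, M'.t d) = s(Sum.inr (Sum.inl e.1), Sum.inr (Sum.inr e.2)) := fun e => by
    obtain ⟨a, ha, b, hb, hab⟩ := hadj e.1 e.2
    obtain ⟨d, hd⟩ := h.adj a b hab
    have e1 : s(π (M.s d), π (M.t d)) = s(Sum.inr (Sum.inl e.1), Sum.inr (Sum.inr e.2)) := by
      rw [← h1 (.inl e.1) a ha, ← h1 (.inr e.2) b hb]
      exact congrArg (Sym2.map π) hd
    obtain ⟨d', rfl⟩ := hι d fun h' => by
      rw [h'] at e1
      rcases Sym2.eq_iff.1 e1 with ⟨a1, a2⟩ | ⟨a1, a2⟩ <;> simp [a1] at a2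
    exact ⟨d', by rw [hs, ht, e1]⟩
  choose d hd using hd
  exact M'.no_K33 (fun i => .inr (.inl i)) (fun j => .inr (.inr j))
    (Sum.inr_injective.comp Sum.inl_injective) (Sum.inr_injective.comp Sum.inr_injective)
    (fun i j => by simp) d hd

theorem no_K33 [Finite V] (h : IsPlanar G)
    (A B : Fin 3 → Set V) (hA : ∀ i, (G.induce (A i)).Connected)
    (hB : ∀ j, (G.induce (B j)).Connected) (hAA : ∀ i j, i ≠ j → Disjoint (A i) (A j))
    (hBB : ∀ i j, i ≠ j → Disjoint (B i) (B j)) (hAB : ∀ i j, Disjoint (A i) (B j))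
    (hadj : ∀ i j, ∃ a ∈ A i, ∃ b ∈ B j, G.Adj a b) : False := by
  obtain ⟨a, -⟩ := hadj 0 0
  have : Nonempty V := ⟨a⟩
  obtain ⟨D, F, _, _, M, f₀, H⟩ := exists_tri h
  exact H.no_K33 A B hA hB hAA hBB hAB hadj

end Crest.Agent.R206
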