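import Crest.Agent.R206.PDefs

/-! # Row 206: compact connected sets of the plane and the grid cells that meet them. -/

set_option autoImplicit false
set_option maxHeartbeats 400000

namespace Crest.Agent.R206

abbrev E2 : Type := EuclideanSpace ℝ (Fin 2)

/-- the closed cell with index `a` of the grid of mesh `ε` and offset `c` -/
def cell (ε c : ℝ) (a : ℤ × ℤ) : Set E2 :=
  {p | a.1 * ε ≤ p 0 + c ∧ p 0 + c ≤ (a.1 + 1) * ε ∧ a.2 * ε ≤ p 1 + c ∧ p 1 + c ≤ (a.2 + 1) * ε}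

/-- the cells meeting `K` -/
def cells (ε c : ℝ) (K : Set E2) : Set (ℤ × ℤ) := {a | (cell ε c a ∩ K).Nonempty}

/-- floors -/
theorem exists_mem_cell {ε : ℝ} (hε : 0 < ε) (c : ℝ) (p : E2) : ∃ a, p ∈ cell ε c a := by
  have key : ∀ x : ℝ, (⌊x / ε⌋ : ℝ) * ε ≤ x ∧ x ≤ (⌊x / ε⌋ + 1) * ε := fun x =>
    ⟨(le_div_iff₀ hε).1 (Int.floor_le _), (div_le_iff₀ hε).1 (Int.lt_floor_add_one _).le⟩
  exact ⟨(⌊(p 0 + c) / ε⌋, ⌊(p 1 + c) / ε⌋), (key _).1, (key _).2, (key _).1, (key _).2⟩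

/-- `EuclideanSpace.dist_eq`, `Fin.sum_univ_two` -/
theorem dist_lt_of_mem_cell {ε : ℝ} (hε : 0 < ε) {c : ℝ} {a : ℤ × ℤ} {p q : E2}
    (hp : p ∈ cell ε c a) (hq : q ∈ cell ε c a) : dist p q < 2 * ε := by
  obtain ⟨p1, p2, p3, p4⟩ := hp
  obtain ⟨q1, q2, q3, q4⟩ := hq
  rw [EuclideanSpace.dist_eq, Fin.sum_univ_two, Real.sqrt_lt' (by positivity), Real.dist_eq,
    Real.dist_eq, sq_abs, sq_abs]
  have h0 : (p 0 - q 0) ^ 2 ≤ ε ^ 2 := sq_le_sq' (by linarith) (by linarith)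
  have h1 : (p 1 - q 1) ^ 2 ≤ ε ^ 2 := sq_le_sq' (by linarith) (by linarith)
  nlinarith [sq_pos_of_pos hε]

/-- two cells containing `p`: the indices differ by at most one in each coordinate, and the mixed cell
`(a.1, b.2)` contains `p` too -/
theorem cell_link {ε : ℝ} (hε : 0 < ε) {c : ℝ} {a b : ℤ × ℤ} {p : E2}
    (ha : p ∈ cell ε c a) (hb : p ∈ cell ε c b) :
    p ∈ cell ε c (a.1, b.2) ∧ (a = (a.1, b.2) ∨ grid.Adj a (a.1, b.2)) ∧
      ((a.1, b.2) = b ∨ grid.Adj (a.1, b.2) b) := by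
  have key : ∀ (m n : ℤ) (x : ℝ), m * ε ≤ x → x ≤ (n + 1) * ε → m ≤ n + 1 := fun m n x h h' => by
    exact_mod_cast le_of_mul_le_mul_right (h.trans h') hε
  obtain ⟨a1, a2, a3, a4⟩ := ha
  obtain ⟨b1, b2, b3, b4⟩ := hb
  have h1 := key _ _ _ a1 b2
  have h2 := key _ _ _ b1 a2
  have h3 := key _ _ _ a3 b4
  have h4 := key _ _ _ b3 a4
  refine ⟨⟨a1, a2, b3, b4⟩, ?_, ?_⟩
  · simp only [grid, Prod.ext_iff, true_and]
    omega
  · simp only [grid, Prod.ext_iff, true_and, and_true]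
    omega

/-- upper semicontinuity: coordinatewise, with `x = (p i + c) / ε`, the points of
`(⌈x⌉ - 1, ⌊x⌋ + 1)` lie only in intervals `[n, n + 1]` that contain `x` -/
theorem eventually_cell {ε : ℝ} (hε : 0 < ε) (c : ℝ) (p : E2) :
    ∀ᶠ q in nhds p, ∀ a, q ∈ cell ε c a → p ∈ cell ε c a := by
  have key : ∀ x : ℝ, ∀ᶠ y in nhds x, ∀ n : ℤ, n * ε ≤ y → y ≤ (n + 1) * ε →
      n * ε ≤ x ∧ x ≤ (n + 1) * ε := fun x => by
    have h1 : ((⌈x / ε⌉ : ℝ) - 1) * ε < x :=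
      (lt_div_iff₀ hε).1 (by linarith [Int.ceil_lt_add_one (x / ε)])
    have h2 : x < ((⌊x / ε⌋ : ℝ) + 1) * ε := (div_lt_iff₀ hε).1 (Int.lt_floor_add_one _)
    filter_upwards [Ioo_mem_nhds h1 h2] with y hy n hn hn'
    have h3 : n < ⌊x / ε⌋ + 1 := by
      exact_mod_cast lt_of_mul_lt_mul_right (hn.trans_lt hy.2) hε.le
    have h4 : ⌈x / ε⌉ - 1 < n + 1 := by
      exact_mod_cast lt_of_mul_lt_mul_right (hy.1.trans_le hn') hε.le
    refine ⟨(le_div_iff₀ hε).1 (Int.le_floor.1 (by omega)), (div_le_iff₀ hε).1 ?_⟩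
    exact_mod_cast (Int.ceil_le (z := n + 1)).1 (by omega)
  have hc : ∀ i : Fin 2, Filter.Tendsto (fun q : E2 => q i + c) (nhds p) (nhds (p i + c)) :=
    fun i => (show Continuous fun q : E2 => q i + c by fun_prop).tendsto p
  filter_upwards [(hc 0).eventually (key _), (hc 1).eventually (key _)] with q h0 h1 a ha
  obtain ⟨a1, a2, a3, a4⟩ := ha
  exact ⟨(h0 _ a1 a2).1, (h0 _ a1 a2).2, h1 _ a3 a4⟩

/-- `IsPreconnected.induction₂'` for the relation "every cell at `p` is reachable from every cell at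
`q` inside `cells ε c K`" (`eventually_cell`, `cell_link`, `exists_mem_cell`) -/
theorem cells_connected {ε : ℝ} (hε : 0 < ε) (c : ℝ) {K : Set E2} (hK : IsConnected K) :
    (grid.induce (cells ε c K)).Connected := by
  have loc : ∀ p ∈ K, ∀ a b : cells ε c K, p ∈ cell ε c a → p ∈ cell ε c b →
      (grid.induce (cells ε c K)).Reachable a b := fun p hp a b ha hb => by
    obtain ⟨h1, h2, h3⟩ := cell_link hε ha hb
    have step : ∀ x y : cells ε c K, x.1 = y.1 ∨ grid.Adj x y →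
        (grid.induce (cells ε c K)).Reachable x y := fun x y h =>
      h.elim (fun e => Subtype.ext e ▸ SimpleGraph.Reachable.refl _) fun h =>
        SimpleGraph.Adj.reachable h
    exact (step a ⟨_, p, h1, hp⟩ h2).trans (step ⟨_, p, h1, hp⟩ b h3)
  obtain ⟨p₀, hp₀⟩ := hK.nonempty
  obtain ⟨a₀, ha₀⟩ := exists_mem_cell hε c p₀
  haveI : Nonempty (cells ε c K) := ⟨⟨a₀, p₀, ha₀, hp₀⟩⟩
  refine ⟨fun a b => ?_⟩
  obtain ⟨p, hpa, hp⟩ := a.2
  obtain ⟨q, hqb, hq⟩ := b.2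
  refine hK.isPreconnected.induction₂ (fun p q => ∀ a b : cells ε c K, p ∈ cell ε c a →
    q ∈ cell ε c b → (grid.induce (cells ε c K)).Reachable a b) (fun x hx => ?_)
    (fun x y z _ hy _ h1 h2 a b ha hb => ?_) (fun x y _ _ h a b ha hb => (h b a hb ha).symm)
    hp hq a b hpa hqb
  · filter_upwards [mem_nhdsWithin_of_mem_nhds (eventually_cell hε c x)] with y hy a b ha hb
    exact loc x hx a b ha (hy _ hb)
  · obtain ⟨d, hd⟩ := exists_mem_cell hε c y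
    exact (h1 a ⟨d, y, hd, hy⟩ ha hd).trans (h2 ⟨d, y, hd, hy⟩ b hd hb)


/-- disjoint compact sets are at positive distance (`Disjoint.exists_cthickenings` or
`IsCompact.exists_infDist_eq_dist`), finitely many pairs -/
theorem exists_mesh {ι : Type} [Finite ι] (K : ι → Set E2) (hK : ∀ i, IsCompact (K i)) :
    ∃ ε : ℝ, 0 < ε ∧ ∀ i j, Disjoint (K i) (K j) → ∀ p ∈ K i, ∀ q ∈ K j, 2 * ε ≤ dist p q := by
  have h : ∀ i j, ∀ᶠ ε in nhdsWithin (0 : ℝ) (Set.Ioi 0),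
      Disjoint (K i) (K j) → ∀ p ∈ K i, ∀ q ∈ K j, 2 * ε ≤ dist p q := by
    intro i j
    by_cases hd : Disjoint (K i) (K j)
    · obtain ⟨δ, hδ, hδ'⟩ := hd.exists_cthickenings (hK i) (hK j).isClosed
      filter_upwards [Ioo_mem_nhdsGT (half_pos hδ)] with ε hε _ p hp q hq
      by_contra hlt
      have h1 : dist q p ≤ δ := by
        rw [dist_comm]
        linarith [hε.2, not_le.1 hlt]
      exact Set.disjoint_left.1 hδ' (Metric.mem_cthickening_of_dist_le q p δ _ hp h1)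
        (Metric.self_subset_cthickening _ hq)
    · exact Filter.Eventually.of_forall fun _ h' => absurd h' hd
  obtain ⟨ε, h1, h2⟩ := ((Filter.eventually_all.2 fun i => Filter.eventually_all.2 (h i)).and
    self_mem_nhdsWithin).exists
  exact ⟨ε, h2, h1⟩

/-- the union is bounded by `R`; `c = R + 2 ε` -/
theorem exists_offset {ι : Type} [Finite ι] (K : ι → Set E2) (hK : ∀ i, IsCompact (K i)) {ε : ℝ}
    (hε : 0 < ε) : ∃ (c : ℝ) (N : ℕ), 0 < N ∧ ∀ i, ∀ a ∈ cells ε c (K i),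
      0 < a.1 ∧ a.1 < N ∧ 0 < a.2 ∧ a.2 < N := by
  obtain ⟨R, hR0, hR⟩ := (isCompact_iUnion hK).isBounded.exists_pos_norm_le
  obtain ⟨n, hn⟩ := exists_nat_gt (2 * R / ε)
  rw [div_lt_iff₀ hε] at hn
  have key : ∀ (x : ℝ) (a : ℤ), |x| ≤ R → a * ε ≤ x + (R + 2 * ε) →
      x + (R + 2 * ε) ≤ (a + 1) * ε → 0 < a ∧ a < ((n + 2 : ℕ) : ℤ) := by
    intro x a hx h1 h2
    obtain ⟨x1, x2⟩ := abs_le.1 hx
    have a1 : (0 : ℝ) < a := by
      by_contra hc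
      nlinarith [not_lt.1 hc]
    have a2 : (a : ℝ) < n + 2 := by
      by_contra hc
      nlinarith [not_lt.1 hc]
    exact ⟨by exact_mod_cast a1, by exact_mod_cast a2⟩
  refine ⟨R + 2 * ε, n + 2, by omega, ?_⟩
  rintro i a ⟨p, ⟨h1, h2, h3, h4⟩, hp⟩
  have hp' := hR p (Set.mem_iUnion.2 ⟨i, hp⟩)
  have c0 : |p 0| ≤ R := (PiLp.norm_apply_le p 0).trans hp'
  have c1 : |p 1| ≤ R := (PiLp.norm_apply_le p 1).trans hp'
  exact ⟨(key _ _ c0 h1 h2).1, (key _ _ c0 h1 h2).2, (key _ _ c1 h3 h4).1, (key _ _ c1 h3 h4).2⟩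

theorem exists_cells {ι : Type} [Finite ι] (K : ι → Set E2) (hK : ∀ i, IsCompact (K i))
    (hc : ∀ i, IsConnected (K i)) : ∃ (C : ι → Set (ℤ × ℤ)) (N : ℕ), 0 < N ∧
      (∀ i, (grid.induce (C i)).Connected) ∧
      (∀ i j, Disjoint (K i) (K j) → Disjoint (C i) (C j)) ∧
      (∀ i j, (K i ∩ K j).Nonempty → (C i ∩ C j).Nonempty) ∧
      ∀ i, ∀ a ∈ C i, 0 < a.1 ∧ a.1 < N ∧ 0 < a.2 ∧ a.2 < N := by
  obtain ⟨ε, hε, H⟩ := exists_mesh K hK
  obtain ⟨c, N, hN, H'⟩ := exists_offset K hK hε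
  refine ⟨fun i => cells ε c (K i), N, hN, fun i => cells_connected hε c (hc i), fun i j hij => ?_,
    fun i j ⟨p, hp⟩ => ?_, H'⟩
  · rw [Set.disjoint_left]
    rintro a ⟨p, hp, hp'⟩ ⟨q, hq, hq'⟩
    exact (dist_lt_of_mem_cell hε hp hq).not_ge (H i j hij p hp' q hq')
  · obtain ⟨a, ha⟩ := exists_mem_cell hε c p
    exact ⟨a, ⟨p, ha, hp.1⟩, ⟨p, ha, hp.2⟩⟩

end Crest.Agent.R206
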