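import Crest.Agent.R206.P1

/-! # Row 206: stars and middle parts of a plane drawing. -/

set_option autoImplicit false
set_option maxHeartbeats 400000

namespace Crest.Agent.R206

open Crest.GeometryTopology.GraphMetric

variable {V : Type} {G : SimpleGraph V}

/-- parametrised arcs: choose an orientation `x e`, `y e` of every edge (`Sym2.ind`, `arc_isArc`) -/
theorem exists_param (P : PlaneDrawing G) : ∃ (x y : G.edgeSet → V)
    (c : G.edgeSet → unitInterval → E2), (∀ e : G.edgeSet, (e : Sym2 V) = s(x e, y e)) ∧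
      (∀ e, Continuous (c e)) ∧ (∀ e, Function.Injective (c e)) ∧ (∀ e, c e 0 = P.pos (x e)) ∧
      (∀ e, c e 1 = P.pos (y e)) ∧
      (∀ e τ v, c e τ = P.pos v → τ = 0 ∨ τ = 1) ∧
      ∀ e e' τ τ', e ≠ e' → c e τ = c e' τ' → τ = 0 ∨ τ = 1 := by
  have h : ∀ e : G.edgeSet, ∃ x y : V, (e : Sym2 V) = s(x, y) ∧ G.Adj x y := by
    rintro ⟨e, he⟩
    induction e using Sym2.ind with
    | _ x y => exact ⟨x, y, rfl, he⟩
  choose x y hxy hadj using h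
  choose c h1 h2 h3 h4 h5 using fun e => P.arc_isArc (x e) (y e) (hadj e)
  have hm : ∀ e τ, c e τ ∈ P.arc (x e) (y e) := fun e τ => h5 e ▸ Set.mem_range_self τ
  have hv : ∀ e τ v, c e τ = P.pos v → τ = 0 ∨ τ = 1 := fun e τ v hv =>
    (P.arc_vertex _ _ v (hadj e) (hv ▸ hm e τ)).imp (fun h => h2 e (by rw [hv, h3, h]))
      fun h => h2 e (by rw [hv, h4, h])
  refine ⟨x, y, c, hxy, h1, h2, h3, h4, hv, fun e e' τ τ' hne he => ?_⟩
  obtain ⟨v, hv'⟩ := P.arc_inter _ _ _ _ (hadj e) (hadj e')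
    (fun h => hne (Subtype.ext (by rw [hxy e, hxy e', h]))) (c e τ) ⟨hm e τ, he ▸ hm e' τ'⟩
  exact hv e τ v hv'

/-- `S v = {pos v} ∪ ⋃_{x e = v} c e '' [0, 1/3] ∪ ⋃_{y e = v} c e '' [2/3, 1]`,
`W e = c e '' [1/3, 2/3]` (`exists_param`; a point `c e τ` with `0 < τ < 1` determines `e` and `τ`) -/
theorem exists_pieces [Finite V] (P : PlaneDrawing G) : ∃ (S : V → Set E2) (W : G.edgeSet → Set E2),
    (∀ v, IsCompact (S v)) ∧ (∀ v, IsConnected (S v)) ∧ (∀ e, IsCompact (W e)) ∧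
      (∀ e, IsConnected (W e)) ∧ (∀ u v, u ≠ v → Disjoint (S u) (S v)) ∧
      (∀ e e', e ≠ e' → Disjoint (W e) (W e')) ∧
      (∀ (e : G.edgeSet) v, v ∈ (e : Sym2 V) → (S v ∩ W e).Nonempty) ∧
      ∀ (e : G.edgeSet) v, v ∉ (e : Sym2 V) → Disjoint (S v) (W e) := by
  obtain ⟨x, y, c, hxy, hc, hi, h0, h1, hv, he⟩ := exists_param P
  obtain ⟨a, b, ha, hab, hb⟩ : ∃ a b : unitInterval, 0 < a ∧ a < b ∧ b < 1 := by
    obtain ⟨a, ha, ha'⟩ := exists_between (zero_lt_one : (0 : unitInterval) < 1)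
    obtain ⟨b, hb, hb'⟩ := exists_between ha'
    exact ⟨a, b, ha, hb, hb'⟩
  obtain ⟨S, hS, hSc⟩ : ∃ S : V → Set E2, (∀ v p, p ∈ S v ↔ p = P.pos v ∨
      ∃ e τ, c e τ = p ∧ ((x e = v ∧ τ ≤ a) ∨ (y e = v ∧ b ≤ τ))) ∧ ∀ v, IsCompact (S v) := by
    refine ⟨fun v => {P.pos v} ∪ ((⋃ e : {e // x e = v}, c e '' Set.Iic a) ∪
      ⋃ e : {e // y e = v}, c e '' Set.Ici b), fun v p => ?_, fun v => ?_⟩
    · simp only [Set.mem_union, Set.mem_singleton_iff, Set.mem_iUnion, Set.mem_image, Set.mem_Iic,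
        Set.mem_Ici]
      refine or_congr Iff.rfl ⟨?_, ?_⟩
      · rintro (⟨e, τ, h, h'⟩ | ⟨e, τ, h, h'⟩)
        · exact ⟨e, τ, h', Or.inl ⟨e.2, h⟩⟩
        · exact ⟨e, τ, h', Or.inr ⟨e.2, h⟩⟩
      · rintro ⟨e, τ, h', ⟨h, h''⟩ | ⟨h, h''⟩⟩
        · exact Or.inl ⟨⟨e, h⟩, τ, h'', h'⟩
        · exact Or.inr ⟨⟨e, h⟩, τ, h'', h'⟩
    · exact isCompact_singleton.union
        ((isCompact_iUnion fun e => isClosed_Iic.isCompact.image (hc _)).union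
          (isCompact_iUnion fun e => isClosed_Ici.isCompact.image (hc _)))
  have hS' : ∀ v p, p ∈ S v → p = P.pos v ∨ ∃ e τ, c e τ = p ∧ ¬ (τ = 0 ∨ τ = 1) ∧
      ((x e = v ∧ τ ≤ a) ∨ (y e = v ∧ b ≤ τ)) := by
    intro v p hp
    rcases (hS v p).1 hp with h | ⟨e, τ, h, ⟨h', h''⟩ | ⟨h', h''⟩⟩
    · exact Or.inl h
    · by_cases hτ : τ = 0
      · left
        rw [← h, hτ, h0, h']
      · exact Or.inr ⟨e, τ, h, not_or.2 ⟨hτ, (h''.trans_lt (hab.trans hb)).ne⟩, Or.inl ⟨h', h''⟩⟩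
    · by_cases hτ : τ = 1
      · left
        rw [← h, hτ, h1, h']
      · exact Or.inr ⟨e, τ, h, not_or.2 ⟨((ha.trans hab).trans_le h'').ne', hτ⟩, Or.inr ⟨h', h''⟩⟩
  have hW : ∀ τ ∈ Set.Icc a b, ¬ (τ = 0 ∨ τ = 1) := fun τ hτ =>
    not_or.2 ⟨(ha.trans_le hτ.1).ne', (hτ.2.trans_lt hb).ne⟩
  refine ⟨S, fun e => c e '' Set.Icc a b, hSc, fun v => ?_,
    fun e => isClosed_Icc.isCompact.image (hc e),
    fun e => (isConnected_Icc hab.le).image _ (hc e).continuousOn, ?_, ?_, ?_, ?_⟩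
  · refine ⟨⟨P.pos v, (hS v _).2 (Or.inl rfl)⟩, isPreconnected_of_forall (P.pos v) fun p hp => ?_⟩
    rcases (hS v p).1 hp with h | ⟨e, τ, h, ⟨h', h''⟩ | ⟨h', h''⟩⟩
    · refine ⟨{P.pos v}, ?_, rfl, h, isPreconnected_singleton⟩
      rintro _ rfl
      exact (hS v _).2 (Or.inl rfl)
    · refine ⟨c e '' Set.Iic a, ?_, ⟨0, ha.le, by rw [h0, h']⟩, ⟨τ, h'', h⟩,
        isPreconnected_Iic.image _ (hc e).continuousOn⟩
      rintro _ ⟨σ, hσ, rfl⟩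
      exact (hS v _).2 (Or.inr ⟨e, σ, rfl, Or.inl ⟨h', hσ⟩⟩)
    · refine ⟨c e '' Set.Ici b, ?_, ⟨1, hb.le, by rw [h1, h']⟩, ⟨τ, h'', h⟩,
        isPreconnected_Ici.image _ (hc e).continuousOn⟩
      rintro _ ⟨σ, hσ, rfl⟩
      exact (hS v _).2 (Or.inr ⟨e, σ, rfl, Or.inr ⟨h', hσ⟩⟩)
  · intro u v huv
    rw [Set.disjoint_left]
    intro p hu hv'
    rcases hS' u p hu with h | ⟨e, τ, h, hτ, k⟩ <;> rcases hS' v p hv' with h' | ⟨e', τ', h', hτ', k'⟩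
    · exact huv (P.pos_injective (h.symm.trans h'))
    · exact hτ' (hv e' τ' u (h'.trans h))
    · exact hτ (hv e τ v (h.trans h'))
    · by_cases hee : e = e'
      · subst hee
        obtain rfl : τ = τ' := hi e (h.trans h'.symm)
        rcases k with ⟨k1, k2⟩ | ⟨k1, k2⟩ <;> rcases k' with ⟨k3, k4⟩ | ⟨k3, k4⟩
        · exact huv (k1.symm.trans k3)
        · exact absurd (k4.trans k2) (not_le.2 hab)
        · exact absurd (k2.trans k4) (not_le.2 hab)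
        · exact huv (k1.symm.trans k3)
      · exact hτ (he e e' τ τ' hee (h.trans h'.symm))
  · intro e e' hee
    rw [Set.disjoint_left]
    rintro _ ⟨τ, hτ, rfl⟩ ⟨τ', -, h⟩
    exact hW τ hτ (he e e' τ τ' hee h.symm)
  · intro e v hve
    rw [hxy e, Sym2.mem_iff] at hve
    rcases hve with rfl | rfl
    · exact ⟨c e a, (hS _ _).2 (Or.inr ⟨e, a, rfl, Or.inl ⟨rfl, le_rfl⟩⟩), a, ⟨le_rfl, hab.le⟩, rfl⟩
    · exact ⟨c e b, (hS _ _).2 (Or.inr ⟨e, b, rfl, Or.inr ⟨rfl, le_rfl⟩⟩), b, ⟨hab.le, le_rfl⟩, rfl⟩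
  · intro e v hve
    rw [Set.disjoint_left]
    rintro _ hp ⟨τ, hτ, rfl⟩
    rcases hS' v _ hp with h | ⟨e', τ', h, -, k⟩
    · exact hW τ hτ (hv e τ v h)
    · by_cases hee : e = e'
      · subst hee
        rw [hxy e, Sym2.mem_iff] at hve
        rcases k with ⟨k, -⟩ | ⟨k, -⟩
        · exact hve (Or.inl k.symm)
        · exact hve (Or.inr k.symm)
      · exact hW τ hτ (he e e' τ τ' hee h.symm)

end Crest.Agent.R206
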