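import Crest.Agent.R206.P2

/-! # Row 206: branch sets and the grid model. -/

set_option autoImplicit false
set_option maxHeartbeats 400000

namespace Crest.Agent.R206

open Crest.GeometryTopology.GraphMetric

section abstract

variable {U V : Type} (Γ : SimpleGraph U)

theorem h49_conn_iff (S : Set U) : (Γ.induce S).Connected ↔ S.Nonempty ∧ ∀ a ∈ S, ∀ b ∈ S,
    Relation.ReflTransGen (fun a b => Γ.Adj a b ∧ a ∈ S ∧ b ∈ S) a b := by
  rw [SimpleGraph.connected_iff, and_comm, Set.nonempty_coe_sort]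
  refine and_congr_right fun _ => ⟨fun h a ha b hb => ?_, fun h a b => ?_⟩
  · have := (SimpleGraph.reachable_iff_reflTransGen _ _).1 (h ⟨a, ha⟩ ⟨b, hb⟩)
    exact Relation.ReflTransGen.lift (p := fun a b => Γ.Adj a b ∧ a ∈ S ∧ b ∈ S)
      (Subtype.val : S → U) (fun p q hpq => ⟨hpq, p.2, q.2⟩) _ _ this
  · have key : ∀ c, Relation.ReflTransGen (fun a b => Γ.Adj a b ∧ a ∈ S ∧ b ∈ S) a.1 c →
        ∀ hc : c ∈ S, (Γ.induce S).Reachable a ⟨c, hc⟩ := by
      intro c hc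
      induction hc with
      | refl => exact fun _ => SimpleGraph.Reachable.refl _
      | tail _ h2 ih => exact fun hc => (ih h2.2.1).trans (SimpleGraph.Adj.reachable h2.1)
    exact key b.1 (h a.1 a.2 b.1 b.2) b.2

/-- orient every edge `e = s(x e, y e)`; `B' v` = the vertices reachable from `B v` inside
`B v ∪ ⋃_{x e = v} (W e \ B (y e))`; follow a walk inside `W e` from `B (x e)` to `B (y e)` up to its
first vertex in `B (y e)` -/
theorem exists_branch {G : SimpleGraph V} (B : V → Set U) (W : G.edgeSet → Set U)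
    (hB : ∀ v, (Γ.induce (B v)).Connected) (hW : ∀ e, (Γ.induce (W e)).Connected)
    (hBB : ∀ u v, u ≠ v → Disjoint (B u) (B v)) (hWW : ∀ e e', e ≠ e' → Disjoint (W e) (W e'))
    (h1 : ∀ (e : G.edgeSet) v, v ∈ (e : Sym2 V) → (B v ∩ W e).Nonempty)
    (h0 : ∀ (e : G.edgeSet) v, v ∉ (e : Sym2 V) → Disjoint (B v) (W e)) :
    ∃ B' : V → Set U, (∀ v, (Γ.induce (B' v)).Connected) ∧
      (∀ u v, u ≠ v → Disjoint (B' u) (B' v)) ∧ (∀ v, ∀ a ∈ B' v, a ∈ B v ∨ ∃ e, a ∈ W e) ∧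
      ∀ x y, G.Adj x y → ∃ a ∈ B' x, ∃ b ∈ B' y, Γ.Adj a b := by
  have hxy : ∀ e : G.edgeSet, ∃ x y, (e : Sym2 V) = s(x, y) := fun e =>
    Sym2.ind (f := fun z : Sym2 V => ∃ x y, z = s(x, y)) (fun x y => ⟨x, y, rfl⟩) e.1
  choose x y hxy using hxy
  let T : V → Set U := fun v => {a | a ∈ B v ∨ ∃ e, x e = v ∧ a ∈ W e ∧ a ∉ B (y e)}
  let B' : V → Set U := fun v => {a | ∃ b ∈ B v,
    Relation.ReflTransGen (fun a b => Γ.Adj a b ∧ a ∈ T v ∧ b ∈ T v) b a}
  have hBB' : ∀ v, B v ⊆ B' v := fun v a ha => ⟨a, ha, Relation.ReflTransGen.refl⟩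
  have hB'T : ∀ v, B' v ⊆ T v := by
    rintro v a ⟨b, hb, h⟩
    induction h with
    | refl => exact Or.inl hb
    | tail _ h2 _ => exact h2.2.2
  have hT1 : ∀ u v a, u ≠ v → a ∈ B u → a ∉ T v := by
    rintro u v a huv ha (h | ⟨e, rfl, h, h'⟩)
    · exact Set.disjoint_left.1 (hBB u v huv) ha h
    · by_cases hu : u ∈ (e : Sym2 V)
      · rw [hxy e, Sym2.mem_iff] at hu
        rcases hu with rfl | rfl
        · exact huv rfl
        · exact h' ha
      · exact Set.disjoint_left.1 (h0 e u hu) ha h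
  have hTT : ∀ u v, u ≠ v → Disjoint (T u) (T v) := by
    intro u v huv
    refine Set.disjoint_left.2 fun a ha ha' => ?_
    rcases ha with h | ⟨e, he, h, h'⟩
    · exact hT1 u v a huv h ha'
    · rcases ha' with k | ⟨e', he', k, -⟩
      · exact hT1 v u a huv.symm k (Or.inr ⟨e, he, h, h'⟩)
      · exact Set.disjoint_left.1 (hWW e e' fun hee => huv (by rw [← he, ← he', hee])) h k
  have hdisj : ∀ u v, u ≠ v → Disjoint (B' u) (B' v) := fun u v huv =>
    (hTT u v huv).mono (hB'T u) (hB'T v)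
  refine ⟨B', fun v => ?_, hdisj, fun v a ha => ?_, fun p q hpq => ?_⟩
  · obtain ⟨hne, hc⟩ := (h49_conn_iff Γ _).1 (hB v)
    refine (h49_conn_iff Γ _).2 ⟨hne.mono (hBB' v), ?_⟩
    have key : ∀ b ∈ B v, ∀ a,
        Relation.ReflTransGen (fun a b => Γ.Adj a b ∧ a ∈ T v ∧ b ∈ T v) b a →
        Relation.ReflTransGen (fun a b => Γ.Adj a b ∧ a ∈ B' v ∧ b ∈ B' v) b a ∧
        Relation.ReflTransGen (fun a b => Γ.Adj a b ∧ a ∈ B' v ∧ b ∈ B' v) a b := by
      intro b hb a h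
      induction h with
      | refl => exact ⟨.refl, .refl⟩
      | tail h1 h2 ih =>
        exact ⟨ih.1.tail ⟨h2.1, ⟨b, hb, h1⟩, ⟨b, hb, h1.tail h2⟩⟩,
          ih.2.head ⟨h2.1.symm, ⟨b, hb, h1.tail h2⟩, ⟨b, hb, h1⟩⟩⟩
    rintro a ⟨b, hb, h⟩ a' ⟨b', hb', h'⟩
    exact ((key b hb a h).2.trans (Relation.ReflTransGen.mono (fun _ _ k =>
      ⟨k.1, hBB' v k.2.1, hBB' v k.2.2⟩) _ _ (hc b hb b' hb'))).trans (key b' hb' a' h').1
  · rcases hB'T v ha with h | ⟨e, -, h, -⟩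
    exacts [Or.inl h, Or.inr ⟨e, h⟩]
  · let e : G.edgeSet := ⟨s(p, q), hpq⟩
    have he : s(p, q) = s(x e, y e) := hxy e
    have hne : x e ≠ y e := by
      have : G.Adj (x e) (y e) := by rw [← SimpleGraph.mem_edgeSet, ← he]; exact hpq
      exact this.ne
    obtain ⟨a₀, ha₀, ha₀'⟩ := h1 e (x e) (by rw [hxy e]; simp)
    obtain ⟨b₀, hb₀, hb₀'⟩ := h1 e (y e) (by rw [hxy e]; simp)
    have key : ∀ c, Relation.ReflTransGen (fun a b => Γ.Adj a b ∧ a ∈ W e ∧ b ∈ W e) a₀ c →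
        c ∈ B' (x e) ∨ ∃ a ∈ B' (x e), ∃ b ∈ B' (y e), Γ.Adj a b := by
      intro c h
      induction h with
      | refl => exact Or.inl (hBB' _ ha₀)
      | @tail c c' _ h2 ih =>
        rcases ih with ih | ih
        · by_cases hc : c' ∈ B (y e)
          · exact Or.inr ⟨c, ih, c', hBB' _ hc, h2.1⟩
          · have hcT := hB'T _ ih
            obtain ⟨b, hb, h⟩ := ih
            exact Or.inl ⟨b, hb, h.tail ⟨h2.1, hcT, Or.inr ⟨e, rfl, h2.2.2, hc⟩⟩⟩
        · exact Or.inr ih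
    rcases key b₀ (((h49_conn_iff Γ _).1 (hW e)).2 a₀ ha₀' b₀ hb₀') with h | ⟨a, ha, b, hb, hab⟩
    · exact absurd (hBB' _ hb₀) (Set.disjoint_left.1 (hdisj _ _ hne) h)
    · rcases Sym2.eq_iff.1 he with ⟨e1, e2⟩ | ⟨e1, e2⟩
      · exact ⟨a, e1 ▸ ha, b, e2 ▸ hb, hab⟩
      · exact ⟨b, e1 ▸ hb, a, e2 ▸ ha, hab.symm⟩

theorem h39_edge (hΓ : Γ.Connected) {S : Set U} {a b : U} (ha : a ∈ S) (hb : b ∉ S) :
    ∃ x ∈ S, ∃ y ∉ S, Γ.Adj x y := by
  obtain ⟨p⟩ := hΓ.preconnected a b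
  obtain ⟨d, -, h1, h2⟩ := p.exists_boundary_dart S ha hb
  exact ⟨_, h1, _, h2, d.adj⟩

/-- induction on the number of vertices outside all `B v`: some such vertex has a neighbour in some
`B v`, add it to `B v` -/
theorem exists_partition [Nonempty V] (hΓ : Γ.Connected) (B : V → Set U)
    (hB : ∀ v, (Γ.induce (B v)).Connected) (hBB : ∀ u v, u ≠ v → Disjoint (B u) (B v))
    (hfin : {a | ∀ v, a ∉ B v}.Finite) :
    ∃ π : U → V, (∀ v, (Γ.induce (π ⁻¹' {v})).Connected) ∧ ∀ v, ∀ a ∈ B v, π a = v := by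
  classical
  induction hn : {a | ∀ v, a ∉ B v}.ncard using Nat.strong_induction_on generalizing B with
  | _ n ih =>
  by_cases hS : ∃ a, ∀ v, a ∉ B v
  · obtain ⟨a, ha⟩ := hS
    obtain ⟨v₀⟩ := ‹Nonempty V›
    obtain ⟨b, hb⟩ := (hB v₀).nonempty
    obtain ⟨x, hx, y, hy, hxy⟩ := h39_edge Γ hΓ (S := {a | ∀ v, a ∉ B v}) ha fun h => h v₀ hb
    obtain ⟨w, hw⟩ : ∃ w, y ∈ B w := by simpa using hy
    have hsub : ∀ v, B v ⊆ if v = w then B v ∪ {x} else B v := fun v => by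
      split_ifs
      exacts [Set.subset_union_left, subset_rfl]
    have hss : {a | ∀ v, a ∉ if v = w then B v ∪ {x} else B v} ⊂ {a | ∀ v, a ∉ B v} :=
      ⟨fun a h v h' => h v (hsub v h'), fun h => h hx w (by simp)⟩
    refine (ih _ (hn ▸ Set.ncard_lt_ncard hss hfin)
      (fun v => if v = w then B v ∪ {x} else B v) (fun v => ?_) (fun u v huv => ?_)
      (hfin.subset hss.1) rfl).imp fun π p => ⟨p.1, fun v a h => p.2 v a (hsub v h)⟩
    · by_cases h : v = w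
      · rw [if_pos h]
        exact SimpleGraph.connected_induce_union (hB v).preconnected
          (by rw [SimpleGraph.induce_singleton_eq_top]; exact SimpleGraph.preconnected_top)
          (h ▸ hw) rfl hxy.symm
      · rw [if_neg h]
        exact hB v
    · have := hBB u v huv
      split_ifs with h h'
      · exact absurd (h.trans h'.symm) huv
      · exact Set.disjoint_union_left.2 ⟨this, Set.disjoint_singleton_left.2 (hx v)⟩
      · exact Set.disjoint_union_right.2 ⟨this, Set.disjoint_singleton_right.2 (hx u)⟩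
      · exact this
  · push Not at hS
    choose π hπ using hS
    have h : ∀ v, ∀ a ∈ B v, π a = v := fun v a ha => by
      by_contra hne
      exact Set.disjoint_left.1 (hBB _ _ hne) (hπ a) ha
    refine ⟨π, fun v => ?_, h⟩
    have e : π ⁻¹' {v} = B v := Set.ext fun a =>
      ⟨fun ha => (show π a = v from ha) ▸ hπ a, h v a⟩
    rw [e]
    exact hB v

/-- `exists_partition` for `Option V`; an edge leaves the fibre of `none`, merge the two fibres -/
theorem exists_partition_out [Nonempty V] (hΓ : Γ.Connected) (B : V → Set U) (O : Set U)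
    (hB : ∀ v, (Γ.induce (B v)).Connected) (hO : (Γ.induce O).Connected)
    (hBB : ∀ u v, u ≠ v → Disjoint (B u) (B v)) (hBO : ∀ v, Disjoint (B v) O) (hfin : Oᶜ.Finite) :
    ∃ (π : U → V) (out : V), (∀ v, (Γ.induce (π ⁻¹' {v})).Connected) ∧ (∀ v, ∀ a ∈ B v, π a = v) ∧
      ∀ a ∈ O, π a = out := by
  obtain ⟨π, p1, p2⟩ := exists_partition Γ hΓ (V := Option V) (fun o => o.elim O B)
    (by rintro (_ | v); exacts [hO, hB v])
    (by
      rintro (_ | u) (_ | v) h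
      exacts [absurd rfl h, (hBO v).symm, hBO u, hBB u v fun e => h (congrArg some e)])
    (hfin.subset fun a ha => ha none)
  obtain ⟨v₀⟩ := ‹Nonempty V›
  obtain ⟨a, ha⟩ := hO.nonempty
  obtain ⟨b, hb⟩ := (hB v₀).nonempty
  obtain ⟨x, hx, y, hy, hxy⟩ := h39_edge Γ hΓ (S := π ⁻¹' {none}) (p2 none a ha)
    (b := b) fun h => Option.some_ne_none v₀ ((p2 (some v₀) b hb).symm.trans h)
  obtain ⟨w, hw⟩ := Option.ne_none_iff_exists'.1 (show π y ≠ none from hy)
  refine ⟨fun a => (π a).getD w, w, fun v => ?_, fun v a h => ?_, fun a h => ?_⟩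
  · by_cases h : v = w
    · subst h
      have e : (fun a => (π a).getD v) ⁻¹' {v} = π ⁻¹' {none} ∪ π ⁻¹' {some v} := by
        ext c
        cases hc : π c <;> simp [hc]
      rw [e]
      exact SimpleGraph.connected_induce_union (p1 none).preconnected (p1 (some v)).preconnected
        hx hw hxy
    · have e : (fun a => (π a).getD w) ⁻¹' {v} = π ⁻¹' {some v} := by
        ext c
        cases hc : π c <;> simp [hc, Ne.symm h]
      rw [e]
      exact p1 (some v)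
  · simp only [p2 (some v) a h, Option.getD_some]
  · simp only [p2 none a h, Option.getD_none]

end abstract

theorem h70_conn {U : Type} (Γ : SimpleGraph U) (o : U) (μ : U → ℕ)
    (h : ∀ a, a ≠ o → ∃ b, Γ.Adj a b ∧ μ b < μ a) : Γ.Connected := by
  have key : ∀ n a, μ a < n → Γ.Reachable a o := by
    intro n
    induction n with
    | zero => exact fun a ha => absurd ha (Nat.not_lt_zero _)
    | succ n ih =>
      intro a ha
      by_cases e : a = o
      · rw [e]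
      · obtain ⟨b, hab, hb⟩ := h a e
        exact hab.reachable.trans (ih b (by omega))
  have : Nonempty U := ⟨o⟩
  exact ⟨fun a b => (key _ a (Nat.lt_succ_self _)).trans (key _ b (Nat.lt_succ_self _)).symm⟩

theorem h70_step (N : ℕ) (x y : ℤ) (h : ¬ (0 < x ∧ x < N ∧ 0 < y ∧ y < N)) (h0 : ¬ (x = 0 ∧ y = 0)) :
    ∃ b : ℤ × ℤ, ¬ (0 < b.1 ∧ b.1 < N ∧ 0 < b.2 ∧ b.2 < N) ∧ grid.Adj (x, y) b ∧
      b.1.natAbs + b.2.natAbs < x.natAbs + y.natAbs := by
  have : (0 < x ∧ (y ≤ 0 ∨ N ≤ y)) ∨ (x < 0 ∧ (y ≤ 0 ∨ N ≤ y)) ∨ (0 < y ∧ (x ≤ 0 ∨ N ≤ x)) ∨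
      (y < 0 ∧ (x ≤ 0 ∨ N ≤ x)) := by omega
  rcases this with h1 | h1 | h1 | h1
  · exact ⟨(x - 1, y), by dsimp only; omega, Or.inr ⟨rfl, Or.inr (by dsimp only; omega)⟩,
      by dsimp only; omega⟩
  · exact ⟨(x + 1, y), by dsimp only; omega, Or.inr ⟨rfl, Or.inl rfl⟩, by dsimp only; omega⟩
  · exact ⟨(x, y - 1), by dsimp only; omega, Or.inl ⟨rfl, Or.inr (by dsimp only; omega)⟩,
      by dsimp only; omega⟩
  · exact ⟨(x, y + 1), by dsimp only; omega, Or.inl ⟨rfl, Or.inl rfl⟩, by dsimp only; omega⟩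

theorem grid_connected : grid.Connected := by
  refine h70_conn grid (0, 0) (fun a => a.1.natAbs + a.2.natAbs) ?_
  rintro ⟨x, y⟩ h
  obtain ⟨b, -, h1, h2⟩ := h70_step 0 x y (by omega) fun e => h (Prod.ext e.1 e.2)
  exact ⟨b, h1, h2⟩

/-- walk away from the box along a line to a far row or column -/
theorem far_connected (N : ℕ) :
    (grid.induce {a : ℤ × ℤ | ¬ (0 < a.1 ∧ a.1 < N ∧ 0 < a.2 ∧ a.2 < N)}).Connected := by
  refine h70_conn _ ⟨(0, 0), fun h => lt_irrefl _ h.1⟩ (fun a => a.1.1.natAbs + a.1.2.natAbs) ?_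
  rintro ⟨⟨x, y⟩, hxy⟩ h
  obtain ⟨b, h0, h1, h2⟩ := h70_step N x y hxy fun e => h (Subtype.ext (Prod.ext e.1 e.2))
  exact ⟨⟨b, h0⟩, h1, h2⟩

theorem far_finite (N : ℕ) :
    {a : ℤ × ℤ | ¬ (0 < a.1 ∧ a.1 < N ∧ 0 < a.2 ∧ a.2 < N)}ᶜ.Finite := by
  refine ((Set.finite_Ioo (0 : ℤ) N).prod (Set.finite_Ioo (0 : ℤ) N)).subset fun a ha => ?_
  have h : 0 < a.1 ∧ a.1 < N ∧ 0 < a.2 ∧ a.2 < N := not_not.1 ha
  exact ⟨⟨h.1, h.2.1⟩, h.2.2⟩

/-- **PL1** (`exists_pieces`, `exists_cells` for `V ⊕ G.edgeSet`, `exists_branch`,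
`exists_partition_out`) -/
theorem exists_gridModel {V : Type} [Finite V] [Nonempty V] {G : SimpleGraph V} (h : IsPlanar G) :
    Nonempty (GridModel G) := by
  obtain ⟨P⟩ := h
  obtain ⟨S, W, h1, h2, h3, h4, h5, h6, h7, h8⟩ := exists_pieces P
  obtain ⟨C, N, hN, c1, c2, c3, c4⟩ := exists_cells (ι := V ⊕ G.edgeSet) (Sum.elim S W)
    (by rintro (v | e); exacts [h1 v, h3 e]) (by rintro (v | e); exacts [h2 v, h4 e])
  obtain ⟨B, b1, b2, b3, b4⟩ := exists_branch grid (fun v => C (.inl v)) (fun e => C (.inr e))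
    (fun v => c1 _) (fun e => c1 _) (fun u v huv => c2 _ _ (h5 u v huv))
    (fun e e' he => c2 _ _ (h6 e e' he)) (fun e v hv => c3 _ _ (h7 e v hv))
    (fun e v hv => c2 _ _ (h8 e v hv))
  obtain ⟨π, out, p1, p2, p3⟩ := exists_partition_out grid grid_connected B _ b1 (far_connected N) b2
    (fun v => Set.disjoint_left.2 fun a ha ha' => by
      rcases b3 v a ha with h | ⟨e, h⟩
      exacts [ha' (c4 _ a h), ha' (c4 _ a h)]) (far_finite N)
  refine ⟨⟨N, π, out, hN, p1, fun x y hxy => ?_, p3⟩⟩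
  obtain ⟨a, ha, b, hb, hab⟩ := b4 x y hxy
  exact ⟨a, b, hab, p2 x a ha, p2 y b hb⟩

end Crest.Agent.R206
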