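import Crest.Agent.R206.PDefs

/-! # Row 206: contraction of maps on the sphere, and `K₃,₃`. -/

set_option autoImplicit false
set_option maxHeartbeats 400000

namespace Crest.Agent.R206

variable {U V D F : Type} [Fintype D]

/-- the fibres of `π` (on the corners) are connected through the edges of `M` -/
def SMap.FC (M : SMap U D F) (π : U → V) : Prop :=
  ∀ σ : U → ZMod 2, (∀ d, π (M.s d) = π (M.t d) → σ (M.s d) = σ (M.t d)) →
    ∀ u u' f f', u ∈ M.cor f → u' ∈ M.cor f' → π u = π u' → σ u = σ u'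

/-- a chain whose support has a single edge at `t d₀` (`σ` = indicator of `t d₀`) -/
theorem Ev.eq_zero_of_single {s t : D → U} {z : D → ZMod 2} (hz : Ev s t z) {d₀ : D}
    (h : s d₀ ≠ t d₀) (h0 : ∀ d, d ≠ d₀ → s d = t d₀ ∨ t d = t d₀ → z d = 0) : z d₀ = 0 := by
  classical
  have := hz fun u => if u = t d₀ then 1 else 0
  rw [Finset.sum_eq_single d₀ (fun d _ hd => ?_) (by simp)] at this
  · simpa [h] using this
  · by_cases h' : s d = t d₀ ∨ t d = t d₀
    · rw [h0 d hd h', zero_mul]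
    · rw [not_or] at h'
      simp [h'.1, h'.2]

theorem h2_sum_ne {d₀ : D} [Fintype {d // d ≠ d₀}] (f : D → ZMod 2) :
    ∑ d, f d = f d₀ + ∑ d : {d // d ≠ d₀}, f d := by
  classical
  convert Fintype.sum_eq_add_sum_subtype_ne f d₀

theorem h2_z2 {a b : ZMod 2} : a + b = 0 ↔ a = b := by
  revert a b; decide

open Classical in
/-- contraction of one edge, `c u = if u = t d₀ then s d₀ else u`.  `bd_ev`: extend `z` by
`z d₀ = ∑_{d ≠ d₀} z d * (1[s d = t d₀] + 1[t d = t d₀])` and use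
`σ = σ ∘ c + (σ (t d₀) + σ (s d₀)) • 1[· = t d₀]`; `conn`, `link`: `Ev.eq_zero_of_single` for the
boundary of `φ`, the links at `s d₀` and `t d₀` are glued at `l d₀` -/
theorem SMap.contract_one (M : SMap U D F) {d₀ : D} (h : M.s d₀ ≠ M.t d₀) :
    ∃ (c : U → U) (M' : SMap U {d // d ≠ d₀} F), (∀ u, c u = u ∨ (u = M.t d₀ ∧ c u = M.s d₀)) ∧
      c (M.s d₀) = c (M.t d₀) ∧
      (∀ d, M'.s d = c (M.s d)) ∧ (∀ d, M'.t d = c (M.t d)) ∧ (∀ d, M'.l d = M.l d) ∧
      (∀ d, M'.r d = M.r d) ∧ ∀ f, M'.cor f = c '' M.cor f := by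
  set c : U → U := fun u => if u = M.t d₀ then M.s d₀ else u with hc
  have c1 : c (M.s d₀) = M.s d₀ := if_neg h
  have c2 : c (M.t d₀) = M.s d₀ := if_pos rfl
  have c3 : ∀ u, c u = u ∨ (u = M.t d₀ ∧ c u = M.s d₀) := fun u => by
    by_cases hu : u = M.t d₀
    · exact Or.inr ⟨hu, if_pos hu⟩
    · exact Or.inl (if_neg hu)
  have one : ∀ φ : F → ZMod 2, (∀ d, d ≠ d₀ → M.s d = M.t d₀ ∨ M.t d = M.t d₀ →
      φ (M.l d) = φ (M.r d)) → φ (M.l d₀) = φ (M.r d₀) := fun φ hφ =>
    h2_z2.1 ((M.ev_bd φ).eq_zero_of_single h fun d hd h' => h2_z2.2 (hφ d hd h'))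
  refine ⟨c, ⟨fun d => c (M.s d), fun d => c (M.t d), fun d => M.l d, fun d => M.r d,
    fun f => c '' M.cor f, fun d => ⟨_, M.s_l d, rfl⟩, fun d => ⟨_, M.t_l d, rfl⟩,
    fun d => ⟨_, M.s_r d, rfl⟩, fun d => ⟨_, M.t_r d, rfl⟩, fun φ σ => ?_, fun z hz => ?_,
    fun φ hφ => ?_, fun u φ hφ f g hf hg => ?_⟩, c3, c1.trans c2.symm, fun _ => rfl, fun _ => rfl,
    fun _ => rfl, fun _ => rfl, fun _ => rfl⟩
  · have := M.ev_bd φ fun u => σ (c u)
    rwa [h2_sum_ne (d₀ := d₀), c1, c2, h2_z2.2 rfl, mul_zero, zero_add] at this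
  · set e : U → ZMod 2 := fun u => if u = M.t d₀ then 1 else 0 with he
    set w : ZMod 2 := ∑ d : {d // d ≠ d₀}, z d * (e (M.s d) + e (M.t d)) with hw
    obtain ⟨φ, hφ⟩ := M.bd_ev (fun d => if hd : d ≠ d₀ then z ⟨d, hd⟩ else w) fun σ => by
      have h1 : ∀ u, σ u = σ (c u) + (σ (M.s d₀) + σ (M.t d₀)) * e u := fun u => by
        by_cases hu : u = M.t d₀
        · simp only [hc, he, if_pos hu, mul_one]
          rw [← add_assoc, h2_z2.2 rfl, zero_add, hu]
        · simp only [hc, he, if_neg hu, mul_zero, add_zero]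
      beta_reduce
      rw [h2_sum_ne (d₀ := d₀), dif_neg (not_not.2 rfl)]
      have h2 : ∀ d : {d // d ≠ d₀}, (if hd : d.1 ≠ d₀ then z ⟨d, hd⟩ else w) *
          (σ (M.s d) + σ (M.t d)) = z d * (σ (c (M.s d)) + σ (c (M.t d))) +
            (σ (M.s d₀) + σ (M.t d₀)) * (z d * (e (M.s d) + e (M.t d))) := fun d => by
        rw [dif_pos d.2, h1 (M.s d), h1 (M.t d)]; ring
      simp only [h2]
      rw [Finset.sum_add_distrib, hz σ, ← Finset.mul_sum, zero_add, h2_z2, mul_comm]
    exact ⟨φ, fun d => by rw [← hφ d, dif_pos d.2]⟩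
  · refine M.conn φ fun d => ?_
    by_cases hd : d = d₀
    · rw [hd]; exact one φ fun d hd _ => hφ ⟨d, hd⟩
    · exact hφ ⟨d, hd⟩
  · obtain ⟨a, ha, rfl⟩ := hf
    obtain ⟨b, hb, hab⟩ := hg
    by_cases hu : c a = M.s d₀
    · have h0 := one φ fun d hd h' => hφ ⟨d, hd⟩
        (h'.imp (fun e => by simp only [e, c2, hu]) fun e => by simp only [e, c2, hu])
      have key : ∀ x f, x ∈ M.cor f → c x = M.s d₀ → φ f = φ (M.l d₀) := fun x f hx hcx => by
        refine M.link x φ (fun d hd => ?_) f _ hx ?_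
        · by_cases hd' : d = d₀
          · rw [hd']; exact h0
          · exact hφ ⟨d, hd'⟩
              (hd.imp (fun e => by simp only [e, hcx, hu]) fun e => by simp only [e, hcx, hu])
        · rcases c3 x with e | e
          · rw [← e, hcx]; exact M.s_l d₀
          · rw [e.1]; exact M.t_l d₀
      rw [key a f ha hu, key b g hb (hab.trans hu)]
    · have ea : c a = a := (c3 a).resolve_right fun e => hu e.2
      have eb : c b = b := (c3 b).resolve_right fun e => hu (hab ▸ e.2)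
      obtain rfl : b = a := by rw [← eb, hab, ea]
      refine M.link b φ (fun d hd => hφ ⟨d, ?_⟩ (hd.imp (congrArg c) (congrArg c))) f g ha hb
      rintro rfl
      rcases hd with e | e
      · exact hu (e ▸ c1)
      · exact hu (e ▸ c2)

/-- renaming the vertices by a map that is injective on the corners -/
theorem SMap.rename (M : SMap U D F) (π : U → V)
    (h : ∀ u u' f f', u ∈ M.cor f → u' ∈ M.cor f' → π u = π u' → u = u') :
    ∃ M' : SMap V D F, (∀ d, M'.s d = π (M.s d)) ∧ (∀ d, M'.t d = π (M.t d)) ∧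
      (∀ d, M'.l d = M.l d) ∧ (∀ d, M'.r d = M.r d) ∧ ∀ f, M'.cor f = π '' M.cor f := by
  classical
  refine ⟨⟨fun d => π (M.s d), fun d => π (M.t d), M.l, M.r, fun f => π '' M.cor f,
    fun d => ⟨_, M.s_l d, rfl⟩, fun d => ⟨_, M.t_l d, rfl⟩, fun d => ⟨_, M.s_r d, rfl⟩,
    fun d => ⟨_, M.t_r d, rfl⟩, fun φ σ => M.ev_bd φ (σ ∘ π), fun z hz => M.bd_ev z fun σ => ?_,
    M.conn, ?_⟩, fun _ => rfl, fun _ => rfl, fun _ => rfl, fun _ => rfl, fun _ => rfl⟩
  · have key : ∀ u f, u ∈ M.cor f →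
        (if H : ∃ u', (∃ f', u' ∈ M.cor f') ∧ π u' = π u then σ H.choose else 0) = σ u := by
      intro u f hu
      have H : ∃ u', (∃ f', u' ∈ M.cor f') ∧ π u' = π u := ⟨u, ⟨f, hu⟩, rfl⟩
      obtain ⟨⟨f', h1⟩, h2⟩ := H.choose_spec
      rw [dif_pos H, h _ _ _ _ h1 hu h2]
    have := hz fun v => if H : ∃ u', (∃ f', u' ∈ M.cor f') ∧ π u' = v then σ H.choose else 0
    simpa only [key _ _ (M.s_l _), key _ _ (M.t_l _)] using this
  · rintro _ φ hφ f g ⟨u, hu, rfl⟩ ⟨u', hu', e⟩
    obtain rfl := h _ _ _ _ hu' hu e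
    exact M.link u' φ (fun d hd => hφ d (hd.imp (congrArg π) (congrArg π))) f g hu hu'

/-- strong induction on `Fintype.card D`: contract an edge `d₀` with `s d₀ ≠ t d₀`,
`π (s d₀) = π (t d₀)` (`contract_one`, `π ∘ c = π`, `FC` is kept: test `σ ∘ c`); if there is none,
`FC` makes `π` injective on the corners (`rename`) -/
theorem SMap.contract (M : SMap U D F) (π : U → V) (h : M.FC π) :
    ∃ (D' : Type) (_ : Fintype D') (M' : SMap V D' F) (ι : D' → D), Function.Injective ι ∧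
      (∀ d, π (M.s d) ≠ π (M.t d) → d ∈ Set.range ι) ∧
      (∀ d, M'.s d = π (M.s (ι d))) ∧ (∀ d, M'.t d = π (M.t (ι d))) ∧ (∀ d, M'.l d = M.l (ι d)) ∧
      (∀ d, M'.r d = M.r (ι d)) ∧ ∀ f, M'.cor f = π '' M.cor f := by
  classical
  induction hn : Fintype.card D using Nat.strong_induction_on generalizing D with
  | _ n ih =>
  by_cases H : ∃ d₀, M.s d₀ ≠ M.t d₀ ∧ π (M.s d₀) = π (M.t d₀)
  · obtain ⟨d₀, h1, h2⟩ := H
    obtain ⟨c, M₁, hc, hc0, hs, ht, hl, hr, hcor⟩ := M.contract_one h1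
    have hπ : ∀ u, π (c u) = π u := fun u => by
      rcases hc u with h | ⟨h, h'⟩
      · rw [h]
      · rw [h', h, h2]
    obtain ⟨D', _, M', ι, hι, hsur, hs', ht', hl', hr', hcor'⟩ := ih _
      (hn ▸ Fintype.card_subtype_lt (x := d₀) (by simp)) M₁ (fun σ hσ u u' f f' hu hu' e => by
        rw [hcor] at hu hu'
        obtain ⟨a, ha, rfl⟩ := hu
        obtain ⟨a', ha', rfl⟩ := hu'
        refine h (σ ∘ c) (fun d hd => ?_) a a' f f' ha ha' (by rwa [hπ, hπ] at e)
        by_cases hd0 : d = d₀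
        · subst hd0; exact congrArg σ hc0
        · have := hσ ⟨d, hd0⟩ (by rwa [hs, ht, hπ, hπ])
          rwa [hs, ht] at this) rfl
    refine ⟨D', inferInstance, M', fun d => (ι d).1, Subtype.val_injective.comp hι, fun d hd => ?_,
      fun d => by rw [hs', hs, hπ], fun d => by rw [ht', ht, hπ], fun d => by rw [hl', hl],
      fun d => by rw [hr', hr], fun f => by rw [hcor', hcor, Set.image_image]; simp only [hπ]⟩
    obtain ⟨d', hd'⟩ := hsur ⟨d, fun e => hd (e ▸ h2)⟩ (by rwa [hs, ht, hπ, hπ])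
    exact ⟨d', congrArg Subtype.val hd'⟩
  · obtain ⟨M', h1, h2, h3, h4, h5⟩ := M.rename π fun u u' f f' hu hu' e => by
      have := h (fun x => if x = u' then 1 else 0) (fun d hd => by
        rw [not_not.1 fun h' => H ⟨d, h', hd⟩]) u u' f f' hu hu' e
      by_contra hne
      simp [hne] at this
    exact ⟨D, inferInstance, M', id, Function.injective_id, fun d _ => ⟨d, rfl⟩, h1, h2, h3, h4, h5⟩

/-- even subgraphs of `K₃,₃` -/
def Even33 (z : Fin 3 × Fin 3 → ZMod 2) : Prop :=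
  (∀ i, ∑ j, z (i, j) = 0) ∧ ∀ j, ∑ i, z (i, j) = 0

instance : DecidablePred Even33 := fun z => by unfold Even33; infer_instance

theorem h69_four (z : Fin 3 × Fin 3 → ZMod 2) (hz : Even33 z) :
    ∑ e, (z e).val = 0 ∨ 4 ≤ ∑ e, (z e).val := by
  have key : ∀ a b c d e f g h i : ZMod 2, a + b + c = 0 → d + e + f = 0 → g + h + i = 0 →
      a + d + g = 0 → b + e + h = 0 → c + f + i = 0 →
      a.val + b.val + c.val + (d.val + e.val + f.val) + (g.val + h.val + i.val) = 0 ∨
      4 ≤ a.val + b.val + c.val + (d.val + e.val + f.val) + (g.val + h.val + i.val) := by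
    decide
  obtain ⟨h1, h2⟩ := hz
  simp only [Fin.sum_univ_three] at h1 h2
  simp only [Fintype.sum_prod_type, Fin.sum_univ_three]
  exact key _ _ _ _ _ _ _ _ _ (h1 0) (h1 1) (h1 2) (h2 0) (h2 1) (h2 2)

/-- MacLane's criterion for `K₃,₃`.  For `a` in the (finite) set `S` of values of `L`, `R` the set
`{e | L e = a xor R e = a}` is a nonempty even subgraph, so it has at least 4 edges (`decide` over the
`2 ^ 9` chains); every edge is counted twice, so `4 * #S ≤ 18`; the pairs `{L e, R e}` are nine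
distinct two-element subsets of `S` -/
theorem no_basis33 {A : Type} [DecidableEq A] (L R : Fin 3 × Fin 3 → A) (hne : ∀ e, L e ≠ R e)
    (hinj : ∀ e e', s(L e, R e) = s(L e', R e') → e = e')
    (hev : ∀ a, Even33 fun e => (if L e = a then 1 else 0) + (if R e = a then 1 else 0)) : False := by
  set S : Finset A := Finset.univ.image L ∪ Finset.univ.image R with hS
  have hL : ∀ e, L e ∈ S := fun e => by simp [hS]
  have hR : ∀ e, R e ∈ S := fun e => by simp [hS]
  have hval : ∀ a e, ((if L e = a then 1 else 0) + (if R e = a then 1 else 0) : ZMod 2).val =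
      (if L e = a then 1 else 0) + (if R e = a then 1 else 0) := fun a e => by
    have := hne e
    split_ifs with h1 h2 h2
    · exact absurd (h1.trans h2.symm) this
    all_goals rfl
  have h4 : ∀ a ∈ S, 4 ≤ ∑ e, ((if L e = a then 1 else 0) + (if R e = a then 1 else 0) : ℕ) := by
    intro a ha
    have h := h69_four _ (hev a)
    simp only [hval] at h
    refine h.resolve_left fun h0 => ?_
    rw [Finset.sum_eq_zero_iff] at h0
    rcases Finset.mem_union.1 ha with h | h <;> obtain ⟨e, -, he⟩ := Finset.mem_image.1 h <;>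
      have := h0 e (Finset.mem_univ _) <;> simp [he] at this
  have h18 : ∑ a ∈ S, ∑ e, ((if L e = a then 1 else 0) + (if R e = a then 1 else 0) : ℕ) = 18 := by
    rw [Finset.sum_comm]
    have : ∀ e, ∑ a ∈ S, ((if L e = a then 1 else 0) + (if R e = a then 1 else 0) : ℕ) = 2 :=
      fun e => by
        rw [Finset.sum_add_distrib, Finset.sum_ite_eq, Finset.sum_ite_eq, if_pos (hL e),
          if_pos (hR e)]
    simp [this]
  have hc : S.card ≤ 4 := by
    have := Finset.card_nsmul_le_sum S _ 4 h4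
    rw [h18, smul_eq_mul] at this
    omega
  have h9 : (Finset.univ : Finset (Fin 3 × Fin 3)).card ≤ (S.powersetCard 2).card := by
    refine Finset.card_le_card_of_injOn (fun e => {L e, R e}) (fun e _ => ?_) fun e _ e' _ h => ?_
    · refine Finset.mem_coe.2 (Finset.mem_powersetCard.2 ⟨?_, Finset.card_pair (hne e)⟩)
      exact Finset.insert_subset (hL e) (Finset.singleton_subset_iff.2 (hR e))
    · refine hinj e e' ?_
      have h' : ({L e, R e} : Set A) = {L e', R e'} := by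
        simpa using congrArg (fun s : Finset A => (s : Set A)) h
      rw [Sym2.eq_iff]
      exact Set.pair_eq_pair_iff.1 h'
  rw [Finset.card_powersetCard] at h9
  have := Nat.choose_le_choose 2 hc
  simp [Nat.choose] at h9 this
  omega

/-- for two edges there is an even subgraph containing the first and not the second (`decide`) -/
theorem exists_even33 (e e' : Fin 3 × Fin 3) :
    ∃ z, Even33 z ∧ z e = 1 ∧ (e' ≠ e → z e' = 0) := by
  have key : ∀ e e' : Fin 3 × Fin 3, ∃ i j : Fin 3,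
      Even33 (fun x => if x.1 ≠ i ∧ x.2 ≠ j then 1 else 0) ∧ (e.1 ≠ i ∧ e.2 ≠ j) ∧
        (e' ≠ e → ¬ (e'.1 ≠ i ∧ e'.2 ≠ j)) := by
    decide
  obtain ⟨i, j, h1, h2, h3⟩ := key e e'
  exact ⟨_, h1, if_pos h2, fun h => if_neg (h3 h)⟩

/-- every even `z` gives a cycle of `M` supported on the nine edges, hence `φ z` (`bd_ev`); put
`Φ f = fun z => φ z f`, `L e = Φ (l (d e))`, `R e = Φ (r (d e))`; `Φ (l d) = Φ (r d)` off the nine edges;
`ev_bd` for the indicator of `{f | Φ f = a}` tested on the indicators of `a i`, `b j` -/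
theorem SMap.no_K33 (M : SMap U D F) (a b : Fin 3 → U) (ha : Function.Injective a)
    (hb : Function.Injective b) (hab : ∀ i j, a i ≠ b j) (d : Fin 3 × Fin 3 → D)
    (hd : ∀ e, s(M.s (d e), M.t (d e)) = s(a e.1, b e.2)) : False := by
  classical
  have hdi : Function.Injective d := by
    intro e e' h
    have h1 := hd e
    rw [h, hd e', Sym2.eq_iff] at h1
    rcases h1 with ⟨h1, h2⟩ | ⟨h1, -⟩
    · exact Prod.ext (ha h1).symm (hb h2).symm
    · exact absurd h1 (hab _ _)
  have hσ : ∀ (σ : U → ZMod 2) e, σ (M.s (d e)) + σ (M.t (d e)) = σ (a e.1) + σ (b e.2) := by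
    intro σ e
    rcases Sym2.eq_iff.1 (hd e) with ⟨h1, h2⟩ | ⟨h1, h2⟩
    · rw [h1, h2]
    · rw [h1, h2, add_comm]
  obtain ⟨X, hX⟩ : ∃ X : (Fin 3 × Fin 3 → ZMod 2) → D → ZMod 2,
      ∀ z x, X z x = ∑ e, if d e = x then z e else 0 := ⟨_, fun _ _ => rfl⟩
  have X1 : ∀ z e, X z (d e) = z e := by
    intro z e
    simp [hX, hdi.eq_iff]
  have X0 : ∀ z x, (∀ e, d e ≠ x) → X z x = 0 := by
    intro z x hx
    simp [hX, hx]
  have X2 : ∀ z (σ : U → ZMod 2), ∑ x, X z x * (σ (M.s x) + σ (M.t x)) =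
      ∑ e, z e * (σ (a e.1) + σ (b e.2)) := by
    intro z σ
    simp only [hX, Finset.sum_mul]
    rw [Finset.sum_comm]
    refine Finset.sum_congr rfl fun e _ => ?_
    simp only [ite_mul, zero_mul, Finset.sum_ite_eq, Finset.mem_univ, if_true, hσ]
  have hc : ∀ z : {z // Even33 z}, ∃ φ : F → ZMod 2, ∀ x, X z.1 x = φ (M.l x) + φ (M.r x) := by
    rintro ⟨z, h1, h2⟩
    refine M.bd_ev _ fun σ => ?_
    rw [X2]
    simp only [mul_add, Finset.sum_add_distrib, Fintype.sum_prod_type]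
    rw [Finset.sum_comm (f := fun i j => z (i, j) * σ (b j))]
    simp only [← Finset.sum_mul, h1, h2, zero_mul, Finset.sum_const_zero, add_zero]
  choose φ hφ using hc
  have h2 : ∀ x : ZMod 2, x + x = 0 := by decide
  have h2' : ∀ x y : ZMod 2, 0 = x + y → x = y := by decide
  refine no_basis33 (A := {z // Even33 z} → ZMod 2) (fun e z => φ z (M.l (d e)))
    (fun e z => φ z (M.r (d e))) (fun e h => ?_) (fun e e' h => ?_) fun c => ?_
  · obtain ⟨z, hz, h1, -⟩ := exists_even33 e e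
    have h3 := hφ ⟨z, hz⟩ (d e)
    rw [X1, congrFun h ⟨z, hz⟩, h2] at h3
    exact one_ne_zero (h1.symm.trans h3)
  · obtain ⟨z, hz, h1, h0⟩ := exists_even33 e e'
    by_contra hne
    have h3 := hφ ⟨z, hz⟩ (d e)
    have h4 := hφ ⟨z, hz⟩ (d e')
    rw [X1] at h3 h4
    dsimp only at h3 h4
    have h5 : z e = z e' := by
      rcases Sym2.eq_iff.1 h with ⟨k1, k2⟩ | ⟨k1, k2⟩
      · rw [h3, h4, congrFun k1 ⟨z, hz⟩, congrFun k2 ⟨z, hz⟩]
      · rw [h3, h4, congrFun k1 ⟨z, hz⟩, congrFun k2 ⟨z, hz⟩, add_comm]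
    rw [h1, h0 (Ne.symm hne)] at h5
    exact one_ne_zero h5
  · obtain ⟨χ, hχ⟩ : ∃ χ : F → ZMod 2, ∀ f, χ f = if (fun z => φ z f) = c then 1 else 0 :=
      ⟨_, fun _ => rfl⟩
    simp only [← hχ]
    have h3 : ∀ x, χ (M.l x) + χ (M.r x) = X (fun e => χ (M.l (d e)) + χ (M.r (d e))) x := by
      intro x
      by_cases hx : ∃ e, d e = x
      · obtain ⟨e, rfl⟩ := hx
        rw [X1]
      · push Not at hx
        have h4 : (fun z => φ z (M.l x)) = fun z => φ z (M.r x) :=
          funext fun z => h2' _ _ ((X0 _ x hx).symm.trans (hφ z x))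
        rw [X0 _ x hx, hχ, hχ, h4, h2]
    have h5 : ∀ σ : U → ZMod 2,
        ∑ e, (χ (M.l (d e)) + χ (M.r (d e))) * (σ (a e.1) + σ (b e.2)) = 0 := by
      intro σ
      rw [← X2, ← M.ev_bd χ σ]
      exact Finset.sum_congr rfl fun x _ => by rw [← h3]
    constructor
    · intro i
      have h6 := h5 fun u => if u = a i then 1 else 0
      simp only [ha.eq_iff, (hab _ _).symm, if_false, add_zero, mul_ite, mul_one, mul_zero,
        Fintype.sum_prod_type] at h6
      rw [Finset.sum_comm] at h6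
      simpa using h6
    · intro j
      have h6 := h5 fun u => if u = b j then 1 else 0
      simp only [hb.eq_iff, hab _ _, if_false, zero_add, mul_ite, mul_one, mul_zero,
        Fintype.sum_prod_type] at h6
      simpa using h6

end Crest.Agent.R206
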