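import Mathlib
import Crest.Prelude.Def_GraphMetric

/-! # Row 206, planar preliminaries: definitions (owner helper71). -/

set_option autoImplicit false

namespace Crest.Agent.R206

/-- the square grid on `ℤ × ℤ` -/
def grid : SimpleGraph (ℤ × ℤ) where
  Adj a b := (a.1 = b.1 ∧ (a.2 + 1 = b.2 ∨ b.2 + 1 = a.2)) ∨
    (a.2 = b.2 ∧ (a.1 + 1 = b.1 ∨ b.1 + 1 = a.1))
  symm := ⟨fun a b h => by omega⟩
  loopless := ⟨fun a h => by omega⟩

/-- `G` is a spanning subgraph of the quotient of the grid by a partition into connected fibres, one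
fibre containing everything outside the open box `(0, N)²` -/
structure GridModel {V : Type} (G : SimpleGraph V) where
  N : ℕ
  π : ℤ × ℤ → V
  out : V
  N_pos : 0 < N
  conn : ∀ v, (grid.induce (π ⁻¹' {v})).Connected
  adj : ∀ x y, G.Adj x y → ∃ a b, grid.Adj a b ∧ π a = x ∧ π b = y
  far : ∀ a : ℤ × ℤ, ¬ (0 < a.1 ∧ a.1 < N ∧ 0 < a.2 ∧ a.2 < N) → π a = out

/-- the mod 2 chain `z` on the edges `D` (with ends `s`, `t`) is a cycle -/
def Ev {D U : Type} [Fintype D] (s t : D → U) (z : D → ZMod 2) : Prop :=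
  ∀ σ : U → ZMod 2, ∑ d, z d * (σ (s d) + σ (t d)) = 0

/-- a map on the sphere, mod 2: vertices `U`, edges `D` (loops and multiple edges allowed) with ends
`s`, `t` and sides `l`, `r`, faces `F` with corner sets `cor` -/
structure SMap (U D F : Type) [Fintype D] where
  s : D → U
  t : D → U
  l : D → F
  r : D → F
  cor : F → Set U
  s_l : ∀ d, s d ∈ cor (l d)
  t_l : ∀ d, t d ∈ cor (l d)
  s_r : ∀ d, s d ∈ cor (r d)
  t_r : ∀ d, t d ∈ cor (r d)
  /-- boundaries are cycles -/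
  ev_bd : ∀ φ : F → ZMod 2, Ev s t fun d => φ (l d) + φ (r d)
  /-- cycles are boundaries -/
  bd_ev : ∀ z : D → ZMod 2, Ev s t z → ∃ φ : F → ZMod 2, ∀ d, z d = φ (l d) + φ (r d)
  /-- the dual graph is connected -/
  conn : ∀ φ : F → ZMod 2, (∀ d, φ (l d) = φ (r d)) → ∀ f g, φ f = φ g
  /-- the faces at a vertex are connected through the edges at that vertex -/
  link : ∀ (u : U) (φ : F → ZMod 2), (∀ d, s d = u ∨ t d = u → φ (l d) = φ (r d)) →
    ∀ f g, u ∈ cor f → u ∈ cor g → φ f = φ g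

/-- a triangulated map on the sphere containing `G` as a spanning subgraph; the face `f₀` has a single
corner, every other face has at most three sides -/
structure IsTri {V D F : Type} [Fintype D] (G : SimpleGraph V) (M : SMap V D F) (f₀ : F) : Prop where
  cor3 : ∀ f, ∃ a b c, M.cor f ⊆ {a, b, c}
  cor1 : ∃ a, M.cor f₀ ⊆ {a}
  cov : ∀ v, ∃ f, v ∈ M.cor f
  adj : ∀ x y, G.Adj x y → ∃ d, s(M.s d, M.t d) = s(x, y)
  deg3 : ∀ f, f ≠ f₀ → {d | M.l d = f ∨ M.r d = f}.ncard ≤ 3

end Crest.Agent.R206
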