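import Crest.Agent.R206.Q

/-! # Row 206: Euler tours and the contour order of a spanning tree in a sphere map. -/

set_option autoImplicit false

namespace Crest.Agent.R206

section euler

variable {S N : Type} {a b : S → N}

/-- walks in the multigraph with edge set `S` and ends `a`, `b` -/
inductive Tr (a b : S → N) : N → List S → N → Prop
  | nil (x : N) : Tr a b x [] x
  | cons (x y z : N) (s : S) (l : List S) : (a s = x ∧ b s = y ∨ b s = x ∧ a s = y) →
      Tr a b y l z → Tr a b x (s :: l) z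

theorem Tr.append {x y z : N} {l l' : List S} (h : Tr a b x l y) (h' : Tr a b y l' z) :
    Tr a b x (l ++ l') z := by
  induction h with
  | nil x => exact h'
  | cons x y w s l hs _ ih => exact Tr.cons x y z s _ hs (ih h')

theorem Tr.parity {x z : N} {l : List S} (h : Tr a b x l z) (σ : N → ZMod 2) :
    (l.map fun s => σ (a s) + σ (b s)).sum = σ x + σ z := by
  induction h with
  | nil x => simp [q_two]
  | cons x y w s l hs _ ih =>
    rw [List.map_cons, List.sum_cons, ih]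
    rcases hs with ⟨rfl, rfl⟩ | ⟨rfl, rfl⟩
    · linear_combination q_two (σ (b s))
    · linear_combination q_two (σ (a s))

theorem Tr.split {x z w : N} {l : List S} (h : Tr a b x l z) {s : S} (hs : s ∈ l)
    (hw : a s = w ∨ b s = w) : ∃ l₁ l₂, l = l₁ ++ l₂ ∧ Tr a b x l₁ w ∧ Tr a b w l₂ z := by
  induction h with
  | nil x => simp at hs
  | cons x y z s' l hs' ht ih =>
    rcases List.mem_cons.1 hs with rfl | hs
    · by_cases hx : w = x
      · subst hx
        exact ⟨[], s :: l, rfl, Tr.nil _, Tr.cons _ y z s l hs' ht⟩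
      · have hy : w = y := by
          rcases hs' with ⟨h1, h2⟩ | ⟨h1, h2⟩ <;> rcases hw with h | h <;> simp_all
        subst hy
        exact ⟨[s], l, rfl, Tr.cons x w w s [] hs' (Tr.nil _), ht⟩
    · obtain ⟨l₁, l₂, rfl, h1, h2⟩ := ih hs
      exact ⟨s' :: l₁, l₂, rfl, Tr.cons x y w s' l₁ hs' h1, h2⟩

theorem Tr.index {x z : N} {l : List S} (h : Tr a b x l z) : ∃ st : ℕ → N, st 0 = x ∧
    ∀ j (hj : j < l.length), a l[j] = st j ∧ b l[j] = st (j + 1) ∨
      b l[j] = st j ∧ a l[j] = st (j + 1) := by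
  induction h with
  | nil x => exact ⟨fun _ => x, rfl, fun j hj => by simp at hj⟩
  | cons x y z s l hs _ ih =>
    obtain ⟨st, h0, h1⟩ := ih
    refine ⟨fun j => Nat.casesOn j x st, rfl, fun j hj => ?_⟩
    cases j with
    | zero => simpa [h0] using hs
    | succ j => simpa using h1 j (by simpa using hj)

/-- Euler's theorem -/
theorem euler [Fintype S] (x₀ : N) (hev : ∀ σ : N → ZMod 2, ∑ s, (σ (a s) + σ (b s)) = 0)
    (hc : ∀ ψ : N → ZMod 2, (∀ s, ψ (a s) = ψ (b s)) → ∀ s, ψ (a s) = ψ x₀) :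
    ∃ l : List S, l.Nodup ∧ (∀ s, s ∈ l) ∧ Tr a b x₀ l x₀ := by
  classical
  rcases isEmpty_or_nonempty S with hS | ⟨⟨s₀⟩⟩
  · exact ⟨[], List.nodup_nil, fun s => hS.elim s, Tr.nil _⟩
  have hex : ∃ n, ∀ x l y, l.Nodup → Tr a b x l y → l.length ≤ n :=
    ⟨Fintype.card S, fun _ l _ h _ => h.length_le_card⟩
  have hmax := Nat.find_spec hex
  have h1 : 1 ≤ Nat.find hex :=
    hmax (a s₀) [s₀] (b s₀) (List.nodup_singleton _)
      (Tr.cons _ (b s₀) _ _ _ (Or.inl ⟨rfl, rfl⟩) (Tr.nil _))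
  have h2 := Nat.find_min hex (m := Nat.find hex - 1) (by omega)
  push Not at h2
  obtain ⟨x, l, y, hl, ht, hlen⟩ := h2
  have ext : ∀ x' l' y' s, l'.Nodup → Tr a b x' l' y' → l'.length = l.length → s ∉ l' →
      ¬ (a s = y' ∨ b s = y') := by
    intro x' l' y' s h1 h2 h3 h4 h5
    have h6 : ∃ z, Tr a b y' [s] z := by
      rcases h5 with h | h
      · exact ⟨b s, Tr.cons _ _ _ _ _ (Or.inl ⟨h, rfl⟩) (Tr.nil _)⟩
      · exact ⟨a s, Tr.cons _ _ _ _ _ (Or.inr ⟨h, rfl⟩) (Tr.nil _)⟩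
    obtain ⟨z, hz⟩ := h6
    have := hmax x' (l' ++ [s]) z (List.nodup_append.2 ⟨h1, List.nodup_singleton _,
      fun u hu v hv e => h4 (by rw [← List.mem_singleton.1 hv, ← e]; exact hu)⟩) (h2.append hz)
    rw [List.length_append, List.length_singleton] at this
    omega
  have hxy : x = y := by
    by_contra hne
    have p1 := ht.parity fun u => if u = y then 1 else 0
    have p2 := hev fun u => if u = y then 1 else 0
    rw [← List.sum_toFinset _ hl, Finset.sum_subset (Finset.subset_univ _), p2] at p1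
    · simp [hne] at p1
    · intro s _ hs
      have := ext x l y s hl ht rfl (by simpa using hs)
      rw [not_or] at this
      simp [this.1, this.2]
  subst hxy
  have rot : ∀ w, (∃ s ∈ l, a s = w ∨ b s = w) →
      ∃ l', l'.Perm l ∧ Tr a b w l' w := by
    rintro w ⟨s, hs, hw⟩
    obtain ⟨l₁, l₂, rfl, h1, h2⟩ := ht.split hs hw
    exact ⟨l₂ ++ l₁, List.perm_append_comm, h2.append h1⟩
  have hout : ∀ s, s ∉ l → ∀ w, (a s = w ∨ b s = w) → ¬ ∃ s ∈ l, a s = w ∨ b s = w := by
    intro s hs w hw h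
    obtain ⟨l', hp, h'⟩ := rot w h
    exact ext w l' w s (hp.nodup_iff.2 hl) h' hp.length_eq (fun k => hs (hp.subset k)) hw
  have key := hc (fun w => if ∃ s ∈ l, a s = w ∨ b s = w then 1 else 0) fun s => by
    by_cases hs : s ∈ l
    · rw [if_pos ⟨s, hs, Or.inl rfl⟩, if_pos ⟨s, hs, Or.inr rfl⟩]
    · rw [if_neg (hout s hs _ (Or.inl rfl)), if_neg (hout s hs _ (Or.inr rfl))]
  obtain ⟨s₁, hs₁⟩ := List.exists_mem_of_length_pos (l := l) (by omega)
  have hx₀ : ∃ s ∈ l, a s = x₀ ∨ b s = x₀ := by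
    have := key s₁
    rw [if_pos ⟨s₁, hs₁, Or.inl rfl⟩] at this
    by_contra hn
    rw [if_neg hn] at this
    exact absurd this (by decide)
  obtain ⟨l', hp, h'⟩ := rot x₀ hx₀
  refine ⟨l', hp.nodup_iff.2 hl, fun s => hp.symm.subset ?_, h'⟩
  by_contra hs
  have := key s
  rw [if_neg (hout s hs _ (Or.inl rfl)), if_pos hx₀] at this
  exact absurd this (by decide)

theorem euler' [Fintype S] (x₀ : N) (hev : ∀ σ : N → ZMod 2, ∑ s, (σ (a s) + σ (b s)) = 0)
    (hc : ∀ ψ : N → ZMod 2, (∀ s, ψ (a s) = ψ (b s)) → ∀ s, ψ (a s) = ψ x₀) :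
    ∃ (n : ℕ) (st : ℕ → N) (τ : S → ℕ), st 0 = x₀ ∧ Function.Injective τ ∧ (∀ s, τ s < n) ∧
      (∀ j < n, ∃ s, τ s = j) ∧
      ∀ s, a s = st (τ s) ∧ b s = st (τ s + 1) ∨ b s = st (τ s) ∧ a s = st (τ s + 1) := by
  classical
  obtain ⟨l, hl, hall, ht⟩ := euler x₀ hev hc
  obtain ⟨st, h0, h1⟩ := ht.index
  have hlt : ∀ s, l.idxOf s < l.length := fun s => List.idxOf_lt_length_iff.2 (hall s)
  refine ⟨l.length, st, fun s => l.idxOf s, h0, fun s s' e => ?_, hlt,
    fun j hj => ⟨l[j], hl.idxOf_getElem j hj⟩, fun s => ?_⟩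
  · exact (List.idxOf_inj (hall s)).1 e
  · simpa using h1 _ (hlt s)

theorem const_of_steps {α : Type} {c : ℕ → α} {i j : ℕ} (hij : i ≤ j)
    (h : ∀ k, i ≤ k → k < j → c (k + 1) = c k) : c j = c i := by
  induction j, hij using Nat.le_induction with
  | base => rfl
  | succ j hij ih => rw [h j hij (by omega), ih fun k h1 h2 => h k h1 (by omega)]

end euler

variable {V : Type} {G : SimpleGraph V}

/-- non-tree edges -/
def RT.NT (T : RT G) (u v : V) : Prop := G.Adj u v ∧ T.par u ≠ v ∧ T.par v ≠ u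

theorem RT.NT.symm {T : RT G} {u v : V} (h : T.NT u v) : T.NT v u := ⟨h.1.symm, h.2.2, h.2.1⟩

theorem RT.Anc.total {T : RT G} {u v w : V} (h : T.Anc u w) (h' : T.Anc v w) :
    T.Anc u v ∨ T.Anc v u := by
  obtain ⟨n, rfl⟩ := h
  obtain ⟨m, rfl⟩ := h'
  rcases le_total n m with k | k
  · obtain ⟨c, rfl⟩ := Nat.exists_eq_add_of_le' k
    exact Or.inr ⟨c, (Function.iterate_add_apply _ _ _ _).symm⟩
  · obtain ⟨c, rfl⟩ := Nat.exists_eq_add_of_le' k
    exact Or.inl ⟨c, (Function.iterate_add_apply _ _ _ _).symm⟩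

/-- the contour order: intervals for the vertices, positions for the ends of non-tree edges -/
structure Ctr (T : RT G) (lo hi : V → ℕ) (pos : V → V → ℕ) : Prop where
  lh : ∀ v, lo v ≤ hi v
  nest : ∀ u v, T.Anc u v → lo u ≤ lo v ∧ hi v ≤ hi u
  disj : ∀ u v, ¬ T.Anc u v → ¬ T.Anc v u → hi u < lo v ∨ hi v < lo u
  inn : ∀ u v w, T.NT u v → T.Anc w u → lo w ≤ pos u v ∧ pos u v ≤ hi w
  out : ∀ u v w, T.NT u v → ¬ T.Anc w u → pos u v < lo w ∨ hi w < pos u v
  inj : ∀ u v u' v', T.NT u v → T.NT u' v' → pos u v = pos u' v' → u = u' ∧ v = v'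
  nc : ∀ u v u' v', T.NT u v → T.NT u' v' →
    ¬ (pos u v < pos u' v' ∧ pos u' v' < pos v u ∧ pos v u < pos v' u')

section tour

variable {D F : Type} [Fintype D] {M : SMap V D F} {T : RT G} {rep : V → D}

open Classical in
/-- first end of a step of the contour walk -/
noncomputable def stA (M : SMap V D F) (T : RT G) (rep : V → D) (x : D × Bool) : V × F :=
  if TE T rep x.1 then (M.s x.1, cond x.2 (M.r x.1) (M.l x.1))
  else (cond x.2 (M.t x.1) (M.s x.1), M.l x.1)

open Classical in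
/-- second end of a step of the contour walk -/
noncomputable def stB (M : SMap V D F) (T : RT G) (rep : V → D) (x : D × Bool) : V × F :=
  if TE T rep x.1 then (M.t x.1, cond x.2 (M.r x.1) (M.l x.1))
  else (cond x.2 (M.t x.1) (M.s x.1), M.r x.1)

theorem st_flags (d : D) (σ : V × F → ZMod 2) :
    ∑ e : Bool, (σ (stA M T rep (d, e)) + σ (stB M T rep (d, e))) =
      σ (M.s d, M.l d) + σ (M.s d, M.r d) + σ (M.t d, M.l d) + σ (M.t d, M.r d) := by
  by_cases h : TE T rep d <;> simp [stA, stB, h] <;> ring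

theorem st_even [Fintype V] (σ : V × F → ZMod 2) :
    ∑ x : D × Bool, (σ (stA M T rep x) + σ (stB M T rep x)) = 0 := by
  classical
  rw [Fintype.sum_prod_type]
  simp only [st_flags]
  have h1 : ∀ u : V, ∑ d, (σ (u, M.l d) + σ (u, M.r d)) *
      ((if M.s d = u then 1 else 0) + if M.t d = u then 1 else 0) = 0 := fun u =>
    M.ev_bd (fun g => σ (u, g)) fun w => if w = u then 1 else 0
  have h2 := Finset.sum_eq_zero (s := Finset.univ) fun u _ => h1 u
  rw [Finset.sum_comm] at h2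
  rw [← h2]
  refine Finset.sum_congr rfl fun d _ => ?_
  simp only [mul_add, Finset.sum_add_distrib, mul_ite, mul_one, mul_zero, Finset.sum_ite_eq,
    Finset.mem_univ, if_true]
  ring

theorem IsRep.st_conn [Fintype V] (h : IsRep M T rep) {f₁ : F}
    (hf₁ : T.root ∈ M.cor f₁) (ψ : V × F → ZMod 2)
    (hψ : ∀ x, ψ (stA M T rep x) = ψ (stB M T rep x)) (x : D × Bool) :
    ψ (stA M T rep x) = ψ (T.root, f₁) := by
  classical
  have k1 : ∀ d, TE T rep d → ψ (M.s d, M.l d) = ψ (M.t d, M.l d) ∧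
      ψ (M.s d, M.r d) = ψ (M.t d, M.r d) := fun d hd =>
    ⟨by simpa [stA, stB, hd] using hψ (d, false), by simpa [stA, stB, hd] using hψ (d, true)⟩
  have k2 : ∀ d, ¬ TE T rep d → ψ (M.s d, M.l d) = ψ (M.s d, M.r d) ∧
      ψ (M.t d, M.l d) = ψ (M.t d, M.r d) := fun d hd =>
    ⟨by simpa [stA, stB, hd] using hψ (d, false), by simpa [stA, stB, hd] using hψ (d, true)⟩
  have k3 : ∀ d, ψ (M.t d, M.l d) + ψ (M.t d, M.r d) = ψ (M.s d, M.l d) + ψ (M.s d, M.r d) := by
    intro d
    by_cases hd : TE T rep d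
    · rw [(k1 d hd).1, (k1 d hd).2]
    · rw [(k2 d hd).1, (k2 d hd).2, q_two, q_two]
  have hz : Ev M.s M.t fun d => ψ (M.s d, M.l d) + ψ (M.s d, M.r d) := by
    intro σ
    have h1 : ∀ u : V, ∑ d, (ψ (u, M.l d) + ψ (u, M.r d)) *
        ((if M.s d = u then σ u else 0) + if M.t d = u then σ u else 0) = 0 := fun u => by
      have := M.ev_bd (fun g => ψ (u, g)) fun w => if w = u then σ u else 0
      exact this
    have h2 := Finset.sum_eq_zero (s := Finset.univ) fun u _ => h1 u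
    rw [Finset.sum_comm] at h2
    rw [← h2]
    refine Finset.sum_congr rfl fun d _ => ?_
    simp only [mul_add, Finset.sum_add_distrib, mul_ite, mul_zero, Finset.sum_ite_eq,
      Finset.mem_univ, if_true, k3]
  have k4 : ∀ d, ψ (M.s d, M.l d) = ψ (M.s d, M.r d) := by
    intro d
    by_cases hd : TE T rep d
    · obtain ⟨w, hw, rfl⟩ := hd
      exact q_eq.1 (h.tree_zero hz hw fun d hd _ => q_eq.2 (k2 d hd).1)
    · exact (k2 d hd).1
  have k5 : ∀ u f g, u ∈ M.cor f → u ∈ M.cor g → ψ (u, f) = ψ (u, g) := fun u =>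
    M.link u (fun g => ψ (u, g)) fun d hd => by
      rcases hd with rfl | rfl
      · exact k4 d
      · exact q_eq.1 ((k3 d).trans (q_eq.2 (k4 d)))
  have k6 : ∀ u f, u ∈ M.cor f → ψ (u, f) = ψ (T.root, f₁) := by
    intro u
    refine T.ind (p := fun u => ∀ f, u ∈ M.cor f → ψ (u, f) = ψ (T.root, f₁))
      (fun f hf => k5 _ _ _ hf hf₁) (fun v hv ih f hf => ?_) u
    have e := (k1 _ ⟨v, hv, rfl⟩).1
    have m1 := M.s_l (rep v)
    have m2 := M.t_l (rep v)
    rcases Sym2.eq_iff.1 (h v hv) with ⟨h1, h2⟩ | ⟨h1, h2⟩ <;> rw [h1, h2] at e <;> rw [h1] at m1 <;>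
      rw [h2] at m2
    · rw [k5 _ _ _ hf m1, e, ih _ m2]
    · rw [k5 _ _ _ hf m2, ← e, ih _ m1]
  obtain ⟨d, e⟩ := x
  by_cases hd : TE T rep d <;> cases e <;> simp only [stA, hd, if_true, if_false, cond] <;>
    apply k6
  exacts [M.s_l d, M.s_r d, M.s_l d, M.t_l d]

theorem pair_two {α : Type} {x y : α × Bool} (h : x ≠ y) (h' : y.1 = x.1) (e : Bool) :
    (x.1, e) = x ∨ (x.1, e) = y := by
  obtain ⟨d, e₁⟩ := x
  obtain ⟨d', e₂⟩ := y
  obtain rfl : d' = d := h'
  cases e <;> cases e₁ <;> cases e₂ <;> simp_all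

theorem IsTri.ctr [Fintype V] {f₀ : F} (h : IsTri G M f₀) (T : RT G) :
    ∃ lo hi pos, Ctr T lo hi pos := by
  classical
  by_cases hD : Nonempty D
  swap
  · have hV : ∀ v, v = T.root := fun v => by
      by_contra hv
      obtain ⟨d, -⟩ := h.adj _ _ (T.adj v hv)
      exact hD ⟨d⟩
    have hn : ∀ u v, ¬ T.NT u v := fun u v k => k.1.ne ((hV u).trans (hV v).symm)
    exact ⟨fun _ => 0, fun _ => 0, fun _ _ => 0, fun _ => le_rfl, fun _ _ _ => ⟨le_rfl, le_rfl⟩,
      fun u v k _ => absurd (hV u ▸ T.anc_root v) k, fun u v _ k => absurd k (hn u v),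
      fun u v _ k => absurd k (hn u v), fun u v _ _ k => absurd k (hn u v),
      fun u v _ _ k => absurd k (hn u v)⟩
  have hex : ∀ v, ∃ d, v ≠ T.root → s(M.s d, M.t d) = s(v, T.par v) := fun v => by
    by_cases hv : v = T.root
    · exact ⟨hD.some, fun h => absurd hv h⟩
    · exact (h.adj _ _ (T.adj v hv)).imp fun d hd _ => hd
  choose rep hrep using hex
  have hr : IsRep M T rep := hrep
  obtain ⟨f₁, hf₁⟩ := h.cov T.root
  obtain ⟨n, st, τ, h0, hinj, hlt, hsurj, hst⟩ := euler' (a := stA M T rep) (b := stB M T rep)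
    (T.root, f₁) st_even (hr.st_conn hf₁)
  have hne : ∀ d, τ (d, false) ≠ τ (d, true) := fun d e => by simpa using hinj e
  -- a function of the state that changes exactly at the two steps of `d`
  have chg : ∀ (c : V × F → ZMod 2) (d : D),
      (∀ x : D × Bool, x.1 ≠ d → c (stA M T rep x) = c (stB M T rep x)) →
      ∀ i j, i ≤ j → j ≤ n → (∀ e, τ (d, e) < i ∨ j ≤ τ (d, e)) → c (st j) = c (st i) := by
    intro c d hc i j hij hj he
    refine const_of_steps (c := fun k => c (st k)) hij fun k h1 h2 => ?_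
    obtain ⟨x, rfl⟩ := hsurj k (by omega)
    have := hc x fun e => by
      have := he x.2
      rw [← e] at this
      simp only [Prod.mk.eta] at this
      omega
    rcases hst x with ⟨e1, e2⟩ | ⟨e1, e2⟩
    · rw [← e1, ← e2, this]
    · rw [← e1, ← e2, this]
  have chg' : ∀ (c : V × F → ZMod 2) (x : D × Bool), c (stA M T rep x) ≠ c (stB M T rep x) →
      c (st (τ x + 1)) ≠ c (st (τ x)) := by
    intro c x hc
    rcases hst x with ⟨e1, e2⟩ | ⟨e1, e2⟩
    · rw [← e1, ← e2]; exact hc.symm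
    · rw [← e1, ← e2]; exact hc
  have hI : ∀ v, ∃ lo hi, lo ≤ hi ∧ hi ≤ n ∧ ∀ j ≤ n, T.Anc v (st j).1 ↔ lo ≤ j ∧ j ≤ hi := by
    intro v
    by_cases hv : v = T.root
    · exact ⟨0, n, Nat.zero_le _, le_rfl, fun j hj => by simp [hv, T.anc_root, hj]⟩
    obtain ⟨c, hc⟩ : ∃ c : V × F → ZMod 2, ∀ x, c x = if T.Anc v x.1 then 1 else 0 :=
      ⟨_, fun _ => rfl⟩
    have c1 : ∀ x : D × Bool, x.1 ≠ rep v → c (stA M T rep x) = c (stB M T rep x) := by
      rintro ⟨d, e⟩ hd
      by_cases ht : TE T rep d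
      · simp only [hc, stA, stB, ht, if_true]
        obtain ⟨w, hw, rfl⟩ := ht
        have hwv : w ≠ v := fun e => hd (by rw [e])
        have k := hr.sum hw fun u => if T.Anc v u then 1 else 0
        have : T.Anc v w ↔ T.Anc v (T.par w) := RT.anc_iff.trans (or_iff_right hwv)
        simp only [this, q_two] at k
        exact q_eq.1 k
      · simp only [hc, stA, stB, ht, if_false]
    have c2 : ∀ e, c (stA M T rep (rep v, e)) ≠ c (stB M T rep (rep v, e)) := by
      intro e k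
      have ht : TE T rep (rep v) := ⟨v, hv, rfl⟩
      simp only [hc, stA, stB, ht, if_true] at k
      have k' := hr.sum hv fun u => if T.Anc v u then 1 else 0
      rw [k, q_two, if_pos (T.anc_refl v), if_neg (RT.not_anc_par hv)] at k'
      exact absurd k' (by decide)
    have c0 : c (st 0) = 0 := by
      rw [hc, h0, if_neg fun k => hv (RT.Anc.eq_root k)]
    obtain ⟨e₁, e₂, h12, hall⟩ : ∃ e₁ e₂, τ (rep v, e₁) < τ (rep v, e₂) ∧ ∀ e, e = e₁ ∨ e = e₂ := by
      rcases lt_or_gt_of_ne (hne (rep v)) with k | k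
      · exact ⟨false, true, k, by decide⟩
      · exact ⟨true, false, k, by decide⟩
    have l2 := hlt (rep v, e₂)
    have r1 : ∀ j ≤ τ (rep v, e₁), c (st j) = 0 := fun j hj => by
      rw [← c0]
      exact chg c _ c1 0 j (Nat.zero_le _) (by omega) fun e => by rcases hall e with rfl | rfl <;> omega
    have z2 : ∀ a b : ZMod 2, a ≠ b → b = 0 → a = 1 := by decide
    have z3 : ∀ a b : ZMod 2, a ≠ b → b = 1 → a = 0 := by decide
    have r2 : ∀ j, τ (rep v, e₁) + 1 ≤ j → j ≤ τ (rep v, e₂) → c (st j) = 1 := fun j h1 h2 => by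
      rw [← z2 _ _ (chg' c _ (c2 e₁)) (r1 _ le_rfl)]
      exact chg c _ c1 _ j h1 (by omega) fun e => by rcases hall e with rfl | rfl <;> omega
    have r3 : ∀ j, τ (rep v, e₂) + 1 ≤ j → j ≤ n → c (st j) = 0 := fun j h1 h2 => by
      rw [← z3 _ _ (chg' c _ (c2 e₂)) (r2 _ h12 le_rfl)]
      exact chg c _ c1 _ j h1 h2 fun e => by rcases hall e with rfl | rfl <;> omega
    refine ⟨τ (rep v, e₁) + 1, τ (rep v, e₂), h12, l2.le, fun j hj => ⟨fun k => ?_, fun k => ?_⟩⟩
    · have k1 : c (st j) = 1 := by rw [hc, if_pos k]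
      by_contra hn
      have : c (st j) = 0 := by
        rcases le_or_gt j (τ (rep v, e₁)) with k2 | k2
        · exact r1 j k2
        · exact r3 j (by omega) hj
      rw [this] at k1
      exact absurd k1 (by decide)
    · have k1 := r2 j k.1 k.2
      by_contra hn
      rw [hc, if_neg hn] at k1
      exact absurd k1 (by decide)
  choose lo hi hlh hhn hI using hI
  have hex2 : ∀ e : Sym2 V, ∃ d, e ∈ G.edgeSet → s(M.s d, M.t d) = e := by
    intro e
    induction e using Sym2.ind with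
    | _ u v =>
      by_cases k : G.Adj u v
      · exact (h.adj u v k).imp fun d hd _ => hd
      · exact ⟨hD.some, fun k' => absurd k' k⟩
  choose dd hdd using hex2
  obtain ⟨X, hX⟩ : ∃ X : V → V → D × Bool, ∀ u v,
    X u v = (dd s(u, v), decide (M.s (dd s(u, v)) ≠ u)) := ⟨_, fun _ _ => rfl⟩
  have X1 : ∀ u v, (X v u).1 = (X u v).1 := fun u v => by rw [hX, hX, Sym2.eq_swap]
  have X2 : ∀ u v, T.NT u v → s(M.s (X u v).1, M.t (X u v).1) = s(u, v) := fun u v k => by
    rw [hX]; exact hdd _ k.1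
  have X3 : ∀ u v, T.NT u v → ¬ TE T rep (X u v).1 := by
    rintro u v k ⟨w, hw, e⟩
    have := (hr w hw).symm.trans (e ▸ X2 u v k)
    rcases Sym2.eq_iff.1 this with ⟨rfl, e2⟩ | ⟨rfl, e2⟩
    · exact k.2.1 e2
    · exact k.2.2 e2
  have X4 : ∀ u v, T.NT u v → (stA M T rep (X u v)).1 = u ∧ (stB M T rep (X u v)).1 = u := by
    intro u v k
    have k1 := X3 u v k
    have k2 := X2 u v k
    simp only [stA, stB, k1, if_false]
    rw [hX] at k2 ⊢
    by_cases e : M.s (dd s(u, v)) = u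
    · simp [e]
    · rcases Sym2.eq_iff.1 k2 with ⟨e1, _⟩ | ⟨_, e2⟩
      · exact absurd e1 e
      · simpa [e] using e2
  have X5 : ∀ u v, T.NT u v → (st (τ (X u v))).1 = u ∧ (st (τ (X u v) + 1)).1 = u := by
    intro u v k
    rcases hst (X u v) with ⟨e1, e2⟩ | ⟨e1, e2⟩ <;> rw [← e1, ← e2]
    · exact X4 u v k
    · exact (X4 u v k).symm
  have X6 : ∀ u v u' v', T.NT u v → T.NT u' v' → X u v = X u' v' → u = u' ∧ v = v' := by
    intro u v u' v' k k' e
    have e1 : u = u' := by rw [← (X4 u v k).1, e, (X4 u' v' k').1]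
    subst e1
    have e2 := (X2 u v k).symm.trans (e ▸ X2 u v' k')
    exact ⟨rfl, Sym2.congr_right.1 e2⟩
  refine ⟨fun v => 2 * lo v, fun v => 2 * hi v, fun u v => 2 * τ (X u v) + 1, fun v => ?_,
    fun u v k => ?_, fun u v k k' => ?_, fun u v w k k' => ?_, fun u v w k k' => ?_,
    fun u v u' v' k k' e => X6 u v u' v' k k' (hinj (by omega)), fun u v u' v' k k' => ?_⟩
  · have := hlh v
    omega
  · have h1 := hlh v
    have h2 := hhn v
    have h3 := (hI u (lo v) (by omega)).1 (k.trans ((hI v (lo v) (by omega)).2 ⟨le_rfl, h1⟩))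
    have h4 := (hI u (hi v) h2).1 (k.trans ((hI v (hi v) h2).2 ⟨h1, le_rfl⟩))
    omega
  · by_contra hn
    have h1 := hlh u
    have h2 := hlh v
    have h3 := hhn u
    have h4 := hhn v
    have j1 := (hI u (max (lo u) (lo v)) (by omega)).2 (by omega)
    have j2 := (hI v (max (lo u) (lo v)) (by omega)).2 (by omega)
    exact (j1.total j2).elim k k'
  · have h1 := hlt (X u v)
    have h2 := (hI w (τ (X u v)) h1.le).1 (by rw [(X5 u v k).1]; exact k')
    have h3 := (hI w (τ (X u v) + 1) h1).1 (by rw [(X5 u v k).2]; exact k')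
    omega
  · have h1 := hlt (X u v)
    have h2 := (hI w (τ (X u v)) h1.le).not.1 (by rw [(X5 u v k).1]; exact k')
    omega
  · rintro ⟨o1, o2, o3⟩
    obtain ⟨φ, p1, p2⟩ := hr.fund (X3 u v k)
    have hall : ∀ e, τ ((X u v).1, e) = τ (X u v) ∨ τ ((X u v).1, e) = τ (X v u) := by
      intro e
      have hne' : X u v ≠ X v u := fun e => k.1.ne (X6 _ _ _ _ k k.symm e).1
      have e1 := X1 u v
      rcases pair_two hne' e1 e with k | k
      · exact Or.inl (congrArg τ k)
      · exact Or.inr (congrArg τ k)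
    have hd : (X u' v').1 ≠ (X u v).1 := fun e => by
      have := hall (X u' v').2
      rw [← e] at this
      simp only [Prod.mk.eta] at this
      omega
    have c1 : ∀ x : D × Bool, x.1 ≠ (X u v).1 → φ (stA M T rep x).2 = φ (stB M T rep x).2 := by
      intro x hx
      by_cases ht : TE T rep x.1
      · simp only [stA, stB, ht, if_true]
      · simp only [stA, stB, ht, if_false]
        exact p2 _ ht hx
    have c2 : φ (stA M T rep (X v u)).2 ≠ φ (stB M T rep (X v u)).2 := by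
      simp only [stA, stB, X3 u v k, if_false, X1 u v]
      exact p1
    have c3 : ∀ x : D × Bool, x.1 = (X u' v').1 → φ (st (τ x)).2 = φ (M.l (X u' v').1) := by
      intro x hx
      have k3 := X3 u' v' k'
      rcases hst x with ⟨e1, _⟩ | ⟨e1, _⟩ <;> rw [← e1]
      · simp only [stA, k3, if_false, hx]
      · simp only [stB, k3, if_false, hx]
        exact (p2 _ (X3 u' v' k') hd).symm
    have l1 := hlt (X v' u')
    have q1 := chg (fun x => φ x.2) _ c1 (τ (X u' v')) (τ (X v u)) (by omega) (by omega)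
      fun e => by rcases hall e with k | k <;> omega
    have q2 := chg (fun x => φ x.2) _ c1 (τ (X v u) + 1) (τ (X v' u')) (by omega) (by omega)
      fun e => by rcases hall e with k | k <;> omega
    have q3 := chg' (fun x => φ x.2) _ c2
    rw [c3 _ rfl] at q1
    rw [c3 _ (X1 u' v')] at q2
    exact q3 (q2.symm.trans q1.symm)

end tour

end Crest.Agent.R206
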