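import Crest.Agent.R206.TBasic
import Crest.Prelude.Def_GraphMetric

/-! Row 206: from tree decompositions to elimination trees. -/

set_option autoImplicit false
set_option linter.dupNamespace false
set_option linter.unusedSectionVars false

namespace Crest.Agent.R206

open Finset

variable {V : Type} [Fintype V] [DecidableEq V] {k : ℕ}

open Crest.GeometryTopology.GraphMetric

/-- the path from the root to a point of a subtree enters it at the top and stays inside -/
theorem h85_top {ι : Type} {T : SimpleGraph ι} (hT : T.IsTree) (t₀ : ι) {S : Set ι}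
    (hS : (T.induce S).Connected) {a t : ι} (ha : a ∈ S) (ht : t ∈ S)
    (hmin : ∀ s ∈ S, T.dist t₀ a ≤ T.dist t₀ s) : ∃ p : T.Walk t₀ t, p.IsPath ∧
      p.getVert (T.dist t₀ a) = a ∧ ∀ n, T.dist t₀ a ≤ n → p.getVert n ∈ S := by
  classical
  obtain ⟨r, hr, hl⟩ := (hT.connected t₀ a).exists_path_of_dist
  obtain ⟨q, hq, hqS⟩ : ∃ q : T.Walk a t, q.IsPath ∧ ∀ x ∈ q.support, x ∈ S := by
    obtain ⟨q, hq⟩ := hS.exists_isPath ⟨a, ha⟩ ⟨t, ht⟩
    refine ⟨q.map (SimpleGraph.Embedding.induce S).toHom,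
      SimpleGraph.Walk.IsPath.map Subtype.val_injective hq, fun x hx => ?_⟩
    obtain ⟨y, -, rfl⟩ := List.mem_map.1
      (SimpleGraph.Walk.support_map (SimpleGraph.Embedding.induce S).toHom q ▸ hx)
    exact y.2
  refine ⟨r.append q, ?_, ?_, fun n hn => ?_⟩
  · rw [SimpleGraph.Walk.isPath_def, SimpleGraph.Walk.support_append, List.nodup_append]
    refine ⟨hr.support_nodup, hq.support_nodup.tail, ?_⟩
    rintro x hx _ hy rfl
    have h1 : x ≠ a := by
      rintro rfl
      have := hq.support_nodup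
      rw [← q.cons_tail_support] at this
      exact (List.nodup_cons.1 this).1 hy
    have h2 := r.length_takeUntil_lt_length hx h1
    have h3 := SimpleGraph.dist_le (r.takeUntil x hx)
    have h4 := hmin x (hqS x (List.mem_of_mem_tail hy))
    omega
  · rw [SimpleGraph.Walk.getVert_append, hl]
    simp
  · rw [SimpleGraph.Walk.getVert_append, if_neg (by omega)]
    exact hqS _ (q.getVert_mem_support _)

/-- elimination order.  Root the tree at `t₀`; `top v` = the index nearest to `t₀` whose bag contains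
`v`; order `V` by `(dist t₀ (top v), enumeration)`; `A v = {u ∈ B (top v) | ρ u < ρ v}`.  If `u, v` lie in
a common bag `t` and `ρ u < ρ v` then `top u` and `top v` lie on the path from `t` to `t₀`, so
`u ∈ B (top v)`.  (Or: induction on the tree, removing a leaf.) -/
theorem exists_order {G : SimpleGraph V} (h : HasTreeDecompWithBags G k) :
    ∃ (ρ : V → ℕ) (A : V → Finset V), Function.Injective ρ ∧ (∀ v, ∀ u ∈ A v, ρ u < ρ v) ∧
      (∀ v, (A v).card < k) ∧ (∀ u v, G.Adj u v → ρ u < ρ v → u ∈ A v) ∧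
      ∀ v, ∀ u ∈ A v, ∀ u' ∈ A v, ρ u < ρ u' → u ∈ A u' := by
  classical
  obtain ⟨ι, _, T, B, hT, hcov, hadj, hconn, hk⟩ := h
  obtain ⟨t₀⟩ := hT.connected.nonempty
  have htop : ∀ v, ∃ a, v ∈ B a ∧ ∀ s, v ∈ B s → T.dist t₀ a ≤ T.dist t₀ s := fun v => by
    obtain ⟨a, ha, h⟩ := (univ.filter fun t => v ∈ B t).exists_min_image (T.dist t₀)
      ((hcov v).imp fun t ht => by simpa using ht)
    exact ⟨a, by simpa using ha, fun s hs => h s (by simpa using hs)⟩
  choose top h1 h2 using htop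
  obtain ⟨ρ, hρ⟩ : ∃ ρ : V → ℕ,
      ∀ v, ρ v = T.dist t₀ (top v) * Fintype.card V + Fintype.equivFin V v := ⟨_, fun _ => rfl⟩
  have key : ∀ u v t, u ∈ B t → v ∈ B t → ρ u < ρ v → u ∈ B (top v) := by
    intro u v t hu hv hlt
    have h3 : T.dist t₀ (top u) ≤ T.dist t₀ (top v) := by
      by_contra h
      have h4 := Nat.mul_le_mul_right (Fintype.card V) (Nat.succ_le_of_lt (not_le.1 h))
      have h5 := (Fintype.equivFin V v).2
      rw [hρ, hρ] at hlt
      rw [Nat.succ_mul] at h4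
      omega
    obtain ⟨p, hp, -, hp2⟩ := h85_top hT t₀ (hconn u) (h1 u) hu (h2 u)
    obtain ⟨q, hq, hq1, -⟩ := h85_top hT t₀ (hconn v) (h1 v) hv (h2 v)
    obtain rfl : p = q := (hT.existsUnique_path t₀ t).unique hp hq
    exact hq1 ▸ hp2 _ h3
  refine ⟨ρ, fun v => (B (top v)).filter fun u => ρ u < ρ v, fun u v huv => ?_,
    fun v u hu => (mem_filter.1 hu).2,
    fun v => (card_lt_card (filter_ssubset.2 ⟨v, h1 v, lt_irrefl (ρ v)⟩)).trans_le (hk _),
    fun u v huv hlt => ?_, fun v u hu u' hu' hlt => mem_filter.2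
      ⟨key u u' _ (mem_filter.1 hu).1 (mem_filter.1 hu').1 hlt, hlt⟩⟩
  · have h3 := congrArg (· % Fintype.card V) huv
    simp only [hρ, Nat.mul_add_mod_self_right, Nat.mod_eq_of_lt (Fin.is_lt _)] at h3
    exact (Fintype.equivFin V).injective (Fin.ext h3)
  · obtain ⟨t, hu, hv⟩ := hadj u v huv
    exact mem_filter.2 ⟨key u v t hu hv hlt, hlt⟩

theorem h33_len_nonneg {G : SimpleGraph V} {ℓ : Sym2 V → ℝ} (hℓ : ∀ e ∈ G.edgeSet, 0 < ℓ e)
    {x y : V} (p : G.Walk x y) : 0 ≤ (p.edges.map ℓ).sum := by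
  apply List.sum_nonneg
  intro a ha
  obtain ⟨e, he, rfl⟩ := List.mem_map.1 ha
  exact (hℓ e (p.edges_subset_edgeSet he)).le

theorem h33_bdd {G : SimpleGraph V} {ℓ : Sym2 V → ℝ} (hℓ : ∀ e ∈ G.edgeSet, 0 < ℓ e) (x y : V) :
    BddBelow (Set.range fun p : G.Walk x y => (p.edges.map ℓ).sum) :=
  ⟨0, by rintro _ ⟨p, rfl⟩; exact h33_len_nonneg hℓ p⟩

theorem wdist_self {G : SimpleGraph V} {ℓ : Sym2 V → ℝ} (hℓ : ∀ e ∈ G.edgeSet, 0 < ℓ e) (x : V) :
    wdist G ℓ x x = 0 := by
  apply le_antisymm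
  · have := ciInf_le (h33_bdd hℓ x x) (SimpleGraph.Walk.nil : G.Walk x x)
    simpa [wdist] using this
  · exact Real.iInf_nonneg fun p => h33_len_nonneg hℓ p

theorem wdist_comm (G : SimpleGraph V) (ℓ : Sym2 V → ℝ) (x y : V) :
    wdist G ℓ x y = wdist G ℓ y x := by
  have key : ∀ a b : V, (Set.range fun p : G.Walk a b => (p.edges.map ℓ).sum) ⊆
      Set.range fun p : G.Walk b a => (p.edges.map ℓ).sum := by
    rintro a b _ ⟨p, rfl⟩
    refine ⟨p.reverse, ?_⟩
    simp only [SimpleGraph.Walk.edges_reverse, List.map_reverse, List.sum_reverse]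
  unfold wdist iInf
  rw [Set.Subset.antisymm (key x y) (key y x)]

theorem wdist_le {G : SimpleGraph V} {ℓ : Sym2 V → ℝ} (hℓ : ∀ e ∈ G.edgeSet, 0 < ℓ e) {x y : V}
    (p : G.Walk x y) : wdist G ℓ x y ≤ (p.edges.map ℓ).sum :=
  ciInf_le (h33_bdd hℓ x y) p

/-- finitely many paths, `bypass` does not increase the length -/
theorem exists_shortest {G : SimpleGraph V} (hG : G.Connected) {ℓ : Sym2 V → ℝ}
    (hℓ : ∀ e ∈ G.edgeSet, 0 < ℓ e) (x y : V) :
    ∃ p : G.Walk x y, (p.edges.map ℓ).sum = wdist G ℓ x y := by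
  classical
  obtain ⟨p₀⟩ := hG.preconnected x y
  haveI : Nonempty (G.Path x y) := ⟨p₀.toPath⟩
  haveI : Nonempty (G.Walk x y) := ⟨p₀⟩
  obtain ⟨q, hq⟩ := Finite.exists_min fun q : G.Path x y => ((q : G.Walk x y).edges.map ℓ).sum
  refine ⟨q, le_antisymm ?_ (wdist_le hℓ _)⟩
  refine le_ciInf fun p => (hq p.toPath).trans ?_
  refine List.Sublist.sum_le_sum (p.edges_bypass_sublist_edges.map ℓ) ?_
  intro a ha
  obtain ⟨e, he, rfl⟩ := List.mem_map.1 ha
  exact (hℓ e (p.edges_subset_edgeSet he)).le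

theorem wdist_tri {G : SimpleGraph V} (hG : G.Connected) {ℓ : Sym2 V → ℝ}
    (hℓ : ∀ e ∈ G.edgeSet, 0 < ℓ e) (x y z : V) :
    wdist G ℓ x z ≤ wdist G ℓ x y + wdist G ℓ y z := by
  obtain ⟨p, hp⟩ := exists_shortest hG hℓ x y
  obtain ⟨q, hq⟩ := exists_shortest hG hℓ y z
  have := wdist_le hℓ (p.append q)
  rwa [SimpleGraph.Walk.edges_append, List.map_append, List.sum_append, hp, hq] at this

theorem h33_pth_mono {R : V → V → Prop} {d : V → V → ℝ} {S : Set V} {x y : V} {r : ℝ}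
    (h : Pth R d S x y r) : ∀ r', r ≤ r' → Pth R d S x y r' := by
  induction h with
  | refl x r hx hr => exact fun r' h' => Pth.refl x r' hx (hr.trans h')
  | step x y z r hx hR _ ih =>
    intro r' h'
    have := Pth.step x y z (r' - d x y) hx hR (ih _ (by linarith))
    rwa [add_sub_cancel] at this

theorem h33_exists_dep (ρ : V → ℕ) (root : V) (par : V → V)
    (hlt : ∀ v, v ≠ root → ρ (par v) < ρ v) :
    ∃ dep : V → ℕ, dep root = 0 ∧ ∀ v, v ≠ root → dep v = dep (par v) + 1 := by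
  let F : ∀ v : V, (∀ u : V, (InvImage (· < ·) ρ) u v → ℕ) → ℕ :=
    fun v ih => if h : v = root then 0 else ih (par v) (hlt v h) + 1
  have hw : WellFounded (InvImage (· < ·) ρ) := InvImage.wf ρ Nat.lt_wfRel.wf
  refine ⟨hw.fix F, ?_, ?_⟩
  · rw [hw.fix_eq]
    simp only [F, dif_pos]
  · intro v hv
    rw [hw.fix_eq]
    simp only [F, dif_neg hv]

/-- `root` = the `ρ`-least vertex, `par v` = the `ρ`-largest element of `A v` (`root` if `A v = ∅`),
`dep` by recursion on `ρ`; `geo` by induction on a shortest walk (the bound `r` of `Pth` is monotone) -/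
theorem exists_et {G : SimpleGraph V} (hG : G.Connected) (h : HasTreeDecompWithBags G k)
    {ℓ : Sym2 V → ℝ} (hℓ : ∀ e ∈ G.edgeSet, 0 < ℓ e) : ∃ T : ET V k, T.d = wdist G ℓ := by
  classical
  obtain ⟨ρ, A, hinj, hA, hcard, hadj, hcl⟩ := exists_order h
  haveI : Nonempty V := hG.nonempty
  obtain ⟨root, hroot⟩ := Finite.exists_min ρ
  have hAroot : A root = ∅ := by
    rw [Finset.eq_empty_iff_forall_notMem]
    intro u hu
    exact absurd (hA root u hu) (not_lt.2 (hroot u))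
  have hpar : ∀ v, ∃ p, (A v = ∅ ∧ p = root) ∨ (p ∈ A v ∧ ∀ u ∈ A v, ρ u ≤ ρ p) := by
    intro v
    rcases (A v).eq_empty_or_nonempty with h0 | h0
    · exact ⟨root, Or.inl ⟨h0, rfl⟩⟩
    · obtain ⟨p, hp, hp'⟩ := (A v).exists_max_image ρ h0
      exact ⟨p, Or.inr ⟨hp, hp'⟩⟩
  choose par hpar using hpar
  have hlt : ∀ v, v ≠ root → ρ (par v) < ρ v := by
    intro v hv
    rcases hpar v with ⟨-, h2⟩ | ⟨h1, -⟩
    · rw [h2]
      exact lt_of_le_of_ne (hroot v) fun h' => hv (hinj h').symm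
    · exact hA v _ h1
  obtain ⟨dep, hd0, hd1⟩ := h33_exists_dep ρ root par hlt
  have hwalk : ∀ (x y : V) (p : G.Walk x y),
      Pth (fun u v => u ∈ A v ∨ v ∈ A u) (wdist G ℓ) Set.univ x y (p.edges.map ℓ).sum := by
    intro x y p
    induction p with
    | nil => exact Pth.refl _ _ (Set.mem_univ _) (by simp)
    | @cons a b c hab q ih =>
      have hR : a ∈ A b ∨ b ∈ A a := by
        rcases lt_trichotomy (ρ a) (ρ b) with h' | h' | h'
        · exact Or.inl (hadj a b hab h')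
        · exact absurd (hinj h') hab.ne
        · exact Or.inr (hadj b a hab.symm h')
      refine h33_pth_mono (Pth.step a b c _ (Set.mem_univ _) hR ih) _ ?_
      have := wdist_le hℓ (SimpleGraph.Walk.cons hab SimpleGraph.Walk.nil)
      simp only [SimpleGraph.Walk.edges_cons, SimpleGraph.Walk.edges_nil, List.map_cons,
        List.map_nil, List.sum_cons, List.sum_nil, add_zero] at this ⊢
      linarith
  refine ⟨⟨wdist G ℓ, wdist_self hℓ, wdist_comm G ℓ, wdist_tri hG hℓ, root, par, dep, ?_, hd0, hd1,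
    A, hAroot, ?_, hcard, ?_⟩, rfl⟩
  · rcases hpar root with ⟨-, h2⟩ | ⟨h1, -⟩
    · exact h2
    · rw [hAroot] at h1
      exact absurd h1 (Finset.notMem_empty _)
  · intro v _ u hu
    rcases hpar v with ⟨h1, -⟩ | ⟨h1, h2⟩
    · rw [h1] at hu
      exact absurd hu (Finset.notMem_empty _)
    · rcases (h2 u hu).eq_or_lt with h3 | h3
      · rw [hinj h3]
        exact Finset.mem_insert_self _ _
      · exact Finset.mem_insert_of_mem (hcl v u hu _ h1 h3)
  · intro x y
    obtain ⟨p, hp⟩ := exists_shortest hG hℓ x y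
    rw [← hp]
    exact hwalk x y p

end Crest.Agent.R206
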