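import Crest.Agent.R206.PS1
import Crest.Agent.R206.TTd

/-! # Row 206: shortest path trees. -/

set_option autoImplicit false

namespace Crest.Agent.R206

open Crest.GeometryTopology.GraphMetric

variable {V : Type} [Fintype V] {G : SimpleGraph V}

theorem exists_spt (hG : G.Connected) {ℓ : Sym2 V → ℝ} (hℓ : ∀ e ∈ G.edgeSet, 0 < ℓ e) (r : V) :
    ∃ T : RT G, T.root = r ∧ ∀ v, v ≠ r →
      wdist G ℓ r (T.par v) + ℓ s(v, T.par v) = wdist G ℓ r v := by
  classical
  have h : ∀ v, ∃ u, (v = r → u = r) ∧ (v ≠ r → G.Adj v u ∧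
      wdist G ℓ r u + ℓ s(v, u) = wdist G ℓ r v) := by
    intro v
    by_cases hv : v = r
    · exact ⟨r, fun _ => rfl, fun h => absurd hv h⟩
    obtain ⟨p, hp⟩ := exists_shortest hG hℓ v r
    cases p with
    | nil => exact absurd rfl hv
    | @cons _ u _ hadj q =>
      refine ⟨u, fun h => absurd h hv, fun _ => ⟨hadj, le_antisymm ?_ ?_⟩⟩
      · have h1 := wdist_le hℓ q
        rw [wdist_comm G ℓ r u, wdist_comm G ℓ r v, ← hp]
        simp only [SimpleGraph.Walk.edges_cons, List.map_cons, List.sum_cons]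
        linarith
      · have h1 := wdist_tri hG hℓ r u v
        have h2 := wdist_le hℓ (SimpleGraph.Walk.cons hadj SimpleGraph.Walk.nil)
        rw [wdist_comm G ℓ v u] at h2
        simp only [SimpleGraph.Walk.edges_cons, SimpleGraph.Walk.edges_nil, List.map_cons,
          List.map_nil, List.sum_cons, List.sum_nil, add_zero] at h2
        linarith
  choose par h1 h2 using h
  refine ⟨⟨r, par, fun v => (Finset.univ.filter fun u => wdist G ℓ r u < wdist G ℓ r v).card,
    h1 r rfl, fun v hv => ?_, fun v hv => (h2 v hv).1⟩, rfl, fun v hv => (h2 v hv).2⟩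
  have hlt : wdist G ℓ r (par v) < wdist G ℓ r v := by
    have := hℓ s(v, par v) (h2 v hv).1
    linarith [(h2 v hv).2]
  refine Finset.card_lt_card ⟨fun u hu => ?_, fun hs => ?_⟩
  · simp only [Finset.mem_filter, Finset.mem_univ, true_and] at hu ⊢
    linarith
  · have := hs (x := par v) (by simpa using hlt)
    simp at this

end Crest.Agent.R206
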