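import Mathlib
import Crest.Prelude.Def_GraphMetric

/-! # Row 206: plane shortest path trees with non-crossing chords between leaves. -/

set_option autoImplicit false

namespace Crest.Agent.R206

/-- a rooted tree with heights `f`, contour intervals `[first v, last v]` and non-crossing chords
between leaves of equal height -/
structure PS (W : Type) (η : ℝ) where
  root : W
  par : W → W
  f : W → ℝ
  first : W → ℕ
  last : W → ℕ
  ch : W → W → Prop
  par_root : par root = root
  f_root : f root = 0
  f_lt : ∀ v, v ≠ root → f (par v) < f v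
  f_le : ∀ v, f v ≤ f (par v) + η
  fl : ∀ v, first v ≤ last v
  nest : ∀ v, first (par v) ≤ first v ∧ last v ≤ last (par v)
  disj : ∀ u v, (¬ ∃ n, par^[n] v = u) → (¬ ∃ n, par^[n] u = v) →
    last u < first v ∨ last v < first u
  ch_symm : ∀ p q, ch p q → ch q p
  ch_ne : ∀ p q, ch p q → p ≠ q
  ch_leaf : ∀ p q, ch p q → first p = last p ∧ ∀ v, (∃ n, par^[n] v = p) → v = p
  ch_f : ∀ p q, ch p q → f p = f q
  ch_uniq : ∀ p q q', ch p q → ch p q' → q = q'
  nc : ∀ p q r s, ch p q → ch r s → ¬ (first p < first r ∧ first r < first q ∧ first q < first s)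

namespace PS

variable {W : Type} {η : ℝ} (P : PS W η)

/-- `u` is an ancestor of `v` (or `v` itself) -/
def Anc (u v : W) : Prop := ∃ n : ℕ, P.par^[n] v = u

/-- tree edges and chords -/
def G : SimpleGraph W where
  Adj u v := u ≠ v ∧ (P.par u = v ∨ P.par v = u ∨ P.ch u v)
  symm := ⟨fun _ _ h => ⟨h.1.symm, h.2.elim (fun h => Or.inr (Or.inl h))
    fun h => h.elim Or.inl fun h => Or.inr (Or.inr (P.ch_symm _ _ h))⟩⟩
  loopless := ⟨fun _ h => h.1 rfl⟩

/-- all edges are tight -/
noncomputable def len : Sym2 W → ℝ := Sym2.lift ⟨fun u v => |P.f u - P.f v|, fun _ _ => abs_sub_comm _ _⟩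

@[simp] theorem len_mk (u v : W) : P.len s(u, v) = |P.f u - P.f v| := rfl

end PS

end Crest.Agent.R206
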