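import Crest.Agent.R206.PSSub0

/-! # Row 206: from a contour to chords between leaves (owner helper71). -/

set_option autoImplicit false
set_option maxHeartbeats 400000

namespace Crest.Agent.R206

variable {V : Type} {G : SimpleGraph V}

/-- vertices and ends of non-tree edges -/
abbrev SW (T : RT G) : Type := V ⊕ {p : V × V // T.NT p.1 p.2}

/-- parents -/
def sPar (T : RT G) : SW T → SW T
  | .inl v => .inl (T.par v)
  | .inr p => .inl p.1.1

theorem sPar_iter (T : RT G) (n : ℕ) (v : V) :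
    (sPar T)^[n] (.inl v) = .inl (T.par^[n] v) := by
  induction n generalizing v with
  | zero => rfl
  | succ n ih => exact ih (T.par v)

theorem sAnc_ll {T : RT G} {u v : V} (h : T.Anc u v) :
    ∃ n, (sPar T)^[n] (.inl v) = .inl u := by
  obtain ⟨n, rfl⟩ := h
  exact ⟨n, sPar_iter T n v⟩

theorem sAnc_lr {T : RT G} {u : V} {p : {p : V × V // T.NT p.1 p.2}} (h : T.Anc u p.1.1) :
    ∃ n, (sPar T)^[n] (.inr p) = .inl u := by
  obtain ⟨n, rfl⟩ := h
  exact ⟨n + 1, sPar_iter T n _⟩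

theorem sAnc_r {T : RT G} {p : {p : V × V // T.NT p.1 p.2}} {v : SW T}
    (h : ∃ n, (sPar T)^[n] v = .inr p) : v = .inr p := by
  obtain ⟨n, h⟩ := h
  cases n with
  | zero => exact h
  | succ n =>
    rw [Function.iterate_succ_apply'] at h
    generalize (sPar T)^[n] v = w at h
    cases w <;> cases h

/-- heights -/
noncomputable def sF (T : RT G) (ℓ : Sym2 V → ℝ) (h : V → ℝ) : SW T → ℝ
  | .inl v => h v
  | .inr p => (h p.1.1 + h p.1.2) / 2 + ℓ s(p.1.1, p.1.2)

/-- chords -/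
def sCh (T : RT G) : SW T → SW T → Prop
  | .inr p, .inr q => p.1.1 = q.1.2 ∧ p.1.2 = q.1.1
  | _, _ => False

theorem sCh_ex {T : RT G} {a b : SW T} (h : sCh T a b) :
    ∃ (x y : V) (hx : T.NT x y), a = .inr ⟨(x, y), hx⟩ ∧ b = .inr ⟨(y, x), hx.symm⟩ := by
  rcases a with _ | ⟨⟨x, y⟩, hx⟩ <;> rcases b with _ | ⟨⟨u, v⟩, hu⟩ <;> try exact h.elim
  obtain ⟨rfl, rfl⟩ := h
  exact ⟨_, _, hx, rfl, rfl⟩

theorem Ctr.exists_PS [Fintype V] {T : RT G} {lo hi : V → ℕ} {pos : V → V → ℕ}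
    (c : Ctr T lo hi pos) {ℓ : Sym2 V → ℝ}
    (hℓ : ∀ e ∈ G.edgeSet, 0 < ℓ e) {h : V → ℝ} (h0 : h T.root = 0)
    (hpar : ∀ v, v ≠ T.root → h (T.par v) + ℓ s(v, T.par v) = h v)
    (hlip : ∀ x y, G.Adj x y → |h x - h y| ≤ ℓ s(x, y)) :
    ∃ (W : Type) (_ : Fintype W) (η₀ : ℝ) (P : PS W η₀) (i : V → W),
      Dom G ℓ P.G P.len 2 i := by
  classical
  obtain ⟨η₀, hη⟩ := (Set.finite_range fun v => sF T ℓ h v - sF T ℓ h (sPar T v)).bddAbove
  have hl : ∀ x y, G.Adj x y → 0 < ℓ s(x, y) := fun x y hxy => hℓ _ hxy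
  have hsw : ∀ x y, ℓ s(y, x) = ℓ s(x, y) := fun x y => by rw [Sym2.eq_swap]
  let P : PS (SW T) η₀ :=
    { root := .inl T.root
      par := sPar T
      f := sF T ℓ h
      first := Sum.elim lo fun p => pos p.1.1 p.1.2
      last := Sum.elim hi fun p => pos p.1.1 p.1.2
      ch := sCh T
      par_root := congrArg Sum.inl T.par_root
      f_root := h0
      f_lt := by
        rintro (v | ⟨⟨x, y⟩, hx⟩) hv
        · have hv' : v ≠ T.root := fun e => hv (congrArg _ e)
          have := hpar v hv'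
          have := hl _ _ (T.adj v hv')
          show h (T.par v) < h v
          linarith
        · have := abs_le.1 (hlip x y hx.1)
          have := hl x y hx.1
          show h x < (h x + h y) / 2 + ℓ s(x, y)
          linarith
      f_le := fun v => by
        have := hη (Set.mem_range_self v)
        linarith
      fl := by
        rintro (v | p)
        · exact c.lh v
        · exact le_rfl
      nest := by
        rintro (v | ⟨⟨x, y⟩, hx⟩)
        · exact c.nest _ _ (T.anc_par v)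
        · exact c.inn x y x hx (T.anc_refl x)
      disj := by
        rintro (u | ⟨⟨x, y⟩, hx⟩) (v | ⟨⟨x', y'⟩, hx'⟩) h1 h2
        · exact c.disj u v (fun h => h1 (sAnc_ll h)) fun h => h2 (sAnc_ll h)
        · exact (c.out x' y' u hx' fun h => h1 (sAnc_lr h)).symm
        · exact c.out x y v hx fun h => h2 (sAnc_lr h)
        · refine lt_or_gt_of_ne fun e => h1 ⟨0, ?_⟩
          obtain ⟨rfl, rfl⟩ := c.inj x y x' y' hx hx' e
          rfl
      ch_symm := fun p q hpq => by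
        obtain ⟨x, y, hx, rfl, rfl⟩ := sCh_ex hpq
        exact ⟨rfl, rfl⟩
      ch_ne := fun p q hpq => by
        obtain ⟨x, y, hx, rfl, rfl⟩ := sCh_ex hpq
        intro e
        simp only [Sum.inr.injEq, Subtype.mk.injEq, Prod.mk.injEq] at e
        exact hx.1.ne e.1
      ch_leaf := fun p q hpq => by
        obtain ⟨x, y, hx, rfl, rfl⟩ := sCh_ex hpq
        exact ⟨rfl, fun v hv => sAnc_r hv⟩
      ch_f := fun p q hpq => by
        obtain ⟨x, y, hx, rfl, rfl⟩ := sCh_ex hpq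
        show (h x + h y) / 2 + ℓ s(x, y) = (h y + h x) / 2 + ℓ s(y, x)
        rw [hsw x y, add_comm (h x)]
      ch_uniq := fun p q q' hpq hpq' => by
        obtain ⟨x, y, hx, rfl, rfl⟩ := sCh_ex hpq
        obtain ⟨x', y', hx', e, rfl⟩ := sCh_ex hpq'
        simp only [Sum.inr.injEq, Subtype.mk.injEq, Prod.mk.injEq] at e
        obtain ⟨rfl, rfl⟩ := e
        rfl
      nc := fun p q r s hpq hrs => by
        obtain ⟨x, y, hx, rfl, rfl⟩ := sCh_ex hpq
        obtain ⟨x', y', hx', rfl, rfl⟩ := sCh_ex hrs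
        exact c.nc x y x' y' hx hx' }
  have tre : ∀ v, T.par v ≠ v → |h v - h (T.par v)| = ℓ s(v, T.par v) := fun v hv => by
    have hv' : v ≠ T.root := fun e => hv (by rw [e, T.par_root])
    have := hpar v hv'
    have := hl _ _ (T.adj v hv')
    rw [abs_of_pos] <;> linarith
  refine ⟨SW T, inferInstance, η₀, P, Sum.inl, fun g hg => ?_, fun D d0 ds dt de x y hxy => ?_⟩
  · let g' : SW T → ℝ := Sum.elim g fun p =>
      min (g p.1.1 + (sF T ℓ h (.inr p) - h p.1.1)) (g p.1.2 + (sF T ℓ h (.inr p) - h p.1.2))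
    have key : ∀ u, sPar T u ≠ u → |g' u - g' (sPar T u)| ≤ |sF T ℓ h u - sF T ℓ h (sPar T u)| := by
      rintro (v | ⟨⟨x, y⟩, hx⟩) hv
      · have hv' : T.par v ≠ v := fun e => hv (congrArg Sum.inl e)
        show |g v - g (T.par v)| ≤ |h v - h (T.par v)|
        rw [tre v hv']
        exact hg _ _ (T.adj v fun e => hv' (by rw [e, T.par_root]))
      · have h1 := abs_le.1 (hlip x y hx.1)
        have h2 := abs_le.1 (hg x y hx.1)
        show |min (g x + ((h x + h y) / 2 + ℓ s(x, y) - h x))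
          (g y + ((h x + h y) / 2 + ℓ s(x, y) - h y)) - g x| ≤ |(h x + h y) / 2 + ℓ s(x, y) - h x|
        refine le_trans ?_ (le_abs_self _)
        rw [abs_le]
        constructor
        · rw [le_sub_iff_add_le, le_min_iff]
          constructor <;> linarith [abs_nonneg (h x - h y), hlip x y hx.1]
        · linarith [min_le_left (g x + ((h x + h y) / 2 + ℓ s(x, y) - h x))
            (g y + ((h x + h y) / 2 + ℓ s(x, y) - h y))]
    refine ⟨g', fun u v ⟨hne, huv⟩ => ?_, fun _ => rfl⟩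
    rcases huv with rfl | rfl | huv
    · exact key u hne.symm
    · rw [PS.len_mk, abs_sub_comm, abs_sub_comm (P.f _)]
      exact key v hne
    · obtain ⟨x, y, hx, rfl, rfl⟩ := sCh_ex huv
      have : g' (.inr ⟨(x, y), hx⟩) = g' (.inr ⟨(y, x), hx.symm⟩) := by
        show min (g x + ((h x + h y) / 2 + ℓ s(x, y) - h x))
          (g y + ((h x + h y) / 2 + ℓ s(x, y) - h y)) =
          min (g y + ((h y + h x) / 2 + ℓ s(y, x) - h y))
          (g x + ((h y + h x) / 2 + ℓ s(y, x) - h x))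
        rw [min_comm, hsw x y, add_comm (h y) (h x)]
      rw [this, sub_self, abs_zero]
      exact abs_nonneg _
  · have hp := hl x y hxy
    by_cases h1 : T.par x = y
    · subst h1
      have := de (.inl x) (.inl (T.par x)) ⟨fun e => hxy.ne (Sum.inl.inj e), Or.inl rfl⟩
      have h2 : P.len s(.inl x, .inl (T.par x)) = ℓ s(x, T.par x) := tre x hxy.ne'
      linarith
    by_cases h2 : T.par y = x
    · subst h2
      have := de (.inl y) (.inl (T.par y)) ⟨fun e => hxy.ne' (Sum.inl.inj e), Or.inl rfl⟩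
      have h2 : P.len s(.inl y, .inl (T.par y)) = ℓ s(y, T.par y) := tre y hxy.ne
      rw [ds, hsw]
      rw [hsw] at hp
      linarith
    have hx : T.NT x y := ⟨hxy, h1, h2⟩
    have k1 := de (.inr ⟨(x, y), hx⟩) (.inl x) ⟨by simp, Or.inl rfl⟩
    have k2 := de (.inr ⟨(y, x), hx.symm⟩) (.inl y) ⟨by simp, Or.inl rfl⟩
    have k3 := de (.inr ⟨(x, y), hx⟩) (.inr ⟨(y, x), hx.symm⟩)
      ⟨P.ch_ne _ _ ⟨rfl, rfl⟩, Or.inr (Or.inr ⟨rfl, rfl⟩)⟩
    have h3 := abs_le.1 (hlip x y hxy)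
    have e1 : P.len s(.inr ⟨(x, y), hx⟩, .inl x) = (h x + h y) / 2 + ℓ s(x, y) - h x :=
      abs_of_nonneg (by show 0 ≤ (h x + h y) / 2 + ℓ s(x, y) - h x; linarith)
    have e2 : P.len s(.inr ⟨(y, x), hx.symm⟩, .inl y) = (h y + h x) / 2 + ℓ s(y, x) - h y :=
      abs_of_nonneg (by show 0 ≤ (h y + h x) / 2 + ℓ s(y, x) - h y; rw [hsw]; linarith)
    have e3 : P.len s(.inr ⟨(x, y), hx⟩, .inr ⟨(y, x), hx.symm⟩) = 0 := by
      rw [PS.len_mk, P.ch_f (.inr ⟨(x, y), hx⟩) (.inr ⟨(y, x), hx.symm⟩) ⟨rfl, rfl⟩, sub_self,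
        abs_zero]
    have t1 := dt (.inl x) (.inr ⟨(x, y), hx⟩) (.inl y)
    have t2 := dt (.inr ⟨(x, y), hx⟩) (.inr ⟨(y, x), hx.symm⟩) (.inl y)
    rw [ds] at k1
    rw [e2, hsw] at k2
    linarith

end Crest.Agent.R206
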