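import Crest.Agent.R206.PSSub0

/-! # Row 206: subdividing the tree edges (owner helper71). -/

set_option autoImplicit false
set_option maxHeartbeats 400000

namespace Crest.Agent.R206

section half

variable {W : Type} {η : ℝ} (P : PS W η)

/-- old vertices and midpoints -/
abbrev HW : Type := W ⊕ {v : W // v ≠ P.root}

open Classical in
/-- parents -/
noncomputable def hPar : HW P → HW P
  | .inl v => if h : v = P.root then .inl v else .inr ⟨v, h⟩
  | .inr v => .inl (P.par v.1)

/-- projection -/
def hRho : HW P → W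
  | .inl v => v
  | .inr v => v.1

/-- heights -/
noncomputable def hF (g : W → ℝ) : HW P → ℝ
  | .inl v => g v
  | .inr v => (g v.1 + g (P.par v.1)) / 2

/-- chords -/
def hCh : HW P → HW P → Prop
  | .inl p, .inl q => P.ch p q
  | _, _ => False

variable {P}

theorem hCh_ex {a b : HW P} (h : hCh P a b) : ∃ p q, P.ch p q ∧ a = .inl p ∧ b = .inl q := by
  rcases a with p | p <;> rcases b with q | q <;> try exact h.elim
  exact ⟨p, q, h, rfl, rfl⟩

theorem hPar_root : hPar P (.inl P.root) = .inl P.root := by simp [hPar]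

theorem hPar_ne {v : W} (h : v ≠ P.root) : hPar P (.inl v) = .inr ⟨v, h⟩ := by simp [hPar, h]

theorem hPar_two (v : W) : (hPar P)^[2] (.inl v) = .inl (P.par v) := by
  by_cases h : v = P.root
  · subst h
    simp [hPar_root, P.par_root]
  · simp only [Function.iterate_succ, Function.iterate_zero, Function.comp, id, hPar_ne h]
    rfl

theorem hAnc_ll (n : ℕ) (v : W) : (hPar P)^[2 * n] (.inl v) = .inl (P.par^[n] v) := by
  induction n generalizing v with
  | zero => rfl
  | succ n ih => rw [Nat.mul_succ, Function.iterate_add_apply, hPar_two, ih]; rfl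

theorem hAnc_self (u : HW P) : ∃ n, (hPar P)^[n] (.inl (hRho P u)) = u := by
  rcases u with u | ⟨u, hu⟩
  · exact ⟨0, rfl⟩
  · exact ⟨1, hPar_ne hu⟩

theorem hAnc_of {u v : HW P} (h : ∃ n, P.par^[n] (hRho P v) = hRho P u) :
    (∃ n, (hPar P)^[n] v = u) ∨ ∃ n, (hPar P)^[n] u = v := by
  obtain ⟨n, h⟩ := h
  obtain ⟨k, hk⟩ := hAnc_self u
  rcases v with v | ⟨v, hv⟩
  · exact Or.inl ⟨k + 2 * n, by rw [Function.iterate_add_apply, hAnc_ll]; exact h ▸ hk⟩
  · cases n with
    | zero =>
      rcases u with u | ⟨u, hu⟩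
      · obtain rfl : v = u := h
        exact Or.inr ⟨1, hPar_ne hv⟩
      · obtain rfl : v = u := h
        exact Or.inl ⟨0, rfl⟩
    | succ n =>
      refine Or.inl ⟨k + (2 * n + 1), ?_⟩
      rw [Function.iterate_add_apply, Function.iterate_succ_apply]
      have : hPar P (.inr ⟨v, hv⟩) = .inl (P.par v) := rfl
      rw [this, hAnc_ll]
      exact (show P.par^[n] (P.par v) = hRho P u from h) ▸ hk

theorem hRho_par (v : HW P) : hRho P (hPar P v) = hRho P v ∨ hRho P (hPar P v) = P.par (hRho P v) := by
  rcases v with v | v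
  · by_cases h : v = P.root
    · subst h
      rw [hPar_root]
      exact Or.inl rfl
    · rw [hPar_ne h]
      exact Or.inl rfl
  · exact Or.inr rfl

theorem hAnc_rho (n : ℕ) (v : HW P) : ∃ k, P.par^[k] (hRho P v) = hRho P ((hPar P)^[n] v) := by
  induction n with
  | zero => exact ⟨0, rfl⟩
  | succ n ih =>
    obtain ⟨k, hk⟩ := ih
    rw [Function.iterate_succ_apply']
    rcases hRho_par ((hPar P)^[n] v) with h | h
    · exact ⟨k, hk.trans h.symm⟩
    · exact ⟨k + 1, by rw [Function.iterate_succ_apply', hk, h]⟩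

theorem hF_lt (v : HW P) (hv : v ≠ .inl P.root) : hF P P.f (hPar P v) < hF P P.f v := by
  rcases v with v | ⟨v, h⟩
  · have h : v ≠ P.root := fun e => hv (congrArg _ e)
    have := P.f_lt v h
    rw [hPar_ne h]
    show (P.f v + P.f (P.par v)) / 2 < P.f v
    linarith
  · have := P.f_lt v h
    show P.f (P.par v) < (P.f v + P.f (P.par v)) / 2
    linarith

theorem hF_le (n : ℕ) (v : HW P) : hF P P.f ((hPar P)^[n] v) ≤ hF P P.f v := by
  induction n with
  | zero => exact le_rfl
  | succ n ih =>
    rw [Function.iterate_succ_apply']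
    by_cases h : (hPar P)^[n] v = .inl P.root
    · rw [h, hPar_root, ← h]
      exact ih
    · exact (hF_lt _ h).le.trans ih

end half

/-- put a midpoint on every tree edge -/
theorem PS.half {W : Type} [Fintype W] {η : ℝ} (P : PS W η) :
    ∃ (W' : Type) (_ : Fintype W') (P' : PS W' (η / 2)) (j : W → W'),
      Dom P.G P.len P'.G P'.len 1 j := by
  classical
  let P' : PS (HW P) (η / 2) :=
    { root := .inl P.root
      par := hPar P
      f := hF P P.f
      first := fun v => P.first (hRho P v)
      last := fun v => P.last (hRho P v)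
      ch := hCh P
      par_root := hPar_root
      f_root := P.f_root
      f_lt := hF_lt
      f_le := by
        rintro (v | ⟨v, h⟩)
        · have := P.f_le v
          by_cases h : v = P.root
          · subst h
            rw [P.par_root] at this
            rw [hPar_root]
            linarith
          · rw [hPar_ne h]
            show P.f v ≤ (P.f v + P.f (P.par v)) / 2 + η / 2
            linarith
        · have := P.f_le v
          show (P.f v + P.f (P.par v)) / 2 ≤ P.f (P.par v) + η / 2
          linarith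
      fl := fun v => P.fl _
      nest := fun v => by
        rcases hRho_par v with h | h <;> rw [h]
        · exact ⟨le_rfl, le_rfl⟩
        · exact P.nest _
      disj := fun u v h1 h2 =>
        P.disj _ _ (fun h => (hAnc_of h).elim h1 h2) fun h => (hAnc_of h).elim h2 h1
      ch_symm := fun p q h => by
        obtain ⟨p, q, h, rfl, rfl⟩ := hCh_ex h
        exact P.ch_symm p q h
      ch_ne := fun p q h => by
        obtain ⟨p, q, h, rfl, rfl⟩ := hCh_ex h
        exact fun e => P.ch_ne p q h (Sum.inl.inj e)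
      ch_leaf := fun p q h => by
        obtain ⟨p, q, h, rfl, rfl⟩ := hCh_ex h
        refine ⟨(P.ch_leaf p q h).1, ?_⟩
        rintro v ⟨n, hn⟩
        have h1 := hAnc_rho n v
        have h2 := hF_le n v
        rw [hn] at h1 h2
        have h3 := (P.ch_leaf p q h).2 _ h1
        rcases v with v | ⟨v, hv⟩
        · exact congrArg _ h3
        · obtain rfl : v = p := h3
          have := P.f_lt v hv
          have h2 : P.f v ≤ (P.f v + P.f (P.par v)) / 2 := h2
          linarith
      ch_f := fun p q h => by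
        obtain ⟨p, q, h, rfl, rfl⟩ := hCh_ex h
        exact P.ch_f p q h
      ch_uniq := fun p q q' h h' => by
        obtain ⟨p, q, h, rfl, rfl⟩ := hCh_ex h
        obtain ⟨p', q', h', e, rfl⟩ := hCh_ex h'
        obtain rfl := Sum.inl.inj e
        exact congrArg _ (P.ch_uniq p q q' h h')
      nc := fun p q r s h h' => by
        obtain ⟨p, q, h, rfl, rfl⟩ := hCh_ex h
        obtain ⟨r, s, h', rfl, rfl⟩ := hCh_ex h'
        exact P.nc p q r s h h' }
  have adj : ∀ v, v ≠ P.root → P.G.Adj v (P.par v) := fun v hv =>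
    ⟨fun e => (P.f_lt v hv).ne (by rw [← e]), Or.inl rfl⟩
  have a1 : ∀ (g : W → ℝ) v (hv : v ≠ P.root),
      |hF P g (.inl v) - hF P g (.inr ⟨v, hv⟩)| = |g v - g (P.par v)| / 2 := fun g v hv => by
    show |g v - (g v + g (P.par v)) / 2| = _
    rw [show g v - (g v + g (P.par v)) / 2 = (g v - g (P.par v)) / 2 by ring, abs_div, abs_two]
  have a2 : ∀ (g : W → ℝ) v (hv : v ≠ P.root),
      |hF P g (.inr ⟨v, hv⟩) - hF P g (.inl (P.par v))| = |g v - g (P.par v)| / 2 := fun g v hv => by
    show |(g v + g (P.par v)) / 2 - g (P.par v)| = _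
    rw [show (g v + g (P.par v)) / 2 - g (P.par v) = (g v - g (P.par v)) / 2 by ring, abs_div,
      abs_two]
  refine ⟨HW P, inferInstance, P', Sum.inl, fun g hg => ?_, fun D d0 ds dt de x y hxy => ?_⟩
  · have key : ∀ u, |hF P g u - hF P g (hPar P u)| ≤ |hF P P.f u - hF P P.f (hPar P u)| := by
      rintro (v | ⟨v, hv⟩)
      · by_cases hv : v = P.root
        · subst hv
          simp [hPar_root]
        · rw [hPar_ne hv, a1, a1]
          have := hg _ _ (adj v hv)
          rw [PS.len_mk] at this
          linarith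
      · have : hPar P (.inr ⟨v, hv⟩) = .inl (P.par v) := rfl
        rw [this, a2, a2]
        have := hg _ _ (adj v hv)
        rw [PS.len_mk] at this
        linarith
    refine ⟨hF P g, fun u v ⟨_, huv⟩ => ?_, fun _ => rfl⟩
    rcases huv with rfl | rfl | huv
    · exact key u
    · rw [PS.len_mk, abs_sub_comm, abs_sub_comm (P'.f _)]
      exact key v
    · obtain ⟨p, q, h, rfl, rfl⟩ := hCh_ex huv
      exact hg p q ⟨P.ch_ne p q h, Or.inr (Or.inr h)⟩
  · have key : ∀ v, v ≠ P.par v → D (.inl v) (.inl (P.par v)) ≤ |P.f v - P.f (P.par v)| := by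
      intro v hv
      have hv : v ≠ P.root := fun e => hv (by rw [e, P.par_root])
      have k1 := de (.inl v) (.inr ⟨v, hv⟩) ⟨by simp, Or.inl (hPar_ne hv)⟩
      have k2 := de (.inr ⟨v, hv⟩) (.inl (P.par v)) ⟨by simp, Or.inl rfl⟩
      have k3 := dt (.inl v) (.inr ⟨v, hv⟩) (.inl (P.par v))
      have e1 : P'.len s(.inl v, .inr ⟨v, hv⟩) = _ := a1 P.f v hv
      have e2 : P'.len s(.inr ⟨v, hv⟩, .inl (P.par v)) = _ := a2 P.f v hv
      linarith
    rw [one_mul, PS.len_mk]
    obtain ⟨hne, rfl | rfl | h⟩ := hxy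
    · exact key x hne
    · rw [ds, abs_sub_comm]
      exact key y hne.symm
    · exact de (.inl x) (.inl y) ⟨fun e => hne (Sum.inl.inj e), Or.inr (Or.inr h)⟩

theorem PS.refine {W : Type} [Fintype W] {η₀ : ℝ} (P : PS W η₀) {η : ℝ} (hη : 0 < η) :
    ∃ (W' : Type) (_ : Fintype W') (P' : PS W' η) (j : W → W'),
      Dom P.G P.len P'.G P'.len 1 j := by
  have key : ∀ n : ℕ, ∃ (W' : Type) (_ : Fintype W') (P' : PS W' (η₀ * (1 / 2) ^ n)) (j : W → W'),
      Dom P.G P.len P'.G P'.len 1 j := fun n => by
    induction n with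
    | zero =>
      rw [pow_zero, mul_one]
      exact ⟨W, inferInstance, P, id, Dom.refl _ _⟩
    | succ n ih =>
      obtain ⟨W', _, P', j, h⟩ := ih
      obtain ⟨W'', _, P'', k, h'⟩ := P'.half
      rw [show η₀ * (1 / 2) ^ (n + 1) = η₀ * (1 / 2) ^ n / 2 by ring]
      exact ⟨W'', inferInstance, P'', k ∘ j, h.comp h'⟩
  obtain ⟨n, hn⟩ : ∃ n : ℕ, η₀ * (1 / 2) ^ n ≤ η := by
    obtain ⟨n, hn⟩ := exists_pow_lt_of_lt_one (div_pos hη (by positivity : 0 < |η₀| + 1))
      (by norm_num : (1 / 2 : ℝ) < 1)
    refine ⟨n, ?_⟩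
    rw [lt_div_iff₀ (by positivity)] at hn
    have h1 : (0 : ℝ) < (1 / 2) ^ n := by positivity
    nlinarith [le_abs_self η₀]
  obtain ⟨W', _, P', j, h⟩ := key n
  exact ⟨W', inferInstance, { P' with f_le := fun v => (P'.f_le v).trans (by linarith) }, j, h⟩

end Crest.Agent.R206
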