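import Crest.Agent.R206.ZCut
import Crest.Agent.R206.GDefs

/-! # Row 206 (planar): the two statements that give the theorem. -/

set_option autoImplicit false
set_option linter.dupNamespace false

namespace Crest.Agent.R206

open Finset Crest.GeometryTopology.GraphMetric

/-- the statement of the structure theorem -/
def PSStmt : Prop :=
  ∀ (V : Type) [Fintype V] (G : SimpleGraph V), G.Connected → IsPlanar G →
    ∀ ℓ : Sym2 V → ℝ, (∀ e ∈ G.edgeSet, 0 < ℓ e) → ∀ η : ℝ, 0 < η →
      ∃ (W : Type) (_ : Fintype W) (P : PS W η) (i : V → W), ∀ x y,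
        wdist G ℓ x y ≤ wdist P.G P.len (i x) (i y) ∧
          wdist P.G P.len (i x) (i y) ≤ 2 * wdist G ℓ x y

/-- the statement of the main theorem on plane shortest path trees -/
def ZStmt : Prop :=
  ∃ C : ℝ, 0 < C ∧ ∀ η : ℝ, 0 < η → ∀ (W : Type) [Fintype W] (P : PS W η),
    ∃ (O : Type) (_ : Fintype O) (w : O → ℝ) (T : O → W → ℝ), (∀ o, 0 ≤ w o) ∧
      (∀ u v, P.G.Adj u v → ∑ o, w o * |T o u - T o v| ≤ |P.f u - P.f v|) ∧
      ∀ x y, C * η ≤ P.dS Set.univ x y → P.dS Set.univ x y ≤ C * ∑ o, w o * cd P.G (T o) x y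

end Crest.Agent.R206
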