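import Crest.Agent.R206.P
import Crest.Agent.R206.PSSub1
import Crest.Agent.R206.PSSub2
import Crest.Agent.R206.ZStmt

/-! # Row 206: planar graphs have plane shortest path trees (owner helper71). -/

set_option autoImplicit false

namespace Crest.Agent.R206

open Crest.GeometryTopology.GraphMetric

theorem exists_PS_dom {V : Type} [Fintype V] {G : SimpleGraph V} {ℓ : Sym2 V → ℝ}
    (hG : G.Connected) (hP : IsPlanar G) (hℓ : ∀ e ∈ G.edgeSet, 0 < ℓ e) {η : ℝ} (hη : 0 < η) :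
    ∃ (W : Type) (_ : Fintype W) (P : PS W η) (i : V → W), Dom G ℓ P.G P.len 2 i := by
  classical
  obtain ⟨r⟩ := hG.nonempty
  haveI : Nonempty V := ⟨r⟩
  obtain ⟨D, F, _, _, M, f₀, hM⟩ := exists_tri hP
  obtain ⟨T, rfl, hT⟩ := exists_spt hG hℓ r
  obtain ⟨lo, hi, pos, c⟩ := hM.ctr T
  obtain ⟨W, _, η₀, P, j, h2⟩ := c.exists_PS hℓ (h := wdist G ℓ T.root) (wdist_self hℓ _) hT
    fun _ _ h => sub_wdist_lip hG hℓ _ h
  obtain ⟨W', _, P', k, h3⟩ := P.refine hη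
  exact ⟨W', inferInstance, P', k ∘ j, h2.comp h3⟩

theorem psStmt : PSStmt := fun _ _ _ hG hP _ hℓ _ hη => by
  obtain ⟨W, _, P, i, h⟩ := exists_PS_dom hG hP hℓ hη
  exact ⟨W, inferInstance, P, i, h.wdist_cmp hG hℓ P.sub_connected P.sub_len_nonneg⟩

end Crest.Agent.R206
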