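import Crest.Agent.R206.P
import Crest.Agent.R206.PS2
import Crest.Agent.R206.PSDefs
import Crest.Agent.R206.PSSub

/-! # Row 206: the structure `PS` of a weighted planar graph. -/

set_option autoImplicit false

namespace Crest.Agent.R206

open Crest.GeometryTopology.GraphMetric

theorem exists_ctr {V : Type} [Fintype V] {G : SimpleGraph V} (hp : IsPlanar G) (T : RT G) :
    ∃ lo hi pos, Ctr T lo hi pos := by
  have : Nonempty V := ⟨T.root⟩
  obtain ⟨D, F, _, _, M, f₀, hM⟩ := exists_tri hp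
  exact hM.ctr T

theorem exists_PS {V : Type} [Fintype V] {G : SimpleGraph V} (hG : G.Connected) (hp : IsPlanar G)
    {ℓ : Sym2 V → ℝ} (hℓ : ∀ e ∈ G.edgeSet, 0 < ℓ e) {η : ℝ} (hη : 0 < η) :
    ∃ (W : Type) (_ : Fintype W) (P : PS W η) (i : V → W), ∀ x y,
      wdist G ℓ x y ≤ wdist P.G P.len (i x) (i y) ∧
        wdist P.G P.len (i x) (i y) ≤ 2 * wdist G ℓ x y := by
  obtain ⟨W, _, P, i, h⟩ := exists_PS_dom hG hp hℓ hη
  exact ⟨W, inferInstance, P, i, h.wdist_cmp hG hℓ P.sub_connected P.sub_len_nonneg⟩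

end Crest.Agent.R206
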