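import Crest.Agent.R206.PSDefs
import Crest.Agent.R206.PS2

/-! # Row 206, subdivision: transfer of distances (owner helper71). -/

set_option autoImplicit false
set_option maxHeartbeats 400000

namespace Crest.Agent.R206

open Crest.GeometryTopology.GraphMetric

/-- `i` carries Lipschitz functions up and pseudo-metrics down (with loss `c`) -/
structure Dom {V W : Type} (G : SimpleGraph V) (ℓ : Sym2 V → ℝ) (H : SimpleGraph W)
    (m : Sym2 W → ℝ) (c : ℝ) (i : V → W) : Prop where
  low : ∀ g : V → ℝ, (∀ x y, G.Adj x y → |g x - g y| ≤ ℓ s(x, y)) →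
    ∃ g' : W → ℝ, (∀ u v, H.Adj u v → |g' u - g' v| ≤ m s(u, v)) ∧ ∀ x, g' (i x) = g x
  up : ∀ D : W → W → ℝ, (∀ u, D u u = 0) → (∀ u v, D u v = D v u) →
    (∀ u v w, D u w ≤ D u v + D v w) → (∀ u v, H.Adj u v → D u v ≤ m s(u, v)) →
    ∀ x y, G.Adj x y → D (i x) (i y) ≤ c * ℓ s(x, y)

theorem Dom.comp {U V W : Type} {F : SimpleGraph U} {G : SimpleGraph V} {H : SimpleGraph W}
    {k : Sym2 U → ℝ} {ℓ : Sym2 V → ℝ} {m : Sym2 W → ℝ} {c : ℝ} {i : U → V} {j : V → W}
    (h : Dom F k G ℓ c i) (h' : Dom G ℓ H m 1 j) : Dom F k H m c (j ∘ i) where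
  low g hg := by
    obtain ⟨g', h1, h2⟩ := h.low g hg
    obtain ⟨g'', h3, h4⟩ := h'.low g' h1
    exact ⟨g'', h3, fun x => (h4 _).trans (h2 x)⟩
  up D d0 ds dt de x y hxy :=
    h.up (fun u v => D (j u) (j v)) (fun _ => d0 _) (fun _ _ => ds _ _) (fun _ _ _ => dt _ _ _)
      (fun u v huv => by simpa using h'.up D d0 ds dt de u v huv) x y hxy

theorem Dom.refl {V : Type} (G : SimpleGraph V) (ℓ : Sym2 V → ℝ) : Dom G ℓ G ℓ 1 id where
  low g hg := ⟨g, hg, fun _ => rfl⟩
  up D _ _ _ de x y hxy := by simpa using de x y hxy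

variable {V : Type} [Fintype V] {G : SimpleGraph V} {ℓ : Sym2 V → ℝ}
variable {W : Type} {H : SimpleGraph W} {m : Sym2 W → ℝ} {c : ℝ} {i : V → W}

theorem sub_wdist_lip (hG : G.Connected) (hℓ : ∀ e ∈ G.edgeSet, 0 < ℓ e) (x : V) {y z : V}
    (h : G.Adj y z) : |wdist G ℓ x y - wdist G ℓ x z| ≤ ℓ s(y, z) := by
  classical
  have h1 : wdist G ℓ y z ≤ ℓ s(y, z) := by simpa using wdist_le hℓ h.toWalk
  have h2 := wdist_tri hG hℓ x y z
  have h3 := wdist_tri hG hℓ x z y
  rw [wdist_comm G ℓ z y] at h3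
  rw [abs_le]
  constructor <;> linarith

/-- `low` for `g = wdist G ℓ x` -/
theorem Dom.low_wdist (h : Dom G ℓ H m c i) (hG : G.Connected) (hℓ : ∀ e ∈ G.edgeSet, 0 < ℓ e)
    (x : V) : ∃ g : W → ℝ, (∀ u v, H.Adj u v → |g u - g v| ≤ m s(u, v)) ∧
      ∀ y, g (i y) = wdist G ℓ x y :=
  h.low _ fun _ _ h => sub_wdist_lip hG hℓ x h

/-- `up` along a shortest walk -/
theorem Dom.up_wdist (h : Dom G ℓ H m c i) (hG : G.Connected) (hℓ : ∀ e ∈ G.edgeSet, 0 < ℓ e)
    (D : W → W → ℝ) (d0 : ∀ u, D u u = 0) (ds : ∀ u v, D u v = D v u)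
    (dt : ∀ u v w, D u w ≤ D u v + D v w) (de : ∀ u v, H.Adj u v → D u v ≤ m s(u, v)) (x y : V) :
    D (i x) (i y) ≤ c * wdist G ℓ x y := by
  classical
  obtain ⟨p, hp⟩ := exists_shortest hG hℓ x y
  rw [← hp]
  clear hp
  induction p with
  | nil => simp [d0]
  | @cons a b _ hab p ih =>
    have := h.up D d0 ds dt de a b hab
    have := dt (i a) (i b)
    simp only [SimpleGraph.Walk.edges_cons, List.map_cons, List.sum_cons, mul_add]
    exact (dt _ (i b) _).trans (add_le_add ‹_› ih)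

theorem sub_len_nonneg (hm : ∀ e, 0 ≤ m e) {u v : W} (p : H.Walk u v) :
    0 ≤ (p.edges.map m).sum :=
  List.sum_nonneg fun a ha => by
    obtain ⟨e, -, rfl⟩ := List.mem_map.1 ha
    exact hm e

theorem sub_wdist_le (hm : ∀ e, 0 ≤ m e) {u v : W} (p : H.Walk u v) :
    wdist H m u v ≤ (p.edges.map m).sum :=
  ciInf_le ⟨0, by rintro _ ⟨q, rfl⟩; exact sub_len_nonneg hm q⟩ p

theorem sub_lip_walk {g : W → ℝ} (hg : ∀ u v, H.Adj u v → |g u - g v| ≤ m s(u, v)) {u v : W}
    (p : H.Walk u v) : |g u - g v| ≤ (p.edges.map m).sum := by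
  induction p with
  | nil => simp
  | @cons a b c hab p ih =>
    simp only [SimpleGraph.Walk.edges_cons, List.map_cons, List.sum_cons]
    exact (abs_sub_le _ (g b) _).trans (add_le_add (hg _ _ hab) ih)

theorem Dom.wdist_cmp (h : Dom G ℓ H m c i) (hG : G.Connected) (hℓ : ∀ e ∈ G.edgeSet, 0 < ℓ e)
    (hH : H.Connected) (hm : ∀ e, 0 ≤ m e) (x y : V) :
    wdist G ℓ x y ≤ wdist H m (i x) (i y) ∧ wdist H m (i x) (i y) ≤ c * wdist G ℓ x y := by
  classical
  have ne : ∀ u v, Nonempty (H.Walk u v) := fun u v => hH.preconnected u v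
  constructor
  · obtain ⟨g, h1, h2⟩ := h.low_wdist hG hℓ x
    refine le_ciInf fun p => ?_
    have := sub_lip_walk h1 p
    rw [h2, h2, wdist_self hℓ, zero_sub, abs_neg] at this
    exact (le_abs_self _).trans this
  · refine h.up_wdist hG hℓ (wdist H m) (fun u => le_antisymm ?_ ?_) (fun u v => ?_)
      (fun u v w => ?_) (fun u v huv => ?_) x y
    · simpa using sub_wdist_le hm (SimpleGraph.Walk.nil : H.Walk u u)
    · exact le_ciInf fun p => sub_len_nonneg hm p
    · have key : ∀ u v, wdist H m u v ≤ wdist H m v u := fun u v => le_ciInf fun p => by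
        have := sub_wdist_le hm p.reverse
        rwa [SimpleGraph.Walk.edges_reverse, List.map_reverse, List.sum_reverse] at this
      exact le_antisymm (key u v) (key v u)
    · refine le_ciInf_add_ciInf fun p q => ?_
      have := sub_wdist_le hm (p.append q)
      rwa [SimpleGraph.Walk.edges_append, List.map_append, List.sum_append] at this
    · simpa using sub_wdist_le hm huv.toWalk

/-- every vertex reaches the root -/
theorem PS.sub_connected {W : Type} [Fintype W] {η : ℝ} (P : PS W η) : P.G.Connected := by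
  classical
  have key : ∀ v, P.G.Reachable v P.root := fun v => by
    induction hn : (Finset.univ.filter fun w => P.f w < P.f v).card using Nat.strong_induction_on
      generalizing v with
    | _ n ih =>
      by_cases hv : v = P.root
      · rw [hv]
      · have h1 := P.f_lt v hv
        have h2 : P.G.Adj v (P.par v) := ⟨fun h => by rw [← h] at h1; exact lt_irrefl _ h1, Or.inl rfl⟩
        refine h2.reachable.trans (ih _ ?_ _ rfl)
        rw [← hn]
        refine Finset.card_lt_card ⟨fun w hw => ?_, fun hw => ?_⟩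
        · simp only [Finset.mem_filter, Finset.mem_univ, true_and] at hw ⊢
          exact hw.trans h1
        · have := @hw (P.par v) (by simpa using h1)
          simp at this
  haveI : Nonempty W := ⟨P.root⟩
  exact ⟨fun u v => (key u).trans (key v).symm⟩

theorem PS.sub_len_nonneg {W : Type} {η : ℝ} (P : PS W η) (e : Sym2 W) : 0 ≤ P.len e := by
  induction e using Sym2.ind with
  | h u v => exact abs_nonneg _

end Crest.Agent.R206
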