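import Crest.Agent.R206.PDefs

/-! # Row 206: tree-cotree decomposition of a triangulated sphere map (PL3, PL4). -/

set_option autoImplicit false

namespace Crest.Agent.R206

open Crest.GeometryTopology.GraphMetric

/-- a rooted spanning tree of `G`, given by parents -/
structure RT {V : Type} (G : SimpleGraph V) where
  root : V
  par : V → V
  dep : V → ℕ
  par_root : par root = root
  dep_par : ∀ v, v ≠ root → dep (par v) < dep v
  adj : ∀ v, v ≠ root → G.Adj v (par v)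

variable {V : Type} {G : SimpleGraph V}

namespace RT

variable (T : RT G)

/-- `u` lies on the path from `v` to the root -/
def Anc (u v : V) : Prop := ∃ n : ℕ, T.par^[n] v = u

/-- the root path of `v` -/
def P (v : V) : Set V := {u | T.Anc u v}

theorem anc_refl (v : V) : T.Anc v v := ⟨0, rfl⟩

theorem anc_par (v : V) : T.Anc (T.par v) v := ⟨1, rfl⟩

variable {T}

theorem Anc.trans {u v w : V} (h : T.Anc u v) (h' : T.Anc v w) : T.Anc u w := by
  obtain ⟨n, rfl⟩ := h
  obtain ⟨m, rfl⟩ := h'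
  exact ⟨n + m, Function.iterate_add_apply _ _ _ _⟩

theorem anc_iff {u v : V} : T.Anc u v ↔ v = u ∨ T.Anc u (T.par v) := by
  constructor
  · rintro ⟨n, h⟩
    cases n with
    | zero => exact Or.inl h
    | succ n => exact Or.inr ⟨n, h⟩
  · rintro (rfl | h)
    · exact T.anc_refl _
    · exact h.trans (T.anc_par v)

theorem dep_par_le (v : V) : T.dep (T.par v) ≤ T.dep v := by
  by_cases h : v = T.root
  · rw [h, T.par_root]
  · exact (T.dep_par v h).le

theorem Anc.dep_le {u v : V} (h : T.Anc u v) : T.dep u ≤ T.dep v := by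
  obtain ⟨n, rfl⟩ := h
  induction n with
  | zero => exact le_rfl
  | succ n ih => rw [Function.iterate_succ_apply']; exact (dep_par_le _).trans ih

theorem not_anc_par {v : V} (h : v ≠ T.root) : ¬ T.Anc v (T.par v) := fun h' =>
  absurd h'.dep_le (not_le.2 (T.dep_par v h))

theorem Anc.eq_root {u : V} (h : T.Anc u T.root) : u = T.root := by
  obtain ⟨n, rfl⟩ := h
  exact Function.iterate_fixed T.par_root n

/-- induction from the root -/
theorem ind (T : RT G) {p : V → Prop} (h0 : p T.root) (h : ∀ v, v ≠ T.root → p (T.par v) → p v)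
    (v : V) : p v := by
  induction hn : T.dep v using Nat.strong_induction_on generalizing v with
  | _ n ih =>
    by_cases hv : v = T.root
    · exact hv ▸ h0
    · exact h v hv (ih _ (hn ▸ T.dep_par v hv) _ rfl)

theorem anc_root (T : RT G) (v : V) : T.Anc T.root v :=
  T.ind (T.anc_refl _) (fun v _ h => h.trans (T.anc_par v)) v

/-- induction from `u` down the subtree of `u` -/
theorem Anc.ind {u : V} {p : V → Prop} (h0 : p u)
    (h : ∀ v, v ≠ T.root → T.Anc u (T.par v) → p (T.par v) → p v) {v : V} (hv : T.Anc u v) :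
    p v := by
  refine T.ind (p := fun v => T.Anc u v → p v) (fun h => h.eq_root ▸ h0) (fun v hv ih h' => ?_) v hv
  rcases anc_iff.1 h' with rfl | h'
  · exact h0
  · exact h v hv h' (ih h')

theorem edge_inj {v w : V} (hv : v ≠ T.root) (hw : w ≠ T.root)
    (h : s(v, T.par v) = s(w, T.par w)) : v = w := by
  rcases Sym2.eq_iff.1 h with h | ⟨h1, h2⟩
  · exact h.1
  · have k1 := T.dep_par v hv
    have k2 := T.dep_par w hw
    rw [h2] at k1
    rw [← h1] at k2
    omega

/-- root paths are short when the depth is small -/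
theorem ncard_P_le (T : RT G) (v : V) : (T.P v).Finite ∧ (T.P v).ncard ≤ T.dep v + 1 := by
  refine T.ind (p := fun v => (T.P v).Finite ∧ (T.P v).ncard ≤ T.dep v + 1) ?_
    (fun v hv ih => ?_) v
  · have : T.P T.root = {T.root} :=
      Set.eq_singleton_iff_unique_mem.2 ⟨T.anc_refl _, fun u hu => Anc.eq_root hu⟩
    rw [this]
    simp
  · have : T.P v = insert v (T.P (T.par v)) := Set.ext fun u => anc_iff.trans (or_congr_left eq_comm)
    rw [this]
    refine ⟨ih.1.insert v, (Set.ncard_insert_le _ _).trans ?_⟩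
    have := T.dep_par v hv
    omega

end RT

/-- a tree decomposition whose bags are unions of three root paths and whose adhesions are unions of
two root paths; the index tree is rooted at `f₀` and binary below the root -/
structure PDec (T : RT G) {F : Type} (C : SimpleGraph F) (B : F → Set V) (f₀ : F) : Prop where
  tree : C.IsTree
  cov : ∀ v, ∃ f, v ∈ B f
  edge : ∀ u v, G.Adj u v → ∃ f, u ∈ B f ∧ v ∈ B f
  conn : ∀ v, (C.induce {f | v ∈ B f}).Connected
  bag : ∀ f, ∃ a b c, B f = T.P a ∪ T.P b ∪ T.P c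
  adh : ∀ f g, C.Adj f g → ∃ a b, B f ∩ B g = T.P a ∪ T.P b
  root : ∃ a, B f₀ = T.P a
  deg : ∀ f, f ≠ f₀ → (C.neighborSet f).ncard ≤ 3

section cotree

variable {D F : Type} [Fintype D] (M : SMap V D F) (T : RT G)

/-- `rep v` is the edge from `v` to its parent -/
def IsRep (rep : V → D) : Prop :=
  ∀ v, v ≠ T.root → s(M.s (rep v), M.t (rep v)) = s(v, T.par v)

/-- the edges of the tree -/
def TE (rep : V → D) (d : D) : Prop := ∃ v, v ≠ T.root ∧ rep v = d

variable {M T} {rep : V → D}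

theorem q_two (a : ZMod 2) : a + a = 0 := by revert a; decide

theorem q_eq {a b : ZMod 2} : a + b = 0 ↔ a = b := by revert a b; decide

theorem IsRep.sum (h : IsRep M T rep) {v : V} (hv : v ≠ T.root) (σ : V → ZMod 2) :
    σ (M.s (rep v)) + σ (M.t (rep v)) = σ v + σ (T.par v) := by
  rcases Sym2.eq_iff.1 (h v hv) with ⟨h1, h2⟩ | ⟨h1, h2⟩
  · rw [h1, h2]
  · rw [h1, h2, add_comm]

/-- a cycle vanishing on the non-tree edges at the subtree of `v` vanishes on the edge above `v` -/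
theorem IsRep.tree_zero (h : IsRep M T rep) {z : D → ZMod 2} (hz : Ev M.s M.t z) {v : V}
    (hv : v ≠ T.root)
    (h0 : ∀ d, ¬ TE T rep d → T.Anc v (M.s d) ∨ T.Anc v (M.t d) → z d = 0) : z (rep v) = 0 := by
  classical
  have key := hz fun u => if T.Anc v u then 1 else 0
  rw [Finset.sum_eq_single (rep v) (fun d _ hd => ?_) (by simp)] at key
  · rw [h.sum hv fun u => if T.Anc v u then 1 else 0, if_pos (T.anc_refl v),
      if_neg (RT.not_anc_par hv)] at key
    simpa using key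
  · by_cases ht : TE T rep d
    · obtain ⟨w, hw, rfl⟩ := ht
      have hwv : w ≠ v := fun e => hd (by rw [e])
      rw [h.sum hw fun u => if T.Anc v u then 1 else 0]
      have : T.Anc v w ↔ T.Anc v (T.par w) := RT.anc_iff.trans (or_iff_right hwv)
      simp only [this, q_two, mul_zero]
    · by_cases h1 : T.Anc v (M.s d) ∨ T.Anc v (M.t d)
      · rw [h0 d ht h1, zero_mul]
      · rw [not_or] at h1
        simp [h1.1, h1.2]

/-- KEY: a face function constant across the non-tree edges at the subtree of `v` is constant on the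
faces with a corner in that subtree -/
theorem IsRep.key (h : IsRep M T rep) (cov : ∀ v, ∃ f, v ∈ M.cor f) {φ : F → ZMod 2} {v : V}
    (h0 : ∀ d, ¬ TE T rep d → T.Anc v (M.s d) ∨ T.Anc v (M.t d) → φ (M.l d) = φ (M.r d))
    {f g : F} {a b : V} (ha : a ∈ M.cor f) (hva : T.Anc v a) (hb : b ∈ M.cor g)
    (hvb : T.Anc v b) : φ f = φ g := by
  have h1 : ∀ u, T.Anc v u → ∀ d, M.s d = u ∨ M.t d = u → φ (M.l d) = φ (M.r d) := by
    intro u hu d hd
    by_cases ht : TE T rep d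
    · obtain ⟨w, hw, rfl⟩ := ht
      have hvw : T.Anc v w := by
        have : u ∈ s(w, T.par w) := by
          rw [← h w hw]
          rcases hd with rfl | rfl <;> simp
        rcases Sym2.mem_iff.1 this with rfl | rfl
        · exact hu
        · exact hu.trans (T.anc_par w)
      exact q_eq.1 (h.tree_zero (M.ev_bd φ) hw fun d hd hw' =>
        q_eq.2 (h0 d hd (hw'.imp hvw.trans hvw.trans)))
    · exact h0 d ht (by rcases hd with rfl | rfl <;> simp [hu])
  obtain ⟨f₁, hf₁⟩ := cov v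
  have h2 : ∀ u, T.Anc v u → ∀ f, u ∈ M.cor f → φ f = φ f₁ := by
    intro u hu
    refine RT.Anc.ind (p := fun u => ∀ f, u ∈ M.cor f → φ f = φ f₁)
      (fun f hf => M.link v φ (h1 v (T.anc_refl v)) f f₁ hf hf₁) (fun w hw hp ih f hf => ?_) hu
    have k : ∀ x ∈ s(w, T.par w), x ∈ M.cor (M.l (rep w)) := by
      rw [← h w hw]
      intro x hx
      rcases Sym2.mem_iff.1 hx with rfl | rfl
      · exact M.s_l _
      · exact M.t_l _
    rw [← ih _ (k _ (by simp))]
    exact M.link w φ (h1 w (hp.trans (T.anc_par w))) f _ hf (k _ (by simp))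
  rw [h2 a hva f ha, h2 b hvb g hb]

/-- the chain of the root path -/
theorem IsRep.path (h : IsRep M T rep) (u : V) : ∃ c : D → ZMod 2, (∀ d, ¬ TE T rep d → c d = 0) ∧
    ∀ σ : V → ZMod 2, ∑ d, c d * (σ (M.s d) + σ (M.t d)) = σ u + σ T.root := by
  classical
  refine T.ind (p := fun u => ∃ c : D → ZMod 2, (∀ d, ¬ TE T rep d → c d = 0) ∧
    ∀ σ : V → ZMod 2, ∑ d, c d * (σ (M.s d) + σ (M.t d)) = σ u + σ T.root)
    ⟨0, fun _ _ => rfl, fun σ => by simp [q_two]⟩ (fun v hv ⟨c, hc, hs⟩ => ?_) u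
  refine ⟨fun d => c d + if d = rep v then 1 else 0, fun d hd => ?_, fun σ => ?_⟩
  · beta_reduce
    rw [hc d hd, if_neg fun e => hd ⟨v, hv, e.symm⟩, add_zero]
  · simp only [add_mul, Finset.sum_add_distrib, hs, ite_mul, one_mul, zero_mul,
      Finset.sum_ite_eq', Finset.mem_univ, if_true, h.sum hv σ]
    linear_combination q_two (σ (T.par v))

/-- the inside of the fundamental cycle of a non-tree edge -/
theorem IsRep.fund (h : IsRep M T rep) {d₀ : D} (hd₀ : ¬ TE T rep d₀) : ∃ φ : F → ZMod 2,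
    φ (M.l d₀) ≠ φ (M.r d₀) ∧ ∀ d, ¬ TE T rep d → d ≠ d₀ → φ (M.l d) = φ (M.r d) := by
  classical
  obtain ⟨c, hc, hs⟩ := h.path (M.s d₀)
  obtain ⟨c', hc', hs'⟩ := h.path (M.t d₀)
  obtain ⟨φ, hφ⟩ := M.bd_ev (fun d => c d + c' d + if d = d₀ then 1 else 0) fun σ => by
    simp only [add_mul, Finset.sum_add_distrib, hs, hs', ite_mul, one_mul, zero_mul,
      Finset.sum_ite_eq', Finset.mem_univ, if_true]
    linear_combination q_two (σ (M.s d₀)) + q_two (σ (M.t d₀)) + q_two (σ T.root)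
  refine ⟨φ, fun e => ?_, fun d hd hne => q_eq.1 ?_⟩
  · have := hφ d₀
    rw [hc _ hd₀, hc' _ hd₀, if_pos rfl, e, q_two (φ _)] at this
    simp at this
  · rw [← hφ d, hc _ hd, hc' _ hd, if_neg hne]
    simp

variable (M T) in
/-- the cotree -/
def cotree (rep : V → D) : SimpleGraph F where
  Adj f g := f ≠ g ∧ ∃ d, ¬ TE T rep d ∧ s(M.l d, M.r d) = s(f, g)
  symm := ⟨fun _ _ ⟨h1, d, h2, h3⟩ => ⟨h1.symm, d, h2, h3.trans Sym2.eq_swap⟩⟩
  loopless := ⟨fun _ h => h.1 rfl⟩

variable (M T) in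
/-- the bag of a face -/
def bag (f : F) : Set V := {v | ∃ u ∈ M.cor f, T.Anc v u}

theorem cotree_step {d : D} (hd : ¬ TE T rep d) :
    M.l d = M.r d ∨ (cotree M T rep).Adj (M.l d) (M.r d) := by
  by_cases h : M.l d = M.r d
  · exact Or.inl h
  · exact Or.inr ⟨h, d, hd, rfl⟩

theorem IsRep.cotree_conn (h : IsRep M T rep) (f₀ : F) : (cotree M T rep).Connected := by
  classical
  refine (SimpleGraph.connected_iff_exists_forall_reachable _).2 ⟨f₀, fun g => ?_⟩
  have h0 : ∀ d, ¬ TE T rep d →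
      (if (cotree M T rep).Reachable f₀ (M.l d) then (1 : ZMod 2) else 0) =
        if (cotree M T rep).Reachable f₀ (M.r d) then 1 else 0 := by
    intro d hd
    rcases cotree_step (M := M) hd with e | e
    · rw [e]
    · exact if_congr ⟨fun k => k.trans e.reachable, fun k => k.trans e.symm.reachable⟩ rfl rfl
  have := M.conn (fun f => if (cotree M T rep).Reachable f₀ f then 1 else 0) (fun d => by
    by_cases ht : TE T rep d
    · obtain ⟨w, hw, rfl⟩ := ht
      exact q_eq.1 (h.tree_zero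
        (M.ev_bd fun f => if (cotree M T rep).Reachable f₀ f then 1 else 0) hw
        fun d hd _ => q_eq.2 (h0 d hd))
    · exact h0 d ht) f₀ g
  by_contra hn
  simp [hn] at this

theorem IsRep.cotree_acyclic (h : IsRep M T rep) : (cotree M T rep).IsAcyclic := by
  refine SimpleGraph.isAcyclic_iff_forall_adj_isBridge.2 fun f g ⟨_, d₀, hd₀, e₀⟩ => ?_
  obtain ⟨φ, h1, h2⟩ := h.fund hd₀
  rw [SimpleGraph.isBridge_iff, SimpleGraph.reachable_iff_reflTransGen]
  intro hr
  have h3 : ∀ x, Relation.ReflTransGen ((cotree M T rep).deleteEdges {s(f, g)}).Adj f x →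
      φ f = φ x := by
    intro x hx
    induction hx with
    | refl => rfl
    | tail _ hbc ih =>
      obtain ⟨⟨_, d, hd, e⟩, hne⟩ := SimpleGraph.deleteEdges_adj.1 hbc
      have k := h2 d hd fun e' => hne (by rw [← e, e', e₀]; rfl)
      rw [ih]
      rcases Sym2.eq_iff.1 e with ⟨e1, e2⟩ | ⟨e1, e2⟩
      · rw [← e1, ← e2, k]
      · rw [← e1, ← e2, k]
  have h4 := h3 g hr
  rcases Sym2.eq_iff.1 e₀ with ⟨e1, e2⟩ | ⟨e1, e2⟩
  · exact h1 (by rw [e1, e2, h4])
  · exact h1 (by rw [e1, e2, h4])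

theorem IsRep.bag_conn (h : IsRep M T rep) (cov : ∀ v, ∃ f, v ∈ M.cor f) (v : V) :
    ((cotree M T rep).induce {f | v ∈ bag M T f}).Connected := by
  classical
  obtain ⟨f₁, hf₁⟩ := cov v
  have m₁ : f₁ ∈ {f | v ∈ bag M T f} := ⟨v, hf₁, T.anc_refl v⟩
  refine (SimpleGraph.connected_iff_exists_forall_reachable _).2 ⟨⟨f₁, m₁⟩, fun ⟨g, hg⟩ => ?_⟩
  obtain ⟨R, hR⟩ : ∃ R : F → Prop, ∀ f, R f ↔ ∃ hf : f ∈ {f | v ∈ bag M T f},
    ((cotree M T rep).induce {f | v ∈ bag M T f}).Reachable ⟨f₁, m₁⟩ ⟨f, hf⟩ :=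
    ⟨_, fun _ => Iff.rfl⟩
  obtain ⟨b, hb, hvb⟩ := hg
  have := h.key cov (φ := fun f => if R f then 1 else 0) (v := v) (fun d hd hv => by
    have ml : M.l d ∈ {f | v ∈ bag M T f} :=
      hv.elim (fun k => ⟨_, M.s_l d, k⟩) fun k => ⟨_, M.t_l d, k⟩
    have mr : M.r d ∈ {f | v ∈ bag M T f} :=
      hv.elim (fun k => ⟨_, M.s_r d, k⟩) fun k => ⟨_, M.t_r d, k⟩
    rcases cotree_step (M := M) hd with e | e
    · rw [e]
    · have e' : ((cotree M T rep).induce {f | v ∈ bag M T f}).Adj ⟨_, ml⟩ ⟨_, mr⟩ := e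
      refine if_congr ?_ rfl rfl
      rw [hR, hR]
      exact ⟨fun ⟨_, k⟩ => ⟨mr, k.trans e'.reachable⟩, fun ⟨_, k⟩ => ⟨ml, k.trans e'.symm.reachable⟩⟩)
    hf₁ (T.anc_refl v) hb hvb
  have r₁ : R f₁ := (hR _).2 ⟨m₁, SimpleGraph.Reachable.refl _⟩
  have r₂ : R g := by
    by_contra hn
    simp [hn, r₁] at this
  exact ((hR g).1 r₂).2

theorem IsRep.adhesion (h : IsRep M T rep) (cov : ∀ v, ∃ f, v ∈ M.cor f) {d₀ : D}
    (hd₀ : ¬ TE T rep d₀) :
    bag M T (M.l d₀) ∩ bag M T (M.r d₀) = T.P (M.s d₀) ∪ T.P (M.t d₀) := by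
  refine Set.Subset.antisymm ?_ ?_
  · rintro v ⟨⟨a, ha, hva⟩, b, hb, hvb⟩
    obtain ⟨φ, h1, h2⟩ := h.fund hd₀
    by_contra hn
    exact h1 (h.key cov (fun d hd hv => h2 d hd fun e => hn (e ▸ hv)) ha hva hb hvb)
  · rintro v (hv | hv)
    · exact ⟨⟨_, M.s_l _, hv⟩, _, M.s_r _, hv⟩
    · exact ⟨⟨_, M.t_l _, hv⟩, _, M.t_r _, hv⟩

theorem cor_nonempty [Nonempty V] (cov : ∀ v, ∃ f, v ∈ M.cor f) (f : F) : (M.cor f).Nonempty := by
  classical
  by_contra hn
  obtain ⟨g, hg⟩ := cov (Classical.arbitrary V)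
  have := M.conn (fun x => if x = f then 1 else 0) (fun d => by
    rw [if_neg fun e => hn ⟨_, e ▸ M.s_l d⟩, if_neg fun e => hn ⟨_, e ▸ M.s_r d⟩]) f g
  rw [if_pos rfl, if_neg fun e => hn ⟨_, e ▸ hg⟩] at this
  exact absurd this (by decide)

theorem q_three {S : Set V} (hS : S.Nonempty) {a b c : V} (h : S ⊆ {a, b, c}) :
    ∃ a' b' c', S = {a', b', c'} := by
  classical
  obtain ⟨x, hx⟩ := hS
  refine ⟨if a ∈ S then a else x, if b ∈ S then b else x, if c ∈ S then c else x,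
    Set.Subset.antisymm (fun y hy => ?_) ?_⟩
  · rcases h hy with rfl | rfl | rfl <;> simp [hy]
  · rintro y (rfl | rfl | rfl) <;> split_ifs <;> assumption

/-- PL3 on a triangulated sphere map -/
theorem IsTri.pdec {f₀ : F} (h : IsTri G M f₀) (T : RT G) :
    ∃ (C : SimpleGraph F) (B : F → Set V), PDec T C B f₀ := by
  classical
  have : Nonempty V := ⟨T.root⟩
  by_cases hD : Nonempty D
  swap
  · have hF : ∀ f g : F, f = g := fun f g => by
      have := M.conn (fun x => if x = f then 1 else 0) (fun d => absurd ⟨d⟩ hD) f g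
      by_contra hn
      simp [Ne.symm hn] at this
    have hV : ∀ v, v = T.root := fun v => by
      by_contra hv
      obtain ⟨d, -⟩ := h.adj _ _ (T.adj v hv)
      exact hD ⟨d⟩
    have hP : T.P T.root = Set.univ := Set.eq_univ_of_forall fun v => hV v ▸ T.anc_refl _
    have : Subsingleton F := ⟨hF⟩
    have : Nonempty F := ⟨f₀⟩
    refine ⟨⊥, fun _ => Set.univ, ⟨SimpleGraph.Connected.of_subsingleton, SimpleGraph.isAcyclic_bot⟩,
      fun v => ⟨f₀, trivial⟩, fun _ _ _ => ⟨f₀, trivial, trivial⟩, fun v => ?_,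
      fun _ => ⟨T.root, T.root, T.root, by simp [hP]⟩, fun _ _ h => h.elim, ⟨T.root, hP.symm⟩,
      fun _ _ => by simp⟩
    have : Nonempty {f : F | v ∈ (Set.univ : Set V)} := ⟨⟨f₀, trivial⟩⟩
    exact SimpleGraph.Connected.of_subsingleton
  have hex : ∀ v, ∃ d, v ≠ T.root → s(M.s d, M.t d) = s(v, T.par v) := fun v => by
    by_cases hv : v = T.root
    · exact ⟨hD.some, fun h => absurd hv h⟩
    · exact (h.adj _ _ (T.adj v hv)).imp fun d hd _ => hd
  choose rep hrep using hex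
  have hr : IsRep M T rep := hrep
  refine ⟨cotree M T rep, bag M T, ⟨hr.cotree_conn f₀, hr.cotree_acyclic⟩,
    fun v => (h.cov v).imp fun f hf => ⟨v, hf, T.anc_refl v⟩, fun u v huv => ?_,
    hr.bag_conn h.cov, fun f => ?_, ?_, ?_, fun f hf => ?_⟩
  · obtain ⟨d, hd⟩ := h.adj u v huv
    refine ⟨M.l d, ?_⟩
    rcases Sym2.eq_iff.1 hd with ⟨rfl, rfl⟩ | ⟨rfl, rfl⟩
    · exact ⟨⟨_, M.s_l d, T.anc_refl _⟩, _, M.t_l d, T.anc_refl _⟩
    · exact ⟨⟨_, M.t_l d, T.anc_refl _⟩, _, M.s_l d, T.anc_refl _⟩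
  · obtain ⟨a, b, c, habc⟩ := h.cor3 f
    obtain ⟨a', b', c', e⟩ := q_three (cor_nonempty h.cov f) habc
    refine ⟨a', b', c', Set.ext fun v => ?_⟩
    simp [bag, e, RT.P, or_assoc]
  · rintro f g ⟨-, d, hd, e⟩
    refine ⟨M.s d, M.t d, ?_⟩
    rw [← hr.adhesion h.cov hd]
    rcases Sym2.eq_iff.1 e with ⟨rfl, rfl⟩ | ⟨rfl, rfl⟩
    · rfl
    · exact Set.inter_comm _ _
  · obtain ⟨a, ha⟩ := h.cor1
    have e := (cor_nonempty h.cov f₀).subset_singleton_iff.1 ha
    exact ⟨a, Set.ext fun v => by simp [bag, e, RT.P]⟩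
  · refine le_trans ?_ ((Set.ncard_image_le (f := fun d => if M.l d = f then M.r d else M.l d)
      (Set.toFinite _)).trans (h.deg3 f hf))
    refine Set.ncard_le_ncard ?_ ((Set.toFinite _).image _)
    rintro g ⟨hne, d, -, e⟩
    rcases Sym2.eq_iff.1 e with ⟨e1, e2⟩ | ⟨e1, e2⟩
    · exact ⟨d, Or.inl e1, by beta_reduce; rw [if_pos e1, e2]⟩
    · exact ⟨d, Or.inr e2, by beta_reduce; rw [if_neg (by rw [e1]; exact hne.symm), e1]⟩

end cotree

/-- PL4 for a quotient: `q` has `G`-connected fibres, `H` is a spanning subgraph of the quotient graph,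
and every root path meets at most `k` fibres -/
theorem PDec.quot {F W : Type} [Fintype F] {T : RT G} {C : SimpleGraph F} {B : F → Set V} {f₀ : F}
    (h : PDec T C B f₀) (q : V → W) (hq : ∀ x, (G.induce (q ⁻¹' {x})).Connected)
    {H : SimpleGraph W} (hH : ∀ x y, H.Adj x y → ∃ u v, G.Adj u v ∧ q u = x ∧ q v = y) {k : ℕ}
    (hk : ∀ v, (q '' T.P v).ncard ≤ k) : HasTreeDecompWithBags H (3 * k) := by
  classical
  have fin : ∀ f, (q '' B f).Finite := fun f => by
    obtain ⟨a, b, c, e⟩ := h.bag f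
    rw [e]
    exact (((T.ncard_P_le a).1.union (T.ncard_P_le b).1).union (T.ncard_P_le c).1).image q
  refine ⟨F, inferInstance, C, fun f => (fin f).toFinset, h.tree, fun x => ?_, fun x y hxy => ?_,
    fun x => ?_, fun f => ?_⟩
  · obtain ⟨⟨u, hu⟩⟩ := (hq x).nonempty
    obtain ⟨f, hf⟩ := h.cov u
    exact ⟨f, (fin f).mem_toFinset.2 ⟨u, hf, hu⟩⟩
  · obtain ⟨u, v, huv, rfl, rfl⟩ := hH x y hxy
    obtain ⟨f, h1, h2⟩ := h.edge u v huv
    exact ⟨f, (fin f).mem_toFinset.2 ⟨u, h1, rfl⟩, (fin f).mem_toFinset.2 ⟨v, h2, rfl⟩⟩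
  · obtain ⟨⟨u, hu⟩⟩ := (hq x).nonempty
    obtain ⟨f₁, hf₁⟩ := h.cov u
    have mem : ∀ {w : V} {f : F}, q w = x → w ∈ B f → f ∈ {f | x ∈ (fin f).toFinset} :=
      fun hw hf => (fin _).mem_toFinset.2 ⟨_, hf, hw⟩
    have same : ∀ (w : V) (hw : q w = x) (f g : F) (hf : w ∈ B f) (hg : w ∈ B g),
        (C.induce {f | x ∈ (fin f).toFinset}).Reachable ⟨f, mem hw hf⟩ ⟨g, mem hw hg⟩ :=
      fun w hw f g hf hg => ((h.conn w).preconnected ⟨f, hf⟩ ⟨g, hg⟩).map
        (C.induceHomOfLE fun f hf => mem hw hf).toHom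
    refine (SimpleGraph.connected_iff_exists_forall_reachable _).2
      ⟨⟨f₁, mem hu hf₁⟩, fun ⟨g, hg⟩ => ?_⟩
    obtain ⟨w, hw, hwx⟩ := (fin g).mem_toFinset.1 hg
    have key : ∀ w : q ⁻¹' {x}, Relation.ReflTransGen (G.induce (q ⁻¹' {x})).Adj ⟨u, hu⟩ w →
        ∀ g (hg : w.1 ∈ B g), (C.induce {f | x ∈ (fin f).toFinset}).Reachable
          ⟨f₁, mem hu hf₁⟩ ⟨g, mem w.2 hg⟩ := by
      intro w hw
      induction hw with
      | refl => exact fun g hg => same u hu f₁ g hf₁ hg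
      | @tail b c _ hbc ih =>
        intro g hg
        obtain ⟨f, h1, h2⟩ := h.edge b.1 c.1 hbc
        exact (ih f h1).trans (same c.1 c.2 f g h2 hg)
    exact key ⟨w, hwx⟩ ((SimpleGraph.reachable_iff_reflTransGen _ _).1
      ((hq x).preconnected _ _)) g hw
  · obtain ⟨a, b, c, e⟩ := h.bag f
    rw [← Set.ncard_eq_toFinset_card _ (fin f), e, Set.image_union, Set.image_union]
    have k1 := Set.ncard_union_le (q '' T.P a ∪ q '' T.P b) (q '' T.P c)
    have k2 := Set.ncard_union_le (q '' T.P a) (q '' T.P b)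
    have := hk a
    have := hk b
    have := hk c
    omega

/-- PL4 -/
theorem PDec.tw {F : Type} [Fintype F] {T : RT G} {C : SimpleGraph F} {B : F → Set V} {f₀ : F}
    (h : PDec T C B f₀) {k : ℕ} (hk : ∀ v, (T.P v).ncard ≤ k) :
    HasTreeDecompWithBags G (3 * k) := by
  refine h.quot id (fun x => ?_) (fun x y hxy => ⟨x, y, hxy, rfl, rfl⟩) (by simpa using hk)
  have : Nonempty (id ⁻¹' {x} : Set V) := ⟨⟨x, rfl⟩⟩
  have : Subsingleton (id ⁻¹' {x} : Set V) := ⟨fun a b => Subtype.ext (a.2.trans b.2.symm)⟩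
  exact SimpleGraph.Connected.of_subsingleton

end Crest.Agent.R206
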