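import Crest.Agent.R206.P
import Crest.Agent.R206.Q

/-! # Row 206: PL3 and PL4 for planar graphs. -/

set_option autoImplicit false

namespace Crest.Agent.R206

open Crest.GeometryTopology.GraphMetric

variable {V : Type} [Finite V] {G : SimpleGraph V}

/-- **PL3** -/
theorem planar_pdec (h : IsPlanar G) (T : RT G) :
    ∃ (F : Type) (_ : Fintype F) (C : SimpleGraph F) (B : F → Set V) (f₀ : F), PDec T C B f₀ := by
  have : Nonempty V := ⟨T.root⟩
  obtain ⟨D, F, _, _, M, f₀, hM⟩ := exists_tri h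
  obtain ⟨C, B, hC⟩ := hM.pdec T
  exact ⟨F, inferInstance, C, B, f₀, hC⟩

/-- **PL4** for a contraction of a planar graph -/
theorem planar_quot_tw (h : IsPlanar G) (T : RT G) {W : Type} (q : V → W)
    (hq : ∀ x, (G.induce (q ⁻¹' {x})).Connected) {H : SimpleGraph W}
    (hH : ∀ x y, H.Adj x y → ∃ u v, G.Adj u v ∧ q u = x ∧ q v = y) {k : ℕ}
    (hk : ∀ v, (q '' T.P v).ncard ≤ k) : HasTreeDecompWithBags H (3 * k) := by
  obtain ⟨F, _, C, B, f₀, hC⟩ := planar_pdec h T
  exact hC.quot q hq hH hk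

/-- **PL4** -/
theorem planar_tw (h : IsPlanar G) (T : RT G) {k : ℕ} (hk : ∀ v, (T.P v).ncard ≤ k) :
    HasTreeDecompWithBags G (3 * k) := by
  obtain ⟨F, _, C, B, f₀, hC⟩ := planar_pdec h T
  exact hC.tw hk

end Crest.Agent.R206
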