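import Crest.Agent.R206.GeoP1

/-! # Row 206 (planar): state-free geometry used by the serving case analysis. -/

set_option autoImplicit false

namespace Crest.Agent.R206

namespace PS

variable {W : Type} {η : ℝ} {P : PS W η}

theorem sv_step0 {R : W → W → Prop} (hR : P.LR R) {p q u v : W} (hc : P.ch p q) (h1 : R p u)
    (h2 : R u q) (a : P.G.Adj u v) : (R p v ∧ R v q) ∨ P.Anc v p ∨ P.Anc v q := by
  by_cases hp : P.Anc v p
  · exact Or.inr (Or.inl hp)
  by_cases hq : P.Anc v q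
  · exact Or.inr (Or.inr hq)
  have hp' : R p v ∨ R v p := by
    rcases hR.tri p v with b | b | b
    · exact absurd (ch_anc hc b ▸ Anc.refl P v) hp
    · exact absurd b hp
    · exact b
  have hq' : R q v ∨ R v q := by
    rcases hR.tri q v with b | b | b
    · exact absurd (ch_anc (P.ch_symm _ _ hc) b ▸ Anc.refl P v) hq
    · exact absurd b hq
    · exact b
  refine Or.inl ?_
  rcases a.2 with e | e | e
  · have hvu : P.Anc v u := e ▸ P.anc_par u
    refine ⟨hp'.resolve_right fun b => ?_, hq'.resolve_left fun b => ?_⟩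
    · exact hR.asymm h1 (hR.down _ _ _ _ b hvu (Anc.refl P p))
    · exact hR.asymm h2 (hR.down _ _ _ _ b (Anc.refl P q) hvu)
  · have huv : P.Anc u v := e ▸ P.anc_par v
    exact ⟨hR.down _ _ _ _ h1 (Anc.refl P p) huv, hR.down _ _ _ _ h2 huv (Anc.refl P q)⟩
  · refine ⟨hp'.resolve_right fun b => ?_, hq'.resolve_left fun b => ?_⟩
    · exact hR.nc v u p q (P.ch_symm _ _ e) hc b h1 h2
    · exact hR.nc p q u v hc e h1 h2 b

theorem Enc.sv_step {p q u v : W} (h : P.Enc p q u) (a : P.G.Adj u v) :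
    P.Enc p q v ∨ P.Anc v p ∨ P.Anc v q := by
  rcases h.2 with ⟨b, c⟩ | ⟨b, c⟩
  · exact (sv_step0 P.lr h.1 b c a).imp_left fun e => ⟨h.1, Or.inl e⟩
  · exact ((sv_step0 P.lr (P.ch_symm _ _ h.1) b c a).imp_left fun e => ⟨h.1, Or.inr e⟩).imp_right
      Or.symm

/-- a walk from an enclosed point to a point that is not enclosed meets a column -/
theorem Enc.sv_cross {S : Set W} {p q u v : W} {L : ℝ} (h : P.Enc p q u) (w : P.Wk S u v L)
    (hv : ¬ P.Enc p q v) : ∃ z L1 L2, (P.Anc z p ∨ P.Anc z q) ∧ P.Wk S u z L1 ∧ P.Wk S z v L2 ∧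
      L1 + L2 = L := by
  obtain ⟨x, y, L1, L2, h1, h2, h3, h4, h5, h6⟩ := w.exit (P.Enc p q) h hv
  exact ⟨y, _, L2, (h1.sv_step h3).resolve_left h2, Wk.snoc h4 h3 h5.left_mem, h5, h6⟩

/-- from a column to the top of the chord -/
theorem sv_col {S : Set W} (hS : P.Cvx S) {p q z : W} (hc : P.ch p q) (hp : p ∈ S) (hq : q ∈ S)
    (hz : z ∈ S) (h : P.Anc z p ∨ P.Anc z q) : P.Wk S z p (P.f p - P.f z) := by
  rcases h with h | h
  · exact (hS.wk hz hp h).symm.congr (abs_of_nonneg (sub_nonneg.2 h.f_le))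
  · refine ((hS.wk hz hq h).symm.append (wk_ch hq hp (P.ch_symm _ _ hc))).congr ?_
    rw [abs_of_nonneg (sub_nonneg.2 h.f_le), add_zero, P.ch_f p q hc]

/-- the mouth inequality -/
theorem sv_mouth {S : Set W} (hS : P.Conn S) (hv : P.Cvx S) {b p q w : W} (hb : b ∈ S)
    (ho : P.Out S b) (hp : p ∈ S) (hq : q ∈ S) (hw : w ∈ S) (h : P.Enc p q w) :
    P.dS S b p - |P.f p - P.f w| ≤ P.dS S b w := by
  refine le_dS (hS b hb w hw) fun L hL => ?_
  obtain ⟨z, L1, L2, h1, h2, h3, h4⟩ := h.sv_cross hL.symm (ho.not_enc hp hq)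
  have h5 := (h3.symm.append (sv_col hv h.1 hp hq h2.right_mem h1)).dS_le
  have h6 := (abs_le.1 h2.abs_le).2
  have h7 := le_abs_self (P.f p - P.f w)
  linarith

/-- the geodesic to an enclosed point passes the columns -/
theorem sv_entry {S : Set W} (hS : P.Conn S) (hv : P.Cvx S) {h : ℝ}
    (hh : ∀ u ∈ S, ∀ v ∈ S, |P.f u - P.f v| ≤ h) {b p q x : W} (hb : b ∈ S)
    (ho : P.Out S b) (hp : p ∈ S) (hq : q ∈ S) (hx : x ∈ S) (e : P.Enc p q x) :
    P.dS S b p + P.dS S x p - 2 * h ≤ P.dS S b x := by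
  refine le_dS (hS b hb x hx) fun L hL => ?_
  obtain ⟨z, L1, L2, h1, h2, h3, h4⟩ := e.sv_cross hL.symm (ho.not_enc hp hq)
  have h0 := sv_col hv e.1 hp hq h2.right_mem h1
  have h5 := (h3.symm.append h0).dS_le
  have h6 := (h2.append h0).dS_le
  have h7 := (abs_le.1 (hh p hp z h2.right_mem)).2
  linarith

/-- a connected set far from the chord is enclosed -/
theorem sv_far {S : Set W} (hS : P.Conn S) {p q z : W} (hz : z ∈ S) (e : P.Enc p q z) {δ h : ℝ}
    (hd : ∀ w ∈ S, P.dS Set.univ z w ≤ δ) (hf : ∀ w ∈ S, P.f z - h ≤ P.f w)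
    (hp : δ + h + (P.f p - P.f z) < P.dS Set.univ z p) : ∀ w ∈ S, P.Enc p q w := by
  intro w hw
  by_contra hn
  obtain ⟨L, hL⟩ := hS z hz w hw
  obtain ⟨c, L1, L2, h1, h2, -, -⟩ := e.sv_cross hL hn
  have h5 := dS_le_add_wk ⟨_, h2.mono (Set.subset_univ _)⟩
    (sv_col P.cvx_univ e.1 trivial trivial trivial h1)
  have h6 := hd c h2.right_mem
  have h7 := hf c h2.right_mem
  linarith

/-- a connected subset of a slab above the chord is enclosed -/
theorem sv_slab {C S : Set W} (hC : P.Conn C) (hv : P.Cvx C) {h : ℝ}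
    (hh : ∀ u ∈ C, ∀ v ∈ C, |P.f u - P.f v| ≤ h) {b p q z : W} (hb : b ∈ C) (hp : p ∈ C)
    (hq : q ∈ C) (hS : P.Conn S) (hSC : S ⊆ C) (hz : z ∈ S) (e : P.Enc p q z)
    (hlow : ∀ w ∈ S, P.dS C b p + h < P.dS C b w) : ∀ w ∈ S, P.Enc p q w := by
  intro w hw
  by_contra hn
  obtain ⟨L, hL⟩ := hS z hz w hw
  obtain ⟨c, L1, L2, h1, h2, -, -⟩ := e.sv_cross hL hn
  have hc := hSC h2.right_mem
  have h5 := hC.le_add_wk hb (sv_col hv e.1 hp hq hc h1).symm
  have h6 := hlow c h2.right_mem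
  have h7 := (abs_le.1 (hh p hp c hc)).2
  linarith

/-- a walk from the right of `x` that does not come close to `x` stays on the right or uses a chord
over `x` -/
theorem sv_right {R : W → W → Prop} (hR : P.LR R) {S : Set W} {x y w : W} {L : ℝ}
    (hw : P.Wk S y w L) (hxy : R x y) (hfar : ∀ c ∈ S, ¬ P.Anc c x ∧ ¬ P.Anc x c) :
    R x w ∨ ∃ p ∈ S, ∃ q ∈ S, P.ch p q ∧ R p x ∧ R x q := by
  by_cases hn : R x w
  · exact Or.inl hn
  obtain ⟨u, v, L1, L2, h1, h2, h3, h4, h5, -⟩ := hw.exit (R x) hxy hn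
  have hv := hfar v h5.left_mem
  have h6 : R v x := by
    rcases hR.tri v x with b | b | b | b
    · exact absurd b hv.1
    · exact absurd b hv.2
    · exact b
    · exact absurd b h2
  have h7 := hR.notrel _ _ (hR.trans _ _ _ h6 h1)
  rcases h3.2 with e | e | e
  · exact absurd (e ▸ P.anc_par u) h7.1
  · exact absurd (e ▸ P.anc_par v) h7.2
  · exact Or.inr ⟨v, h5.left_mem, u, h4.right_mem, P.ch_symm _ _ e, h6, h1⟩

end PS

end Crest.Agent.R206
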