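import Crest.Agent.R206.ZDefs
import Crest.Agent.R206.SvGeo

/-! # Row 206 (planar): the deterministic serving case analysis (owner helper54). -/

set_option autoImplicit false

namespace Crest.Agent.R206

open scoped BigOperators Classical
open ZS hiding St flip gap

namespace PS

variable {W : Type} {η : ℝ} {n M : ℕ} (P : PS W η)

/-- depth of `z` in its slab -/
noncomputable def sdep (h ob os : ℝ) (z : W) : ℝ :=
  P.al (P.bandC h ob z) z - flo (1000 * h) os (P.al (P.bandC h ob z) z)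

/-- for the band offset `b` the type `t` moves `z` (and not `z'`) when the slab depth lies in a window
of length `h / 2` and `ν` in a window of length `h / 50` -/
def MvW (θ h : ℝ) (s : ZSt W n) (b : Fin M) (t : Fin 3) (z z' : W) : Prop :=
  ∃ lo : ℝ, 0 ≤ lo ∧ lo ≤ 700 * h ∧ ∀ i : Fin M,
    lo ≤ P.sdep h (off h b) (off (1000 * h) i) z →
    P.sdep h (off h b) (off (1000 * h) i) z ≤ lo + h / 2 →
    ∃ ν : ℝ, 0 ≤ ν ∧ ν ≤ 9500 * h ∧ ∀ k u : Fin M, ν ≤ off (10000 * h) k →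
      off (10000 * h) k ≤ ν + h / 50 → P.Moves θ h s (b, i, k, u) t z z'

/-- a chord with low `f + θ G` separates `x` from `y` -/
def Bar (θ h : ℝ) (s : ZSt W n) (x y : W) : Prop :=
  ∃ p q, P.Enc p q x ∧ ¬ P.Enc p q y ∧ s p = s x ∧ s q = s x ∧
    P.f p + θ * Gv s p ≤ P.f x + θ * Gv s x - 9 * h / 10000 ∧
    P.f q + θ * Gv s q ≤ P.f x + θ * Gv s x - 9 * h / 10000

variable {P}

/-- the set behind a chord is only left through the two columns (hypothesis of `cd_barrier`) -/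
theorem sv_enc_closed (p q : W) : ∀ a ∈ {w | P.Enc p q w}, ∀ b, P.G.Adj a b →
    b ∈ {w | P.Enc p q w} ∨ P.Anc b p ∨ P.Anc b q := fun _ ha _ hb => Enc.sv_step ha hb

theorem sv_flo {a : ℝ} (ha : 0 < a) (o t : ℝ) : flo a o t ≤ t ∧ t < flo a o t + a := by
  have h1 := Int.floor_le ((t - o) / a)
  have h2 := Int.lt_floor_add_one ((t - o) / a)
  rw [le_div_iff₀ ha] at h1
  rw [div_lt_iff₀ ha] at h2
  unfold flo
  constructor <;> nlinarith

theorem sv_off {a : ℝ} (ha : 0 ≤ a) (i : Fin M) : 0 ≤ off a i ∧ off a i ≤ a := by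
  have hM : (0 : ℝ) < M := by exact_mod_cast i.pos
  have hi : ((i : ℕ) : ℝ) ≤ M := by exact_mod_cast i.2.le
  unfold off
  exact ⟨by positivity, by rw [div_le_iff₀ hM]; exact mul_le_mul_of_nonneg_left hi ha⟩

theorem sv_conn [Finite W] (P : PS W η) : P.Conn Set.univ := by
  have key : ∀ v, P.Anc P.root v := by
    intro v
    have wf : WellFounded fun a b : W => P.f a < P.f b :=
      @Finite.wellFounded_of_trans_of_irrefl W _ _ ⟨fun _ _ _ => lt_trans⟩ ⟨fun _ => lt_irrefl _⟩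
    induction v using wf.induction with
    | _ v ih =>
      by_cases e : v = P.root
      · exact e ▸ Anc.refl P _
      · exact (ih _ (P.f_lt v e)).trans (P.anc_par v)
  intro u _ v _
  exact ⟨_, (P.cvx_univ.wk trivial trivial (key u)).append
    (P.cvx_univ.wk trivial trivial (key v)).symm⟩

theorem sv_base {C : Set W} {x : W} (hx : x ∈ C) :
    P.base C ∈ C ∧ ∀ v ∈ C, P.first (P.base C) ≤ P.first v := by
  have : ∃ a, a ∈ C ∧ ∀ v ∈ C, P.first a ≤ P.first v := by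
    obtain ⟨a, ha, h⟩ := (measure P.first).wf.has_min C ⟨x, hx⟩
    exact ⟨a, ha, fun v hv => not_lt.1 (h v hv)⟩
  exact @Classical.epsilon_spec W _ this

/-- the facts about a cluster that are used below -/
structure SvCl (P : PS W η) (h : ℝ) (K : Cl W) (z : W) : Prop where
  zR : z ∈ K.R
  RC : K.R ⊆ K.C
  cC : P.Conn K.C
  vC : P.Cvx K.C
  cR : P.Conn K.R
  hh : ∀ u ∈ K.C, ∀ v ∈ K.C, |P.f u - P.f v| ≤ h
  al : ∀ w ∈ K.R, K.c0 ≤ P.al K.C w
  diam : ∀ w ∈ K.R, P.dS K.C z w ≤ 9000 * h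
  dist : ∀ w ∈ K.R, P.d z w ≤ 9000 * h

theorem sv_cl [Finite W] {θ h : ℝ} (l : Lv θ h η) (ob os : ℝ) (z : W) :
    SvCl P h (P.cl h ob os z) z := by
  have h0 := l.pos
  have hz : z ∈ P.bandC h ob z := mem_comp_self (sv_flo h0 ob (P.f z))
  have hs : z ∈ P.slab h (P.bandC h ob z) (P.cl h ob os z).c0 :=
    ⟨hz, sv_flo (by positivity) os _⟩
  have hRs : (P.cl h ob os z).R ⊆ P.slab h (P.bandC h ob z) (P.cl h ob os z).c0 := P.comp_sub _ _
  have hRC : (P.cl h ob os z).R ⊆ P.bandC h ob z := fun w hw => (hRs hw).1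
  have hd : ∀ w ∈ (P.cl h ob os z).R, P.dS (P.bandC h ob z) z w ≤ 9000 * h := fun w hw => by
    have h1 := P.p1 (sv_base hz).1 (sv_base hz).2 hRC (P.conn_comp _ _)
      (fun v hv => ⟨(hRs hv).2.1, (hRs hv).2.2.le⟩) (mem_comp_self hs) hw
    have h2 := l.eta
    change P.dS (P.bandC h ob z) z w ≤ _ at h1
    linarith
  refine ⟨mem_comp_self hs, hRC, P.conn_comp _ _, (P.cvx_band _ _).comp _, P.conn_comp _ _,
    fun u hu v hv => ?_, fun w hw => (hRs hw).2.1, hd, fun w hw => ?_⟩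
  · have := band_abs (P.comp_sub _ _ hu) (P.comp_sub _ _ hv)
    linarith
  · exact (dS_anti (Set.subset_univ _) (P.conn_comp _ _ z hz w (hRC hw))).trans (hd w hw)

theorem Pure.sv_eq [Finite W] {s : ZSt W n} {x w : W} {r : ℝ} (hp : P.Pure s x r)
    (hw : P.d x w < r) : s w = s x := by
  obtain ⟨L, h1, h2⟩ := exists_wk_lt (sv_conn P x trivial w trivial) hw
  exact hp.1 w L h1 h2.le

theorem Pure.sv_move [Finite W] {s : ZSt W n} {x z : W} {r r' : ℝ} (hp : P.Pure s x r)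
    (h0 : 0 ≤ r') (hz : P.d x z + r' < r) : P.Pure s z r' := by
  have e : s z = s x := hp.sv_eq (by linarith)
  obtain ⟨L, h1, h2⟩ := exists_wk_lt (sv_conn P x trivial z trivial)
    (show P.d x z < r - r' by linarith)
  refine ⟨fun y L' h3 h4 => (hp.1 y _ (h1.append h3) (by linarith)).trans e.symm, fun κ hκ => ?_⟩
  have h5 := hp.2 κ (e ▸ hκ)
  have h6 := abs_le.1 h1.abs_le
  constructor <;> linarith [h5.1, h5.2, h6.1, h6.2]

/-- Lipschitz bound inside a pure ball -/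
theorem Pure.sv_lip [Finite W] {s : ZSt W n} (hs : P.KInv s) {x w : W} {r c : ℝ} (hc : 0 ≤ c)
    (hp : P.Pure s x r) (hl : P.Lip c (s x).dom (s x).G) {a : ℝ} (hw : P.d x w < a)
    (ha : a ≤ r) : (s x).G x ≤ (s x).G w + c * a := by
  obtain ⟨L, h1, h2⟩ := exists_wk_lt (sv_conn P x trivial w trivial) hw
  have h3 := (h1.restrict (s x).dom fun v L1 h3 h4 => by
    rw [← hp.1 v L1 h3 (by linarith)]; exact (hs v).1).symm.lip (s x).G c fun u hu v hv a => by
      have := (abs_le.1 (hl u hu.2 v hv.2 a)).1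
      linarith
  nlinarith

theorem sv_gain {θ h u m : ℝ} {K : Cl W} {q : Prm W} {G : W → ℝ} {z : W} (h0 : 0 ≤ h) (hu : 0 ≤ u)
    (h1 : ∀ k, m ≤ (P.hp θ h u K q k).val P.f z) (hN : z ∈ q.N) (h2 : m ≤ q.A - 2 * u)
    (h3 : G z < m) : ∃ p, P.pick θ h u K q G z = some p ∧ m ≤ p.val P.f z := by
  have hr : ∀ b, m ≤ (P.rp h u K q z b).val P.f z := fun b => by
    simp only [rp, Piece.val, ramp, if_pos hN]
    cases b <;> simp <;> linarith
  have hQ : m ≤ (P.Qp h u K q z).val P.f z := by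
    unfold Qp
    split_ifs <;> exact hr _
  have hM : m ≤ (P.Mp θ h u K q z).val P.f z := by
    unfold Mp
    split_ifs
    · exact h1 _
    · exact hQ
  exact ⟨_, if_neg (by linarith), hM⟩

/-- the six pieces at a point of the window -/
theorem sv_hp {θ h u m : ℝ} (l : Lv θ h η) (hu0 : 0 ≤ u) (hu : u ≤ h / 1000) {K : Cl W} {q : Prm W}
    {z : W} (w1 : K.lo + h / 2 ≤ P.f z) (w2 : P.f z ≤ K.lo + h / 2 + h / 500000)
    (hA : m ≤ q.A - 6 * u) (hB : m ≤ q.B + 200 * h) (he : P.f z + θ * q.A ≤ q.e)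
    (a1 : m + h / 100 ≤ q.B + (P.al K.C z - K.c0))
    (a2 : m + h / 100 ≤ q.B + 1000 * h - (P.al K.C z - K.c0)) (k : Fin 6) :
    m ≤ (P.hp θ h u K q k).val P.f z := by
  have h0 := l.pos
  have h1 := l.eta
  have h2 := P.eta_nonneg
  fin_cases k <;> simp only [hp, Piece.val] <;> rcases l.th with rfl | rfl <;> linarith

/-- O2 moves `z` if `G` is not much smaller on the cluster -/
theorem sv_mv2 [Finite W] {θ h r e lo : ℝ} (l : Lv θ h η) {s : ZSt W n} {z z' : W}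
    (hp : P.Pure s z r) (hr : 10000 * h ≤ r) (hz : 9000 * h < P.d z z') {b : Fin M}
    (hw : P.Win h (off h b) z) (he : e + h / 50 ≤ 200 * h) (hlo : e + h / 50 ≤ lo) (h0 : 0 ≤ lo)
    (h7 : lo ≤ 700 * h)
    (hG : ∀ os, P.sdep h (off h b) os z ≤ lo + h / 2 →
      ∀ w ∈ (P.cl h (off h b) os z).R, (s z).G z - e ≤ (s z).G w) :
    P.MvW θ h s b 1 z z' := by
  have hh := l.pos
  refine ⟨lo, h0, h7, fun i i1 i2 => ⟨0, le_rfl, by positivity, fun k u _ _ => ?_⟩⟩
  have c := sv_cl (P := P) l (off h b) (off (1000 * h) i) z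
  have hu := sv_off (a := h / 1000) (by positivity) u
  have hn : (s z).G z - e ≤ n0 (P.cl h (off h b) (off (1000 * h) i) z) (s z).G :=
    le_csInf ⟨_, z, c.zR, rfl⟩ (by rintro _ ⟨w, hw, rfl⟩; exact hG _ i2 w hw)
  refine ⟨⟨fun y hy => hp.sv_eq (by linarith [c.dist y hy]), Or.inl rfl⟩,
    fun hy => by linarith [c.dist z' hy], ?_⟩
  unfold sdep at i1 i2
  have w1 := hw.1
  have w2 := hw.2
  refine sv_gain hh.le hu.1 (sv_hp l hu.1 hu.2 w1 w2 ?_ ?_ ?_ ?_ ?_) (c.RC c.zR) ?_ (by linarith)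
  all_goals simp only [prmJ, prm2, clJ, if_true, cl] at hn ⊢
  all_goals linarith [hu.1, hu.2]

theorem sv_sub [Finite W] {θ h r : ℝ} (l : Lv θ h η) {s : ZSt W n} (hs : P.KInv s) {x : W}
    (hp : P.Pure s x r) (hr : h ≤ r) (hU : P.IsU (s x)) (ob : ℝ) :
    P.UOn (P.bandC h ob x) (s x).G := by
  obtain ⟨κ, hκ, hu, hcl⟩ := hU
  have hx : x ∈ κ.dom := by simpa only [Lab.dom, hκ] using (hs x).1
  have hf := sv_flo l.pos ob (P.f x)
  have hb := hp.2 κ hκ
  have hsub : P.bandC h ob x ⊆ κ.dom := by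
    rintro w ⟨L, hL⟩
    induction hL with
    | nil _ => exact hx
    | snoc _ a b ih => exact hcl _ ih _ a (by linarith [b.1]) (by linarith [b.2])
  exact ⟨fun u hu' v hv => hu.1 u (hsub hu') v (hsub hv),
    fun p hp q hq w hw => hu.2 p (hsub hp) q (hsub hq) w (hsub hw)⟩

theorem UOn.sv_le {C : Set W} {G : W → ℝ} (hU : P.UOn C G) (hC : P.Conn C) {u v : W} (hu : u ∈ C)
    (hv : v ∈ C) : G u ≤ G v + P.dS C u v := by
  have := lip_dS (hC v hv u hu) G one_pos fun a ha b hb e => by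
    have := (abs_le.1 (hU.1 a ha b hb e)).1
    linarith
  rw [P.dS_comm] at this
  linarith

/-- O4 moves `x` if it is not obstructed -/
theorem sv_mv4 [Finite W] {θ h r : ℝ} (l : Lv θ h η) {s : ZSt W n} {x y : W}
    (hp : P.Pure s x r) (hr : 10000 * h ≤ r) (hz : 9000 * h < P.d x y) {b : Fin M}
    (hw : P.Win h (off h b) x) (hU : P.UOn (P.bandC h (off h b) x) (s x).G)
    (hO : ¬ P.Obs θ h (P.bandC h (off h b) x) (s x).G x) : P.MvW θ h s b 2 x y := by
  have hh := l.pos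
  refine ⟨300 * h, by positivity, by linarith, fun i i1 i2 => ?_⟩
  have c := sv_cl (P := P) l (off h b) (off (1000 * h) i) x
  have hn : (s x).G x - 9000 * h ≤ n0 (P.cl h (off h b) (off (1000 * h) i) x) (s x).G :=
    le_csInf ⟨_, x, c.zR, rfl⟩ (by
      rintro _ ⟨w, hw, rfl⟩
      have h1 := hU.sv_le c.cC (c.RC c.zR) (c.RC hw)
      have h2 := c.diam w hw
      change P.dS (P.bandC h (off h b) x) x w ≤ _ at h2
      linarith)
  have hn' : n0 (P.cl h (off h b) (off (1000 * h) i) x) (s x).G ≤ (s x).G x :=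
    csInf_le (Set.toFinite _).bddBelow ⟨x, c.zR, rfl⟩
  refine ⟨(s x).G x - n0 (P.cl h (off h b) (off (1000 * h) i) x) (s x).G + h / 50, by linarith,
    by linarith, fun k u k1 k2 => ?_⟩
  have hu := sv_off (a := h / 1000) (by positivity) u
  refine ⟨⟨fun y hy => hp.sv_eq (by linarith [c.dist y hy]), Or.inr ⟨rfl, hU⟩⟩,
    fun hy => by linarith [c.dist y hy], ?_⟩
  unfold sdep at i1 i2
  have w1 := hw.1
  have w2 := hw.2
  have e : P.prmJ θ h ((b, i, k, u) : Jit M) 2 (P.clJ h (b, i, k, u) x) (s x).G =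
      P.prm4 θ h (off (10000 * h) k) (P.cl h (off h b) (off (1000 * h) i) x) (s x).G :=
    if_neg (by decide)
  unfold pickJ
  rw [e]
  refine sv_gain hh.le hu.1 (sv_hp l hu.1 hu.2 w1 w2 ?_ ?_ ?_ ?_ ?_) ?_ ?_ (by linarith)
  rotate_left 5
  · exact sub_hull (fun v hv => hv.1) ⟨c.RC c.zR, x, ⟨c.zR, w1, w2, by linarith, by linarith, hO⟩,
      by rw [dS_self (c.RC c.zR)]; positivity⟩
  all_goals simp only [prm4, clJ, cl] at hn hn' k1 k2 ⊢
  all_goals linarith [hu.1, hu.2]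

/-- O2 moves `x` behind a chord that is not canonical -/
theorem sv_chord [Finite W] {θ h r : ℝ} (l : Lv θ h η) {s : ZSt W n} {x y : W}
    (hp : P.Pure s x r) (hr : 10000 * h ≤ r) (hz : 9000 * h < P.d x y) {b : Fin M}
    (hw : P.Win h (off h b) x) (hU : P.UOn (P.bandC h (off h b) x) (s x).G) {p q : W}
    (hpC : p ∈ P.bandC h (off h b) x) (hqC : q ∈ P.bandC h (off h b) x) (e : P.Enc p q x)
    (hD : 20 * h < P.dS (P.bandC h (off h b) x) x p)
    (h1 : (s x).G x - (s x).G p ≤ P.dS (P.bandC h (off h b) x) x p - 5 * h)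
    (h2 : (s x).G x - (s x).G p ≤ 195 * h) : P.MvW θ h s b 1 x y := by
  have hh := l.pos
  have m1 := le_max_left ((s x).G x - (s x).G p) 0
  have m2 := le_max_right ((s x).G x - (s x).G p) 0
  have m3 : max ((s x).G x - (s x).G p) 0 ≤ P.dS (P.bandC h (off h b) x) x p - 5 * h :=
    max_le h1 (by linarith)
  have m4 : max ((s x).G x - (s x).G p) 0 ≤ 195 * h := max_le h2 (by linarith)
  refine sv_mv2 (e := max ((s x).G x - (s x).G p) 0 + h)
    (lo := max ((s x).G x - (s x).G p) 0 + h + h / 50) l hp hr hz hw (by linarith) le_rfl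
    (by linarith) (by linarith) fun os ho w hwR => ?_
  have c := sv_cl (P := P) l (off h b) os x
  have hb := sv_base (P := P) (c.RC c.zR)
  have h3 := sv_entry c.cC c.vC c.hh hb.1 (out_of_min_first hb.2) hpC hqC (c.RC c.zR) e
  have h4 := sv_slab c.cC c.vC c.hh hb.1 hpC hqC c.cR c.RC c.zR e (fun v hv => by
    have h5 := c.al v hv
    simp only [sdep, cl, al] at ho h3 h5 ⊢
    linarith) w hwR
  have h5 := hU.2 p hpC q hqC w (c.RC hwR) h4
  have h6 := c.hh p hpC w (c.RC hwR)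
  linarith

theorem sv_tri [Finite W] (P : PS W η) (x y z : W) : P.d x z ≤ P.d x y + P.d y z :=
  (sv_conn P).triangle trivial trivial trivial

theorem sv_abs [Finite W] (P : PS W η) (x y : W) : |P.f x - P.f y| ≤ P.d x y :=
  (sv_conn P).abs_le trivial trivial

theorem sv_rel (P : PS W η) {x y : W} (h : P.Anc x y ∨ P.Anc y x) : P.d x y ≤ |P.f x - P.f y| :=
  P.cvx_univ.dS_rel trivial trivial h

theorem sv_lr (P : PS W η) (b : Bool) : P.LR (P.Lf b) := by
  cases b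
  · exact P.lr'
  · exact P.lr

theorem sv_enc {b : Bool} {p q x : W} (hc : P.ch p q) (h1 : P.Lf b p x) (h2 : P.Lf b x q) :
    P.Enc p q x := by
  cases b
  · exact ⟨hc, Or.inr ⟨h2, h1⟩⟩
  · exact ⟨hc, Or.inl ⟨h1, h2⟩⟩

theorem sv_enc' {b : Bool} {p q w : W} (h : P.Lf b p q) (e : P.Enc p q w) : P.Lf b p w := by
  cases b <;> rcases e.2 with a | a
  · exact absurd (P.lr.trans _ _ _ a.1 a.2) (P.lr.asymm h)
  · exact a.2
  · exact a.1
  · exact absurd (P.lr.trans _ _ _ a.1 a.2) (P.lr.asymm h)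

/-- the cluster of level `m` of a point enclosed by a chord near the other point is enclosed -/
theorem sv_in [Finite W] {θ h0 h1 : ℝ} (l0 : Lv θ h0 η) (hK : 1000000 * h1 ≤ h0) {x y p q : W}
    (hρ : 100000 * h0 ≤ P.d x y) (hf : |P.f x - P.f y| ≤ h1) (e : P.Enc p q x)
    (hd : P.d y p ≤ 9000 * h1) (ob os : ℝ) : ∀ w ∈ (P.cl h0 ob os x).R,
      P.Enc p q w ∧ |P.f p - P.f w| ≤ h0 + 9001 * h1 := by
  have c := sv_cl (P := P) l0 ob os x
  have h0' := l0.pos
  have h2 := abs_le.1 hf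
  have h3 := abs_le.1 ((sv_abs P y p).trans hd)
  have h4 := sv_tri P x p y
  have h5 : P.d p y = P.d y p := P.dS_comm _ _ _
  intro w hw
  have h6 := abs_le.1 (c.hh x (c.RC c.zR) w (c.RC hw))
  refine ⟨sv_far c.cR c.zR e c.dist (h := h0) (fun v hv => ?_) ?_ w hw, abs_le.2 ⟨?_, ?_⟩⟩
  · linarith [(abs_le.1 (c.hh x (c.RC c.zR) v (c.RC hv))).2]
  · change _ < P.d x p
    linarith [h2.1, h3.1]
  · linarith [h2.1, h2.2, h3.1, h3.2, h6.1, h6.2]
  · linarith [h2.1, h2.2, h3.1, h3.2, h6.1, h6.2]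

/-- labels of kind M; `x` is on the left of `y` -/
theorem sv_M [Finite W] {θ h0 h1 r : ℝ} (l0 : Lv θ h0 η) (l1 : Lv θ h1 η)
    (hK : 1000000 * h1 ≤ h0) {s : ZSt W n} (hs : P.KInv s) {x y : W}
    (hρ : 100000 * h0 ≤ P.d x y) (hx : P.Pure s x r) (hy : P.Pure s y r) (hr : 10000 * h0 ≤ r)
    (hl : s y = s x) (hf : |P.f x - P.f y| ≤ h1) (hG : |(s x).G x - (s x).G y| ≤ h1) {c : Bool}
    (hM : P.IsM c (s x)) (hxy : P.Lf c x y) :
    (∀ b : Fin M, P.Win h0 (off h0 b) x → P.MvW θ h0 s b 1 x y) ∨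
      ∀ b : Fin M, P.Win h1 (off h1 b) y → P.MvW θ h1 s b 1 y x := by
  have p0 := l0.pos
  have p1 := l1.pos
  have g := abs_le.1 hG
  have dom : ∀ w, s w = s x → w ∈ (s x).dom := fun w e => e ▸ (hs w).1
  by_cases hc : ∃ p q, P.ch p q ∧ P.Lf c p x ∧ P.Lf c x q ∧ P.d y p ≤ 9000 * h1
  · obtain ⟨p, q, hpq, a1, a2, hd⟩ := hc
    refine Or.inl fun b hw => sv_mv2 (e := 3 * h0) (lo := 300 * h0) l0 hx hr (by linarith) hw
      (by linarith) (by linarith) (by linarith) (by linarith) fun os _ w hwR => ?_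
    obtain ⟨e1, e2⟩ := sv_in l0 hK hρ hf (sv_enc hpq a1 a2) hd _ os w hwR
    have h2 := hM.2 p (dom p ((hy.sv_eq (by linarith)).trans hl)) w
      (dom w (hx.sv_eq (by linarith [(sv_cl (P := P) l0 (off h0 b) os x).dist w hwR])))
      (sv_enc' ((sv_lr P c).trans _ _ _ a1 a2) e1)
    have h3 := hy.sv_lip hs zero_le_two (hl ▸ hM.1) (a := 9001 * h1) (w := p) (by linarith)
      (by linarith)
    rw [hl] at h3
    linarith [g.2]
  · have hd : P.d y x = P.d x y := P.dS_comm _ _ _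
    refine Or.inr fun b hw => sv_mv2 (e := 5 * h1) (lo := 300 * h1) l1 hy (by linarith)
      (by linarith) hw (by linarith) (by linarith) (by linarith) (by linarith)
      fun os _ w hwR => ?_
    have k := sv_cl (P := P) l1 (off h1 b) os y
    have hff : ∀ v ∈ (P.cl h1 (off h1 b) os y).R, |P.f x - P.f v| ≤ 2 * h1 := fun v hv => by
      have := abs_sub_le (P.f x) (P.f y) (P.f v)
      linarith [k.hh y (k.RC k.zR) v (k.RC hv)]
    obtain ⟨L, hL⟩ := k.cR y k.zR w hwR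
    have hfar : ∀ v ∈ (P.cl h1 (off h1 b) os y).R, ¬ (P.Anc x v ∨ P.Anc v x) := fun v hv a => by
      have h2 := sv_rel P a
      have h3 := sv_tri P x v y
      have h4 : P.d v y = P.d y v := P.dS_comm _ _ _
      linarith [hff v hv, k.dist v hv]
    rcases sv_right (sv_lr P c) hL hxy (fun v hv => ⟨fun a => hfar v hv (Or.inr a),
      fun a => hfar v hv (Or.inl a)⟩) with a | ⟨p, hp, q, -, a1, a2, a3⟩
    · have h2 := hM.2 x (dom x rfl) w
        (dom w ((hy.sv_eq (by linarith [k.dist w hwR])).trans hl)) a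
      rw [hl]
      linarith [g.1, hff w hwR]
    · exact absurd ⟨p, q, a1, a2, a3, k.dist p hp⟩ hc

/-- labels of kind U, a chord near `x` encloses `y` -/
theorem sv_Ua [Finite W] {θ h0 h1 r : ℝ} (l0 : Lv θ h0 η) (l1 : Lv θ h1 η)
    (hK : 1000000 * h1 ≤ h0) {s : ZSt W n} (hs : P.KInv s) {x y : W}
    (hρ : 100000 * h0 ≤ P.d x y) (hx : P.Pure s x r) (hy : P.Pure s y r) (hr : 10000 * h0 ≤ r)
    (hl : s y = s x) (hf : |P.f x - P.f y| ≤ h1) (hG : |(s x).G x - (s x).G y| ≤ h1)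
    (hU : P.IsU (s x)) {p q : W} (e : P.Enc p q y) (hd : P.d x p ≤ 200 * h1) (b : Fin M)
    (hw : P.Win h0 (off h0 b) y) : P.MvW θ h0 s b 1 y x := by
  have p0 := l0.pos
  have p1 := l1.pos
  have g := abs_le.1 hG
  obtain ⟨κ, hκ, hu, -⟩ := hU
  have ed : (s x).dom = κ.dom := by simp only [Lab.dom, hκ]
  have dom : ∀ w, s w = s x → w ∈ κ.dom := fun w e => ed ▸ e ▸ (hs w).1
  have hd' : P.d y x = P.d x y := P.dS_comm _ _ _
  refine sv_mv2 (e := 3 * h0) (lo := 300 * h0) l0 hy hr (by linarith) hw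
    (by linarith) (by linarith) (by linarith) (by linarith) fun os _ w hwR => ?_
  obtain ⟨e1, e2⟩ := sv_in l0 hK (hd' ▸ hρ) (by rwa [abs_sub_comm]) e (by linarith) _ os w hwR
  have h1' := sv_tri P x p q
  have h0' : P.d p q = 0 := dS_ch trivial trivial e.1
  have h2 := hu.2 p (dom p (hx.sv_eq (by linarith))) q (dom q (hx.sv_eq (by linarith))) w
    (dom w ((hy.sv_eq (by linarith [(sv_cl (P := P) l0 (off h0 b) os y).dist w hwR])).trans hl)) e1
  have h3 := hx.sv_lip hs zero_le_one (ed ▸ hu.1) (a := 201 * h1) (w := p) (by linarith)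
    (by linarith)
  rw [hl]
  linarith [g.1]

/-- labels of kind U, no chord near `x` encloses `y` -/
theorem sv_Ub [Finite W] {θ h r : ℝ} (l : Lv θ h η) {s : ZSt W n} (hs : P.KInv s) {x y : W}
    (hρ : 9000 * h < P.d x y) (hx : P.Pure s x r) (hr : 10000 * h ≤ r) (hU : P.IsU (s x))
    (hn : ∀ p q, P.Enc p q y → 200 * h < P.d x p) (b : Fin M) (hw : P.Win h (off h b) x)
    (hg : P.GA θ h (off h b) x) :
    P.MvW θ h s b 1 x y ∨ P.MvW θ h s b 2 x y ∨ P.Bar θ h s x y := by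
  have p0 := l.pos
  have hu := sv_sub l hs hx (by linarith) hU (off h b)
  have c := sv_cl (P := P) l (off h b) 0 x
  have hxC : x ∈ P.bandC h (off h b) x := c.RC c.zR
  have hC : P.Conn (P.bandC h (off h b) x) := c.cC
  rcases hg with ⟨rfl, hA⟩ | ⟨rfl, hA⟩
  · by_cases hO : P.Obs (1 / 10000) h (P.bandC h (off h b) x) (s x).G x
    · obtain ⟨p, hp, q, hq, e, d1, g1, g2⟩ := hO
      by_cases h1 : (s x).G x - (s x).G p ≤ P.dS (P.bandC h (off h b) x) x p - 5 * h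
      · exact Or.inl (sv_chord l hx hr hρ hw hu hp hq e d1 h1 (by linarith))
      · have h2 := hA p hp q hq e d1 (by linarith)
        have h3 := hu.sv_le hC hxC hp
        exact absurd g2 (by linarith)
    · exact Or.inr (Or.inl (sv_mv4 l hx hr hρ hw hu hO))
  · simp only [AltI, not_forall, not_le, exists_prop] at hA
    obtain ⟨p, hp, q, hq, e, d1, d2, g1⟩ := hA
    by_cases h1 : (s x).G x - (s x).G p ≤ P.dS (P.bandC h (off h b) x) x p - 5 * h
    · exact Or.inl (sv_chord l hx hr hρ hw hu hp hq e d1 h1 (by linarith))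
    have h2 : P.d x p ≤ 200 * h := (dS_anti (Set.subset_univ _) (hC x hxC p hp)).trans d2
    have h3 := sv_tri P x p q
    have h4 : P.d p q = 0 := dS_ch trivial trivial e.1
    have e1 : s p = s x := hx.sv_eq (by linarith)
    have e2 : s q = s x := hx.sv_eq (by linarith)
    have h5 := hu.sv_le hC hq hp
    rw [dS_ch hq hp (P.ch_symm _ _ e.1)] at h5
    have h6 := P.ch_f p q e.1
    refine Or.inr (Or.inr ⟨p, q, e, fun a => absurd h2 (not_le.2 (hn p q a)), e1, e2, ?_, ?_⟩)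
    · simp only [Gv, e1]
      linarith
    · simp only [Gv, e2]
      linarith

/-- the case analysis; `h0` is the height of level `m`, `h1` the height of level `m + 1` -/
theorem sv_cases [Finite W] {θ h0 h1 : ℝ} (l0 : Lv θ h0 η) (l1 : Lv θ h1 η)
    (hK : 1000000 * h1 ≤ h0) {s : ZSt W n} (hs : P.KInv s) {x y : W}
    (hρ : 100000 * h0 ≤ P.d x y) (hp : P.Pure s x (2 * P.d x y)) :
    h1 / 40000 ≤ |P.f x - P.f y| ∨ (s x = s y ∧ h1 ≤ |Gv s x - Gv s y|) ∨
    (∃ z z', ((z = x ∧ z' = y) ∨ (z = y ∧ z' = x)) ∧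
      ∀ b : Fin M, P.Win h0 (off h0 b) z → P.MvW θ h0 s b 1 z z') ∨
    (∃ z z', ((z = x ∧ z' = y) ∨ (z = y ∧ z' = x)) ∧
      ∀ b : Fin M, P.Win h1 (off h1 b) z → P.MvW θ h1 s b 1 z z') ∨
    ∀ b : Fin M, P.Win h1 (off h1 b) x → P.GA θ h1 (off h1 b) x →
      P.MvW θ h1 s b 1 x y ∨ P.MvW θ h1 s b 2 x y ∨ P.Bar θ h1 s x y := by
  have p0 := l0.pos
  have p1 := l1.pos
  by_cases hf : h1 / 40000 ≤ |P.f x - P.f y|
  · exact Or.inl hf
  have hl : s y = s x := hp.sv_eq (by linarith)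
  by_cases hG : h1 ≤ |Gv s x - Gv s y|
  · exact Or.inr (Or.inl ⟨hl.symm, hG⟩)
  refine Or.inr (Or.inr ?_)
  have hf' : |P.f x - P.f y| ≤ h1 := by linarith
  have hG' : |(s x).G x - (s x).G y| ≤ h1 := by
    simp only [Gv, hl] at hG
    exact (not_le.1 hG).le
  have hx : P.Pure s x (10000 * h0) :=
    hp.sv_move (by positivity) (by rw [show P.d x x = 0 from dS_self trivial]; linarith)
  have hy : P.Pure s y (10000 * h0) := hp.sv_move (by positivity) (by linarith)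
  rcases (hs x).2 with hU | ⟨c, hM⟩
  · by_cases hn : ∃ p q, P.Enc p q y ∧ P.d x p ≤ 200 * h1
    · obtain ⟨p, q, e, hd⟩ := hn
      exact Or.inl ⟨y, x, Or.inr ⟨rfl, rfl⟩, sv_Ua l0 l1 hK hs hρ hx hy le_rfl hl hf' hG' hU e hd⟩
    · exact Or.inr (Or.inr (sv_Ub l1 hs (by linarith) hx (by linarith) hU
        fun p q e => not_le.1 fun hd => hn ⟨p, q, e, hd⟩))
  · have hd : P.d y x = P.d x y := P.dS_comm _ _ _
    have hr : ¬ (P.Anc x y ∨ P.Anc y x) := fun a => by linarith [sv_rel P a]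
    rcases (sv_lr P c).tri x y with a | a | a | a
    · exact absurd (Or.inl a) hr
    · exact absurd (Or.inr a) hr
    · exact (sv_M l0 l1 hK hs hρ hx hy le_rfl hl hf' hG' hM a).elim
        (fun h => Or.inl ⟨x, y, Or.inl ⟨rfl, rfl⟩, h⟩)
        fun h => Or.inr (Or.inl ⟨y, x, Or.inr ⟨rfl, rfl⟩, h⟩)
    · exact (sv_M l0 l1 hK hs (hd ▸ hρ) hy hx le_rfl hl.symm (by rwa [abs_sub_comm])
        (by rwa [hl, abs_sub_comm]) (hl ▸ hM) a).elim
        (fun h => Or.inl ⟨y, x, Or.inr ⟨rfl, rfl⟩, h⟩)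
        fun h => Or.inr (Or.inl ⟨x, y, Or.inl ⟨rfl, rfl⟩, h⟩)

end PS

end Crest.Agent.R206
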