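import Crest.Agent.R206.TBasic

/-! Row 206: level-cut laws. -/

set_option autoImplicit false
set_option linter.dupNamespace false
set_option linter.unusedSectionVars false

namespace Crest.Agent.R206

open Finset

variable {V : Type} [Fintype V] [DecidableEq V] {k : ℕ}

theorem cutm_nonneg {c : ℝ} (hc : 0 ≤ c) (S : V → ℝ) (X : Finset V) : 0 ≤ cutm c S X := by
  refine intervalIntegral.integral_nonneg (by linarith) fun s _ => ?_
  split_ifs <;> norm_num

theorem h48_ii (S : V → ℝ) (X : Finset V) (a b : ℝ) : IntervalIntegrable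
    (fun s : ℝ => if (univ.filter fun v => s < S v) = X then (1 : ℝ) else 0)
      MeasureTheory.volume a b := by
  have hm : MeasurableSet {s : ℝ | (univ.filter fun v => s < S v) = X} := by
    have : {s : ℝ | (univ.filter fun v => s < S v) = X} = ⋂ v, {s | s < S v ↔ v ∈ X} := by
      ext s
      simp [Finset.ext_iff]
    rw [this]
    refine MeasurableSet.iInter fun v => ?_
    by_cases hv : v ∈ X
    · simp only [hv, iff_true]
      exact measurableSet_Iio
    · simp only [hv, iff_false, not_lt]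
      exact measurableSet_Ici
  refine (intervalIntegrable_const (c := (1 : ℝ))).mono_fun
    (Measurable.ite hm measurable_const measurable_const).aestronglyMeasurable
    (MeasureTheory.ae_of_all _ fun s => ?_)
  dsimp only
  split_ifs <;> simp

/-- the integrand takes finitely many values on intervals -/
theorem ex_cutm (c : ℝ) (S : V → ℝ) (h : Finset V → ℝ) :
    Ex (cutm c S) h = ∫ s in (-c)..c, h (univ.filter fun v => s < S v) := by
  unfold Ex cutm
  simp_rw [← intervalIntegral.integral_mul_const]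
  rw [← intervalIntegral.integral_finsetSum fun X _ => (h48_ii S X _ _).mul_const _]
  congr 1
  funext s
  simp

theorem sum_cutm (c : ℝ) (S : V → ℝ) : ∑ X, cutm c S X = 2 * c := by
  have h := ex_cutm c S fun _ => 1
  simp only [Ex, mul_one, intervalIntegral.integral_const, smul_eq_mul] at h
  rw [h]
  ring

theorem ex_cutm_ind {c : ℝ} {S : V → ℝ} {v : V} (h : |S v| ≤ c) :
    Ex (cutm c S) (ind v) = S v + c := by
  have h1 := intervalIntegral.integral_indicator (μ := MeasureTheory.volume)
    (f := fun _ : ℝ => (1 : ℝ)) (abs_le.1 h)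
  rw [intervalIntegral.integral_const, smul_eq_mul, mul_one, sub_neg_eq_add] at h1
  rw [ex_cutm, ← h1]
  refine intervalIntegral.integral_congr_ae ?_
  filter_upwards [MeasureTheory.Measure.ae_ne MeasureTheory.volume (S v)] with s hs _
  simp [ind, Set.indicator, lt_iff_le_and_ne, hs]

theorem dP_cutm {c : ℝ} {S : V → ℝ} {u v : V} (hu : |S u| ≤ c) (hv : |S v| ≤ c) :
    dP (cutm c S) (ind u) (ind v) = |S u - S v| := by
  have key : ∀ u v, |S u| ≤ c → |S v| ≤ c → S u ≤ S v →
      dP (cutm c S) (ind u) (ind v) = S v - S u := by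
    intro u v hu hv h
    have h1 : dP (cutm c S) (ind u) (ind v) = Ex (cutm c S) fun X => ind v X - ind u X := by
      rw [dP, ex_cutm, ex_cutm]
      congr 1
      funext s
      by_cases h2 : s < S u
      · simp [ind, h2, h2.trans_le h]
      · by_cases h3 : s < S v <;> simp [ind, h2, h3]
    have h2 : (Ex (cutm c S) fun X => ind v X - ind u X) =
        Ex (cutm c S) (ind v) - Ex (cutm c S) (ind u) := by
      simp only [Ex, mul_sub, Finset.sum_sub_distrib]
    rw [h1, h2, ex_cutm_ind hu, ex_cutm_ind hv]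
    ring
  rcases le_total (S u) (S v) with h | h
  · rw [key u v hu hv h, abs_sub_comm, abs_of_nonneg (sub_nonneg.2 h)]
  · rw [dP_comm, key v u hv hu h, abs_of_nonneg (sub_nonneg.2 h)]

theorem cutm_congr {c : ℝ} {S S' : V → ℝ} {A : Finset V} (h : ∀ a ∈ A, S a = S' a) :
    SameOn A (cutm c S) (cutm c S') := by
  intro g
  rw [ex_cutm, ex_cutm]
  congr 1
  funext s
  unfold tr
  congr 1
  ext a
  simp only [Finset.mem_inter, Finset.mem_filter, Finset.mem_univ, true_and]
  exact and_congr_left fun ha => by rw [h a ha]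

theorem h2_cut_int (S : V → ℝ) (A : Finset V) (h : Finset V → ℝ) (a b : ℝ) :
    IntervalIntegrable (fun s => h (A.filter fun v => s < S v)) MeasureTheory.volume a b := by
  have hm : Measurable fun s : ℝ => h (A.filter fun v => s < S v) := by
    let _ : MeasurableSpace (Finset V) := ⊤
    refine (measurable_from_top (f := h)).comp (measurable_to_countable' fun Y => ?_)
    have : (fun s : ℝ => A.filter fun v => s < S v) ⁻¹' {Y} =
        ⋂ v, {s : ℝ | (v ∈ A ∧ s < S v) ↔ v ∈ Y} := by
      ext s; simp [Finset.ext_iff]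
    rw [this]
    refine MeasurableSet.iInter fun v => ?_
    by_cases h1 : v ∈ A <;> by_cases h2 : v ∈ Y <;> simp only [h1, h2, true_and, false_and,
      iff_true, iff_false, not_lt, Set.ofPred_true, Set.ofPred_false,
      MeasurableSet.univ, MeasurableSet.empty]
    · exact measurableSet_Iio
    · exact measurableSet_Ici
  refine (intervalIntegrable_const (c := ∑ Y, |h Y|)).mono_fun' hm.aestronglyMeasurable
    (Filter.Eventually.of_forall fun s => ?_)
  exact single_le_sum (f := fun Y => |h Y|) (fun _ _ => abs_nonneg _) (mem_univ _)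

theorem h2_cut_step {S : V → ℝ} {A : Finset V} {a : V} (ha : a ∈ A) (hm : ∀ b ∈ A, S b ≤ S a)
    (h : Finset V → ℝ) {lo hi : ℝ} (h1 : lo ≤ S a) (h2 : S a ≤ hi) :
    ∫ s in lo..hi, h (A.filter fun v => s < S v) =
      (∫ s in lo..S a, h (insert a ((A.erase a).filter fun v => s < S v))) +
        (hi - S a) * h ∅ := by
  rw [← intervalIntegral.integral_add_adjacent_intervals (h2_cut_int S A h lo (S a))
    (h2_cut_int S A h (S a) hi)]
  congr 1
  · refine intervalIntegral.integral_congr_Ioo_of_le h1 fun s hs => ?_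
    congr 1
    ext v
    by_cases hv : v = a
    · simp [hv, ha, hs.2]
    · simp [hv]
  · rw [intervalIntegral.integral_congr_Ioo_of_le (g := fun _ => h ∅) h2 fun s hs => ?_]
    · simp
    · simp only
      rw [filter_eq_empty_iff.2 fun v hv => not_lt.2 ((hm v hv).trans hs.1.le)]

theorem h2_cut_add (S S' : V → ℝ) (A : Finset V)
    (hA : ∀ a ∈ A, ∀ b ∈ A, (S a ≤ S b ∧ S' a ≤ S' b) ∨ (S b ≤ S a ∧ S' b ≤ S' a))
    (h : Finset V → ℝ) (lo hi lo' hi' : ℝ) (hb : ∀ a ∈ A, lo ≤ S a ∧ S a ≤ hi)
    (hb' : ∀ a ∈ A, lo' ≤ S' a ∧ S' a ≤ hi') :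
    ∫ s in (lo + lo')..(hi + hi'), h (A.filter fun v => s < (S + S') v) =
      (∫ s in lo..hi, h (A.filter fun v => s < S v)) +
        ∫ s in lo'..hi', h (A.filter fun v => s < S' v) := by
  induction A using Finset.strongInduction generalizing h hi hi' with
  | H A ih =>
  rcases A.eq_empty_or_nonempty with rfl | hne
  · simp only [filter_empty, intervalIntegral.integral_const, smul_eq_mul]
    ring
  obtain ⟨a, ha, hmax⟩ := A.exists_max_image (S + S') hne
  have hm : ∀ b ∈ A, S b ≤ S a ∧ S' b ≤ S' a := fun b hb => by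
    have := hmax b hb
    simp only [Pi.add_apply] at this
    rcases hA a ha b hb with q | q
    · constructor <;> linarith [q.1, q.2]
    · exact q
  rw [h2_cut_step ha hmax h (add_le_add (hb a ha).1 (hb' a ha).1)
      (add_le_add (hb a ha).2 (hb' a ha).2),
    h2_cut_step ha (fun b hb => (hm b hb).1) h (hb a ha).1 (hb a ha).2,
    h2_cut_step ha (fun b hb => (hm b hb).2) h (hb' a ha).1 (hb' a ha).2, Pi.add_apply,
    ih (A.erase a) (erase_ssubset ha)
      (fun x hx y hy => hA x (mem_of_mem_erase hx) y (mem_of_mem_erase hy))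
      (fun Y => h (insert a Y)) (S a) (S' a)
      (fun x hx => ⟨(hb x (mem_of_mem_erase hx)).1, (hm x (mem_of_mem_erase hx)).1⟩)
      (fun x hx => ⟨(hb' x (mem_of_mem_erase hx)).1, (hm x (mem_of_mem_erase hx)).2⟩)]
  ring

/-- additivity on closed order cones.  For `Y ⊆ A` the set of levels with trace `Y` is
`[max (-c) (max_{A \ Y} S), min c (min_Y S))`; choose an `r`-least element of `Y` and an
`r`-greatest element of `A \ Y`: the length is `0` for all functions in the cone or linear. -/
theorem cutm_add {c c' : ℝ} {S S' : V → ℝ} {A : Finset V} (r : V → V → Prop)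
    (htot : ∀ a ∈ A, ∀ b ∈ A, r a b ∨ r b a)
    (htr : ∀ a ∈ A, ∀ b ∈ A, ∀ e ∈ A, r a b → r b e → r a e)
    (hS : ∀ a ∈ A, ∀ b ∈ A, r a b → S a ≤ S b) (hS' : ∀ a ∈ A, ∀ b ∈ A, r a b → S' a ≤ S' b)
    (hc : 0 ≤ c) (hc' : 0 ≤ c') (hb : ∀ a, |S a| ≤ c) (hb' : ∀ a, |S' a| ≤ c') :
    SameOn A (cutm (c + c') (S + S')) (cutm c S + cutm c' S') := by
  intro h
  have e : ∀ (c : ℝ) (S : V → ℝ), Ex (cutm c S) (tr A h) =
      ∫ s in (-c)..c, h (A.filter fun v => s < S v) := fun c S => by
    rw [ex_cutm]
    refine intervalIntegral.integral_congr fun s _ => ?_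
    simp only [tr]
    congr 1
    ext v
    simp [and_comm]
  have e2 : Ex (cutm c S + cutm c' S') (tr A h) =
      Ex (cutm c S) (tr A h) + Ex (cutm c' S') (tr A h) := by
    simp only [Ex, Pi.add_apply, add_mul, sum_add_distrib]
  rw [e2, e, e, e, neg_add]
  exact h2_cut_add S S' A (fun a ha b hb => (htot a ha b hb).imp
      (fun q => ⟨hS a ha b hb q, hS' a ha b hb q⟩) fun q => ⟨hS b hb a ha q, hS' b hb a ha q⟩)
    h _ _ _ _ (fun a _ => abs_le.1 (hb a)) fun a _ => abs_le.1 (hb' a)

/-- `cutm_add` by induction on `s` (`cutm 0 _ = 0`) -/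
theorem cutm_sum {Ω : Type} (s : Finset Ω) {c : Ω → ℝ} {S : Ω → V → ℝ} {A : Finset V}
    (r : V → V → Prop) (htot : ∀ a ∈ A, ∀ b ∈ A, r a b ∨ r b a)
    (htr : ∀ a ∈ A, ∀ b ∈ A, ∀ e ∈ A, r a b → r b e → r a e)
    (hS : ∀ w ∈ s, ∀ a ∈ A, ∀ b ∈ A, r a b → S w a ≤ S w b)
    (hc : ∀ w, 0 ≤ c w) (hb : ∀ w a, |S w a| ≤ c w) :
    SameOn A (cutm (∑ w ∈ s, c w) (∑ w ∈ s, S w)) (∑ w ∈ s, cutm (c w) (S w)) := by
  classical
  induction s using Finset.induction_on with
  | empty =>
    intro h
    simp [Ex, cutm]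
  | insert w s hw ih =>
    intro h
    rw [sum_insert hw, sum_insert hw, sum_insert hw,
      cutm_add r htot htr (hS w (mem_insert_self _ _))
        (fun a ha b hb' q => by
          simp only [Finset.sum_apply]
          exact sum_le_sum fun x hx => hS x (mem_insert_of_mem hx) a ha b hb' q)
        (hc w) (sum_nonneg fun x _ => hc x) (hb w)
        (fun a => by
          rw [Finset.sum_apply]
          exact (abs_sum_le_sum_abs _ _).trans (sum_le_sum fun x _ => hb x a)) h]
    have := ih (fun x hx => hS x (mem_insert_of_mem hx)) h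
    simp only [Ex, Pi.add_apply, add_mul, sum_add_distrib] at this ⊢
    rw [this]

end Crest.Agent.R206
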