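import Crest.Agent.R206.PSDefs
import Crest.Agent.R206.TCut

/-! # Row 206 (planar): the cut metric of the components of the upper level sets. -/

set_option autoImplicit false
set_option linter.dupNamespace false
set_option linter.unusedSectionVars false

namespace Crest.Agent.R206

open Finset Crest.GeometryTopology.GraphMetric

variable {W : Type} [Fintype W]

/-- joined inside `Y` -/
def Jn (G : SimpleGraph W) (Y : Set W) : W → W → Prop :=
  Relation.ReflTransGen fun a b => G.Adj a b ∧ a ∈ Y ∧ b ∈ Y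

theorem Jn.symm {G : SimpleGraph W} {Y : Set W} {u v : W} (h : Jn G Y u v) : Jn G Y v u := by
  induction h with
  | refl => exact Relation.ReflTransGen.refl
  | tail _ h ih => exact Relation.ReflTransGen.head ⟨h.1.symm, h.2.2, h.2.1⟩ ih

theorem Jn.mem {G : SimpleGraph W} {Y : Set W} {u v : W} (h : Jn G Y u v) (hu : u ∈ Y) : v ∈ Y := by
  induction h with
  | refl => exact hu
  | tail _ h _ => exact h.2.2

theorem Jn.mono {G : SimpleGraph W} {Y Y' : Set W} {u v : W} (h : Jn G Y u v) (hY : Y ⊆ Y') :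
    Jn G Y' u v := by
  induction h with
  | refl => exact Relation.ReflTransGen.refl
  | tail _ h ih => exact Relation.ReflTransGen.tail ih ⟨h.1, hY h.2.1, hY h.2.2⟩

open Classical in
/-- the component of `u` in `Y` -/
noncomputable def cmp (G : SimpleGraph W) (Y : Finset W) (u : W) : Finset W :=
  univ.filter fun v => Jn G Y u v

theorem mem_cmp {G : SimpleGraph W} {Y : Finset W} {u v : W} : v ∈ cmp G Y u ↔ Jn G Y u v := by
  simp [cmp]

open Classical in
/-- `X` is a component of `Y` -/
noncomputable def isC (G : SimpleGraph W) (Y X : Finset W) : ℝ :=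
  if ∃ u ∈ Y, cmp G Y u = X then 1 else 0

open Classical in
/-- the law of the components of the upper level sets -/
noncomputable def cl (G : SimpleGraph W) (T : W → ℝ) (X : Finset W) : ℝ :=
  ∑ Y, cutm (∑ v, |T v|) T Y * isC G Y X

open Classical in
/-- the component cut metric -/
noncomputable def cd (G : SimpleGraph W) (T : W → ℝ) (u v : W) : ℝ := dP (cl G T) (ind u) (ind v)

open Classical in
/-- separation by the components of `Y` -/
noncomputable def sp (G : SimpleGraph W) (u v : W) (Y : Finset W) : ℝ :=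
  ∑ X, isC G Y X * |ind u X - ind v X|

variable {G : SimpleGraph W}

theorem isC_nonneg (Y X : Finset W) : 0 ≤ isC G Y X := by
  unfold isC; split_ifs <;> norm_num

theorem cl_nonneg (G : SimpleGraph W) (T : W → ℝ) (X : Finset W) : 0 ≤ cl G T X := by
  classical
  unfold cl
  exact sum_nonneg fun Y _ => mul_nonneg
    (by convert cutm_nonneg (sum_nonneg fun v _ => abs_nonneg (T v)) T Y) (isC_nonneg _ _)

open Classical in
theorem cd_eq (T : W → ℝ) (u v : W) : cd G T u v = Ex (cutm (∑ v, |T v|) T) (sp G u v) := by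
  unfold cd dP Ex cl sp
  simp only [sum_mul, mul_sum, mul_assoc]
  exact sum_comm

theorem sp_nonneg (u v : W) (Y : Finset W) : 0 ≤ sp G u v Y :=
  sum_nonneg fun _ _ => mul_nonneg (isC_nonneg _ _) (abs_nonneg _)

theorem sp_comm (u v : W) (Y : Finset W) : sp G u v Y = sp G v u Y := by
  unfold sp
  simp only [abs_sub_comm]

theorem one_le_sp {u v : W} {Y : Finset W} (hu : u ∈ Y) (h : ¬ Jn G Y u v) : 1 ≤ sp G u v Y := by
  classical
  unfold sp
  refine le_trans ?_ (single_le_sum (f := fun X => isC G Y X * |ind u X - ind v X|)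
    (fun X _ => mul_nonneg (isC_nonneg _ _) (abs_nonneg _)) (mem_univ (cmp G Y u)))
  have h1 : u ∈ cmp G Y u := mem_cmp.2 Relation.ReflTransGen.refl
  have h2 : v ∉ cmp G Y u := fun h' => h (mem_cmp.1 h')
  have h3 : isC G Y (cmp G Y u) = 1 := if_pos ⟨u, hu, rfl⟩
  simp [h3, ind, h1, h2]

open Classical in
theorem le_sp (u v : W) (Y : Finset W) : |ind u Y - ind v Y| ≤ sp G u v Y := by
  by_cases hu : u ∈ Y <;> by_cases hv : v ∈ Y
  · simpa [ind, hu, hv] using sp_nonneg u v Y
  · simpa [ind, hu, hv] using one_le_sp hu fun h => hv (h.mem hu)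
  · rw [sp_comm]
    simpa [ind, hu, hv] using one_le_sp hv fun h => hu (h.mem hv)
  · simpa [ind, hu, hv] using sp_nonneg u v Y

theorem cmp_eq {Y : Finset W} {u w : W} (h : u ∈ cmp G Y w) : cmp G Y w = cmp G Y u := by
  ext v
  rw [mem_cmp, mem_cmp]
  have h' := mem_cmp.1 h
  exact ⟨fun h1 => Relation.ReflTransGen.trans h'.symm h1, fun h1 => Relation.ReflTransGen.trans h' h1⟩

open Classical in
theorem sp_le_one {u v : W} {Y : Finset W} (hv : v ∉ Y) : sp G u v Y ≤ ind u Y := by
  unfold sp
  have h0 : ∑ X : Finset W, (if X = cmp G Y u then ind u Y else 0) = ind u Y := by simp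
  rw [← h0]
  refine sum_le_sum fun X _ => ?_
  have hi : 0 ≤ ind u Y := by unfold ind; split_ifs <;> norm_num
  unfold isC
  by_cases hX : ∃ w ∈ Y, cmp G Y w = X
  · obtain ⟨w, hw, rfl⟩ := hX
    have h2 : v ∉ cmp G Y w := fun h => hv ((mem_cmp.1 h).mem hw)
    by_cases hu : u ∈ cmp G Y w
    · have h3 : u ∈ Y := (mem_cmp.1 hu).mem hw
      rw [if_pos ⟨w, hw, rfl⟩, if_pos (cmp_eq hu)]
      simp [ind, hu, h2, h3]
    · simp only [ind, hu, h2, if_false, sub_self, abs_zero, mul_zero]
      split_ifs <;> norm_num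
  · rw [if_neg hX, zero_mul]
    split_ifs
    · exact hi
    · exact le_rfl

open Classical in
theorem sp_adj {u v : W} (h : G.Adj u v) (Y : Finset W) : sp G u v Y ≤ |ind u Y - ind v Y| := by
  by_cases hu : u ∈ Y <;> by_cases hv : v ∈ Y
  · refine le_trans (le_of_eq ?_) (abs_nonneg _)
    unfold sp
    refine sum_eq_zero fun X _ => ?_
    unfold isC
    split_ifs with hX
    · obtain ⟨w, -, rfl⟩ := hX
      have : u ∈ cmp G Y w ↔ v ∈ cmp G Y w := by
        rw [mem_cmp, mem_cmp]
        exact ⟨fun h1 => h1.tail ⟨h, hu, hv⟩, fun h1 => h1.tail ⟨h.symm, hv, hu⟩⟩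
      simp [ind, this]
    · exact zero_mul _
  · simpa [ind, hu, hv] using sp_le_one (G := G) (u := u) hv
  · rw [sp_comm]
    simpa [ind, hu, hv] using sp_le_one (G := G) (u := v) hu
  · refine le_trans ?_ (abs_nonneg _)
    simpa [ind, hu] using sp_le_one (G := G) (u := u) hv

theorem abs_le_tot (T : W → ℝ) (u : W) : |T u| ≤ ∑ v, |T v| :=
  single_le_sum (f := fun v => |T v|) (fun _ _ => abs_nonneg _) (mem_univ u)

theorem cd_nonneg (T : W → ℝ) (u v : W) : 0 ≤ cd G T u v := by
  classical
  unfold cd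
  convert dP_nonneg (cl_nonneg G T) _ _

theorem cd_self (T : W → ℝ) (u : W) : cd G T u u = 0 := by
  classical
  exact dP_self _ _

theorem cd_comm (T : W → ℝ) (u v : W) : cd G T u v = cd G T v u := by
  classical
  exact dP_comm _ _ _

theorem cd_tri (T : W → ℝ) (u v w : W) : cd G T u w ≤ cd G T u v + cd G T v w := by
  classical
  unfold cd
  convert dP_tri (cl_nonneg G T) _ _ _

theorem cd_ge (T : W → ℝ) (u v : W) : |T u - T v| ≤ cd G T u v := by
  classical
  rw [cd_eq, ← dP_cutm (abs_le_tot T u) (abs_le_tot T v), dP]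
  refine sum_le_sum fun Y _ => mul_le_mul_of_nonneg_left (by convert le_sp u v Y) ?_
  exact cutm_nonneg (sum_nonneg fun v _ => abs_nonneg (T v)) T Y

theorem cd_adj (T : W → ℝ) {u v : W} (h : G.Adj u v) : cd G T u v ≤ |T u - T v| := by
  classical
  rw [cd_eq, ← dP_cutm (abs_le_tot T u) (abs_le_tot T v), dP]
  refine sum_le_sum fun Y _ => mul_le_mul_of_nonneg_left (by convert sp_adj h Y) ?_
  exact cutm_nonneg (sum_nonneg fun v _ => abs_nonneg (T v)) T Y

/-- barriers -/
theorem cd_bar (T : W → ℝ) {x y z : W} (B : Set W) (hB : ∀ b ∈ B, T b ≤ T z)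
    (hsep : ¬ Jn G Bᶜ x y) : T x - T z ≤ cd G T x y := by
  classical
  have h0 : T x - T z = Ex (cutm (∑ v, |T v|) T) fun Y => ind x Y - ind z Y := by
    have h1 := ex_cutm_ind (abs_le_tot T x)
    have h2 := ex_cutm_ind (abs_le_tot T z)
    simp only [Ex, mul_sub, sum_sub_distrib] at h1 h2 ⊢
    linarith
  rw [cd_eq, h0, ex_cutm, ex_cutm]
  have hc : 0 ≤ ∑ v, |T v| := sum_nonneg fun v _ => abs_nonneg (T v)
  refine intervalIntegral.integral_mono (by linarith)
    (h2_cut_int T univ (fun Y => ind x Y - ind z Y) _ _) (h2_cut_int T univ (sp G x y) _ _)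
    fun s => ?_
  have h3 := sp_nonneg (G := G) x y (univ.filter fun v => s < T v)
  by_cases hx : s < T x
  · by_cases hz : s < T z
    · simpa [ind, hx, hz] using h3
    · have h4 : 1 ≤ sp G x y (univ.filter fun v => s < T v) := by
        refine one_le_sp (by simpa using hx) fun h => hsep ?_
        refine h.mono fun a ha h5 => ?_
        have h6 : s < T a := by simpa using ha
        exact hz (h6.trans_le (hB a h5))
      simpa [ind, hx, hz] using h4
  · refine le_trans ?_ h3
    simp only [ind, mem_filter, mem_univ, true_and, hx, if_false]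
    split_ifs <;> norm_num

namespace PS

variable {η : ℝ} (P : PS W η)

theorem mono_anc {T : W → ℝ} (hmono : ∀ v, T (P.par v) ≤ T v) {u v : W} (h : P.Anc u v) :
    T u ≤ T v := by
  obtain ⟨n, rfl⟩ := h
  induction n with
  | zero => exact le_rfl
  | succ n ih => rw [Function.iterate_succ_apply']; exact (hmono _).trans ih

/-- two columns with low tops separating `x` from `y` -/
theorem cd_barrier {T : W → ℝ} (hmono : ∀ v, T (P.par v) ≤ T v) {x y p q : W} (S : Set W)
    (hx : x ∈ S) (hy : y ∉ S)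
    (hS : ∀ a ∈ S, ∀ b, P.G.Adj a b → b ∈ S ∨ P.Anc b p ∨ P.Anc b q) {D : ℝ}
    (hp : T p ≤ T x - D) (hq : T q ≤ T x - D) : D ≤ cd P.G T x y := by
  have hsep : ¬ Jn P.G {b | P.Anc b p ∨ P.Anc b q}ᶜ x y := fun h => hy <| by
    clear hy
    induction h with
    | refl => exact hx
    | tail _ h ih => exact (hS _ ih _ h.1).resolve_right h.2.2
  rcases le_total (T p) (T q) with h | h
  · refine le_trans (by linarith) (cd_bar T (z := q) _ ?_ hsep)
    rintro b (hb | hb)
    · exact (P.mono_anc hmono hb).trans h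
    · exact P.mono_anc hmono hb
  · refine le_trans (by linarith) (cd_bar T (z := p) _ ?_ hsep)
    rintro b (hb | hb)
    · exact P.mono_anc hmono hb
    · exact (P.mono_anc hmono hb).trans h

end PS

end Crest.Agent.R206
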