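import Mathlib

/-! Row 206 (planar): generic tools for purity (counting on grids, union bound along a process,
selectors). -/

set_option autoImplicit false
set_option linter.dupNamespace false
set_option linter.unusedSectionVars false

namespace Crest.Agent.R206

open Finset BigOperators

open Classical in
/-- uniform probability on a finite type -/
noncomputable def uPr {Ω : Type} [Fintype Ω] (p : Ω → Prop) : ℝ := 𝔼 w : Ω, if p w then (1 : ℝ) else 0

section Pr

variable {Ω : Type} [Fintype Ω]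

open Classical in
theorem uPr_eq (p : Ω → Prop) : uPr p = ((univ.filter p).card : ℝ) / Fintype.card Ω := by
  unfold uPr
  rw [Finset.expect_eq_sum_div_card, Finset.card_univ, Finset.sum_boole]

theorem uPr_nonneg (p : Ω → Prop) : 0 ≤ uPr p := by
  rw [uPr_eq]; positivity

theorem uPr_mono {p q : Ω → Prop} (h : ∀ w, p w → q w) : uPr p ≤ uPr q := by
  classical
  unfold uPr
  refine Finset.expect_le_expect fun w _ => ?_
  by_cases hp : p w
  · simp [hp, h w hp]
  · simp only [hp, if_false]; split_ifs <;> norm_num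

theorem uPr_le_one (p : Ω → Prop) : uPr p ≤ 1 := by
  classical
  rw [uPr_eq]
  rcases Nat.eq_zero_or_pos (Fintype.card Ω) with h | h
  · simp [h]
  · rw [div_le_one (by exact_mod_cast h)]
    exact_mod_cast Finset.card_filter_le _ _

theorem uPr_false : uPr (fun _ : Ω => False) = 0 := by
  unfold uPr; simp

theorem uPr_or (p q : Ω → Prop) : uPr (fun w => p w ∨ q w) ≤ uPr p + uPr q := by
  classical
  unfold uPr
  rw [← Finset.expect_add_distrib]
  refine Finset.expect_le_expect fun w _ => ?_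
  by_cases hp : p w <;> by_cases hq : q w <;> simp [hp, hq]

theorem uPr_not [Nonempty Ω] (p : Ω → Prop) : uPr (fun w => ¬ p w) = 1 - uPr p := by
  classical
  unfold uPr
  rw [eq_sub_iff_add_eq, ← Finset.expect_add_distrib]
  rw [Finset.expect_congr rfl (g := fun _ => (1 : ℝ)) fun w _ => by by_cases hp : p w <;> simp [hp]]
  simp

theorem uPr_exists {ι : Type} (s : Finset ι) (p : ι → Ω → Prop) :
    uPr (fun w => ∃ i ∈ s, p i w) ≤ ∑ i ∈ s, uPr (p i) := by
  classical
  induction s using Finset.induction_on with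
  | empty => simp [uPr_false]
  | insert a s ha ih =>
    rw [Finset.sum_insert ha]
    refine (uPr_mono (q := fun w => p a w ∨ ∃ i ∈ s, p i w) fun w h => ?_).trans
      ((uPr_or _ _).trans (by linarith))
    obtain ⟨i, hi, h⟩ := h
    rcases Finset.mem_insert.1 hi with rfl | hi
    · exact Or.inl h
    · exact Or.inr ⟨i, hi, h⟩

/-- resampling one coordinate -/
theorem expect_update {ι : Type} [Fintype ι] [DecidableEq ι] {A : ι → Type} [∀ i, Fintype (A i)]
    (j : ι) [Nonempty (A j)] (F : (∀ i, A i) → ℝ) :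
    𝔼 w, F w = 𝔼 w, 𝔼 a : A j, F (Function.update w j a) := by
  rw [← Finset.expect_product', Finset.univ_product_univ]
  have h := Fintype.expect_equiv (Function.Involutive.toPerm
    (fun x : (∀ i, A i) × A j => (Function.update x.1 j x.2, x.1 j)) fun x => by simp)
    (fun x => F (Function.update x.1 j x.2)) (fun x => F x.1) (fun x => rfl)
  rw [h, ← Finset.univ_product_univ, Finset.expect_product]
  simp

theorem uPr_update {ι : Type} [Fintype ι] [DecidableEq ι] {A : ι → Type} [∀ i, Fintype (A i)]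
    (j : ι) [Nonempty (A j)] (p : (∀ i, A i) → Prop) :
    uPr p = 𝔼 w, uPr fun a : A j => p (Function.update w j a) := by
  unfold uPr
  exact expect_update j _

theorem uPr_le_of_update {ι : Type} [Fintype ι] [DecidableEq ι] {A : ι → Type} [∀ i, Fintype (A i)]
    [∀ i, Nonempty (A i)] (j : ι) (p : (∀ i, A i) → Prop) {e : ℝ}
    (h : ∀ w, uPr (fun a : A j => p (Function.update w j a)) ≤ e) : uPr p ≤ e := by
  rw [uPr_update j]
  exact Finset.expect_le univ_nonempty fun w _ => h w

theorem le_uPr_of_update {ι : Type} [Fintype ι] [DecidableEq ι] {A : ι → Type} [∀ i, Fintype (A i)]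
    [∀ i, Nonempty (A i)] (j : ι) (p : (∀ i, A i) → Prop) {e : ℝ}
    (h : ∀ w, e ≤ uPr (fun a : A j => p (Function.update w j a))) : e ≤ uPr p := by
  rw [uPr_update j]
  exact Finset.le_expect univ_nonempty fun w _ => h w

theorem uPr_prod {A B : Type} [Fintype A] [Fintype B] (p : A × B → Prop) :
    uPr p = 𝔼 a, uPr fun b => p (a, b) := by
  unfold uPr
  rw [← Finset.univ_product_univ, Finset.expect_product]

theorem uPr_prod' {A B : Type} [Fintype A] [Fintype B] (p : A × B → Prop) :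
    uPr p = 𝔼 b, uPr fun a => p (a, b) := by
  unfold uPr
  rw [← Finset.univ_product_univ, Finset.expect_product, Finset.expect_comm]

theorem uPr_prod_le {A B : Type} [Fintype A] [Fintype B] [Nonempty A] (p : A × B → Prop) {e : ℝ}
    (h : ∀ a, uPr (fun b => p (a, b)) ≤ e) : uPr p ≤ e := by
  rw [uPr_prod]; exact Finset.expect_le univ_nonempty fun w _ => h w

theorem uPr_prod_le' {A B : Type} [Fintype A] [Fintype B] [Nonempty B] (p : A × B → Prop) {e : ℝ}
    (h : ∀ b, uPr (fun a => p (a, b)) ≤ e) : uPr p ≤ e := by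
  rw [uPr_prod']; exact Finset.expect_le univ_nonempty fun w _ => h w

theorem uPr_equiv {A B : Type} [Fintype A] [Fintype B] (e : A ≃ B) (p : B → Prop) :
    uPr (fun a => p (e a)) = uPr p := by
  unfold uPr
  exact Fintype.expect_equiv e _ _ fun _ => rfl

/-- union bound along a process -/
theorem uPr_process {n : ℕ} {A : Fin n → Type} [∀ i, Fintype (A i)] [∀ i, Nonempty (A i)]
    (Pu : ℕ → (∀ i, A i) → Prop) (e : ℕ → ℝ) (he : ∀ j, 0 ≤ e j) (m : ℕ) (hm : m ≤ n)
    (h0 : ∀ w, Pu 0 w)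
    (hind : ∀ (j : Fin n) w a, Pu j (Function.update w j a) → Pu j w)
    (hstep : ∀ j : Fin n, (j : ℕ) < m → ∀ w, Pu j w →
      uPr (fun a : A j => ¬ Pu (j + 1) (Function.update w j a)) ≤ e j) :
    uPr (fun w => ¬ Pu m w) ≤ ∑ j ∈ range m, e j := by
  induction m with
  | zero =>
    simp only [range_zero, sum_empty]
    exact (uPr_mono (q := fun _ => False) fun w h => h (h0 w)).trans uPr_false.le
  | succ m ih =>
    rw [sum_range_succ]
    have h1 := ih (by omega) fun j hj => hstep j (by omega)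
    have h2 : uPr (fun w => Pu m w ∧ ¬ Pu (m + 1) w) ≤ e m := by
      refine uPr_le_of_update (⟨m, by omega⟩ : Fin n) _ fun w => ?_
      by_cases hw : Pu m w
      · exact (uPr_mono fun a h => h.2).trans (hstep ⟨m, by omega⟩ (by simp) w hw)
      · exact (uPr_mono (q := fun _ => False) fun a h => hw (hind ⟨m, by omega⟩ w a h.1)).trans
          (uPr_false.le.trans (he m))
    refine (uPr_mono (q := fun w => ¬ Pu m w ∨ (Pu m w ∧ ¬ Pu (m + 1) w)) fun w h => ?_).trans
      ((uPr_or _ _).trans (by linarith))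
    by_cases hw : Pu m w
    · exact Or.inr ⟨hw, h⟩
    · exact Or.inl hw

end Pr

/-- naturals in a real window -/
theorem card_window (M : ℕ) (a L : ℝ) (hL : 0 ≤ L) (p : Fin M → Prop) [DecidablePred p]
    (hp : ∀ i, p i → a ≤ (i : ℕ) ∧ ((i : ℕ) : ℝ) ≤ a + L) : ((univ.filter p).card : ℝ) ≤ L + 1 := by
  have h1 : (univ.filter p).card ≤ (Finset.Icc ⌈a⌉ ⌊a + L⌋).card := by
    refine Finset.card_le_card_of_injOn (fun i => ((i : ℕ) : ℤ)) (fun i hi => ?_) ?_
    · have := hp i (by simpa using hi)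
      simp only [coe_Icc, Set.mem_Icc]
      exact ⟨Int.ceil_le.2 (by exact_mod_cast this.1), Int.le_floor.2 (by exact_mod_cast this.2)⟩
    · intro i _ j _ h
      exact Fin.ext (by simpa using h)
  rw [Int.card_Icc] at h1
  have h2 : (((⌊a + L⌋ + 1 - ⌈a⌉).toNat : ℕ) : ℝ) ≤ L + 1 := by
    rcases le_total 0 (⌊a + L⌋ + 1 - ⌈a⌉) with h | h
    · have : (((⌊a + L⌋ + 1 - ⌈a⌉).toNat : ℕ) : ℝ) = ((⌊a + L⌋ + 1 - ⌈a⌉ : ℤ) : ℝ) := by
        exact_mod_cast Int.toNat_of_nonneg h
      rw [this]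
      push_cast
      linarith [Int.floor_le (a + L), Int.le_ceil a]
    · rw [Int.toNat_of_nonpos h]; simp; linarith
  exact (Nat.cast_le.2 h1).trans h2

theorem uPr_window {M : ℕ} (hM : 0 < M) (a L : ℝ) (hL : 0 ≤ L) (p : Fin M → Prop)
    (hp : ∀ i, p i → a ≤ (i : ℕ) ∧ ((i : ℕ) : ℝ) ≤ a + L) : uPr p ≤ (L + 1) / M := by
  classical
  rw [uPr_eq, Fintype.card_fin]
  have := card_window M a L hL p hp
  have hM' : (0 : ℝ) < M := by exact_mod_cast hM
  gcongr

/-- ties on a grid of mesh `U / M` -/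
theorem uPr_tie {M : ℕ} (hM : 0 < M) {U t k : ℝ} (a : ℝ) (hU : 0 < U) (ht : 0 ≤ t) (hk : 1 ≤ |k|) :
    uPr (fun i : Fin M => |a - k * ((i : ℕ) * U / M)| ≤ t) ≤ 2 * t / U + 1 / M := by
  have hM' : (0 : ℝ) < M := by exact_mod_cast hM
  have hk0 : 0 < |k| := by linarith
  have hkne : k ≠ 0 := abs_pos.1 hk0
  have h := uPr_window hM (a / k * M / U - t * M / U) (2 * t * M / U) (by positivity)
    (fun i : Fin M => |a - k * ((i : ℕ) * U / M)| ≤ t) fun i hi => by
      have h1 : |a / k * M / U - (i : ℕ)| ≤ t * M / U := by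
        have : a / k * M / U - (i : ℕ) = (a - k * ((i : ℕ) * U / M)) * (M / U) / k := by
          field_simp
        rw [this, abs_div, abs_mul, abs_of_pos (by positivity : 0 < (M : ℝ) / U), div_le_iff₀ hk0]
        calc _ ≤ t * (M / U) := by gcongr
          _ = t * M / U * 1 := by ring
          _ ≤ _ := by gcongr
      have h2 := abs_le.1 h1
      have h3 : 2 * t * M / U = t * M / U + t * M / U := by ring
      constructor <;> linarith [h2.1, h2.2]
  refine h.trans (le_of_eq ?_)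
  field_simp

/-- a window of length `2 r` meets the shifted grid `h ℤ + i h / M` rarely -/
theorem uPr_floor {M : ℕ} (hM : 0 < M) {h r : ℝ} (a : ℝ) (hh : 0 < h) (hr : 0 ≤ r) :
    uPr (fun i : Fin M => ⌊(a - r - (i : ℕ) * h / M) / h⌋ ≠ ⌊(a + r - (i : ℕ) * h / M) / h⌋) ≤
      4 * r / h + 2 / M := by
  have hM' : (0 : ℝ) < M := by exact_mod_cast hM
  rcases le_or_gt h (2 * r) with h2 | h2
  · refine (uPr_le_one _).trans ?_
    have : 1 ≤ 4 * r / h := by rw [le_div_iff₀ hh]; linarith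
    have : 0 ≤ 2 / (M : ℝ) := by positivity
    linarith
  set n := ⌊(a + r) / h⌋ with hn
  have key : ∀ i : Fin M, ⌊(a - r - (i : ℕ) * h / M) / h⌋ ≠ ⌊(a + r - (i : ℕ) * h / M) / h⌋ →
      |(a - n * h) - 1 * ((i : ℕ) * h / M)| ≤ r ∨ |(a - (n - 1) * h) - 1 * ((i : ℕ) * h / M)| ≤ r := by
    intro i hi
    set b := ((i : ℕ) : ℝ) * h / M with hb
    have hb0 : 0 ≤ b := by positivity
    have hb1 : b < h := by
      rw [hb, div_lt_iff₀ hM']
      have : ((i : ℕ) : ℝ) < M := by exact_mod_cast i.2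
      nlinarith
    set m := ⌊(a + r - b) / h⌋ with hm
    have hlt : ⌊(a - r - b) / h⌋ < m :=
      lt_of_le_of_ne (Int.floor_le_floor (by gcongr; linarith)) hi
    have h3 : (a - r - b) / h < m := Int.floor_lt.1 hlt
    have h4 : (m : ℝ) ≤ (a + r - b) / h := Int.floor_le _
    rw [div_lt_iff₀ hh] at h3
    rw [le_div_iff₀ hh] at h4
    have h5 : m ≤ n := Int.floor_le_floor (by gcongr; linarith)
    have h6 : n - 1 ≤ m := by
      rw [hm, Int.le_floor]
      have : (n : ℝ) ≤ (a + r) / h := Int.floor_le _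
      rw [le_div_iff₀ hh] at this ⊢
      push_cast
      nlinarith
    rcases h5.eq_or_lt with h5 | h5
    · left
      rw [← h5, abs_le]; constructor <;> linarith
    · right
      have : m = n - 1 := by omega
      have h7 : (m : ℝ) = n - 1 := by rw [this]; push_cast; ring
      rw [← h7, abs_le]; constructor <;> linarith
  refine (uPr_mono key).trans ((uPr_or _ _).trans ?_)
  have e1 := uPr_tie hM (k := 1) (a - n * h) hh hr (by simp)
  have e2 := uPr_tie hM (k := 1) (a - (n - 1) * h) hh hr (by simp)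
  have : 4 * r / h + 2 / (M : ℝ) = 2 * r / h + 1 / M + (2 * r / h + 1 / M) := by ring
  linarith

/-- `Φ` returns a coordinate which only depends on the order type -/
def Sel {ι : Type} (Φ : (ι → ℝ) → ℝ) : Prop :=
  ∃ s : (ι → ι → Prop) → ι, ∀ a, Φ a = a (s fun i j => a i ≤ a j)

theorem Sel.coord {ι : Type} (i : ι) : Sel fun a : ι → ℝ => a i := ⟨fun _ => i, fun _ => rfl⟩

theorem Sel.max {ι : Type} {Φ Ψ : (ι → ℝ) → ℝ} (h1 : Sel Φ) (h2 : Sel Ψ) :
    Sel fun a => max (Φ a) (Ψ a) := by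
  classical
  obtain ⟨s, hs⟩ := h1
  obtain ⟨t, ht⟩ := h2
  refine ⟨fun o => if o (s o) (t o) then t o else s o, fun a => ?_⟩
  beta_reduce
  rw [hs, ht]
  split_ifs with h
  · exact max_eq_right h
  · exact max_eq_left (not_le.1 h).le

theorem Sel.min {ι : Type} {Φ Ψ : (ι → ℝ) → ℝ} (h1 : Sel Φ) (h2 : Sel Ψ) :
    Sel fun a => min (Φ a) (Ψ a) := by
  classical
  obtain ⟨s, hs⟩ := h1
  obtain ⟨t, ht⟩ := h2
  refine ⟨fun o => if o (s o) (t o) then s o else t o, fun a => ?_⟩
  beta_reduce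
  rw [hs, ht]
  split_ifs with h
  · exact min_eq_left h
  · exact min_eq_right (not_le.1 h).le

theorem Sel.ex {ι : Type} {Φ : (ι → ℝ) → ℝ} (h : Sel Φ) (a : ι → ℝ) : ∃ i, Φ a = a i :=
  let ⟨_, hs⟩ := h; ⟨_, hs a⟩

theorem Sel.iff {ι : Type} {Φ : (ι → ℝ) → ℝ} (h : Sel Φ) {a b : ι → ℝ}
    (hab : ∀ i j, a i ≤ a j ↔ b i ≤ b j) (i : ι) : Φ a = a i ↔ Φ b = b i := by
  obtain ⟨s, hs⟩ := h
  have : (fun i j => a i ≤ a j) = fun i j => b i ≤ b j := by
    funext i j; exact propext (hab i j)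
  rw [hs a, hs b, this, le_antisymm_iff, le_antisymm_iff, hab, hab]

/-- no tie within `2 t` and changes by at most `t` keep the order type -/
theorem order_of_close {ι : Type} {a b : ι → ℝ} {t : ℝ} (hc : ∀ i, |a i - b i| ≤ t)
    (hn : ∀ i j, i ≠ j → 2 * t < |a i - a j|) (i j : ι) : a i ≤ a j ↔ b i ≤ b j := by
  by_cases h : i = j
  · simp [h]
  have h1 := abs_le.1 (hc i)
  have h2 := abs_le.1 (hc j)
  rcases lt_abs.1 (hn i j h) with h3 | h3
  · constructor <;> intro h4 <;> linarith [h1.1, h1.2, h2.1, h2.2]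
  · constructor <;> intro _ <;> linarith [h1.1, h1.2, h2.1, h2.2]

/-- probability of a tie among `n` jittered values -/
theorem uPr_ties {M n : ℕ} (hM : 0 < M) {U t : ℝ} (a : Fin n → ℝ) (hU : 0 < U) (ht : 0 ≤ t) :
    uPr (fun u : Fin M => ¬ ∀ i j : Fin n, i ≠ j →
      t < |(a i - (i : ℕ) * ((u : ℕ) * U / M)) - (a j - (j : ℕ) * ((u : ℕ) * U / M))|) ≤
      (n : ℝ) ^ 2 * (2 * t / U + 1 / M) := by
  classical
  have h := uPr_exists (Ω := Fin M) (univ : Finset (Fin n × Fin n)) fun x u => x.1 ≠ x.2 ∧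
    |(a x.1 - a x.2) - (((x.1 : ℕ) : ℝ) - (x.2 : ℕ)) * ((u : ℕ) * U / M)| ≤ t
  refine (uPr_mono fun u hu => ?_).trans (h.trans ?_)
  · push Not at hu
    obtain ⟨i, j, hij, hu⟩ := hu
    refine ⟨(i, j), mem_univ _, hij, ?_⟩
    refine le_trans (le_of_eq ?_) hu
    congr 1
    ring
  · refine (Finset.sum_le_card_nsmul _ _ (2 * t / U + 1 / M) fun x _ => ?_).trans (le_of_eq ?_)
    · by_cases hx : x.1 = x.2
      · refine (uPr_mono (q := fun _ => False) fun u h => h.1 hx).trans (uPr_false.le.trans ?_)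
        positivity
      · refine (uPr_mono fun u h => h.2).trans (uPr_tie hM _ hU ht ?_)
        have : ((x.1 : ℕ) : ℤ) - (x.2 : ℕ) ≠ 0 := by
          intro h; apply hx; apply Fin.ext; omega
        have h2 := Int.one_le_abs this
        exact_mod_cast h2
    · simp [sq]; ring

end Crest.Agent.R206
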