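import Crest.Agent.R206.ZState
import Crest.Agent.R206.ZCut
import Crest.Agent.R206.ZPurA

/-! # Row 206 (planar): the probability shell of the serving argument (generic, no geometry). -/

set_option autoImplicit false
set_option linter.dupNamespace false
set_option linter.unusedSectionVars false

namespace Crest.Agent.R206.ZS

open Finset BigOperators

section det

variable {W K : Type} {n : ℕ} {θ : ℝ} {f : W → ℝ} {A : W → W → Prop}

/-- the average over the signs of `|T x - T y|` -/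
noncomputable def gap (θ : ℝ) (f : W → ℝ) (s : St W K n) (x y : W) : ℝ :=
  avg fun σ => |T θ f s σ x - T θ f s σ y|

theorem gap_nonneg (s : St W K n) (x y : W) : 0 ≤ gap θ f s x y :=
  avg_nonneg fun _ => abs_nonneg _

theorem gap_comm (s : St W K n) (x y : W) : gap θ f s x y = gap θ f s y x := by
  unfold gap; simp only [abs_sub_comm]

theorem avg_tail {op : ℕ → St W K n → Ch W K} {Dm : ℕ → ℝ} (h : RunOK θ f A op Dm) (hθ : 0 ≤ θ)
    (hD0 : ∀ k, 0 ≤ Dm k) (hD : ∀ k, 4 * Dm (k + 1) ≤ Dm k) {m j : ℕ} (hmj : m ≤ j) (v : W) :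
    avg (fun σ => |T θ f (run θ op j) σ v - T θ f (run θ op m) σ v|) ≤ 2 * (θ * Dm m) := by
  refine (avg_mono (G := fun σ => (run θ op m v).V σ * (2 * (θ * Dm m))) fun σ => ?_).trans ?_
  · have := T_tail h hθ hD0 hD hmj v σ
    linarith
  · rw [avg_mul_const, ((inv_run h m).lab v).V_avg, one_mul]

/-- later levels change the gap by at most `4 θ Dm m` -/
theorem gap_tail {op : ℕ → St W K n → Ch W K} {Dm : ℕ → ℝ} (h : RunOK θ f A op Dm) (hθ : 0 ≤ θ)
    (hD0 : ∀ k, 0 ≤ Dm k) (hD : ∀ k, 4 * Dm (k + 1) ≤ Dm k) {m j : ℕ} (hmj : m ≤ j) (x y : W) :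
    gap θ f (run θ op m) x y - 4 * (θ * Dm m) ≤ gap θ f (run θ op j) x y := by
  have h1 := avg_tail h hθ hD0 hD hmj x
  have h2 := avg_tail h hθ hD0 hD hmj y
  have h3 : gap θ f (run θ op m) x y ≤ avg fun σ =>
      (|T θ f (run θ op j) σ x - T θ f (run θ op j) σ y| +
        |T θ f (run θ op j) σ x - T θ f (run θ op m) σ x|) +
        |T θ f (run θ op j) σ y - T θ f (run θ op m) σ y| := by
    refine avg_mono fun σ => ?_
    rw [abs_le]
    constructor <;>
    linarith [le_abs_self (T θ f (run θ op j) σ x - T θ f (run θ op j) σ y),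
      neg_abs_le (T θ f (run θ op j) σ x - T θ f (run θ op j) σ y),
      le_abs_self (T θ f (run θ op j) σ x - T θ f (run θ op m) σ x),
      neg_abs_le (T θ f (run θ op j) σ x - T θ f (run θ op m) σ x),
      le_abs_self (T θ f (run θ op j) σ y - T θ f (run θ op m) σ y),
      neg_abs_le (T θ f (run θ op j) σ y - T θ f (run θ op m) σ y)]
  rw [avg_add, avg_add] at h3
  unfold gap at h3 ⊢
  linarith

/-- MEAN -/
theorem gap_mean {k : ℕ} {s : St W K n} (h : Inv θ f A k s) (x y : W) :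
    |f x - f y| ≤ gap θ f s x y := by
  rw [← h.T_avg x, ← h.T_avg y, ← avg_sub]
  exact abs_avg_le _

theorem abs_coef_eq {k : ℕ} {l : Lab W K n} (h : LInv k l) (hk : k < n) (σ : Sg n) (x : ℝ) :
    |sg σ (l.ix k) * l.ox * x| = |x| := by
  rw [abs_mul, abs_mul, h.abs_ox, abs_sg_eq σ (h.ix_le.trans_lt hk), one_mul, one_mul]

/-- TILT -/
theorem gap_tilt {k : ℕ} {s : St W K n} (h : Inv θ f A k s) (hk : k < n) (hθ : 0 ≤ θ) {x y : W}
    (hl : s x = s y) : θ * |Gv s x - Gv s y| - |f x - f y| ≤ gap θ f s x y := by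
  have h1 : θ * |Gv s x - Gv s y| - |f x - f y| =
      avg fun σ => (s y).V σ * (θ * |Gv s x - Gv s y| - |f x - f y|) := by
    rw [avg_mul_const, (h.lab y).V_avg, one_mul]
  rw [h1]
  refine avg_mono fun σ => ?_
  have e : T θ f s σ x - T θ f s σ y = (s y).V σ * ((f x - f y) +
      sg σ ((s y).ix k) * (s y).ox * (θ * (Gv s x - Gv s y))) := by
    unfold T Gv
    rw [hl, (h.lab y).T_eq θ f k, (h.lab y).T_eq θ f k]; ring
  rw [e, abs_mul, abs_of_nonneg ((h.lab y).V_nonneg σ)]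
  refine mul_le_mul_of_nonneg_left ?_ ((h.lab y).V_nonneg σ)
  have h2 := abs_coef_eq (h.lab y) hk σ (θ * (Gv s x - Gv s y))
  rw [abs_mul θ, abs_of_nonneg hθ] at h2
  have h3 := abs_sub_abs_le_abs_sub (sg σ ((s y).ix k) * (s y).ox * (θ * (Gv s x - Gv s y)))
    (-(f x - f y))
  rw [abs_neg, h2, sub_neg_eq_add, add_comm] at h3
  exact h3

/-- MOVE: two choices that agree at `w` and differ by `μ` at `z` -/
theorem gap_move {k : ℕ} {s : St W K n} (h : Inv θ f A k s) (hk : k < n) (hθ : 0 ≤ θ)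
    {ch ch' : Ch W K} {z w : W} {μ : ℝ} (hz : μ ≤ |Gn f s ch' z - Gn f s ch z|)
    (hw : Gn f s ch w = Gn f s ch' w) :
    θ * μ ≤ gap θ f (step θ k s ch) z w + gap θ f (step θ k s ch') z w := by
  have h1 : θ * μ = avg fun σ => (s z).V σ * (θ * μ) := by
    rw [avg_mul_const, (h.lab z).V_avg, one_mul]
  unfold gap
  rw [h1, ← avg_add]
  refine avg_mono fun σ => ?_
  have e1 : T θ f (step θ k s ch) σ w = T θ f (step θ k s ch') σ w := by
    rw [T_step ch (h.lab w), T_step ch' (h.lab w), hw]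
  have e2 : T θ f (step θ k s ch') σ z - T θ f (step θ k s ch) σ z = (s z).V σ *
      (sg σ ((s z).ix k) * (s z).ox * (θ * (Gn f s ch' z - Gn f s ch z))) := by
    rw [T_step ch (h.lab z), T_step ch' (h.lab z)]; ring
  have h2 : (s z).V σ * (θ * μ) ≤ |T θ f (step θ k s ch') σ z - T θ f (step θ k s ch) σ z| := by
    rw [e2, abs_mul, abs_of_nonneg ((h.lab z).V_nonneg σ), abs_coef_eq (h.lab z) hk, abs_mul,
      abs_of_nonneg hθ]
    exact mul_le_mul_of_nonneg_left (mul_le_mul_of_nonneg_left hz hθ) ((h.lab z).V_nonneg σ)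
  refine h2.trans ?_
  rw [e1]
  have := abs_sub_le (T θ f (step θ k s ch') σ z) (T θ f (step θ k s ch') σ w)
    (T θ f (step θ k s ch) σ z)
  rw [abs_sub_comm (T θ f (step θ k s ch') σ w)] at this
  linarith

/-- MOVE, with the tails of the two runs -/
theorem move_det {op op' : ℕ → St W K n → Ch W K} {Dm : ℕ → ℝ} (h : RunOK θ f A op Dm)
    (h' : RunOK θ f A op' Dm) (hθ : 0 ≤ θ) (hD0 : ∀ k, 0 ≤ Dm k)
    (hD : ∀ k, 4 * Dm (k + 1) ≤ Dm k) {k j : ℕ} (hk : k < n) (hkj : k < j)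
    (hs : run θ op' k = run θ op k) {z w : W} {μ : ℝ}
    (hz : μ ≤ |Gn f (run θ op k) (op' k (run θ op k)) z - Gn f (run θ op k) (op k (run θ op k)) z|)
    (hw : Gn f (run θ op k) (op k (run θ op k)) w = Gn f (run θ op k) (op' k (run θ op k)) w) :
    θ * μ - 8 * (θ * Dm (k + 1)) ≤ gap θ f (run θ op j) z w + gap θ f (run θ op' j) z w := by
  have h1 := gap_move (inv_run h k) hk hθ hz hw
  have h2 := gap_tail h hθ hD0 hD (show k + 1 ≤ j from hkj) z w
  have h3 := gap_tail h' hθ hD0 hD (show k + 1 ≤ j from hkj) z w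
  rw [run_succ] at h2 h3
  rw [hs] at h3
  linarith

/-- a level where nothing happens -/
theorem step_skip {k : ℕ} {s : St W K n} {ch : Ch W K} (h : ∀ v, ch v = none) :
    step θ k s ch = s := funext fun v => step_none (h v)

variable [Fintype W]

/-- the average over the signs of the component cut distance -/
noncomputable def acd (G : SimpleGraph W) (θ : ℝ) (f : W → ℝ) (s : St W K n) (x y : W) : ℝ :=
  avg fun σ => cd G (T θ f s σ) x y

theorem acd_nonneg (G : SimpleGraph W) (s : St W K n) (x y : W) : 0 ≤ acd G θ f s x y :=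
  avg_nonneg fun _ => cd_nonneg _ _ _

theorem gap_le_acd (G : SimpleGraph W) (s : St W K n) (x y : W) :
    gap θ f s x y ≤ acd G θ f s x y :=
  avg_mono fun _ => cd_ge _ _ _

theorem acd_comm (G : SimpleGraph W) (s : St W K n) (x y : W) :
    acd G θ f s x y = acd G θ f s y x := by
  unfold acd; simp only [cd_comm _ x y]

/-- BARRIER -/
theorem barrier_det {η : ℝ} (P : PS W η) {op : ℕ → St W K n → Ch W K} {Dm : ℕ → ℝ}
    (h : RunOK θ P.f P.G.Adj op Dm) (hθ : 0 ≤ θ) (hD0 : ∀ k, 0 ≤ Dm k)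
    (hD : ∀ k, 4 * Dm (k + 1) ≤ Dm k) {k j : ℕ} (hk : k < n) (hkj : k ≤ j) {x y p q : W}
    (S : Set W) (hx : x ∈ S) (hy : y ∉ S)
    (hS : ∀ a ∈ S, ∀ b, P.G.Adj a b → b ∈ S ∨ P.Anc b p ∨ P.Anc b q)
    (lp : run θ op k p = run θ op k x) (lq : run θ op k q = run θ op k x) {Δ : ℝ}
    (hp : P.f p + θ * Gv (run θ op k) p ≤ P.f x + θ * Gv (run θ op k) x - Δ)
    (hq : P.f q + θ * Gv (run θ op k) q ≤ P.f x + θ * Gv (run θ op k) x - Δ) :
    (Δ - 4 * (θ * Dm k)) / 2 ≤ acd P.G θ P.f (run θ op j) x y := by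
  set s := run θ op k with hs
  have hI := inv_run h k
  have hl := hI.lab x
  have h1 : (Δ - 4 * (θ * Dm k)) / 2 = avg fun σ =>
      if sg σ ((s x).ix k) = (s x).ox then (s x).V σ * (Δ - 4 * (θ * Dm k)) else 0 := by
    rw [avg_ite_sg (F := fun σ => (s x).V σ * (Δ - 4 * (θ * Dm k)))
      (fun σ τ hst => congrArg (· * (Δ - 4 * (θ * Dm k))) (hl.V_dep σ τ hst)) (hl.ix_le.trans_lt hk) _ hl.ox_pm,
      avg_mul_const, hl.V_avg, one_mul]
  rw [h1]
  refine avg_mono fun σ => ?_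
  split_ifs with hσ
  · have hV := hl.V_nonneg σ
    have hoo : (s x).ox * (s x).ox = 1 := by rcases hl.ox_pm with e | e <;> rw [e] <;> norm_num
    have key : ∀ r, s r = s x → P.f r + θ * Gv s r ≤ P.f x + θ * Gv s x - Δ →
        T θ P.f (run θ op j) σ r ≤ T θ P.f (run θ op j) σ x -
          (s x).V σ * (Δ - 4 * (θ * Dm k)) := by
      intro r lr hr
      have t1 := abs_le.1 (T_tail h hθ hD0 hD hkj r σ)
      have t2 := abs_le.1 (T_tail h hθ hD0 hD hkj x σ)
      rw [← hs, lr] at t1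
      rw [← hs] at t2
      have e1 : T θ P.f s σ r = (s x).V σ * (P.f r + θ * Gv s r) + (s x).c σ := by
        unfold T Gv
        rw [lr, hl.T_eq θ P.f k, hσ, hoo, one_mul]
      have e2 : T θ P.f s σ x = (s x).V σ * (P.f x + θ * Gv s x) + (s x).c σ := by
        unfold T Gv
        rw [hl.T_eq θ P.f k, hσ, hoo, one_mul]
      have t3 := mul_le_mul_of_nonneg_left hr hV
      nlinarith [t1.2, t2.1]
    refine P.cd_barrier (fun v => ?_) S hx hy hS (key p lp hp) (key q lq hq)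
    by_cases hv : v = P.root
    · rw [hv, P.par_root]
    · have hlt := P.f_lt v hv
      refine (inv_run h j).T_mono _ _ ⟨fun e => ?_, Or.inr (Or.inl rfl)⟩ hlt.le σ
      rw [e] at hlt; exact lt_irrefl _ hlt
  · exact cd_nonneg _ _ _

end det

section prob

variable {Ω : Type} [Fintype Ω]

theorem uPr_mul_le {p : Ω → Prop} {F : Ω → ℝ} {c : ℝ} (h0 : ∀ w, 0 ≤ F w)
    (h : ∀ w, p w → c ≤ F w) : uPr p * c ≤ 𝔼 w, F w := by
  classical
  unfold uPr
  rw [Finset.expect_mul]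
  refine Finset.expect_le_expect fun w _ => ?_
  by_cases hp : p w
  · simpa [hp] using h w hp
  · simpa [hp] using h0 w

/-- an involution pairs the outcomes -/
theorem pair_flip {p : Ω → Prop} {F : Ω → ℝ} {c : ℝ} (h0 : ∀ w, 0 ≤ F w) (τ : Ω → Ω)
    (hτ : Function.Involutive τ) (h : ∀ w, p w → c ≤ F w + F (τ w)) :
    uPr p * c / 2 ≤ 𝔼 w, F w := by
  have h1 := uPr_mul_le (F := fun w => F w + F (τ w)) (fun w => add_nonneg (h0 _) (h0 _)) h
  rw [Finset.expect_add_distrib] at h1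
  have h2 : 𝔼 w, F (τ w) = 𝔼 w, F w :=
    Fintype.expect_equiv hτ.toPerm _ _ fun _ => rfl
  linarith

/-- resample two levels -/
theorem shell2 {ι : Type} [Fintype ι] [DecidableEq ι] {A : ι → Type} [∀ i, Fintype (A i)]
    [∀ i, Nonempty (A i)] (i j : ι) {F : (∀ i, A i) → ℝ} (h0 : ∀ w, 0 ≤ F w)
    {p : (∀ i, A i) → Prop} {c : ℝ}
    (h : ∀ w, p w → c ≤ 𝔼 a : A i, 𝔼 b : A j, F (Function.update (Function.update w i a) j b)) :
    uPr p * c ≤ 𝔼 w, F w := by
  rw [expect_update j F, expect_update i]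
  exact uPr_mul_le (fun w => Finset.expect_nonneg fun a _ => Finset.expect_nonneg fun b _ => h0 _) h

/-- nested windows -/
theorem le_uPr_prod {A B : Type} [Fintype A] [Fintype B] {p : A × B → Prop} {q : A → Prop}
    {e : ℝ} (h : ∀ a, q a → e ≤ uPr fun b => p (a, b)) : uPr q * e ≤ uPr p := by
  rw [uPr_prod]
  exact uPr_mul_le (fun _ => uPr_nonneg _) h

theorem uPr_true [Nonempty Ω] {p : Ω → Prop} (h : ∀ w, p w) : uPr p = 1 := by
  unfold uPr
  simp [h]

theorem uPr_eq_const (a : Ω) : uPr (fun w => w = a) = 1 / Fintype.card Ω := by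
  classical
  rw [uPr_eq]
  congr 1
  rw [Finset.filter_eq' univ a]
  simp

/-- naturals in a real window inside `[0, M]` -/
theorem le_uPr_window {M : ℕ} (hM : 0 < M) (a L : ℝ) (ha : 0 ≤ a) (haL : a + L ≤ M)
    (p : Fin M → Prop) (hp : ∀ i : Fin M, a ≤ (i : ℕ) → ((i : ℕ) : ℝ) < a + L → p i) :
    (L - 1) / M ≤ uPr p := by
  classical
  have hM' : (0 : ℝ) < M := by exact_mod_cast hM
  rw [uPr_eq, Fintype.card_fin]
  refine div_le_div_of_nonneg_right ?_ hM'.le
  have h1 : (Finset.Ico ⌈a⌉₊ ⌈a + L⌉₊).card ≤ (univ.filter p).card := by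
    have hlt : ∀ i ∈ Finset.Ico ⌈a⌉₊ ⌈a + L⌉₊, i < M := fun i hi => by
      have := Nat.lt_ceil.1 (Finset.mem_Ico.1 hi).2
      exact_mod_cast this.trans_le haL
    refine Finset.card_le_card_of_injOn (fun i => if h : i < M then ⟨i, h⟩ else ⟨0, hM⟩)
      (fun i hi => ?_) fun i hi j hj e => ?_
    · have hi' : i ∈ Finset.Ico ⌈a⌉₊ ⌈a + L⌉₊ := by simpa using hi
      simp only [dif_pos (hlt i hi'), coe_filter, mem_univ, true_and, Set.mem_ofPred_eq]
      exact hp _ (Nat.ceil_le.1 (Finset.mem_Ico.1 hi').1) (Nat.lt_ceil.1 (Finset.mem_Ico.1 hi').2)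
    · have hi' : i ∈ Finset.Ico ⌈a⌉₊ ⌈a + L⌉₊ := by simpa using hi
      have hj' : j ∈ Finset.Ico ⌈a⌉₊ ⌈a + L⌉₊ := by simpa using hj
      simp only [dif_pos (hlt i hi'), dif_pos (hlt j hj'), Fin.mk.injEq] at e
      exact e
  rw [Nat.card_Ico] at h1
  have h2 : (⌈a + L⌉₊ : ℝ) - ⌈a⌉₊ ≤ ((⌈a + L⌉₊ - ⌈a⌉₊ : ℕ) : ℝ) := by
    rcases le_total ⌈a⌉₊ ⌈a + L⌉₊ with h | h
    · rw [Nat.cast_sub h]
    · have : (⌈a + L⌉₊ : ℝ) ≤ ⌈a⌉₊ := by exact_mod_cast h
      have : (0 : ℝ) ≤ ((⌈a + L⌉₊ - ⌈a⌉₊ : ℕ) : ℝ) := Nat.cast_nonneg _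
      linarith
  have h3 : (((⌈a + L⌉₊ - ⌈a⌉₊ : ℕ)) : ℝ) ≤ ((univ.filter p).card : ℝ) := by exact_mod_cast h1
  linarith [Nat.le_ceil (a + L), Nat.ceil_lt_add_one ha]

end prob

end Crest.Agent.R206.ZS
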