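import Crest.Agent.R206.ZDefs
import Crest.Agent.R206.ZShell

/-! # Row 206 (planar): lower bounds for `Val` (probability shell of the serving argument). -/

set_option autoImplicit false
set_option linter.unusedSectionVars false

namespace Crest.Agent.R206

open scoped BigOperators Classical
open ZS hiding St flip gap

variable {W : Type} {η : ℝ} {n : ℕ}

theorem hk_succ (H : ℝ) (k : ℕ) : hk H (k + 1) = hk H k / 2 ^ 60 := by
  unfold hk
  rw [mul_add, pow_add, mul_one, div_div]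

namespace PS

variable (P : PS W η)

/-- what the shell needs from one level -/
def StpOK (θ h : ℝ) (M n k : ℕ) : Prop :=
  ∀ (s : ZSt W n) (ω : Om M W), P.Good θ k s →
    OK θ P.f P.G.Adj s (P.chs θ h s ω) (200 * h) ∧ P.KInv (P.stp θ h k s ω)

variable [Fintype W]

variable {P} {θ H : ℝ} {M J : ℕ}

theorem Val_succ (r k : ℕ) (s : ZSt W n) (x y : W) : P.Val θ H M (r + 1) k s x y =
    𝔼 ω : Om M W, P.Val θ H M r (k + 1) (P.stp θ (hk H k) k s ω) x y := rfl

theorem Val_nonneg (r k : ℕ) (s : ZSt W n) (x y : W) : 0 ≤ P.Val θ H M r k s x y := by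
  induction r generalizing k s with
  | zero => exact acd_nonneg _ _ _ _
  | succ r ih => exact Finset.expect_nonneg fun _ _ => ih _ _

theorem Val_comm (r k : ℕ) (s : ZSt W n) (x y : W) :
    P.Val θ H M r k s x y = P.Val θ H M r k s y x := by
  induction r generalizing k s with
  | zero => exact acd_comm _ _ _ _
  | succ r ih => simp only [Val_succ, ih]

theorem _root_.Crest.Agent.R206.Cx.neM (hc : Cx θ H η M n J) : Nonempty (Fin M) :=
  ⟨⟨0, lt_of_lt_of_le (by positivity) hc.hM⟩⟩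

theorem _root_.Crest.Agent.R206.Lv.th_pos {h : ℝ} (hl : Lv θ h η) : 0 < θ := by
  rcases hl.th with e | e <;> linarith

theorem _root_.Crest.Agent.R206.Lv.th_ge {h : ℝ} (hl : Lv θ h η) : 1 / 10000 ≤ θ := by
  rcases hl.th with e | e <;> linarith

theorem _root_.Crest.Agent.R206.Lv.th_le {h : ℝ} (hl : Lv θ h η) : θ ≤ 2 / 10000 := by
  rcases hl.th with e | e <;> linarith

theorem StpOK.good {h : ℝ} {k : ℕ} (hop : P.StpOK θ h M n k) {s : ZSt W n} (hs : P.Good θ k s)
    (ω : Om M W) : P.Good θ (k + 1) (P.stp θ h k s ω) :=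
  ⟨hs.1.step (hop s ω hs).1, (hop s ω hs).2⟩

/-- TAIL: a bound valid for all close final states is a bound for `Val` -/
theorem Val_ge (hc : Cx θ H η M n J) (hH : 0 ≤ H) (hop : ∀ k < J, P.StpOK θ (hk H k) M n k)
    {x y : W} {a : ℝ} (r : ℕ) : ∀ (k : ℕ) (s : ZSt W n), k + r ≤ J → P.Good θ k s →
    (∀ s' : ZSt W n, P.Good θ (k + r) s' → Close θ P.f s s' (hk H k / 10) →
      a ≤ acd P.G θ P.f s' x y) → a ≤ P.Val θ H M r k s x y := by
  have := hc.neM
  induction r with
  | zero =>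
    intro k s _ hs h
    refine h s hs fun σ v => ?_
    rw [sub_self, abs_zero]
    exact mul_nonneg (by unfold hk; positivity) ((hs.1.lab v).V_nonneg σ)
  | succ r ih =>
    intro k s hk' hs h
    rw [Val_succ]
    refine Finset.le_expect Finset.univ_nonempty fun ω _ => ?_
    have hl := hc.lv k (by omega)
    have ho := hop k (by omega)
    refine ih (k + 1) _ (by omega) (ho.good hs ω) fun s' hs' hcl => ?_
    refine h s' (by rwa [show k + (r + 1) = k + 1 + r by omega]) fun σ v => ?_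
    have h1 := hcl σ v
    have h2 := abs_T_step_le (θ := θ) (f := P.f) (hs.1.lab v) hl.th_pos.le
      ((ho s ω hs).1.amp v) σ
    have h3 := V_step_le (θ := θ) (hs.1.lab v) ((ho s ω hs).1.piece v) σ
    have h4 := abs_sub_le (T θ P.f s' σ v) (T θ P.f (P.stp θ (hk H k) k s ω) σ v) (T θ P.f s σ v)
    have hV := (hs.1.lab v).V_nonneg σ
    have hp := hl.pos
    have h5 : hk H (k + 1) / 10 * (P.stp θ (hk H k) k s ω v).V σ ≤ hk H k / 100 * (s v).V σ := by
      rw [hk_succ]
      refine (mul_le_mul_of_nonneg_left h3 (by positivity)).trans ?_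
      rw [← mul_assoc]
      refine mul_le_mul_of_nonneg_right ?_ hV
      have : hk H k / 2 ^ 60 ≤ hk H k / 20 := by gcongr; norm_num
      linarith
    have h6 : (s v).V σ * (θ * (200 * hk H k)) ≤ hk H k / 25 * (s v).V σ := by
      rw [mul_comm]
      refine mul_le_mul_of_nonneg_right ?_ hV
      nlinarith [hl.th_le]
    have h7 : 0 ≤ hk H k * (s v).V σ := mul_nonneg hp.le hV
    unfold stp at h4 h1 h5
    nlinarith

theorem gap_close {s s' : ZSt W n} {k : ℕ} (hs : P.Good θ k s) {ε : ℝ}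
    (h : Close θ P.f s s' ε) (x y : W) : ZS.gap θ P.f s x y - 2 * ε ≤ ZS.gap θ P.f s' x y := by
  have h3 : ZS.gap θ P.f s x y ≤ avg fun σ =>
      (|T θ P.f s' σ x - T θ P.f s' σ y| + ε * (s x).V σ) + ε * (s y).V σ := by
    refine avg_mono fun σ => ?_
    have h1 := abs_le.1 (h σ x)
    have h2 := abs_le.1 (h σ y)
    rw [abs_le]
    constructor <;>
    linarith [le_abs_self (T θ P.f s' σ x - T θ P.f s' σ y),
      neg_abs_le (T θ P.f s' σ x - T θ P.f s' σ y), h1.1, h1.2, h2.1, h2.2]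
  rw [avg_add, avg_add, avg_const_mul, avg_const_mul, (hs.1.lab x).V_avg,
    (hs.1.lab y).V_avg] at h3
  unfold ZS.gap at h3 ⊢
  linarith

theorem Val_gap (hc : Cx θ H η M n J) (hH : 0 ≤ H) (hop : ∀ k < J, P.StpOK θ (hk H k) M n k)
    {r k : ℕ} {s : ZSt W n} (hkr : k + r ≤ J) (hs : P.Good θ k s) (x y : W) :
    ZS.gap θ P.f s x y - hk H k / 5 ≤ P.Val θ H M r k s x y := by
  refine Val_ge hc hH hop r k s hkr hs fun s' _ hcl => le_trans ?_ (gap_le_acd P.G s' x y)
  have := gap_close hs hcl x y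
  linarith

/-- MEAN -/
theorem Val_mean (hc : Cx θ H η M n J) (hH : 0 ≤ H) (hop : ∀ k < J, P.StpOK θ (hk H k) M n k)
    {r k : ℕ} {s : ZSt W n} (hkr : k + r ≤ J) (hs : P.Good θ k s) (x y : W) :
    |P.f x - P.f y| ≤ P.Val θ H M r k s x y :=
  Val_ge hc hH hop r k s hkr hs fun s' hs' _ => (gap_mean hs'.1 x y).trans (gap_le_acd P.G s' x y)

/-- TILT -/
theorem Val_tilt (hc : Cx θ H η M n J) (hH : 0 ≤ H) (hop : ∀ k < J, P.StpOK θ (hk H k) M n k)
    {r k : ℕ} {s : ZSt W n} (hkr : k + r ≤ J) (hs : P.Good θ k s) {x y : W} (hl : s x = s y)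
    (hθ : 0 ≤ θ) :
    θ * |(s x).G x - (s x).G y| - |P.f x - P.f y| - hk H k / 5 ≤ P.Val θ H M r k s x y := by
  have h1 := Val_gap hc hH hop hkr hs x y
  have h2 := gap_tilt hs.1 (by have := hc.hn; omega) hθ hl
  unfold Gv at h2
  rw [← hl] at h2
  linarith

/-- BARRIER -/
theorem Val_bar (hc : Cx θ H η M n J) (hH : 0 ≤ H) (hop : ∀ k < J, P.StpOK θ (hk H k) M n k)
    {r k : ℕ} {s : ZSt W n} (hkr : k + r ≤ J) (hs : P.Good θ k s) {x y p q : W}
    (S : Set W) (hx : x ∈ S) (hy : y ∉ S)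
    (hS : ∀ a ∈ S, ∀ b, P.G.Adj a b → b ∈ S ∨ P.Anc b p ∨ P.Anc b q)
    (lp : s p = s x) (lq : s q = s x) {Δ : ℝ}
    (hp : P.f p + θ * (s x).G p ≤ P.f x + θ * (s x).G x - Δ)
    (hq : P.f q + θ * (s x).G q ≤ P.f x + θ * (s x).G x - Δ) :
    (Δ - hk H k / 5) / 2 ≤ P.Val θ H M r k s x y := by
  refine Val_ge hc hH hop r k s hkr hs fun s' hs' hcl => ?_
  have hl := hs.1.lab x
  have hkn : k < n := by have := hc.hn; omega
  have h1 : (Δ - hk H k / 5) / 2 = avg fun σ =>
      if sg σ ((s x).ix k) = (s x).ox then (s x).V σ * (Δ - hk H k / 5) else 0 := by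
    rw [avg_ite_sg (F := fun σ => (s x).V σ * (Δ - hk H k / 5))
      (fun σ τ hst => congrArg (· * (Δ - hk H k / 5)) (hl.V_dep σ τ hst))
      (hl.ix_le.trans_lt hkn) _ hl.ox_pm, avg_mul_const, hl.V_avg, one_mul]
  rw [h1]
  refine avg_mono fun σ => ?_
  split_ifs with hσ
  · have hV := hl.V_nonneg σ
    have hoo : (s x).ox * (s x).ox = 1 := by rcases hl.ox_pm with e | e <;> rw [e] <;> norm_num
    have key : ∀ r, s r = s x → P.f r + θ * (s x).G r ≤ P.f x + θ * (s x).G x - Δ →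
        T θ P.f s' σ r ≤ T θ P.f s' σ x - (s x).V σ * (Δ - hk H k / 5) := by
      intro r lr hr
      have t1 := abs_le.1 (hcl σ r)
      have t2 := abs_le.1 (hcl σ x)
      rw [lr] at t1
      have e1 : T θ P.f s σ r = (s x).V σ * (P.f r + θ * (s x).G r) + (s x).c σ := by
        unfold T
        rw [lr, hl.T_eq θ P.f k, hσ, hoo, one_mul]
      have e2 : T θ P.f s σ x = (s x).V σ * (P.f x + θ * (s x).G x) + (s x).c σ := by
        unfold T
        rw [hl.T_eq θ P.f k, hσ, hoo, one_mul]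
      have t3 := mul_le_mul_of_nonneg_left hr hV
      nlinarith [t1.2, t2.1]
    have hmono : ∀ v, T θ P.f s' σ (P.par v) ≤ T θ P.f s' σ v := fun v => by
      by_cases hv : v = P.root
      · rw [hv, P.par_root]
      · have hlt := P.f_lt v hv
        refine hs'.1.T_mono _ _ ⟨fun e => ?_, Or.inr (Or.inl rfl)⟩ hlt.le σ
        rw [e] at hlt; exact lt_irrefl _ hlt
    exact P.cd_barrier hmono S hx hy hS (key p lp hp) (key q lq hq)
  · exact cd_nonneg _ _ _

theorem uPr_type (hc : Cx θ H η M n J) (t : Fin 3) (Q : Jit M → Prop) :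
    uPr Q / 3 ≤ uPr fun ω : Om M W => Q ω.1 ∧ ω.2.1 = t := by
  have := hc.neM
  rw [div_eq_mul_one_div]
  refine le_uPr_prod fun j hj => ?_
  have h1 := le_uPr_prod (A := Fin 3) (B := Set W → Bool) (p := fun b => Q j ∧ b.1 = t)
    (q := fun a => a = t) (e := 1) fun a ha => (uPr_true fun _ => ⟨hj, ha⟩).ge
  rw [uPr_eq_const, Fintype.card_fin, mul_one] at h1
  exact_mod_cast h1

theorem stp_skip {h : ℝ} (k : ℕ) (s : ZSt W n) {ω : Om M W} (hω : ω.2.1 = 0) :
    P.stp θ h k s ω = s := by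
  refine step_skip fun v => if_neg fun h => ?_
  rcases h.1.2 with e | e
  · rw [hω] at e; exact absurd e (by decide)
  · rw [hω] at e; exact absurd e.1 (by decide)

/-- SKIP -/
theorem Val_skip (hc : Cx θ H η M n J) (r k : ℕ) (s : ZSt W n) (x y : W) :
    P.Val θ H M r (k + 1) s x y / 3 ≤ P.Val θ H M (r + 1) k s x y := by
  have := hc.neM
  have h1 := uPr_type (W := W) hc 0 fun _ => True
  rw [uPr_true fun _ => trivial] at h1
  have h2 := uPr_mul_le (p := fun ω : Om M W => True ∧ ω.2.1 = 0)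
    (F := fun ω => P.Val θ H M r (k + 1) (P.stp θ (hk H k) k s ω) x y)
    (c := P.Val θ H M r (k + 1) s x y) (fun _ => Val_nonneg _ _ _ _ _)
    fun ω hω => by rw [stp_skip k s hω.2]
  rw [Val_succ]
  have h3 := mul_le_mul_of_nonneg_right h1 (Val_nonneg (P := P) (θ := θ) (H := H) (M := M) r
    (k + 1) s x y)
  linarith

theorem Good.succ {k : ℕ} {s : ZSt W n} (hs : P.Good θ k s) : P.Good θ (k + 1) s :=
  ⟨⟨fun v => (hs.1.lab v).succ, hs.1.T_avg, hs.1.T_mono⟩, hs.2⟩

/-- MOVE -/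
theorem Val_move (hc : Cx θ H η M n J) (hH : 0 ≤ H) (hop : ∀ k < J, P.StpOK θ (hk H k) M n k)
    {r k : ℕ} (hR : ∀ (j : Jit M) (x : W), x ∈ (P.clJ (hk H k) j x).R) {s : ZSt W n} (hkr : k + (r + 1) ≤ J) (hs : P.Good θ k s) (t : Fin 3) (x y : W) :
    (uPr fun j : Jit M => P.Moves θ (hk H k) s j t x y) * hk H k / 10000000 ≤
      P.Val θ H M (r + 1) k s x y := by
  have := hc.neM
  have hl := hc.lv k (by omega)
  have ho := hop k (by omega)
  set h := hk H k with hh
  let τ : Om M W → Om M W := fun ω => (ω.1, ω.2.1,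
    Function.update ω.2.2 (P.clJ h ω.1 x).R (!ω.2.2 (P.clJ h ω.1 x).R))
  have hτ : Function.Involutive τ := fun ω => by simp [τ]
  have key : ∀ ω : Om M W, P.Moves θ h s ω.1 t x y ∧ ω.2.1 = t →
      θ * (h / 100) ≤ ZS.gap θ P.f (P.stp θ h k s ω) x y + ZS.gap θ P.f (P.stp θ h k s (τ ω)) x y := by
    rintro ⟨j, t', c⟩ ⟨⟨ha, hy, p, hp, hmv⟩, rfl⟩
    simp only at ha hy hp
    refine gap_move hs.1 (by have := hc.hn; omega) hl.th_pos.le ?_ ?_
    · have e1 : ∀ c' : Set W → Bool, c' (P.clJ h j x).R = true →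
          Gn P.f s (P.chs θ h s (j, t', c')) x = p.val P.f x := fun c' hc' =>
        Gn_some (by unfold chs; rw [if_pos ⟨ha, hc'⟩]; exact hp)
      have e2 : ∀ c' : Set W → Bool, c' (P.clJ h j x).R = false →
          Gn P.f s (P.chs θ h s (j, t', c')) x = (s x).G x := fun c' hc' =>
        Gn_none (by unfold chs; exact if_neg fun h => by simp [hc'] at h)
      cases hb : c (P.clJ h j x).R
      · rw [e2 c hb, e1 _ (by simp [hb])]
        exact le_trans (by linarith) (le_abs_self _)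
      · rw [e1 c hb, e2 _ (by simp [hb]), abs_sub_comm]
        exact le_trans (by linarith) (le_abs_self _)
    · have hne : (P.clJ h j y).R ≠ (P.clJ h j x).R := fun e => hy (e ▸ hR j y)
      have e : P.chs θ h s (j, t', c) y = P.chs θ h s (τ (j, t', c)) y := by
        simp only [chs, τ, Function.update_of_ne hne]
      simp only [Gn, e]
  have h1 := pair_flip (p := fun ω : Om M W => P.Moves θ h s ω.1 t x y ∧ ω.2.1 = t)
    (F := fun ω => P.Val θ H M r (k + 1) (P.stp θ h k s ω) x y) (c := h / 1500000)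
    (fun _ => Val_nonneg _ _ _ _ _) τ hτ fun ω hω => by
      have a1 := key ω hω
      have a2 := Val_gap hc hH hop (show k + 1 + r ≤ J by omega) (ho.good hs ω) x y
      have a3 := Val_gap hc hH hop (show k + 1 + r ≤ J by omega) (ho.good hs (τ ω)) x y
      rw [hk_succ, ← hh] at a2 a3
      have a4 : h / 2 ^ 60 ≤ h / 10000000 := by have := hl.pos; gcongr; norm_num
      have a5 : h / 1000000 ≤ θ * (h / 100) := by nlinarith [hl.th_ge, hl.pos]
      linarith [hl.pos]
  have h2 := uPr_type (W := W) hc t fun j : Jit M => P.Moves θ h s j t x y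
  have h3 := mul_le_mul_of_nonneg_right h2 hl.pos.le
  have h4 : 0 ≤ (uPr fun j : Jit M => P.Moves θ h s j t x y) * h :=
    mul_nonneg (uPr_nonneg _) hl.pos.le
  rw [Val_succ]
  linarith

end PS

end Crest.Agent.R206
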