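import Crest.Agent.R206.ZWin2
import Crest.Agent.R206.ZVal

/-! # Row 206 (planar): a pure ball is served by the next two levels. -/

set_option autoImplicit false

namespace Crest.Agent.R206

open scoped BigOperators Classical
open ZS hiding St flip gap

namespace PS

variable {W : Type} [Fintype W] {η : ℝ} {n : ℕ} {P : PS W η} {θ H : ℝ} {M J : ℕ}

theorem sv_pure (hc : Cx θ H η M n J) (hH : 0 ≤ H) (hop : ∀ k < J, P.StpOK θ (hk H k) M n k)
    {r m : ℕ} (hm : m + (r + 2) ≤ J) {s : ZSt W n} (hs : P.Good θ m s) {x y : W}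
    (hρ : 100000 * hk H m ≤ P.d x y) (hp : P.Pure s x (2 * P.d x y)) :
    P.gA θ (hk H (m + 1)) M x * hk H (m + 1) / 10 ^ 30 ≤ P.Val θ H M (r + 2) m s x y := by
  have l0 := hc.lv m (by omega)
  have l1 := hc.lv (m + 1) (by omega)
  have p1 := l1.pos
  have e1 := hk_succ H m
  have e2 := hk_succ H (m + 1)
  have hM : 1000000000 ≤ M := le_trans (by omega) hc.hM
  have g0 := P.gA_nonneg θ (hk H (m + 1)) M x
  have g1 : P.gA θ (hk H (m + 1)) M x ≤ 1 := by rw [gA_eq]; exact uPr_le_one _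
  have g2 : P.gA θ (hk H (m + 1)) M x * hk H (m + 1) ≤ hk H (m + 1) :=
    mul_le_of_le_one_left p1.le g1
  have s1 := Val_skip (P := P) hc (r + 1) m s x y
  have s2 := Val_skip (P := P) hc r (m + 1) s x y
  have hR : ∀ {k}, k < J → ∀ (j : Jit M) (z : W), z ∈ (P.clJ (hk H k) j z).R :=
    fun hk' j z => (sv_cl (hc.lv _ hk') _ _ z).zR
  have m0 := fun t z z' => Val_move hc hH hop (r := r + 1) (hR (by omega)) hm hs t z z'
  have m1 := fun t z z' => Val_move hc hH hop (r := r) (k := m + 1) (hR (by omega)) (by omega)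
    hs.succ t z z'
  by_cases hf : hk H (m + 1) / 40000 ≤ |P.f x - P.f y|
  · linarith [Val_mean hc hH hop hm hs x y]
  rcases sv_cases (M := M) l0 l1 (by linarith) hs.2 hρ hp with
    a | ⟨a, b⟩ | ⟨z, z', a, b⟩ | ⟨z, z', a, b⟩ | a
  · exact absurd a hf
  · have h1 := Val_tilt hc hH hop (r := r) (k := m + 1 + 1) (by omega) hs.succ.succ a l1.th_pos.le
    simp only [Gv, ← a] at b
    have h2 := mul_le_mul l1.th_ge b p1.le l1.th_pos.le
    linarith
  · have h1 := mul_le_mul_of_nonneg_right (MvW_win l0.pos hM b) l0.pos.le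
    have h2 := m0 1 z z'
    rcases a with ⟨rfl, rfl⟩ | ⟨rfl, rfl⟩
    · linarith
    · rw [Val_comm] at h2
      linarith
  · have h1 := mul_le_mul_of_nonneg_right (MvW_win p1 hM b) p1.le
    have h2 := m1 1 z z'
    rcases a with ⟨rfl, rfl⟩ | ⟨rfl, rfl⟩
    · linarith
    · rw [Val_comm] at h2
      linarith
  · by_cases hb : P.Bar θ (hk H (m + 1)) s x y
    · obtain ⟨p, q, b1, b2, b3, b4, b5, b6⟩ := hb
      simp only [Gv, b3, b4] at b5 b6
      have h1 := Val_bar hc hH hop (r := r) (k := m + 1 + 1) (by omega) hs.succ.succ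
        {w | P.Enc p q w} b1 b2 (sv_enc_closed p q) b3 b4 b5 b6
      linarith
    · have h1 := mul_le_mul_of_nonneg_right
        (MvW_gA p1 hM fun b h1 h2 => (a b h1 h2).imp_right fun h => h.resolve_right hb) p1.le
      rw [add_mul, div_mul_eq_mul_div] at h1
      linarith [m1 1 x y, m1 2 x y, mul_nonneg g0 p1.le]

end PS

end Crest.Agent.R206
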