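import Crest.Agent.R206.ZOp4

/-! # Row 206 (planar): the operations O2 and O4 move a point (helper99). -/

set_option autoImplicit false
set_option linter.unusedVariables false

namespace Crest.Agent.R206

open ZS hiding St flip

theorem mv_off_nonneg {a : ℝ} (ha : 0 ≤ a) {M : ℕ} (i : Fin M) : 0 ≤ off a i := by
  unfold off; positivity

theorem mv_off_le {a : ℝ} (ha : 0 ≤ a) {M : ℕ} (i : Fin M) : off a i ≤ a := by
  unfold off
  have hM : (0 : ℝ) < M := by exact_mod_cast i.pos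
  have hi : ((i : ℕ) : ℝ) ≤ M := by exact_mod_cast i.2.le
  rw [div_le_iff₀ hM]
  exact mul_le_mul_of_nonneg_left hi ha

namespace PS

variable {W : Type} {η : ℝ} {P : PS W η} {n : ℕ}

theorem mv_hp0 (θ h u : ℝ) (K : Cl W) (q : Prm W) (w : W) :
    (P.hp θ h u K q 0).val P.f w = q.A - 3 * u := by simp [hp, Piece.val]

theorem mv_hp1 (θ h u : ℝ) (K : Cl W) (q : Prm W) (w : W) :
    (P.hp θ h u K q 1).val P.f w = q.B + (P.f w - K.lo - η) / θ - 4 * u := by
  simp only [hp, Piece.val]; ring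

theorem mv_hp2 (θ h u : ℝ) (K : Cl W) (q : Prm W) (w : W) :
    (P.hp θ h u K q 2).val P.f w = q.B + (K.lo + h - η - P.f w) / θ - 5 * u := by
  simp only [hp, Piece.val]; ring

theorem mv_hp3 (θ h u : ℝ) (K : Cl W) (q : Prm W) (w : W) :
    (P.hp θ h u K q 3).val P.f w = (q.e - P.f w) / θ - 6 * u := by
  simp only [hp, Piece.val]; ring

theorem mv_hp4 (θ h u : ℝ) (K : Cl W) (q : Prm W) (w : W) :
    (P.hp θ h u K q 4).val P.f w = q.B + (P.al K.C w - K.c0 - η) - 7 * u := by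
  simp only [hp, Piece.val]; ring

theorem mv_hp5 (θ h u : ℝ) (K : Cl W) (q : Prm W) (w : W) :
    (P.hp θ h u K q 5).val P.f w = q.B + (K.c0 + 1000 * h - P.al K.C w - η) - 8 * u := by
  simp only [hp, Piece.val]; ring

theorem mv_rp (h u : ℝ) (K : Cl W) (q : Prm W) (w : W) (b : Bool) (v : W) :
    (P.rp h u K q w b).val P.f v =
      q.A + h / 50000 - (if b then 1 else 2) * u - P.ramp h K q b v := by
  simp only [rp, Piece.val]; ring

theorem mv_Qp_ge (h u : ℝ) (K : Cl W) (q : Prm W) (w : W) (b : Bool) :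
    (P.rp h u K q w b).val P.f w ≤ (P.Qp h u K q w).val P.f w := by
  unfold Qp
  split_ifs with c
  · cases b
    · exact c
    · exact le_rfl
  · cases b
    · exact le_rfl
    · exact (not_le.1 c).le

/-- a common lower bound `m > G w` of all pieces forces a move to at least `m` -/
theorem pick_ge {θ h u m : ℝ} {K : Cl W} {q : Prm W} {G : W → ℝ} {w : W} (hG : G w < m)
    (h6 : ∀ k, m ≤ (P.hp θ h u K q k).val P.f w)
    (hr : ∃ b, m ≤ (P.rp h u K q w b).val P.f w) :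
    ∃ p, P.pick θ h u K q G w = some p ∧ m ≤ p.val P.f w := by
  have hM : m ≤ (P.Mp θ h u K q w).val P.f w := by
    unfold Mp
    split_ifs with c
    · exact h6 _
    · obtain ⟨b, hb⟩ := hr
      exact hb.trans (mv_Qp_ge h u K q w b)
  refine ⟨P.Mp θ h u K q w, ?_, hM⟩
  unfold pick
  rw [if_neg (not_le.2 (hG.trans_le hM))]

/-- at a point of `N` -/
theorem pick_ge_N {θ h u m : ℝ} {K : Cl W} {q : Prm W} {G : W → ℝ} {w : W} (hh : 0 ≤ h)
    (hu : 0 ≤ u) (hw : w ∈ q.N) (hG : G w < m - 8 * u) (h0 : m ≤ q.A)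
    (h1 : m ≤ q.B + (P.f w - K.lo - η) / θ) (h2 : m ≤ q.B + (K.lo + h - η - P.f w) / θ)
    (h3 : m ≤ (q.e - P.f w) / θ) (h4 : m ≤ q.B + (P.al K.C w - K.c0 - η))
    (h5 : m ≤ q.B + (K.c0 + 1000 * h - P.al K.C w - η)) :
    ∃ p, P.pick θ h u K q G w = some p ∧ m - 8 * u ≤ p.val P.f w := by
  refine pick_ge hG (fun k => ?_) ⟨true, ?_⟩
  · fin_cases k
    · change _ ≤ (P.hp θ h u K q 0).val P.f w
      rw [mv_hp0]; linarith
    · change _ ≤ (P.hp θ h u K q 1).val P.f w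
      rw [mv_hp1]; linarith
    · change _ ≤ (P.hp θ h u K q 2).val P.f w
      rw [mv_hp2]; linarith
    · change _ ≤ (P.hp θ h u K q 3).val P.f w
      rw [mv_hp3]; linarith
    · change _ ≤ (P.hp θ h u K q 4).val P.f w
      rw [mv_hp4]; linarith
    · change _ ≤ (P.hp θ h u K q 5).val P.f w
      rw [mv_hp5]; linarith
  · rw [mv_rp]
    unfold ramp
    rw [if_pos hw]
    simp only [if_true]
    linarith

/-- O2 moves `w`; `a` is the depth of `G w` above the minimum on the cluster -/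
theorem pick2_move {θ h u a : ℝ} (hL : Lv θ h η) {K : Cl W} {G : W → ℝ} {w : W} (hu : 0 ≤ u)
    (hu' : u ≤ h / 1000) (hw : w ∈ K.C) (hG : G w + h / 50 ≤ n0 K G + a) (h0 : a ≤ 200 * h)
    (h1 : θ * a ≤ P.f w - K.lo - η) (h2 : θ * a ≤ K.lo + h - η - P.f w)
    (h4 : a ≤ P.al K.C w - K.c0 - η) (h5 : a ≤ K.c0 + 1000 * h - P.al K.C w - η) :
    ∃ p, P.pick θ h u K (prm2 θ h K G) G w = some p ∧ G w + h / 100 ≤ p.val P.f w := by
  have hpos := hL.pos
  have hθ : 0 < θ := by rcases hL.th with e | e <;> rw [e] <;> norm_num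
  have hη := P.eta_nonneg
  obtain ⟨p, hp, hv⟩ := pick_ge_N (P := P) (θ := θ) (h := h) (u := u) (m := n0 K G + a) (K := K)
    (q := prm2 θ h K G) (G := G) (w := w) hpos.le hu hw (by linarith)
    (by simp only [prm2]; linarith)
    (by
      have : a ≤ (P.f w - K.lo - η) / θ := by rw [le_div_iff₀ hθ]; linarith
      simp only [prm2]; linarith)
    (by
      have : a ≤ (K.lo + h - η - P.f w) / θ := by rw [le_div_iff₀ hθ]; linarith
      simp only [prm2]; linarith)
    (by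
      simp only [prm2]
      rw [le_div_iff₀ hθ]
      nlinarith)
    (by simp only [prm2]; linarith) (by simp only [prm2]; linarith)
  exact ⟨p, hp, by linarith⟩

/-- O4 moves a point of the core -/
theorem pick4_move {θ h u ν : ℝ} (hL : Lv θ h η) {K : Cl W} {G : W → ℝ} {w : W} (hu : 0 ≤ u)
    (hu' : u ≤ h / 1000) (hwC : w ∈ K.C) (hw : w ∈ P.core θ h K G (n0 K G + ν))
    (h4 : 61 * h ≤ P.al K.C w - K.c0) (h5 : 61 * h ≤ K.c0 + 1000 * h - P.al K.C w) :
    ∃ p, P.pick θ h u K (P.prm4 θ h ν K G) G w = some p ∧ G w + h / 100 ≤ p.val P.f w := by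
  have hpos := hL.pos
  have hθ : 0 < θ := by rcases hL.th with e | e <;> rw [e] <;> norm_num
  have hθ' : θ ≤ 2 / 10000 := by rcases hL.th with e | e <;> rw [e] <;> norm_num
  have hη := P.eta_nonneg
  have hη' := hL.eta
  have hN : w ∈ (P.prm4 θ h ν K G).N :=
    sub_hull (fun _ hv => hv.1) ⟨hwC, w, hw, by rw [dS_self hwC]; linarith⟩
  obtain ⟨_, x1, x2, x3, x4, _⟩ := hw
  have hθh : θ * (60 * h) ≤ 2 / 10000 * (60 * h) := mul_le_mul_of_nonneg_right hθ' (by linarith)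
  obtain ⟨p, hp, hv⟩ := pick_ge_N (P := P) (θ := θ) (h := h) (u := u) (m := n0 K G + ν) (K := K)
    (q := P.prm4 θ h ν K G) (G := G) (w := w) hpos.le hu hN (by linarith)
    (by simp only [prm4]; linarith)
    (by
      have : 60 * h ≤ (P.f w - K.lo - η) / θ := by rw [le_div_iff₀ hθ]; linarith
      simp only [prm4]; linarith)
    (by
      have : 60 * h ≤ (K.lo + h - η - P.f w) / θ := by rw [le_div_iff₀ hθ]; linarith
      simp only [prm4]; linarith)
    (by
      simp only [prm4]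
      rw [le_div_iff₀ hθ]
      linarith)
    (by simp only [prm4]; linarith) (by simp only [prm4]; linarith)
  exact ⟨p, hp, by linarith⟩

variable {M : ℕ}

/-- O2 (type `1`) moves `x` -/
theorem move2 {θ h a : ℝ} (hL : Lv θ h η) {s : ZSt W n} {j : Jit M} {x y : W}
    (hone : ∀ z ∈ (P.clJ h j x).R, s z = s x) (hy : y ∉ (P.clJ h j x).R)
    (hx : x ∈ (P.clJ h j x).C)
    (hG : (s x).G x + h / 50 ≤ n0 (P.clJ h j x) (s x).G + a) (h0 : a ≤ 200 * h)
    (h1 : θ * a ≤ P.f x - (P.clJ h j x).lo - η) (h2 : θ * a ≤ (P.clJ h j x).lo + h - η - P.f x)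
    (h4 : a ≤ P.al (P.clJ h j x).C x - (P.clJ h j x).c0 - η)
    (h5 : a ≤ (P.clJ h j x).c0 + 1000 * h - P.al (P.clJ h j x).C x - η) :
    P.Moves θ h s j 1 x y := by
  have hpos := hL.pos
  refine ⟨⟨hone, Or.inl rfl⟩, hy, ?_⟩
  unfold pickJ prmJ
  rw [if_pos rfl]
  exact pick2_move hL (mv_off_nonneg (by linarith) _) (mv_off_le (by linarith) _) hx hG h0 h1 h2
    h4 h5

/-- O4 (type `2`) moves `x` -/
theorem move4 {θ h : ℝ} (hL : Lv θ h η) {s : ZSt W n} {j : Jit M} {x y : W}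
    (hone : ∀ z ∈ (P.clJ h j x).R, s z = s x) (hy : y ∉ (P.clJ h j x).R)
    (hU : P.UOn (P.clJ h j x).C (s x).G) (hx : x ∈ (P.clJ h j x).C)
    (hc : x ∈ P.core θ h (P.clJ h j x) (s x).G
      (n0 (P.clJ h j x) (s x).G + off (10000 * h) j.2.2.1))
    (h4 : 61 * h ≤ P.al (P.clJ h j x).C x - (P.clJ h j x).c0)
    (h5 : 61 * h ≤ (P.clJ h j x).c0 + 1000 * h - P.al (P.clJ h j x).C x) :
    P.Moves θ h s j 2 x y := by
  have hpos := hL.pos
  refine ⟨⟨hone, Or.inr ⟨rfl, hU⟩⟩, hy, ?_⟩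
  unfold pickJ prmJ
  rw [if_neg (by decide)]
  exact pick4_move hL (mv_off_nonneg (by linarith) _) (mv_off_le (by linarith) _) hx hc h4 h5

end PS

end Crest.Agent.R206
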