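import Crest.Agent.R206.SvCase
import Crest.Agent.R206.ZClH
import Crest.Agent.R206.ZMove

/-! # Row 206 (planar): the last serving case (label of kind U at level `m + 1`). -/

set_option autoImplicit false

namespace Crest.Agent.R206

open scoped BigOperators Classical
open ZS hiding St flip gap

namespace PS

variable {W : Type} {η : ℝ} {n M : ℕ} {P : PS W η}

/-- the band component lies in the domain of a label of kind U -/
theorem su_UOn {h ob r : ℝ} (hh : 0 < h) {s : ZSt W n} {x : W} (hU : P.IsU (s x))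
    (hx : x ∈ (s x).dom) (hp : P.Pure s x r) (hr : h ≤ r) : P.UOn (P.bandC h ob x) (s x).G := by
  obtain ⟨κ, hκ, hO, hcl⟩ := hU
  have hx' : x ∈ κ.dom := by simpa [Lab.dom, hκ] using hx
  obtain ⟨b1, b2⟩ := hp.2 κ hκ
  have hsub : P.bandC h ob x ⊆ κ.dom := by
    have key : ∀ {v L}, P.Wk (P.band (flo h ob (P.f x)) (flo h ob (P.f x) + h)) x v L →
        v ∈ κ.dom := by
      intro v L hw
      induction hw with
      | nil _ => exact hx'
      | @snoc v w L _ a hb ih =>
        have e := abs_le.1 (band_abs hb (c94_mem_band_flo (P := P) hh ob x))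
        exact hcl v ih w a (by linarith [e.1]) (by linarith [e.2])
    rintro v ⟨L, hw⟩
    exact key hw
  exact ⟨fun u hu v hv a => hO.1 u (hsub hu) v (hsub hv) a,
    fun p hp q hq w hw e => hO.2 p (hsub hp) q (hsub hq) w (hsub hw) e⟩

theorem su_lip {C : Set W} {G : W → ℝ} (hG : P.Lip 1 C G) (hC : P.Conn C) {u v : W} (hu : u ∈ C)
    (hv : v ∈ C) : G v ≤ G u + P.dS C u v := by
  have := lip_dS (hC u hu v hv) G one_pos fun a ha b hb ab => by
    have := abs_le.1 (hG a ha b hb ab)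
    linarith [this.1]
  linarith

theorem su_n0_ge {K : Cl W} {G : W → ℝ} {m : ℝ} {x : W} (hx : x ∈ K.R) (h : ∀ w ∈ K.R, m ≤ G w) :
    m ≤ n0 K G := le_csInf ⟨_, x, hx, rfl⟩ (by rintro _ ⟨w, hw, rfl⟩; exact h w hw)

theorem su_n0_le [Finite W] {K : Cl W} {G : W → ℝ} {x : W} (hx : x ∈ K.R) : n0 K G ≤ G x :=
  csInf_le (Set.toFinite _).bddBelow ⟨x, hx, rfl⟩

section

variable [Finite W] {θ h r : ℝ} {s : ZSt W n} {x y : W}

theorem su_one (l : Lv θ h η) (hp : P.Pure s x r) (hr : 20000 * h ≤ r) (j : Jit M) :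
    ∀ z ∈ (P.clJ h j x).R, s z = s x := fun z hz => by
  obtain ⟨L, h1, h2⟩ := c94_cl_wk_univ l (c94_clJ_mem l.pos j x) hz
  exact hp.1 z L h1 (by linarith [l.pos])

theorem su_far (l : Lv θ h η) (hd : 10000 * h ≤ P.d x y) (j : Jit M) : y ∉ (P.clJ h j x).R :=
  fun hy => by
    have := c94_cl_d l (c94_clJ_mem l.pos j x) hy
    linarith [l.pos]

/-- O2 moves `x` when an enclosing chord is far compared with the drop of `G` -/
theorem su_mv2 (l : Lv θ h η) (hp : P.Pure s x r) (hr : 20000 * h ≤ r) (hd : 10000 * h ≤ P.d x y)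
    (b : Fin M) (hw : P.Win h (off h b) x) (hU : P.UOn (P.bandC h (off h b) x) (s x).G) {p q : W}
    (hpC : p ∈ P.bandC h (off h b) x) (hqC : q ∈ P.bandC h (off h b) x) (e : P.Enc p q x)
    (h1 : (s x).G x - (s x).G p ≤ P.dS (P.bandC h (off h b) x) x p - 5 * h)
    (h2 : (s x).G x - (s x).G p ≤ 195 * h) : P.MvW θ h s b 1 x y := by
  have hh := l.pos
  have hη := l.eta
  have hη0 := P.eta_nonneg
  have hθ : 0 < θ ∧ θ ≤ 2 / 10000 := by rcases l.th with t | t <;> rw [t] <;> norm_num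
  set C := P.bandC h (off h b) x with hC
  have hxC : x ∈ C := c94_bandC_mem hh _ x
  have hc : P.Conn C := c94_bandC_conn P _ _ _
  have hv : P.Cvx C := c94_bandC_cvx P _ _ _
  have hab : ∀ u ∈ C, ∀ v ∈ C, |P.f u - P.f v| ≤ h := fun u hu v hv => c94_bandC_abs hu hv
  have g0 : -h ≤ (s x).G x - (s x).G p := by
    have := hU.2 p hpC q hqC x hxC e
    have := hab p hpC x hxC
    linarith
  have hal := c94_al_enc hc hv hab hpC hqC hxC e
  refine ⟨(s x).G x - (s x).G p + 11 / 10 * h, by linarith, by linarith, fun i d1 d2 =>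
    ⟨0, le_rfl, by linarith, fun k u _ _ => ?_⟩⟩
  set K := P.clJ h (b, i, k, u) x with hK
  have eC : K.C = C := rfl
  have elo : K.lo = flo h (off h b) (P.f x) := rfl
  have ed : P.sdep h (off h b) (off (1000 * h) i) x = P.al C x - K.c0 := rfl
  rw [ed] at d1 d2
  have henc : ∀ w ∈ K.R, P.Enc p q w := by
    have hcol : ∀ z ∈ K.R, ¬ (P.Anc z p ∨ P.Anc z q) := fun z hz a => by
      have hzC : z ∈ C := c94_cl_sub P _ _ _ _ hz
      have a1 := abs_le.1 (c94_al_wk hc (hv.wk_col hpC hqC hzC e.1 a))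
      have a2 : K.c0 ≤ P.al C z := (c94_cl_al hz).1
      have a3 := hab z hzC p hpC
      linarith [a1.2]
    exact c94_cl_enc hh e fun z hz => not_or.1 (hcol z hz)
  have hn : (s x).G p - h ≤ n0 K (s x).G := su_n0_ge (c94_clJ_mem hh _ x) fun w hw => by
    have hwC : w ∈ C := c94_cl_sub P _ _ _ _ hw
    have := hU.2 p hpC q hqC w hwC (henc w hw)
    have := hab p hpC w hwC
    linarith
  have ha : θ * ((s x).G x - (s x).G p + 102 / 100 * h) ≤ h / 10 := by
    have : θ * ((s x).G x - (s x).G p + 102 / 100 * h) ≤ θ * (200 * h) :=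
      mul_le_mul_of_nonneg_left (by linarith) hθ.1.le
    have : θ * (200 * h) ≤ 2 / 10000 * (200 * h) :=
      mul_le_mul_of_nonneg_right hθ.2 (by linarith)
    linarith
  refine move2 (a := (s x).G x - (s x).G p + 102 / 100 * h) l (su_one l hp hr _) (su_far l hd _) hxC
    (by rw [← hK]; linarith) (by linarith) ?_ ?_ ?_ ?_
  · rw [← hK, elo]; linarith [hw.1]
  · rw [← hK, elo]; linarith [hw.2]
  · rw [← hK, eC]; linarith
  · rw [← hK, eC]; linarith

/-- O4 moves an unobstructed point -/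
theorem su_mv4 (l : Lv θ h η) (hp : P.Pure s x r) (hr : 20000 * h ≤ r) (hd : 10000 * h ≤ P.d x y)
    (b : Fin M) (hw : P.Win h (off h b) x) (hU : P.UOn (P.bandC h (off h b) x) (s x).G)
    (ho : ¬ P.Obs θ h (P.bandC h (off h b) x) (s x).G x) : P.MvW θ h s b 2 x y := by
  have hh := l.pos
  set C := P.bandC h (off h b) x with hC
  have hxC : x ∈ C := c94_bandC_mem hh _ x
  have hc : P.Conn C := c94_bandC_conn P _ _ _
  refine ⟨100 * h, by linarith, by linarith, fun i d1 d2 => ?_⟩
  set K := P.cl h (off h b) (off (1000 * h) i) x with hK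
  have hxR : x ∈ K.R := c94_cl_mem hh _ _ x
  have ed : P.sdep h (off h b) (off (1000 * h) i) x = P.al C x - K.c0 := rfl
  rw [ed] at d1 d2
  have n1 : n0 K (s x).G ≤ (s x).G x := su_n0_le hxR
  have n2 : (s x).G x - 4009 * h ≤ n0 K (s x).G := su_n0_ge hxR fun w hw => by
    have a1 := su_lip hU.1 hc (c94_cl_sub P _ _ _ _ hw) hxC
    have a2 : P.dS C w x ≤ 4009 * h := c94_cl_diam l hw hxR
    linarith
  refine ⟨(s x).G x - n0 K (s x).G + h / 50, by linarith, by linarith, fun k u k1 k2 => ?_⟩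
  have eK : P.clJ h (b, i, k, u) x = K := rfl
  refine move4 l (su_one l hp hr _) (su_far l hd _) hU hxC ?_ ?_ ?_
  · rw [eK]
    refine ⟨hxR, hw.1, hw.2, ?_, ?_, ho⟩
    · change n0 K (s x).G + off (10000 * h) k - h / 25 ≤ _
      linarith
    · change _ ≤ n0 K (s x).G + off (10000 * h) k - h / 50
      linarith
  · rw [eK]; change 61 * h ≤ P.al C x - K.c0; linarith
  · rw [eK]; change 61 * h ≤ K.c0 + 1000 * h - P.al C x; linarith

/-- the last branch of `sv_cases` -/
theorem sv_U (l : Lv θ h η) (hU : P.IsU (s x)) (hx : x ∈ (s x).dom) (hp : P.Pure s x r)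
    (hr : 20000 * h ≤ r) (hd : 10000 * h ≤ P.d x y)
    (hno : ∀ p q, P.Enc p q y → P.d x p ≤ 200 * h → False) (b : Fin M)
    (hw : P.Win h (off h b) x) (hg : P.GA θ h (off h b) x) :
    P.MvW θ h s b 1 x y ∨ P.MvW θ h s b 2 x y ∨ P.Bar θ h s x y := by
  have hh := l.pos
  have hO : P.UOn (P.bandC h (off h b) x) (s x).G := su_UOn hh hU hx hp (by linarith)
  set C := P.bandC h (off h b) x with hC
  have hxC : x ∈ C := c94_bandC_mem hh _ x
  have hc : P.Conn C := c94_bandC_conn P _ _ _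
  rcases hg with ⟨ht, hI⟩ | ⟨ht, hI⟩
  · by_cases ho : P.Obs θ h C (s x).G x
    · obtain ⟨p, hpC, q, hqC, e, o1, o2, o3⟩ := ho
      have a1 := su_lip hO.1 hc hpC hxC
      rw [P.dS_comm C p x] at a1
      have a2 : 200 * h < P.dS C x p := by
        by_contra a2
        have a3 := hI p hpC q hqC e o1 (not_lt.1 a2)
        rw [ht] at o3
        linarith
      exact Or.inl (su_mv2 l hp hr hd b hw hO hpC hqC e (by linarith) (by linarith))
    · exact Or.inr (Or.inl (su_mv4 l hp hr hd b hw hO ho))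
  · unfold AltI at hI
    push Not at hI
    obtain ⟨p, hpC, q, hqC, e, o1, o2, o3⟩ := hI
    by_cases a1 : (s x).G x - (s x).G p ≤ P.dS C x p - 5 * h
    · exact Or.inl (su_mv2 l hp hr hd b hw hO hpC hqC e a1 (by linarith))
    · right; right
      obtain ⟨L, w1, w2⟩ := exists_wk_lt (hc x hxC p hpC) (show P.dS C x p < 201 * h by linarith)
      have w3 := w1.mono (Set.subset_univ _)
      have sp : s p = s x := hp.1 p L w3 (by linarith)
      have sq : s q = s x := hp.1 q _ (w3.append (wk_ch trivial trivial e.1)) (by linarith)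
      have gq : (s x).G q = (s x).G p := by
        have := hO.1 p hpC q hqC (ch_adj e.1)
        rw [P.ch_f p q e.1, sub_self, abs_zero, mul_zero, abs_nonpos_iff, sub_eq_zero] at this
        exact this.symm
      have dp : P.d x p ≤ 200 * h := (dS_anti (Set.subset_univ _) ⟨L, w1⟩).trans o2
      have key : P.f p + θ * (s x).G p ≤ P.f x + θ * (s x).G x - 9 * h / 10000 := by
        rw [ht]; linarith
      refine ⟨p, q, e, fun ey => hno p q ey dp, sp, sq, ?_, ?_⟩
      · unfold Gv; rw [sp]; exact key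
      · unfold Gv; rw [sq, gq, ← P.ch_f p q e.1]; exact key

end

end PS

end Crest.Agent.R206
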