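import Crest.Agent.R206.TDefs

/-! Row 206: basic facts on walks, ancestors and `dP`. -/

set_option autoImplicit false
set_option linter.dupNamespace false
set_option linter.unusedSectionVars false

namespace Crest.Agent.R206

open Finset

variable {V : Type} [Fintype V] [DecidableEq V] {k : ℕ}

theorem dP_comm (m f g : Finset V → ℝ) : dP m f g = dP m g f := by
  simp only [dP, abs_sub_comm (f _)]

theorem dP_nonneg {m : Finset V → ℝ} (hm : ∀ X, 0 ≤ m X) (f g : Finset V → ℝ) : 0 ≤ dP m f g := by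
  exact Finset.sum_nonneg fun X _ => mul_nonneg (hm X) (abs_nonneg _)

theorem dP_self (m f : Finset V → ℝ) : dP m f f = 0 := by
  simp [dP, Ex]

theorem dP_tri {m : Finset V → ℝ} (hm : ∀ X, 0 ≤ m X) (f g h : Finset V → ℝ) :
    dP m f h ≤ dP m f g + dP m g h := by
  simp only [dP, Ex, ← Finset.sum_add_distrib, ← mul_add]
  exact Finset.sum_le_sum fun X _ => mul_le_mul_of_nonneg_left (abs_sub_le _ _ _) (hm X)

theorem SameOn.mono {A A' : Finset V} {m m' : Finset V → ℝ} (h : SameOn A m m') (hA : A' ⊆ A) :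
    SameOn A' m m' := by
  intro g
  have e : tr A (tr A' g) = tr A' g := by
    funext X
    simp only [tr, Finset.inter_assoc, Finset.inter_eq_right.2 hA]
  have := h (tr A' g)
  rwa [e] at this

theorem tr_ind {A : Finset V} {v : V} (hv : v ∈ A) : tr A (ind v) = ind v := by
  funext X
  simp [tr, ind, hv]

theorem tr_tr {A A' : Finset V} (hA : A' ⊆ A) (h : Finset V → ℝ) : tr A (tr A' h) = tr A' h := by
  funext X
  simp only [tr, Finset.inter_assoc, Finset.inter_eq_right.2 hA]

namespace ET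

variable (T : ET V k)

theorem d_nonneg (x y : V) : 0 ≤ T.d x y := by
  have h := T.d_tri x y x
  rw [T.d_self, T.d_comm y x] at h
  linarith

theorem geo' (x y : V) : T.Pa Set.univ x y (T.d x y) := T.geo x y

theorem Pa.mono {T : ET V k} {S S' : Set V} {x y : V} {r r' : ℝ} (h : T.Pa S x y r) (hS : S ⊆ S')
    (hr : r ≤ r') : T.Pa S' x y r' := by
  unfold Pa at h ⊢
  induction h generalizing r' with
  | refl x r hx h0 => exact Pth.refl x r' (hS hx) (h0.trans hr)
  | step x y z r hx hR _ ih =>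
    have := Pth.step x y z (r' - T.d x y) (hS hx) hR (ih (by linarith))
    rwa [add_sub_cancel] at this

theorem Pa.left_mem {T : ET V k} {S : Set V} {x y : V} {r : ℝ} (h : T.Pa S x y r) : x ∈ S := by
  unfold Pa at h
  cases h with
  | refl _ _ hx _ => exact hx
  | step _ _ _ _ hx _ _ => exact hx

theorem Pa.right_mem {T : ET V k} {S : Set V} {x y : V} {r : ℝ} (h : T.Pa S x y r) : y ∈ S := by
  unfold Pa at h
  induction h with
  | refl _ _ hx _ => exact hx
  | step _ _ _ _ _ _ _ ih => exact ih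

theorem Pa.d_le {T : ET V k} {S : Set V} {x y : V} {r : ℝ} (h : T.Pa S x y r) : T.d x y ≤ r := by
  unfold Pa at h
  induction h with
  | refl x r _ h0 => rw [T.d_self]; exact h0
  | step x y z r _ _ _ ih => linarith [T.d_tri x y z]

theorem Pa.trans {T : ET V k} {S : Set V} {x y z : V} {r s : ℝ} (h : T.Pa S x y r)
    (h' : T.Pa S y z s) : T.Pa S x z (r + s) := by
  unfold Pa at h
  induction h with
  | refl x r _ h0 => exact h'.mono subset_rfl (by linarith)
  | step x y z r hx hR _ ih =>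
    rw [add_assoc]
    exact Pth.step _ _ _ _ hx hR (ih h')

theorem Pa.symm {T : ET V k} {S : Set V} {x y : V} {r : ℝ} (h : T.Pa S x y r) : T.Pa S y x r := by
  unfold Pa at h
  induction h with
  | refl x r hx h0 => exact Pth.refl x r hx h0
  | step x y z r hx hR h1 ih =>
    have h2 : T.Pa S y x (T.d y x + 0) :=
      Pth.step y x x 0 (Pa.left_mem (T := T) h1) hR.symm (Pth.refl x 0 hx le_rfl)
    exact (Pa.trans ih h2).mono subset_rfl (by rw [T.d_comm y x]; linarith)

/-- every vertex of the walk splits it -/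
theorem Pa.restrict {T : ET V k} {S : Set V} {x y : V} {r : ℝ} (h : T.Pa S x y r) :
    T.Pa {z | ∃ r₁ r₂, r₁ + r₂ ≤ r ∧ T.Pa S x z r₁ ∧ T.Pa S z y r₂} x y r := by
  unfold Pa at h
  induction h with
  | refl x r hx h0 =>
    exact Pth.refl x r ⟨0, r, by linarith, Pth.refl x 0 hx le_rfl, Pth.refl x r hx h0⟩ h0
  | step x y z r hx hR h1 ih =>
    refine Pth.step x y z r ⟨0, T.d x y + r, by linarith, Pth.refl x 0 hx le_rfl,
      Pth.step x y z r hx hR h1⟩ hR (Pa.mono ih ?_ le_rfl)
    rintro w ⟨r₁, r₂, hr, a, b⟩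
    exact ⟨T.d x y + r₁, r₂, by linarith, Pth.step x y w r₁ hx hR a, b⟩

theorem anc_refl (v : V) : T.Anc v v := by
  exact ⟨0, rfl⟩

theorem anc_root (v : V) : T.Anc T.root v := by
  induction h : T.dep v using Nat.strong_induction_on generalizing v with
  | _ n ih =>
    by_cases hv : v = T.root
    · exact ⟨0, hv⟩
    · obtain ⟨m, hm⟩ := ih (T.dep (T.par v)) (by have := T.dep_par v hv; omega) (T.par v) rfl
      exact ⟨m + 1, hm⟩

theorem Anc.trans {T : ET V k} {u v w : V} (h : T.Anc u v) (h' : T.Anc v w) : T.Anc u w := by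
  obtain ⟨m, rfl⟩ := h
  obtain ⟨n, rfl⟩ := h'
  exact ⟨m + n, Function.iterate_add_apply _ _ _ _⟩

theorem anc_par (v : V) : T.Anc (T.par v) v := by
  exact ⟨1, rfl⟩

theorem Anc.cases {T : ET V k} {u v : V} (h : T.Anc u v) :
    u = v ∨ (v ≠ T.root ∧ T.Anc u (T.par v)) := by
  obtain ⟨n, hn⟩ := h
  by_cases hv : v = T.root
  · left
    rw [← hn, hv]
    exact Function.iterate_fixed T.par_root n
  · cases n with
    | zero => exact Or.inl hn.symm
    | succ n => exact Or.inr ⟨hv, n, hn⟩

theorem Anc.h97_lt {T : ET V k} {u v : V} (h : T.Anc u v) : u = v ∨ T.dep u < T.dep v := by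
  induction hn : T.dep v using Nat.strong_induction_on generalizing v with
  | _ n ih =>
    rcases h.cases with e | ⟨hv, h1⟩
    · exact Or.inl e
    · have h2 := T.dep_par v hv
      right
      rcases ih (T.dep (T.par v)) (by omega) h1 rfl with e | e
      · rw [e]; omega
      · omega

theorem Anc.dep_le {T : ET V k} {u v : V} (h : T.Anc u v) : T.dep u ≤ T.dep v := by
  rcases h.h97_lt with rfl | h
  exacts [le_rfl, h.le]

theorem Anc.eq_of_dep {T : ET V k} {u v : V} (h : T.Anc u v) (hd : T.dep v ≤ T.dep u) : u = v := by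
  exact h.h97_lt.resolve_right hd.not_gt

theorem Anc.total {T : ET V k} {u v w : V} (h : T.Anc u w) (h' : T.Anc v w) :
    T.Anc u v ∨ T.Anc v u := by
  obtain ⟨m, rfl⟩ := h
  obtain ⟨n, rfl⟩ := h'
  rcases le_total m n with e | e
  · obtain ⟨c, rfl⟩ := Nat.exists_eq_add_of_le' e
    exact Or.inr ⟨c, (Function.iterate_add_apply _ _ _ _).symm⟩
  · obtain ⟨c, rfl⟩ := Nat.exists_eq_add_of_le' e
    exact Or.inl ⟨c, (Function.iterate_add_apply _ _ _ _).symm⟩

theorem anc_of_mem {u v : V} (h : u ∈ T.A v) : T.Anc u v ∧ T.dep u < T.dep v := by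
  induction hn : T.dep v using Nat.strong_induction_on generalizing v with
  | _ n ih =>
    have hv : v ≠ T.root := by
      rintro rfl
      rw [T.A_root] at h
      exact notMem_empty _ h
    have h2 := T.dep_par v hv
    rcases mem_insert.1 (T.A_sub v hv h) with rfl | h1
    · exact ⟨T.anc_par v, by omega⟩
    · obtain ⟨h3, h4⟩ := ih (T.dep (T.par v)) (by omega) h1 rfl
      exact ⟨h3.trans (T.anc_par v), by omega⟩

theorem not_anc_of_mem {u v : V} (h : u ∈ T.A v) : ¬ T.Anc v u := by
  exact fun h' => (T.anc_of_mem h).2.not_ge h'.dep_le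

/-- induction from `y` up to `v` with `A_sub` -/
theorem mem_A_of {v y z : V} (hy : T.Anc v y) (hz : z ∈ T.A y) (h : ¬ T.Anc v z) : z ∈ T.A v := by
  induction hn : T.dep y using Nat.strong_induction_on generalizing y with
  | _ n ih =>
    rcases hy.cases with rfl | ⟨hr, h1⟩
    · exact hz
    · have h2 := T.dep_par y hr
      rcases mem_insert.1 (T.A_sub y hr hz) with rfl | h3
      · exact absurd h1 h
      · exact ih (T.dep (T.par y)) (by omega) h1 h3 rfl

theorem B_card (v : V) : (T.B v).card ≤ k := by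
  exact (card_insert_le _ _).trans (T.A_card v)

theorem A_sub_B {v : V} (hv : v ≠ T.root) : T.A v ⊆ T.B (T.par v) := T.A_sub v hv

/-- a walk that leaves the subtree of `v` meets `A v` -/
theorem Pa.sep {T : ET V k} {S : Set V} {v x y : V} {r : ℝ} (h : T.Pa S x y r) (hx : T.Anc v x)
    (hy : ¬ T.Anc v y) : ∃ a ∈ T.A v, a ∈ S := by
  unfold Pa at h
  induction h with
  | refl x r _ _ => exact absurd hx hy
  | step x y z r _ hR h1 ih =>
    by_cases hvy : T.Anc v y
    · exact ih hvy hy
    · rcases hR with hR | hR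
      · exact absurd (hx.trans (T.anc_of_mem hR).1) hvy
      · exact ⟨y, T.mem_A_of hx hR hvy, Pa.left_mem (T := T) h1⟩

theorem A_nonempty {v : V} (hv : v ≠ T.root) : (T.A v).Nonempty := by
  obtain ⟨a, ha, -⟩ := (T.geo' v T.root).sep (T.anc_refl v) fun h =>
    hv (h.eq_of_dep (T.anc_root v).dep_le)
  exact ⟨a, ha⟩

theorem exists_chain {u v : V} (h : T.Anc u v) :
    ∃ (γ : ℕ → V) (n : ℕ), T.Chain γ n ∧ γ 0 = u ∧ γ n = v := by
  induction hn : T.dep v using Nat.strong_induction_on generalizing v with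
  | _ n ih =>
    rcases h.cases with rfl | ⟨hr, h1⟩
    · exact ⟨fun _ => u, 0, fun i hi => absurd hi (Nat.not_lt_zero i), rfl, rfl⟩
    · have h2 := T.dep_par v hr
      obtain ⟨γ, m, hc, h0, hm⟩ := ih (T.dep (T.par v)) (by omega) h1 rfl
      refine ⟨fun i => if i ≤ m then γ i else v, m + 1, fun i hi => ?_, by simp [h0], by simp⟩
      rcases (Nat.lt_succ_iff.1 hi).eq_or_lt with rfl | e
      · simp [hr, hm]
      · simpa [e.le, Nat.succ_le_of_lt e] using hc i e

theorem Chain.anc {T : ET V k} {γ : ℕ → V} {n i j : ℕ} (h : T.Chain γ n) (hij : i ≤ j)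
    (hj : j ≤ n) : T.Anc (γ i) (γ j) := by
  induction j, hij using Nat.le_induction with
  | base => exact T.anc_refl _
  | succ j _ ih =>
    refine (ih (by omega)).trans ?_
    rw [← (h j (by omega)).2]
    exact T.anc_par _

theorem Chain.shift {T : ET V k} {γ : ℕ → V} {n i j : ℕ} (h : T.Chain γ n) (hj : i + j ≤ n) :
    T.Chain (fun s => γ (i + s)) j := by
  exact fun s hs => h (i + s) (by omega)

/-- the upper bound for all pairs: induction along `geo` -/
theorem Cert.lip_all {T : ET V k} {K ab : ℝ} {P : Finset V → ℝ} (h : T.Cert K ab P) (x y : V) :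
    dP P (ind x) (ind y) ≤ T.d x y := by
  have key : ∀ {x y : V} {r : ℝ}, Pth (fun u v => u ∈ T.A v ∨ v ∈ T.A u) T.d Set.univ x y r →
      dP P (ind x) (ind y) ≤ r := by
    intro x y r hp
    induction hp with
    | refl x r _ hr => rw [dP_self]; exact hr
    | step x y z r _ hR _ ih =>
      have h1 : dP P (ind x) (ind y) ≤ T.d x y := by
        rcases hR with hR | hR
        · exact h.lip y x (mem_insert_of_mem hR) y (mem_insert_self _ _)
        · exact h.lip x x (mem_insert_self _ _) y (mem_insert_of_mem hR)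
      exact (dP_tri h.nonneg _ (ind y) _).trans (add_le_add h1 ih)
  exact key (T.geo x y)

theorem on_congr {K : ℝ} {m m' : Finset V → ℝ} {v : V} (h : SameOn (T.A v) m m') (j : ℤ) :
    T.On K m v j ↔ T.On K m' v j := by
  simp only [On, Rel, h _]

/-- `Rel` has at most `k * k + 2 ^ 2 ^ k` values (`Ex m (tr A h)` depends only on the set of
subsets of `A` where `h = 1`), each positive value switches on at most `17` scales -/
theorem on_card {K : ℝ} (hK : 2 ≤ K) (m : Finset V → ℝ) (v : V) :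
    ∃ J : Finset ℤ, J.card ≤ 17 * (k * k + 2 ^ 2 ^ k) ∧ ∀ j, j ∈ J ↔ T.On K m v j := by
  classical
  have hK1 : 1 < K := by linarith
  have h17 : ∀ ρ : ℝ, ∃ J : Finset ℤ, J.card ≤ 17 ∧
      ∀ j : ℤ, K ^ (j - 8) ≤ ρ → ρ ≤ K ^ (j + 8) → j ∈ J := fun ρ => by
    rcases le_or_gt ρ 0 with h0 | h0
    · exact ⟨∅, by simp, fun j h1 _ => absurd ((zpow_pos (by linarith) _).trans_le h1) h0.not_gt⟩
    obtain ⟨n, h1, h2⟩ := exists_mem_Ico_zpow h0 hK1
    refine ⟨Finset.Icc (n - 8) (n + 8), by rw [Int.card_Icc]; omega, fun j a b => ?_⟩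
    have a' := (zpow_lt_zpow_iff_right₀ hK1).1 (a.trans_lt h2)
    have b' := (zpow_le_zpow_iff_right₀ hK1).1 (h1.trans b)
    rw [Finset.mem_Icc]
    omega
  choose Jf hJ hJ' using h17
  let S : Finset ℝ := (T.B v ×ˢ T.B v).image (fun p => T.d p.1 p.2) ∪
    (T.A v).powerset.powerset.image fun s => Ex m fun X => if X ∩ T.A v ∈ s then 1 else 0
  have hS : S.card ≤ k * k + 2 ^ 2 ^ k := by
    refine (card_union_le _ _).trans (add_le_add (card_image_le.trans ?_) (card_image_le.trans ?_))
    · rw [card_product]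
      exact Nat.mul_le_mul (T.B_card v) (T.B_card v)
    · rw [card_powerset, card_powerset]
      exact Nat.pow_le_pow_right two_pos (Nat.pow_le_pow_right two_pos (T.A_card v).le)
  have hR : ∀ ρ, T.Rel m v ρ → ρ ∈ S := by
    rintro ρ (⟨u, hu, w, hw, rfl⟩ | ⟨h, h01, rfl⟩)
    · exact mem_union_left _ (mem_image.2 ⟨(u, w), mem_product.2 ⟨hu, hw⟩, rfl⟩)
    · refine mem_union_right _ (mem_image.2 ⟨(T.A v).powerset.filter fun Y => h Y = 1,
        mem_powerset.2 (filter_subset _ _), ?_⟩)
      congr 1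
      funext X
      simp only [tr, mem_filter, mem_powerset, inter_subset_right, true_and]
      rcases h01 (X ∩ T.A v) with e | e <;> simp [e]
  refine ⟨(S.biUnion Jf).filter (T.On K m v), ?_, fun j => ⟨fun h => (mem_filter.1 h).2, ?_⟩⟩
  · refine (card_filter_le _ _).trans ((card_biUnion_le_card_mul _ _ 17 fun ρ _ => hJ ρ).trans ?_)
    rw [mul_comm]
    exact Nat.mul_le_mul_left _ hS
  · intro h
    refine mem_filter.2 ⟨?_, h⟩
    obtain ⟨ρ, h1, h2, h3⟩ := h
    exact mem_biUnion.2 ⟨ρ, hR ρ h1, hJ' ρ j h2 h3⟩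

end ET

end Crest.Agent.R206
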