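import Crest.Agent.R206.TCut

/-! Row 206: the engine (invariant (H) of helper15). -/

set_option autoImplicit false
set_option linter.dupNamespace false
set_option linter.unusedSectionVars false

namespace Crest.Agent.R206

open Finset

variable {V : Type} [Fintype V] [DecidableEq V] {k : ℕ}

variable {ι : Type} [DecidableEq ι] {d : V → V → ℝ} {M ab : ℝ}

theorem abar_pos (k N : ℕ) : 0 < abar k N := by
  unfold abar
  positivity

theorem abar_le (k N : ℕ) : abar k N ≤ 1 := by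
  unfold abar
  have : (1 : ℝ) ≤ 2 ^ (k * k + N) := one_le_pow₀ one_le_two
  rw [div_le_one (by positivity)]
  linarith

/-- one atom, `S = 0` -/
theorem St.init (d : V → V → ℝ) (M ab : ℝ) (ξ : ι → V → ℝ) :
    ∃ m l, St d M ab (∅ : Finset ι) ξ m l := by
  refine ⟨_, _, Unit, inferInstance, fun _ => 1, fun _ => 0, fun _ _ => 1, fun _ => zero_le_one,
    by simp, fun _ _ => Or.inl rfl, fun s => ?_, fun _ => rfl, fun _ _ => rfl,
    fun i hi => absurd hi (Finset.notMem_empty i)⟩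
  have e : (∑ _w ∈ s, (1 : ℝ)) * (1 - ∑ _w ∈ s, (1 : ℝ)) = 0 := by
    rcases s.eq_empty_or_nonempty with rfl | ⟨x, hx⟩
    · simp
    · have : s = {x} := Finset.eq_singleton_iff_unique_mem.2 ⟨hx, fun _ _ => rfl⟩
      rw [this]
      simp
  rw [e]
  constructor <;> simp

theorem h70_ex_sum {Ω : Type} [Fintype Ω] {m : Finset V → ℝ} {c : Ω → ℝ} {f : Ω → Finset V → ℝ}
    (hm : ∀ X, m X = ∑ w, c w * f w X) (h : Finset V → ℝ) : Ex m h = ∑ w, c w * Ex (f w) h := by
  unfold Ex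
  simp only [hm, Finset.sum_mul, Finset.mul_sum, mul_assoc]
  exact Finset.sum_comm

/-- singletons `s = {w}` give `Nrm d M (S w) (μ w)` -/
theorem St.loc {I : Finset ι} {ξ : ι → V → ℝ} {m : Finset V → ℝ} {l : ι → Finset V → ℝ}
    (hd : ∀ u v, 0 ≤ d u v) (hM : 0 ≤ M) (h : St d M ab I ξ m l) : Loc d M ab I ξ m l := by
  obtain ⟨Ω, _, μ, S, E, h0, h1, hE, hN, hm, hl, hv⟩ := h
  have hS : ∀ w, (∀ u v, |S w u - S w v| ≤ μ w * d u v) ∧ ∀ u, |S w u| ≤ μ w * M := by
    intro w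
    have := hN {w}
    simp only [Finset.sum_singleton] at this
    refine ⟨fun u v => (this.1 u v).trans ?_, fun u => (this.2 u).trans ?_⟩
    · nlinarith [mul_nonneg (mul_nonneg (h0 w) (h0 w)) (hd u v)]
    · nlinarith [mul_nonneg (mul_nonneg (h0 w) (h0 w)) hM]
  have hc : ∀ w X, 0 ≤ cutm (μ w * M) (S w) X := fun w X =>
    cutm_nonneg (mul_nonneg (h0 w) hM) _ _
  refine ⟨fun X => ?_, ?_, fun i X => ?_, fun u v => ?_, fun i hi => ?_⟩
  · rw [hm]
    exact Finset.sum_nonneg fun w _ => hc w X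
  · simp only [hm]
    rw [Finset.sum_comm]
    simp only [sum_cutm]
    rw [← Finset.mul_sum, ← Finset.sum_mul, h1, one_mul]
  · rw [hl, hm]
    refine (Finset.abs_sum_le_sum_abs _ _).trans (Finset.sum_le_sum fun w _ => ?_)
    rw [abs_mul, abs_of_nonneg (hc w X)]
    rcases hE w i with e | e <;> simp [e]
  · have e : dP m (ind u) (ind v) = ∑ w, 1 * dP (cutm (μ w * M) (S w)) (ind u) (ind v) :=
      h70_ex_sum (fun X => by simp only [one_mul, hm]) _
    rw [e]
    calc ∑ w, 1 * dP (cutm (μ w * M) (S w)) (ind u) (ind v) ≤ ∑ w, μ w * d u v :=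
          Finset.sum_le_sum fun w _ => by
            rw [one_mul, dP_cutm ((hS w).2 u) ((hS w).2 v)]
            exact (hS w).1 u v
      _ = d u v := by rw [← Finset.sum_mul, h1, one_mul]
  · obtain ⟨e0, a, ha, e1⟩ := hv i hi
    refine ⟨a, ha, fun v => ?_⟩
    rw [h70_ex_sum (hl i), ← e1 v]
    have : ∀ w, E w i * Ex (cutm (μ w * M) (S w)) (ind v) = E w i * S w v + E w i * μ w * M :=
      fun w => by rw [ex_cutm_ind ((hS w).2 v)]; ring
    simp only [this]
    rw [Finset.sum_add_distrib, ← Finset.sum_mul, e0, zero_mul, add_zero]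

theorem St.release {I J : Finset ι} {ξ ξ' : ι → V → ℝ} {m : Finset V → ℝ} {l : ι → Finset V → ℝ}
    (h : St d M ab I ξ m l) (hJ : J ⊆ I) (hξ : ∀ i ∈ J, ξ' i = ξ i) : St d M ab J ξ' m l := by
  obtain ⟨Ω, inst, μ, S, E, h0, h1, hE, hN, hm, hl, hv⟩ := h
  refine ⟨Ω, inst, μ, S, E, h0, h1, hE, hN, hm, hl, fun i hi => ?_⟩
  rw [hξ i hi]
  exact hv i (hJ hi)

theorem h19_round {Ω : Type} [DecidableEq Ω] {μ x : Ω → ℝ} {D : ℝ}
    (h : ∀ s : Finset Ω, ∑ w ∈ s, x w ≤ (∑ w ∈ s, μ w) * (1 - ∑ w ∈ s, μ w) * D)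
    (T : Finset Ω) : ∀ F : Finset Ω, Disjoint F T →
      ∑ w ∈ F, x w + ∑ w ∈ T, (x w / 2 + μ w ^ 2 / 4 * D) ≤
        (∑ w ∈ F, μ w + ∑ w ∈ T, μ w / 2) * (1 - (∑ w ∈ F, μ w + ∑ w ∈ T, μ w / 2)) * D := by
  induction T using Finset.induction_on with
  | empty => intro F _; simpa using h F
  | insert a T ha ih =>
    intro F hF
    rw [disjoint_insert_right] at hF
    have h1 := ih F hF.2
    have h2 := ih (insert a F) (disjoint_insert_left.2 ⟨ha, hF.2⟩)
    rw [sum_insert hF.1, sum_insert hF.1] at h2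
    rw [sum_insert ha, sum_insert ha]
    generalize ∑ w ∈ F, x w = p at *
    generalize ∑ w ∈ F, μ w = m at *
    generalize ∑ w ∈ T, μ w / 2 = n at *
    generalize ∑ w ∈ T, (x w / 2 + μ w ^ 2 / 4 * D) = r at *
    have e : (m + (μ a / 2 + n)) * (1 - (m + (μ a / 2 + n))) * D =
        ((m + n) * (1 - (m + n)) * D + (μ a + m + n) * (1 - (μ a + m + n)) * D) / 2 +
          μ a ^ 2 / 4 * D := by ring
    rw [e]
    linarith

theorem h19_split {Ω : Type} [Fintype Ω] [DecidableEq Ω] (t : Finset (Ω × Bool))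
    (φ : Ω × Bool → ℝ) : ∑ p ∈ t, φ p =
      ∑ w ∈ univ.filter (fun w => (w, true) ∈ t ∧ (w, false) ∈ t), (φ (w, true) + φ (w, false)) +
        ∑ w ∈ univ.filter (fun w => ¬ ((w, true) ∈ t ↔ (w, false) ∈ t)),
          φ (w, decide ((w, true) ∈ t)) := by
  rw [← Fintype.sum_ite_mem t φ, Fintype.sum_prod_type, sum_filter, sum_filter,
    ← sum_add_distrib]
  refine sum_congr rfl fun w _ => ?_
  rw [Fintype.sum_bool]
  by_cases h1 : (w, true) ∈ t <;> by_cases h2 : (w, false) ∈ t <;> simp [h1, h2]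

theorem h19_num {Ω : Type} [Fintype Ω] {μ x : Ω → ℝ} {D y : ℝ} (hy : |y| ≤ D)
    (h : ∀ s : Finset Ω, ∑ w ∈ s, x w ≤ (∑ w ∈ s, μ w) * (1 - ∑ w ∈ s, μ w) * D)
    (t : Finset (Ω × Bool)) :
    ∑ w ∈ t, (x w.1 / 2 + (if w.2 then 1 else -1) * (μ w.1 ^ 2 / 4) * y) ≤
      (∑ w ∈ t, μ w.1 / 2) * (1 - ∑ w ∈ t, μ w.1 / 2) * D := by
  classical
  have key := h19_round h (univ.filter (fun w => ¬ ((w, true) ∈ t ↔ (w, false) ∈ t)))
    (univ.filter (fun w => (w, true) ∈ t ∧ (w, false) ∈ t)) (by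
      rw [disjoint_filter]
      intro w _ h1 h2
      exact h2 (iff_of_true h1.1 h1.2))
  rw [h19_split t (fun w => μ w.1 / 2), h19_split t]
  simp only [add_halves]
  refine le_trans (add_le_add (le_of_eq (sum_congr rfl fun w _ => ?_))
    (sum_le_sum fun w _ => ?_)) key
  · simp only [if_true, Bool.false_eq_true, if_false]
    ring
  · have h1 := abs_le.1 hy
    have h2 : 0 ≤ μ w ^ 2 / 4 := by positivity
    split_ifs
    · nlinarith [mul_le_mul_of_nonneg_left h1.2 h2]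
    · nlinarith [mul_le_mul_of_nonneg_left h1.1 h2]

theorem h19_abs {Ω : Type} [Fintype Ω] {μ x : Ω → ℝ} {D y : ℝ} (hy : |y| ≤ D)
    (h : ∀ s : Finset Ω, |∑ w ∈ s, x w| ≤ (∑ w ∈ s, μ w) * (1 - ∑ w ∈ s, μ w) * D)
    (t : Finset (Ω × Bool)) :
    |∑ w ∈ t, (x w.1 / 2 + (if w.2 then 1 else -1) * (μ w.1 ^ 2 / 4) * y)| ≤
      (∑ w ∈ t, μ w.1 / 2) * (1 - ∑ w ∈ t, μ w.1 / 2) * D := by
  refine abs_le.2 ⟨?_, h19_num hy (fun s => (abs_le.1 (h s)).2) t⟩
  have h1 := h19_num (μ := μ) (x := fun w => -x w) (y := -y) (D := D) (by rwa [abs_neg])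
    (fun s => by rw [sum_neg_distrib]; linarith [(abs_le.1 (h s)).1]) t
  rw [neg_le, ← sum_neg_distrib]
  refine le_trans (le_of_eq (sum_congr rfl fun w _ => ?_)) h1
  ring

/-- the random-rounding inequality: atoms `(w, ±)` of mass `μ w / 2` with functions
`S w / 2 ± (μ w ^ 2 / 4) g`.  Fix `u, v` (resp. `u`) and a sign, so that the claim is about the
numbers `x w = ±(S w u - S w v)`; induction on the set of atoms of which exactly one copy is
taken, with `H p = p (1 - p)`, `H ((a + b) / 2) = (H a + H b) / 2 + (a - b) ^ 2 / 4`. -/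
theorem nrm_split {Ω : Type} [Fintype Ω] {μ : Ω → ℝ} {S : Ω → V → ℝ} {g : V → ℝ}
    (hd : ∀ u v, 0 ≤ d u v) (hM : 0 ≤ M) (hg : Nrm d M g 1)
    (h : ∀ s : Finset Ω, Nrm d M (∑ w ∈ s, S w) ((∑ w ∈ s, μ w) * (1 - ∑ w ∈ s, μ w)))
    (s : Finset (Ω × Bool)) :
    Nrm d M (∑ w ∈ s, fun v => S w.1 v / 2 + (if w.2 then 1 else -1) * (μ w.1 ^ 2 / 4) * g v)
      ((∑ w ∈ s, μ w.1 / 2) * (1 - ∑ w ∈ s, μ w.1 / 2)) := by
  refine ⟨fun u v => ?_, fun u => ?_⟩
  · have h1 := h19_abs (μ := μ) (x := fun w => S w u - S w v) (y := g u - g v) (D := d u v)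
      (by simpa using hg.1 u v) (fun s => by
        have := (h s).1 u v
        rwa [Finset.sum_apply, Finset.sum_apply, ← sum_sub_distrib] at this) s
    rw [Finset.sum_apply, Finset.sum_apply, ← sum_sub_distrib]
    refine le_trans (le_of_eq (congrArg _ (sum_congr rfl fun w _ => ?_))) h1
    ring
  · have h1 := h19_abs (μ := μ) (x := fun w => S w u) (y := g u) (D := M)
      (by simpa using hg.2 u) (fun s => by
        have := (h s).2 u
        rwa [Finset.sum_apply] at this) s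
    rw [Finset.sum_apply]
    exact h1

theorem h17_ex {Ω : Type} [Fintype Ω] (e : Ω → ℝ) (f : Ω → Finset V → ℝ) (h : Finset V → ℝ) :
    Ex (fun X => ∑ w, e w * f w X) h = ∑ w, e w * Ex (f w) h := by
  simp only [Ex, sum_mul, mul_sum, mul_assoc]
  exact sum_comm

theorem h17_ex1 {Ω : Type} (s : Finset Ω) (f : Ω → Finset V → ℝ) (h : Finset V → ℝ) :
    Ex (fun X => ∑ w ∈ s, f w X) h = ∑ w ∈ s, Ex (f w) h := by
  simp only [Ex, sum_mul]
  exact sum_comm

theorem h17_bd {Ω : Type} {μ : Ω → ℝ} {S : Ω → V → ℝ} (hM : 0 ≤ M) (hμ : ∀ w, 0 ≤ μ w)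
    (h : ∀ s : Finset Ω, Nrm d M (∑ w ∈ s, S w) ((∑ w ∈ s, μ w) * (1 - ∑ w ∈ s, μ w))) (w : Ω)
    (a : V) : |S w a| ≤ μ w * M := by
  have h1 := (h {w}).2 a
  simp only [sum_singleton] at h1
  nlinarith [mul_nonneg (mul_nonneg (hμ w) (hμ w)) hM]

theorem h17_merge {N : ℕ} {I : Finset ι} {ξ : ι → V → ℝ} {m : Finset V → ℝ}
    {l : ι → Finset V → ℝ} (hM : 0 ≤ M) (h : St d M ab I ξ m l) (hI : I.card ≤ N) {A : Finset V}
    (hA : A.card ≤ k) : ∃ (Ω : Type) (_ : Fintype Ω) (μ : Ω → ℝ) (S : Ω → V → ℝ) (E : Ω → ι → ℝ),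
    Fintype.card Ω ≤ 2 ^ (k * k + N) ∧ (∀ w, 0 ≤ μ w) ∧ ∑ w, μ w = 1 ∧
    (∀ w i, E w i = 1 ∨ E w i = -1) ∧
    (∀ s : Finset Ω, Nrm d M (∑ w ∈ s, S w) ((∑ w ∈ s, μ w) * (1 - ∑ w ∈ s, μ w))) ∧
    SameOn A (fun X => ∑ w, cutm (μ w * M) (S w) X) m ∧
    (∀ i ∈ I, SameOn A (fun X => ∑ w, E w i * cutm (μ w * M) (S w) X) (l i)) ∧
    ∀ i ∈ I, ∑ w, E w i * μ w = 0 ∧ ∃ a, ab ≤ a ∧ ∀ v, ∑ w, E w i * S w v = a * ξ i v := by
  classical
  obtain ⟨Ω, _, μ, S, E, hμ, h1, hE, hN, hm, hl, hv⟩ := h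
  let cls : Ω → (A → A → Bool) × (I → Bool) := fun w =>
    (fun a b => decide (S w a ≤ S w b), fun i => decide (E w i = 1))
  let E' : (A → A → Bool) × (I → Bool) → ι → ℝ := fun c i =>
    if h : i ∈ I then (if c.2 ⟨i, h⟩ then 1 else -1) else 1
  have hE' : ∀ i ∈ I, ∀ F : Ω → ℝ,
      ∑ c, E' c i * ∑ w with cls w = c, F w = ∑ w, E w i * F w := by
    intro i hi F
    rw [← sum_fiberwise univ cls fun w => E w i * F w]
    refine sum_congr rfl fun c _ => ?_
    rw [mul_sum]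
    refine sum_congr rfl fun w hw => ?_
    rw [← (mem_filter.1 hw).2]
    congr 1
    simp only [E', dif_pos hi, cls, decide_eq_true_eq]
    split_ifs with h
    · exact h.symm
    · exact ((hE w i).resolve_left h).symm
  have key : ∀ (c) (h : Finset V → ℝ),
      Ex (cutm ((∑ w with cls w = c, μ w) * M) (∑ w with cls w = c, S w)) (tr A h) =
        ∑ w with cls w = c, Ex (cutm (μ w * M) (S w)) (tr A h) := by
    intro c h
    have := cutm_sum (univ.filter fun w => cls w = c) (c := fun w => μ w * M) (S := S) (A := A)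
      (fun a b => ∀ w ∈ univ.filter fun w => cls w = c, S w a ≤ S w b) (fun a ha b hb => by
        by_contra hc
        push Not at hc
        obtain ⟨⟨w, hw, h1⟩, w', hw', h2⟩ := hc
        have h3 := congrFun (congrFun (congrArg Prod.fst
          ((mem_filter.1 hw).2.trans (mem_filter.1 hw').2.symm)) ⟨a, ha⟩) ⟨b, hb⟩
        simp only [cls, decide_eq_decide] at h3
        exact h1.not_ge (h3.2 h2.le))
      (fun a _ b _ e _ h1 h2 w hw => (h1 w hw).trans (h2 w hw))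
      (fun w hw a _ b _ h => h w hw) (fun w => mul_nonneg (hμ w) hM) (h17_bd hM hμ hN) h
    rw [sum_mul, this, ← h17_ex1]
    congr 1
    funext X
    rw [Finset.sum_apply]
  refine ⟨(A → A → Bool) × (I → Bool), inferInstance, fun c => ∑ w with cls w = c, μ w,
    fun c => ∑ w with cls w = c, S w, E', ?_, fun c => sum_nonneg fun w _ => hμ w, ?_,
    fun c i => ?_, fun s => ?_, fun h => ?_, fun i hi h => ?_, fun i hi => ?_⟩
  · simp only [Fintype.card_prod, Fintype.card_fun, Fintype.card_bool, Fintype.card_coe]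
    rw [← pow_mul, ← pow_add]
    exact Nat.pow_le_pow_right two_pos (add_le_add (Nat.mul_le_mul hA hA) hI)
  · rw [sum_fiberwise, h1]
  · simp only [E']
    split_ifs
    exacts [Or.inl rfl, Or.inr rfl, Or.inl rfl]
  · rw [sum_fiberwise_eq_sum_filter, sum_fiberwise_eq_sum_filter]
    exact hN _
  · rw [h17_ex1, funext hm, h17_ex1]
    simp only [key]
    rw [sum_fiberwise]
  · rw [h17_ex, funext (hl i), h17_ex]
    simp only [key]
    exact hE' i hi _
  · obtain ⟨h2, a, h3, h4⟩ := hv i hi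
    refine ⟨(hE' i hi μ).trans h2, a, h3, fun v => ?_⟩
    simp only [Finset.sum_apply]
    exact (hE' i hi fun w => S w v).trans (h4 v)

/-- merge, then insert.  Merge: class of `w` = (the relation `S w a ≤ S w b` on `A`, the signs
`E w i`, `i ∈ I`), a type `(A → A → Bool) × (I → Bool)` with at most `2 ^ (k * k + N)` elements; new
atoms = sums of `μ`, `S` over the fibres (`cutm_sum`; a non-empty fibre gives the total preorder
`r`); sets of new atoms pull back.  Insert: `nrm_split`, `cutm_congr` and `cutm_add` (the two halves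
agree on `A`), `a = ∑ μ ^ 2 / 2 ≥ abar` by Cauchy-Schwarz. -/
theorem St.insert {N : ℕ} {I : Finset ι} {ξ : ι → V → ℝ} {m : Finset V → ℝ}
    {l : ι → Finset V → ℝ} (hd : ∀ u v, 0 ≤ d u v) (hM : 0 ≤ M)
    (h : St d M (abar k N) I ξ m l) (hI : I.card ≤ N) {A : Finset V} (hA : A.card ≤ k) {i₀ : ι}
    (hi : i₀ ∉ I) (hg : Nrm d M (ξ i₀) 1) (h0 : ∀ a ∈ A, ξ i₀ a = 0) :
    ∃ m' l', St d M (abar k N) (insert i₀ I) ξ m' l' ∧ SameOn A m' m ∧
      (∀ i ∈ I, SameOn A (l' i) (l i)) ∧ SameOn A (l' i₀) 0 := by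
  obtain ⟨Ω, _, μ, S, E, hc, hμ, h1, hE, hN, hm, hl, hv⟩ := h17_merge hM h hI hA
  have hb := h17_bd hM hμ hN
  have key : ∀ (w : Ω) (b : Bool) (h : Finset V → ℝ), Ex (cutm (μ w / 2 * M)
      fun v => S w v / 2 + (if b then 1 else -1) * (μ w ^ 2 / 4) * ξ i₀ v) (tr A h) =
      Ex (cutm (μ w * M) (S w)) (tr A h) / 2 := by
    intro w b h
    have h2 : 0 ≤ μ w / 2 * M := mul_nonneg (by linarith [hμ w]) hM
    have h3 : ∀ a, |S w a / 2| ≤ μ w / 2 * M := fun a => by
      rw [abs_div, abs_two]; linarith [hb w a]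
    have h4 := cutm_add (A := A) (S := fun v => S w v / 2) (S' := fun v => S w v / 2)
      (fun a b => S w a ≤ S w b) (fun a _ b _ => le_total _ _) (fun a _ b _ e _ => le_trans)
      (fun a _ b _ h => by linarith) (fun a _ b _ h => by linarith) h2 h2 h3 h3 h
    rw [show μ w / 2 * M + μ w / 2 * M = μ w * M by ring,
      show ((fun v => S w v / 2) + fun v => S w v / 2) = S w by funext v; simp] at h4
    rw [h4, cutm_congr (S' := fun v => S w v / 2) (fun a ha => by rw [h0 a ha]; ring) h]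
    simp only [Ex, Pi.add_apply, add_mul, sum_add_distrib]
    ring
  let S' : Ω × Bool → V → ℝ := fun w v =>
    S w.1 v / 2 + (if w.2 then 1 else -1) * (μ w.1 ^ 2 / 4) * ξ i₀ v
  let E' : Ω × Bool → ι → ℝ := fun w i => if i = i₀ then (if w.2 then 1 else -1) else E w.1 i
  have hE1 : ∀ i ∈ I, ∀ w, E' w i = E w.1 i := fun i hi' w =>
    if_neg fun e : i = i₀ => hi (e ▸ hi')
  have hE2 : ∀ w, E' w i₀ = if w.2 then 1 else -1 := fun w => if_pos rfl
  refine ⟨fun X => ∑ w : Ω × Bool, cutm (μ w.1 / 2 * M) (S' w) X,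
    fun i X => ∑ w : Ω × Bool, E' w i * cutm (μ w.1 / 2 * M) (S' w) X,
    ⟨Ω × Bool, inferInstance, fun w => μ w.1 / 2, S', E', fun w => by linarith [hμ w.1], ?_,
      fun w i => ?_, nrm_split hd hM hg hN, fun _ => rfl, fun _ _ => rfl, fun i hi' => ?_⟩,
    fun h => ?_, fun i hi' h => ?_, fun h => ?_⟩
  · rw [Fintype.sum_prod_type, ← h1]
    exact sum_congr rfl fun w _ => by simp; ring
  · simp only [E']
    split_ifs
    exacts [Or.inl rfl, Or.inr rfl, hE _ _]
  · rcases mem_insert.1 hi' with rfl | hi'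
    · refine ⟨?_, ∑ w, μ w ^ 2 / 2, ?_, fun v => ?_⟩
      · rw [Fintype.sum_prod_type]
        exact sum_eq_zero fun w _ => by simp [hE2]
      · have h2 := sq_sum_le_card_mul_sum_sq (s := (univ : Finset Ω)) (f := μ)
        rw [h1, card_univ] at h2
        have h3 : (Fintype.card Ω : ℝ) ≤ 2 ^ (k * k + N) := by exact_mod_cast hc
        have h4 : 0 ≤ ∑ w, μ w ^ 2 := sum_nonneg fun w _ => sq_nonneg _
        rw [← sum_div, abar, div_le_div_iff₀ (by positivity) two_pos]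
        nlinarith [mul_le_mul_of_nonneg_right h3 h4]
      · rw [Fintype.sum_prod_type, sum_mul]
        exact sum_congr rfl fun w _ => by simp [hE2, S']; ring
    · obtain ⟨h2, a, h3, h4⟩ := hv i hi'
      refine ⟨?_, a, h3, fun v => ?_⟩
      · rw [Fintype.sum_prod_type, ← h2]
        exact sum_congr rfl fun w _ => by simp [hE1 i hi']; ring
      · rw [Fintype.sum_prod_type, ← h4]
        exact sum_congr rfl fun w _ => by simp [hE1 i hi', S']; ring
  · rw [← hm h, h17_ex1, h17_ex1, Fintype.sum_prod_type]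
    refine sum_congr rfl fun w _ => ?_
    simp only [S', key, Fintype.sum_bool]
    ring
  · rw [← hl i hi' h, h17_ex, h17_ex, Fintype.sum_prod_type]
    refine sum_congr rfl fun w _ => ?_
    simp only [S', key, Fintype.sum_bool, hE1 i hi']
    ring
  · rw [h17_ex, Fintype.sum_prod_type]
    refine (sum_eq_zero fun w _ => ?_).trans (by simp [Ex])
    simp only [S', key, Fintype.sum_bool, hE2]
    simp

/-- `release`, then `insert` for the elements of `I' \ J` one after the other -/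
theorem St.step {N : ℕ} {I J I' : Finset ι} {ξ ξ' : ι → V → ℝ} {m : Finset V → ℝ}
    {l : ι → Finset V → ℝ} (hd : ∀ u v, 0 ≤ d u v) (hM : 0 ≤ M)
    (h : St d M (abar k N) I ξ m l) (hJ : J ⊆ I) (hJ' : J ⊆ I') (hI : I'.card ≤ N)
    {A : Finset V} (hA : A.card ≤ k) (hξ : ∀ i ∈ J, ξ' i = ξ i)
    (hg : ∀ i ∈ I', i ∉ J → Nrm d M (ξ' i) 1 ∧ ∀ a ∈ A, ξ' i a = 0) :
    ∃ m' l', St d M (abar k N) I' ξ' m' l' ∧ SameOn A m' m ∧
      (∀ i ∈ J, SameOn A (l' i) (l i)) ∧ ∀ i ∈ I', i ∉ J → SameOn A (l' i) 0 := by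
  have key : ∀ T : Finset ι, T ⊆ I' → (∀ i ∈ T, i ∉ J) → ∃ m' l',
      St d M (abar k N) (T ∪ J) ξ' m' l' ∧ SameOn A m' m ∧
        (∀ i ∈ J, SameOn A (l' i) (l i)) ∧ ∀ i ∈ T, SameOn A (l' i) 0 := by
    intro T
    induction T using Finset.induction_on with
    | empty =>
      intro _ _
      refine ⟨m, l, ?_, fun _ => rfl, fun _ _ _ => rfl, fun i hi => absurd hi (Finset.notMem_empty i)⟩
      rw [Finset.empty_union]
      exact h.release hJ hξ
    | insert i₀ T hi ih =>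
      intro hT hTJ
      have hT' : T ⊆ I' := (Finset.subset_insert _ _).trans hT
      obtain ⟨m₁, l₁, s1, s2, s3, s4⟩ := ih hT' fun i hi => hTJ i (Finset.mem_insert_of_mem hi)
      have hi₀ : i₀ ∉ J := hTJ i₀ (Finset.mem_insert_self _ _)
      have hg₀ := hg i₀ (hT (Finset.mem_insert_self _ _)) hi₀
      obtain ⟨m₂, l₂, t1, t2, t3, t4⟩ := St.insert hd hM s1
        ((Finset.card_le_card (Finset.union_subset hT' hJ')).trans hI) hA (i₀ := i₀)
        (fun h' => (Finset.mem_union.1 h').elim hi hi₀) hg₀.1 hg₀.2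
      refine ⟨m₂, l₂, ?_, fun f => (t2 f).trans (s2 f),
        fun i hi f => (t3 i (Finset.mem_union_right _ hi) f).trans (s3 i hi f), fun i hi' => ?_⟩
      · rw [Finset.insert_union]
        exact t1
      · rcases Finset.mem_insert.1 hi' with rfl | hi'
        · exact t4
        · exact fun f => (t3 i (Finset.mem_union_left _ hi') f).trans (s4 i hi' f)
  obtain ⟨m', l', s1, s2, s3, s4⟩ := key (I' \ J) Finset.sdiff_subset
    fun i hi => (Finset.mem_sdiff.1 hi).2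
  rw [Finset.sdiff_union_of_subset hJ'] at s1
  exact ⟨m', l', s1, s2, s3, fun i hi hi' => s4 i (Finset.mem_sdiff.2 ⟨hi, hi'⟩)⟩

end Crest.Agent.R206
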