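import Crest.Agent.R206.TBasic

/-! Row 206: Markov gluing of local laws along the elimination tree. -/

set_option autoImplicit false
set_option linter.dupNamespace false
set_option linter.unusedSectionVars false

namespace Crest.Agent.R206

open Finset

variable {V : Type} [Fintype V] [DecidableEq V] {k : ℕ}

namespace ET

variable (T : ET V k)

/-- transition kernel at `v`: probability that `v` behaves as in `X` given the trace of `X` on
`A v` (`1 / 2` when the trace has mass zero) -/
noncomputable def ker (m : V → Finset V → ℝ) (v : V) (X : Finset V) : ℝ :=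
  if Ex (m v) (fun Y => if Y ∩ T.A v = X ∩ T.A v then 1 else 0) = 0 then 1 / 2
  else Ex (m v) (fun Y => if Y ∩ T.B v = X ∩ T.B v then 1 else 0) /
    Ex (m v) fun Y => if Y ∩ T.A v = X ∩ T.A v then 1 else 0

theorem h62_pair (u : V) (S : Finset V) (hu : u ∉ S) (F : Finset V → ℝ) :
    ∑ X ∈ (univ : Finset (Finset V)).filter (fun X => Disjoint X S), F X =
      ∑ X ∈ (univ : Finset (Finset V)).filter (fun X => Disjoint X (insert u S)),
        (F X + F (insert u X)) := by
  rw [sum_add_distrib, ← sum_filter_add_sum_filter_not _ (fun X => u ∉ X)]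
  congr 1
  · refine sum_congr ?_ fun _ _ => rfl
    ext X
    simp only [mem_filter, mem_univ, true_and, disjoint_insert_right]
    tauto
  · refine sum_nbij' (fun X => X.erase u) (fun X => insert u X) ?_ ?_ ?_ ?_ ?_
    · intro X hX
      simp only [mem_filter, mem_univ, true_and, disjoint_insert_right] at hX ⊢
      exact ⟨notMem_erase _ _, hX.1.mono_left (erase_subset _ _)⟩
    · intro X hX
      simp only [mem_filter, mem_univ, true_and, disjoint_insert_right, disjoint_insert_left]
        at hX ⊢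
      exact ⟨⟨hu, hX.2⟩, by simp⟩
    · intro X hX
      simp only [mem_filter, not_not] at hX
      exact insert_erase hX.2
    · intro X hX
      simp only [mem_filter, mem_univ, true_and, disjoint_insert_right] at hX
      exact erase_insert hX.1
    · intro X hX
      simp only [mem_filter, not_not] at hX
      rw [insert_erase hX.2]

theorem h62_prod (κ : V → Finset V → ℝ) (hκ : ∀ v X, κ v X = κ v (X ∩ T.B v)) (U : Finset V)
    (hU : ∀ u ∈ U, ∀ v, T.Anc u v → v ∈ U) {u : V} (hu : u ∈ U) (X : Finset V) :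
    ∏ v ∈ Uᶜ, κ v (insert u X) = ∏ v ∈ Uᶜ, κ v X := by
  refine prod_congr rfl fun v hv => ?_
  rw [hκ v X, hκ v (insert u X), insert_inter_of_notMem]
  intro h
  rcases mem_insert.1 h with rfl | h
  · exact mem_compl.1 hv hu
  · exact mem_compl.1 hv (hU u hu v (T.anc_of_mem h).1)

/-- summing out an up-closed set of coordinates of a product of kernels: remove a deepest element
of `U`, pair `X` with `X ∆ {v}`; no other kernel and not `f` depends on that coordinate -/
theorem sum_out (κ : V → Finset V → ℝ) (hκ : ∀ v X, κ v X = κ v (X ∩ T.B v))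
    (h1 : ∀ v X, v ∉ X → κ v X + κ v (insert v X) = 1) (U : Finset V)
    (hU : ∀ u ∈ U, ∀ v, T.Anc u v → v ∈ U) (f : Finset V → ℝ) (hf : ∀ X, f X = f (X \ U)) :
    ∑ X : Finset V, (∏ v, κ v X) * f X =
      ∑ X ∈ (univ : Finset (Finset V)).filter (fun X => Disjoint X U), (∏ v ∈ Uᶜ, κ v X) * f X := by
  induction hn : U.card generalizing U with
  | zero =>
    rw [Finset.card_eq_zero.1 hn]
    simp
  | succ n ih =>
    obtain ⟨u, hu, hmin⟩ := U.exists_min_image T.dep (Finset.card_pos.1 (by omega))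
    have hU' : ∀ w ∈ U.erase u, ∀ v, T.Anc w v → v ∈ U.erase u := fun w hw v hv => by
      refine mem_erase.2 ⟨fun e => ?_, hU w (mem_of_mem_erase hw) v hv⟩
      subst e
      exact (mem_erase.1 hw).1 (hv.eq_of_dep (hmin w (mem_of_mem_erase hw)))
    have hf' : ∀ X, f X = f (X \ U.erase u) := fun X => by
      rw [hf X, hf (X \ U.erase u)]
      congr 1
      ext z; simp only [mem_sdiff, mem_erase]; tauto
    rw [ih (U.erase u) hU' hf' (by rw [card_erase_of_mem hu]; omega),
      h62_pair u _ (notMem_erase u U), insert_erase hu]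
    refine sum_congr rfl fun X hX => ?_
    have huX : u ∉ X := fun h => disjoint_left.1 (mem_filter.1 hX).2 h hu
    have e : (U.erase u)ᶜ = insert u Uᶜ := by
      ext z; simp only [mem_compl, mem_erase, mem_insert]; tauto
    rw [e, prod_insert (by simpa using hu), prod_insert (by simpa using hu),
      T.h62_prod κ hκ U hU hu X]
    have e2 : f (insert u X) = f X := by
      rw [hf X, hf (insert u X), insert_sdiff_of_mem _ hu]
    rw [e2]
    linear_combination (∏ v ∈ Uᶜ, κ v X) * f X * h1 u X huX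

theorem h49_split (D : Finset V) (F : Finset V → ℝ) :
    ∑ X, F X = ∑ X' ∈ Dᶜ.powerset, ∑ Z ∈ D.powerset, F (Z ∪ X') := by
  rw [← Finset.sum_product' (f := fun X' Z => F (Z ∪ X'))]
  refine Finset.sum_nbij' (fun X => (X \ D, X ∩ D)) (fun p => p.2 ∪ p.1) ?_ ?_ ?_ ?_ ?_
  · intro X _
    simp only [mem_product, mem_powerset]
    exact ⟨fun u hu => mem_compl.2 (mem_sdiff.1 hu).2, inter_subset_right⟩
  · intro p _; exact mem_univ _
  · intro X _
    ext u; simp only [mem_union, mem_inter, mem_sdiff]; tauto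
  · rintro ⟨X, Z⟩ hp
    simp only [mem_product, mem_powerset] at hp
    have h1 : ∀ u, u ∈ X → u ∉ D := fun u hu => mem_compl.1 (hp.1 hu)
    have h2 : ∀ u, u ∈ Z → u ∈ D := fun u hu => hp.2 hu
    refine Prod.ext ?_ ?_
    · ext u; have := h1 u; have := h2 u; simp only [mem_union, mem_sdiff]; tauto
    · ext u; have := h1 u; have := h2 u; simp only [mem_union, mem_inter]; tauto
  · intro X _
    congr 1
    ext u; simp only [mem_union, mem_inter, mem_sdiff]; tauto

theorem h49_abs (D A : Finset V) (hAD : ∀ u ∈ A, u ∉ D) (a b : Finset V → ℝ) (ha0 : ∀ X, 0 ≤ a X)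
    (hb0 : ∀ X, 0 ≤ b X)
    (ha : ∀ X X' : Finset V, (∀ u, u ∈ D ∨ u ∈ A → (u ∈ X ↔ u ∈ X')) → a X = a X')
    (hb : ∀ X X' : Finset V, (∀ u, u ∉ D → (u ∈ X ↔ u ∈ X')) → b X = b X')
    (f g : Finset V → ℝ)
    (hf : ∀ X X' : Finset V, (∀ u, u ∈ D ∨ u ∈ A → (u ∈ X ↔ u ∈ X')) → f X = f X')
    (hg : ∀ X X' : Finset V, (∀ u, u ∉ D → (u ∈ X ↔ u ∈ X')) → g X = g X') :
    Ex (fun X => a X * b X) (fun X => f X * g X) =
      Ex (fun X => a X * b X) fun X => tr A (ce (fun X => a X * b X) A f) X * g X := by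
  have key : ∀ f g : Finset V → ℝ,
      (∀ X X' : Finset V, (∀ u, u ∈ D ∨ u ∈ A → (u ∈ X ↔ u ∈ X')) → f X = f X') →
      (∀ X X' : Finset V, (∀ u, u ∉ D → (u ∈ X ↔ u ∈ X')) → g X = g X') →
      Ex (fun X => a X * b X) (fun X => f X * g X) = ∑ X' ∈ Dᶜ.powerset, b X' * g X' *
        ∑ Z ∈ D.powerset, a (Z ∪ X' ∩ A) * f (Z ∪ X' ∩ A) := by
    intro f g hf hg
    rw [Ex, h49_split D]
    refine Finset.sum_congr rfl fun X hX => ?_
    rw [Finset.mul_sum]
    refine Finset.sum_congr rfl fun Z hZ => ?_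
    have h1 : ∀ u, u ∈ X → u ∉ D := fun u hu => mem_compl.1 (mem_powerset.1 hX hu)
    have h2 : ∀ u, u ∈ Z → u ∈ D := fun u hu => mem_powerset.1 hZ hu
    have e1 : ∀ u, u ∈ D ∨ u ∈ A → (u ∈ Z ∪ X ↔ u ∈ Z ∪ X ∩ A) := fun u hu => by
      have := h1 u; simp only [mem_union, mem_inter]; tauto
    have e2 : ∀ u, u ∉ D → (u ∈ Z ∪ X ↔ u ∈ X) := fun u hu => by
      have := h2 u; simp only [mem_union]; tauto
    rw [ha _ _ e1, hf _ _ e1, hb _ _ e2, hg _ _ e2]; ring
  have hinter : ∀ X X' : Finset V, (∀ u, u ∈ A → (u ∈ X ↔ u ∈ X')) → X ∩ A = X' ∩ A :=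
    fun X X' h => by
      ext u; have := h u; simp only [mem_inter]; tauto
  rw [key f g hf hg, key _ g (fun X X' h => by
    unfold tr; rw [hinter X X' fun u hu => h u (Or.inr hu)]) hg]
  refine Finset.sum_congr rfl fun X hX => ?_
  rcases (hb0 X).eq_or_lt with hbX | hbX
  · rw [← hbX]; simp
  congr 1
  set Y := X ∩ A with hY
  have hind : ∀ X X' : Finset V, (∀ u, u ∉ D → (u ∈ X ↔ u ∈ X')) →
      (if X ∩ A = Y then (1 : ℝ) else 0) = if X' ∩ A = Y then 1 else 0 := fun X X' h => by
    rw [hinter X X' fun u hu => h u (hAD u hu)]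
  set w := ∑ X' ∈ Dᶜ.powerset, b X' * if X' ∩ A = Y then (1 : ℝ) else 0 with hw
  have hwpos : 0 < w := by
    refine lt_of_lt_of_le ?_ (Finset.single_le_sum (f := fun X' => b X' *
      if X' ∩ A = Y then (1 : ℝ) else 0) (fun X' _ => mul_nonneg (hb0 _) (by positivity)) hX)
    simpa [hY] using hbX
  have key2 : ∀ f : Finset V → ℝ,
      (∀ X X' : Finset V, (∀ u, u ∈ D ∨ u ∈ A → (u ∈ X ↔ u ∈ X')) → f X = f X') →
      Ex (fun X => a X * b X) (fun X => if X ∩ A = Y then f X else 0) =
        w * ∑ Z ∈ D.powerset, a (Z ∪ Y) * f (Z ∪ Y) := by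
    intro f hf
    have := key f _ hf hind
    simp only [mul_ite, mul_one, mul_zero] at this
    rw [this, hw, Finset.sum_mul]
    refine Finset.sum_congr rfl fun X' _ => ?_
    split_ifs with h
    · rw [h, mul_one]
    · simp
  have e1 : ∀ Z ∈ D.powerset, a (Z ∪ Y) * tr A (ce (fun X => a X * b X) A f) (Z ∪ Y) =
      ce (fun X => a X * b X) A f Y * (a (Z ∪ Y) * 1) := by
    intro Z hZ
    have : (Z ∪ Y) ∩ A = Y := by
      ext u
      have h1 := hAD u
      have h2 : u ∈ Z → u ∈ D := fun hu => mem_powerset.1 hZ hu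
      simp only [hY, mem_union, mem_inter]; tauto
    rw [tr, this]; ring
  rw [Finset.sum_congr rfl e1, ← Finset.mul_sum, ce, key2 f hf, key2 (fun _ => 1) fun _ _ _ => rfl]
  rcases eq_or_ne (∑ Z ∈ D.powerset, a (Z ∪ Y) * 1) 0 with h | h
  · rw [h, mul_zero]
    refine Finset.sum_eq_zero fun Z hZ => ?_
    have := (Finset.sum_eq_zero_iff_of_nonneg fun Z _ => mul_nonneg (ha0 (Z ∪ Y)) zero_le_one).1
      h Z hZ
    rw [mul_one] at this
    rw [this, zero_mul]
  · rw [mul_div_mul_left _ _ hwpos.ne', div_mul_cancel₀ _ h]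

/-- any product of kernels is Markov.  Split the product into the subtree of `v` and the rest, and
`X` into `X ∩ subtree` and the rest: `Ex P (f * g) = ∑ X', rest X' * g X' * Φ (X' ∩ A v)` with
`Φ Y = ∑ Z ⊆ subtree, (∏ u in subtree, κ u (Z ∪ Y)) * f (Z ∪ Y)` (`mem_A_of`); taking for `g` the
indicator of a trace identifies `Φ Y` with `ce` whenever the trace has positive mass. -/
theorem markov_prod (c : ℝ) (hc : 0 ≤ c) (κ : V → Finset V → ℝ) (h0 : ∀ v X, 0 ≤ κ v X)
    (hκ : ∀ v X, κ v X = κ v (X ∩ T.B v))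
    (h1 : ∀ v X, v ∉ X → κ v X + κ v (insert v X) = 1) :
    T.Markov fun X => c * ∏ v, κ v X := by
  classical
  intro v f g hf hg
  set D := univ.filter fun u => T.Anc v u with hD
  have mD : ∀ u, u ∈ D ↔ T.Anc v u := fun u => by simp [hD]
  have e : (fun X => c * ∏ v, κ v X) = fun X => (∏ u ∈ D, κ u X) * (c * ∏ u ∈ Dᶜ, κ u X) := by
    funext X
    rw [← Finset.prod_mul_prod_compl D]; ring
  have hB : ∀ (u : V) (X X' : Finset V), (∀ z ∈ T.B u, (z ∈ X ↔ z ∈ X')) → κ u X = κ u X' := by
    intro u X X' h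
    rw [hκ u X, hκ u X']
    congr 1
    ext z; have := h z; simp only [mem_inter]; tauto
  rw [e]
  refine h49_abs D (T.A v) (fun u hu h => T.not_anc_of_mem hu ((mD u).1 h)) _ _
    (fun X => Finset.prod_nonneg fun u _ => h0 u X)
    (fun X => mul_nonneg hc (Finset.prod_nonneg fun u _ => h0 u X)) (fun X X' h => ?_)
    (fun X X' h => ?_) f g (fun X X' h => hf X X' fun u hu => h u (by rwa [mD]))
    (fun X X' h => hg X X' fun u hu => h u (by rwa [mD]))
  · refine Finset.prod_congr rfl fun u hu => hB u X X' fun z hz => h z ?_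
    rcases mem_insert.1 hz with rfl | hz
    · exact Or.inl hu
    · by_cases hv : T.Anc v z
      · exact Or.inl ((mD z).2 hv)
      · exact Or.inr (T.mem_A_of ((mD u).1 hu) hz hv)
  · congr 1
    refine Finset.prod_congr rfl fun u hu => hB u X X' fun z hz => h z ?_
    rcases mem_insert.1 hz with rfl | hz
    · exact mem_compl.1 hu
    · exact fun hv => mem_compl.1 hu ((mD u).2 (((mD z).1 hv).trans (T.anc_of_mem hz).1))

theorem h62_fib (m g : Finset V → ℝ) (A : Finset V) :
    Ex m (tr A g) = ∑ Y ∈ A.powerset, Ex m (fun X => if X ∩ A = Y ∩ A then 1 else 0) * g Y := by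
  simp only [Ex, sum_mul]
  rw [sum_comm]
  refine sum_congr rfl fun X _ => ?_
  rw [sum_eq_single (X ∩ A)]
  · simp [tr]
  · intro Y hY hne
    rw [inter_eq_left.2 (mem_powerset.1 hY), if_neg hne.symm]
    simp
  · intro h
    exact absurd (mem_powerset.2 inter_subset_right) h

/-- `P X = c * ∏ v, ker m v X`; marginals by induction on `dep v` (`sum_out` with the proper
descendants and the non-ancestors removed, or `markov_prod`) -/
theorem glue (m : V → Finset V → ℝ) (c : ℝ) (h0 : ∀ v X, 0 ≤ m v X) (hc : ∀ v, ∑ X, m v X = c)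
    (h : ∀ v, v ≠ T.root → SameOn (T.A v) (m v) (m (T.par v))) :
    ∃ P : Finset V → ℝ, (∀ X, 0 ≤ P X) ∧ (∀ v, SameOn (T.B v) P (m v)) ∧ T.Markov P := by
  classical
  have hc0 : 0 ≤ c := hc T.root ▸ sum_nonneg fun X _ => h0 T.root X
  have hvA : ∀ v, v ∉ T.A v := fun v hv => T.not_anc_of_mem hv (T.anc_refl v)
  have hE : ∀ v (p : Finset V → Prop) [DecidablePred p],
      0 ≤ Ex (m v) fun Y => if p Y then 1 else 0 := fun v p _ =>
    sum_nonneg fun X _ => mul_nonneg (h0 v X) (by positivity)
  have k0 : ∀ v X, 0 ≤ T.ker m v X := fun v X => by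
    unfold ker
    split_ifs
    · norm_num
    · exact div_nonneg (hE v _) (hE v _)
  have hAB : ∀ v (X : Finset V), X ∩ T.B v ∩ T.A v = X ∩ T.A v := fun v X => by
    rw [inter_assoc, inter_eq_right.2 (show T.A v ⊆ T.B v from subset_insert _ _)]
  have kB : ∀ v X, T.ker m v X = T.ker m v (X ∩ T.B v) := fun v X => by
    simp only [ker, hAB, inter_assoc, inter_self]
  have hsum : ∀ v (X : Finset V), v ∉ X →
      Ex (m v) (fun Y => if Y ∩ T.B v = X ∩ T.B v then 1 else 0) +
        Ex (m v) (fun Y => if Y ∩ T.B v = insert v X ∩ T.B v then 1 else 0) =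
      Ex (m v) fun Y => if Y ∩ T.A v = X ∩ T.A v then 1 else 0 := fun v X hX => by
    simp only [Ex, ← sum_add_distrib, ← mul_add]
    refine sum_congr rfl fun Y _ => ?_
    congr 1
    have hv := hvA v
    have e1 : Y ∩ T.B v = X ∩ T.B v ↔ v ∉ Y ∧ Y ∩ T.A v = X ∩ T.A v := by
      simp only [B, Finset.ext_iff, mem_inter, mem_insert]
      constructor
      · intro h
        exact ⟨fun hy => hX ((h v).1 ⟨hy, Or.inl rfl⟩).1, fun a => by have := h a; tauto⟩
      · rintro ⟨h1, h2⟩ a
        have := h2 a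
        by_cases e : a = v
        · subst e; tauto
        · tauto
    have e2 : Y ∩ T.B v = insert v X ∩ T.B v ↔ v ∈ Y ∧ Y ∩ T.A v = X ∩ T.A v := by
      simp only [B, Finset.ext_iff, mem_inter, mem_insert]
      constructor
      · intro h
        refine ⟨((h v).2 ⟨Or.inl rfl, Or.inl rfl⟩).1, fun a => ?_⟩
        have := h a
        by_cases e : a = v
        · subst e; tauto
        · tauto
      · rintro ⟨h1, h2⟩ a
        have := h2 a
        by_cases e : a = v
        · subst e; tauto
        · tauto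
    simp only [e1, e2]
    by_cases a1 : v ∈ Y <;> by_cases a2 : Y ∩ T.A v = X ∩ T.A v <;> simp [a1, a2]
  have k1 : ∀ v X, v ∉ X → T.ker m v X + T.ker m v (insert v X) = 1 := fun v X hX => by
    unfold ker
    rw [insert_inter_of_notMem (hvA v)]
    split_ifs with e
    · norm_num
    · rw [← add_div, hsum v X hX, div_self e]
  have kmul : ∀ v (X : Finset V),
      Ex (m v) (fun Y => if Y ∩ T.A v = X ∩ T.A v then 1 else 0) * T.ker m v X =
        Ex (m v) fun Y => if Y ∩ T.B v = X ∩ T.B v then 1 else 0 := fun v X => by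
    unfold ker
    split_ifs with e
    · rw [e, zero_mul]
      refine le_antisymm (hE v _) (le_of_le_of_eq ?_ e)
      refine sum_le_sum fun Y _ => mul_le_mul_of_nonneg_left ?_ (h0 v Y)
      by_cases a : Y ∩ T.B v = X ∩ T.B v
      · have : Y ∩ T.A v = X ∩ T.A v := by rw [← hAB, a, hAB]
        simp [a, this]
      · simp only [a, if_false]
        positivity
    · exact mul_div_cancel₀ _ e
  have step : ∀ v, SameOn (T.A v) (fun X => c * ∏ u, T.ker m u X) (m v) →
      SameOn (T.B v) (fun X => c * ∏ u, T.ker m u X) (m v) := by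
    intro v hv g
    set D := univ.filter fun u => T.Anc v u with hD
    have mD : ∀ u, u ∈ D ↔ T.Anc v u := fun u => by simp [hD]
    have hvD : v ∈ D := (mD v).2 (T.anc_refl v)
    have hDc : ∀ u ∈ D, ∀ w, T.Anc u w → w ∈ D := fun u hu w hw => (mD w).2 (((mD u).1 hu).trans hw)
    have hDc' : ∀ u ∈ D.erase v, ∀ w, T.Anc u w → w ∈ D.erase v := fun u hu w hw => by
      refine mem_erase.2 ⟨fun e => ?_, hDc u (mem_of_mem_erase hu) w hw⟩
      subst e
      exact (mem_erase.1 hu).1 (hw.eq_of_dep ((mD u).1 (mem_of_mem_erase hu)).dep_le)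
    have hAD : ∀ a ∈ T.A v, a ∉ D := fun a ha h => T.not_anc_of_mem ha ((mD a).1 h)
    set g' : Finset V → ℝ := fun Y => T.ker m v Y * g Y + T.ker m v (insert v Y) * g (insert v Y)
      with hg'
    have e1 : ∑ X : Finset V, (∏ u, T.ker m u X) * tr (T.B v) g X =
        ∑ X : Finset V, (∏ u, T.ker m u X) * tr (T.A v) g' X := by
      rw [T.sum_out _ kB k1 (D.erase v) hDc' (tr (T.B v) g) (fun X => by
          unfold tr
          congr 1
          ext z
          have := hAD z
          simp only [B, mem_inter, mem_sdiff, mem_erase, mem_insert]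
          tauto),
        T.sum_out _ kB k1 D hDc (tr (T.A v) g') (fun X => by
          unfold tr
          congr 1
          ext z
          have := hAD z
          simp only [mem_inter, mem_sdiff]
          tauto),
        h62_pair v _ (notMem_erase v D), insert_erase hvD]
      refine sum_congr rfl fun X hX => ?_
      have hvX : v ∉ X := fun h => disjoint_left.1 (mem_filter.1 hX).2 h hvD
      have e : (D.erase v)ᶜ = insert v Dᶜ := by
        ext z; simp only [mem_compl, mem_erase, mem_insert]; tauto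
      have a1 : X ∩ T.B v = X ∩ T.A v := inter_insert_of_notMem hvX
      have a2 : insert v X ∩ T.B v = insert v (X ∩ T.A v) := by
        rw [B, insert_inter_of_mem (mem_insert_self _ _), inter_insert_of_notMem hvX]
      have a3 : T.ker m v X = T.ker m v (X ∩ T.A v) := by rw [kB v X, a1]
      have a4 : T.ker m v (insert v X) = T.ker m v (insert v (X ∩ T.A v)) := by rw [kB v _, a2]
      rw [e, prod_insert (by simpa using hvD), prod_insert (by simpa using hvD),
        T.h62_prod _ kB D hDc hvD X]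
      simp only [tr, hg', a1, a2]
      rw [a3, a4]
      ring
    have e2 : Ex (m v) (tr (T.A v) g') = Ex (m v) (tr (T.B v) g) := by
      have eB : (T.B v).powerset = (insert v (T.A v)).powerset := rfl
      rw [h62_fib, h62_fib, eB, sum_powerset_insert (hvA v), ← sum_add_distrib]
      refine sum_congr rfl fun Y _ => ?_
      have a1 := kmul v Y
      have a2 := kmul v (insert v Y)
      rw [insert_inter_of_notMem (hvA v)] at a2
      rw [← a1, ← a2, hg']
      ring
    rw [← e2, ← hv g']
    simp only [Ex, mul_assoc, ← mul_sum]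
    rw [e1]
  refine ⟨fun X => c * ∏ v, T.ker m v X, fun X => mul_nonneg hc0 (prod_nonneg fun v _ => k0 v X),
    fun v => ?_, T.markov_prod c hc0 _ k0 kB k1⟩
  induction hn : T.dep v using Nat.strong_induction_on generalizing v with
  | _ n ih =>
    refine step v ?_
    by_cases hv : v = T.root
    · intro g
      have := T.sum_out _ kB k1 univ (fun _ _ _ _ => mem_univ _) (fun _ => 1) fun _ => rfl
      have e : (univ : Finset (Finset V)).filter (fun X => Disjoint X univ) = {∅} := by
        ext X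
        simp only [mem_filter, mem_univ, true_and, mem_singleton]
        exact ⟨fun h => by simpa using h.eq_bot_of_le (subset_univ X), fun h => by simp [h]⟩
      simp only [mul_one, e, compl_univ, prod_empty, sum_singleton] at this
      simp only [Ex, tr, hv, T.A_root, inter_empty, ← sum_mul, ← mul_sum, this, hc, mul_one]
    · have h2 := T.dep_par v hv
      intro g
      rw [h v hv g]
      exact (ih (T.dep (T.par v)) (by omega) (T.par v) rfl).mono (T.A_sub_B hv) g

end ET

end Crest.Agent.R206
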