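import Crest.Agent.R206.TCover
import Crest.Agent.R206.TEng
import Crest.Agent.R206.TGlue

/-! Row 206: the top-down construction. -/

set_option autoImplicit false
set_option linter.dupNamespace false
set_option linter.unusedSectionVars false

namespace Crest.Agent.R206

open Finset

variable {V : Type} [Fintype V] [DecidableEq V] {k : ℕ}

namespace ET

variable (T : ET V k)

/-- the inserted function -/
noncomputable def bump (M D : ℝ) (Z : Finset V) (y : V) : ℝ := Z.fold min (min D M) fun z => T.d y z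

theorem h54_nonneg {M D : ℝ} (hM : 0 ≤ M) (hD : 0 ≤ D) (Z : Finset V) (y : V) :
    0 ≤ T.bump M D Z y :=
  (le_fold_min _).2 ⟨le_min hD hM, fun z _ => T.d_nonneg y z⟩

theorem bump_nrm {M D : ℝ} (hM : 0 ≤ M) (hD : 0 ≤ D) (Z : Finset V) :
    Nrm T.d M (T.bump M D Z) 1 := by
  have h1 : ∀ u v, T.bump M D Z u - T.d u v ≤ T.bump M D Z v := fun u v => by
    have h := (le_fold_min _).1 (le_refl (T.bump M D Z u))
    refine (le_fold_min _).2 ⟨by linarith [h.1, T.d_nonneg u v], fun z hz => ?_⟩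
    linarith [h.2 z hz, T.d_tri u v z]
  refine ⟨fun u v => abs_le.2 ⟨?_, ?_⟩, fun u => ?_⟩
  · linarith [h1 v u, T.d_comm u v]
  · linarith [h1 u v]
  · have h := (le_fold_min _).1 (le_refl (T.bump M D Z u))
    rw [abs_of_nonneg (T.h54_nonneg hM hD Z u), one_mul]
    exact h.1.trans (min_le_right _ _)

theorem bump_zero {M D : ℝ} (hM : 0 ≤ M) (hD : 0 ≤ D) {Z : Finset V} {z : V} (hz : z ∈ Z) :
    T.bump M D Z z = 0 := by
  exact le_antisymm ((fold_min_le _).2 (Or.inr ⟨z, hz, (T.d_self z).le⟩)) (T.h54_nonneg hM hD Z z)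

theorem bump_eq {M D : ℝ} (hD : D ≤ M) {Z : Finset V} {y : V} (hy : ∀ z ∈ Z, D ≤ T.d y z) :
    T.bump M D Z y = D := by
  exact le_antisymm ((fold_min_le _).2 (Or.inl (min_le_left _ _)))
    ((le_fold_min _).2 ⟨le_min le_rfl hD, hy⟩)

/-- the term `i` is continued from the parent -/
def Cont (I : V → Finset (ℤ × Finset V)) (v : V) (i : ℤ × Finset V) : Prop :=
  v ≠ T.root ∧ i ∈ I (T.par v) ∧ ∃ a ∈ T.A v, a ∈ i.2

/-- the system of local laws -/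
structure Sys (K M ab : ℝ) (cov : ℤ → Finset (Finset V)) (I : V → Finset (ℤ × Finset V))
    (ξ : V → ℤ × Finset V → V → ℝ) (m : V → Finset V → ℝ)
    (l : V → ℤ × Finset V → Finset V → ℝ) : Prop where
  loc : ∀ v, Loc T.d M ab (I v) (ξ v) (m v) (l v)
  same : ∀ v, v ≠ T.root → SameOn (T.A v) (m v) (m (T.par v))
  mem : ∀ v i, i ∈ I v ↔ T.On K (m v) v i.1 ∧ i.2 ∈ cov i.1 ∧ ∃ b ∈ T.B v, b ∈ i.2
  cont : ∀ v, ∀ i ∈ I v, T.Cont I v i →
    ξ v i = ξ (T.par v) i ∧ SameOn (T.A v) (l v i) (l (T.par v) i)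
  fresh : ∀ v, ∀ i ∈ I v, ¬ T.Cont I v i →
    ξ v i = T.bump M (K ^ i.1) (T.A v ∪ i.2ᶜ) ∧ SameOn (T.A v) (l v i) 0

/-- one step: the new kept set is defined with the old law `m` (`on_card`, `on_congr`), it has at most
`17 (k k + 2 ^ 2 ^ k) * (k * τ)` elements; `J` = the kept terms of `I` that meet `A v`; `St.step` -/
theorem exists_step {K M : ℝ} (hK : 2 ≤ K) (hM : 0 ≤ M) {τ : ℕ} {cov : ℤ → Finset (Finset V)}
    (hcov : ∀ j, T.Cov (K ^ j) τ (cov j)) (v : V) {I : Finset (ℤ × Finset V)}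
    {ξ : ℤ × Finset V → V → ℝ} {m : Finset V → ℝ} {l : ℤ × Finset V → Finset V → ℝ}
    (h : St T.d M (abar k (17 * (k * k + 2 ^ 2 ^ k) * (k * τ))) I ξ m l) :
    ∃ I' ξ' m' l', St T.d M (abar k (17 * (k * k + 2 ^ 2 ^ k) * (k * τ))) I' ξ' m' l' ∧
      SameOn (T.A v) m' m ∧
      (∀ i, i ∈ I' ↔ T.On K m' v i.1 ∧ i.2 ∈ cov i.1 ∧ ∃ b ∈ T.B v, b ∈ i.2) ∧
      (∀ i ∈ I', (i ∈ I ∧ ∃ a ∈ T.A v, a ∈ i.2) → ξ' i = ξ i ∧ SameOn (T.A v) (l' i) (l i)) ∧
      ∀ i ∈ I', ¬ (i ∈ I ∧ ∃ a ∈ T.A v, a ∈ i.2) →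
        ξ' i = T.bump M (K ^ i.1) (T.A v ∪ i.2ᶜ) ∧ SameOn (T.A v) (l' i) 0 := by
  classical
  obtain ⟨J0, hJ0, hon⟩ := T.on_card hK m v
  obtain ⟨I', hI'⟩ : ∃ I' : Finset (ℤ × Finset V), I' = J0.biUnion fun j =>
    ((T.B v).biUnion fun b => (cov j).filter fun C => b ∈ C).image fun C => (j, C) := ⟨_, rfl⟩
  have hmem : ∀ i, i ∈ I' ↔ T.On K m v i.1 ∧ i.2 ∈ cov i.1 ∧ ∃ b ∈ T.B v, b ∈ i.2 := by
    rintro ⟨j, C⟩
    simp only [hI', mem_biUnion, mem_image, mem_filter, Prod.mk.injEq, ← hon]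
    constructor
    · rintro ⟨j', h1, C', ⟨b, h2, h3, h4⟩, rfl, rfl⟩
      exact ⟨h1, h3, b, h2, h4⟩
    · rintro ⟨h1, h3, b, h2, h4⟩
      exact ⟨j, h1, C, ⟨b, h2, h3, h4⟩, rfl, rfl⟩
  have hcard : I'.card ≤ 17 * (k * k + 2 ^ 2 ^ k) * (k * τ) := by
    rw [hI']
    refine (card_biUnion_le_card_mul _ _ (k * τ) fun j _ => ?_).trans
      (Nat.mul_le_mul_right _ hJ0)
    exact card_image_le.trans ((card_biUnion_le_card_mul _ _ τ fun b _ => (hcov j).2.2 b).trans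
      (Nat.mul_le_mul_right _ (T.B_card v)))
  obtain ⟨ξ', hξ'⟩ : ∃ ξ' : ℤ × Finset V → V → ℝ, ∀ i, ξ' i =
    if i ∈ I ∧ ∃ a ∈ T.A v, a ∈ i.2 then ξ i else T.bump M (K ^ i.1) (T.A v ∪ i.2ᶜ) :=
    ⟨_, fun _ => rfl⟩
  have hD : ∀ j : ℤ, 0 ≤ K ^ j := fun j => (zpow_pos (by linarith) j).le
  obtain ⟨m', l', h1, h2, h3, h4⟩ := h.step (J := I'.filter fun i => i ∈ I ∧ ∃ a ∈ T.A v, a ∈ i.2)
    (I' := I') (ξ' := ξ') T.d_nonneg hM (fun i hi => (mem_filter.1 hi).2.1) (filter_subset _ _)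
    hcard (T.A_card v).le (fun i hi => by rw [hξ', if_pos (mem_filter.1 hi).2])
    fun i hi hn => by
      rw [hξ', if_neg fun hc => hn (mem_filter.2 ⟨hi, hc⟩)]
      exact ⟨T.bump_nrm hM (hD _) _, fun a ha => T.bump_zero hM (hD _) (mem_union_left _ ha)⟩
  refine ⟨I', ξ', m', l', h1, h2, fun i => by rw [hmem, T.on_congr h2], fun i hi hc => ?_,
    fun i hi hc => ?_⟩
  · exact ⟨by rw [hξ', if_pos hc], h3 i (mem_filter.2 ⟨hi, hc⟩)⟩
  · exact ⟨by rw [hξ', if_neg hc], h4 i hi fun hn => hc (mem_filter.1 hn).2⟩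

/-- recursion on `dep` (states bundled in a subtype; `St.init` before the root, `exists_step`,
`St.loc`) -/
theorem exists_sys {K M : ℝ} (hK : 2 ≤ K) (hM : 0 ≤ M) {τ : ℕ} {cov : ℤ → Finset (Finset V)}
    (hcov : ∀ j, T.Cov (K ^ j) τ (cov j)) :
    ∃ I ξ m l, T.Sys K M (abar k (17 * (k * k + 2 ^ 2 ^ k) * (k * τ))) cov I ξ m l := by
  classical
  obtain ⟨m0, l0, h0⟩ := St.init (ι := ℤ × Finset V) T.d M
    (abar k (17 * (k * k + 2 ^ 2 ^ k) * (k * τ))) 0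
  let σ := {s : Finset (ℤ × Finset V) × (ℤ × Finset V → V → ℝ) × (Finset V → ℝ) ×
    (ℤ × Finset V → Finset V → ℝ) //
      St T.d M (abar k (17 * (k * k + 2 ^ 2 ^ k) * (k * τ))) s.1 s.2.1 s.2.2.1 s.2.2.2}
  have hF : ∀ (v : V) (s : σ), ∃ s' : σ, SameOn (T.A v) s'.1.2.2.1 s.1.2.2.1 ∧
      (∀ i, i ∈ s'.1.1 ↔ T.On K s'.1.2.2.1 v i.1 ∧ i.2 ∈ cov i.1 ∧ ∃ b ∈ T.B v, b ∈ i.2) ∧
      (∀ i ∈ s'.1.1, (i ∈ s.1.1 ∧ ∃ a ∈ T.A v, a ∈ i.2) →
        s'.1.2.1 i = s.1.2.1 i ∧ SameOn (T.A v) (s'.1.2.2.2 i) (s.1.2.2.2 i)) ∧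
      ∀ i ∈ s'.1.1, ¬ (i ∈ s.1.1 ∧ ∃ a ∈ T.A v, a ∈ i.2) →
        s'.1.2.1 i = T.bump M (K ^ i.1) (T.A v ∪ i.2ᶜ) ∧ SameOn (T.A v) (s'.1.2.2.2 i) 0 :=
    fun v s => by
      obtain ⟨I', ξ', m', l', h1, h2⟩ := T.exists_step hK hM hcov v s.2
      exact ⟨⟨(I', ξ', m', l'), h1⟩, h2⟩
  choose F hF using hF
  obtain ⟨G, G0, G1⟩ : ∃ G : ℕ → V → σ, (∀ v, G 0 v = F v ⟨(∅, 0, m0, l0), h0⟩) ∧
      ∀ n v, G (n + 1) v = F v (G n (T.par v)) :=
    ⟨fun n => Nat.rec (fun v => F v ⟨(∅, 0, m0, l0), h0⟩) (fun _ g v => F v (g (T.par v))) n,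
      fun _ => rfl, fun _ _ => rfl⟩
  obtain ⟨S, S0, S1⟩ : ∃ S : V → σ, S T.root = F T.root ⟨(∅, 0, m0, l0), h0⟩ ∧
      ∀ v, v ≠ T.root → S v = F v (S (T.par v)) :=
    ⟨fun v => G (T.dep v) v, by simp only [T.dep_root, G0],
      fun v hv => by simp only [T.dep_par v hv, G1]⟩
  refine ⟨fun v => (S v).1.1, fun v => (S v).1.2.1, fun v => (S v).1.2.2.1,
    fun v => (S v).1.2.2.2, fun v => (S v).2.loc T.d_nonneg hM, fun v hv => ?_, fun v => ?_,
    fun v i hi hc => ?_, fun v i hi hc => ?_⟩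
  · rw [S1 v hv]
    exact (hF _ _).1
  · by_cases hv : v = T.root
    · rw [hv, S0]
      exact (hF _ _).2.1
    · rw [S1 v hv]
      exact (hF _ _).2.1
  · rw [S1 v hc.1] at hi ⊢
    exact (hF _ _).2.2.1 i hi hc.2
  · by_cases hv : v = T.root
    · rw [hv, S0] at hi ⊢
      exact (hF _ _).2.2.2 i hi fun h => notMem_empty _ h.1
    · rw [S1 v hv] at hi ⊢
      exact (hF _ _).2.2.2 i hi fun h => hc ⟨hv, h⟩

theorem h74_dP {B : Finset V} {P m f g : Finset V → ℝ} (h : SameOn B P m) (hf : tr B f = f)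
    (hg : tr B g = g) : dP P f g = dP m f g := by
  have e : (tr B fun X => |f X - g X|) = fun X => |f X - g X| := funext fun X => by
    have h1 := congrFun hf X
    have h2 := congrFun hg X
    simp only [tr] at h1 h2 ⊢
    rw [h1, h2]
  have := h fun X => |f X - g X|
  rwa [e] at this

theorem h74_Ex {l m : Finset V → ℝ} (h : ∀ X, |l X| ≤ m X) (f g : Finset V → ℝ) :
    Ex l g ≤ Ex l f + dP m f g := by
  unfold dP Ex
  rw [← sum_add_distrib]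
  refine sum_le_sum fun X _ => ?_
  have h1 : l X * (g X - f X) ≤ m X * |f X - g X| := by
    refine (le_abs_self _).trans ?_
    rw [abs_mul, abs_sub_comm]
    exact mul_le_mul_of_nonneg_right (h X) (abs_nonneg _)
  linarith

/-- `C` = the set of `cov j` containing the ball around `w`, `i = (j, C)`.  Let `s ≤ n` be the largest
index with `s = 0` or `C` disjoint from `A (γ s)`.  Then `i ∈ I (γ t)` for `s ≤ t ≤ n` (`A_sub_B`),
`i` is fresh at `γ s` and continued later, so `ξ (γ n) i = bump M (K ^ j) (A (γ s) ∪ Cᶜ)` is `K ^ j` at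
`w` and `0` off `C`.  `λ t = Ex (l (γ t) i) (tr (A (γ t)) (h t))` vanishes at `s` and
`|λ (t + 1) - λ t| ≤ dP (m (γ t)) .. = dP P ..` (`abs_le`, both functions factor through `B (γ t)`);
finally `Loc.val`. -/
theorem Sys.cert {T : ET V k} {K M ab : ℝ} (hK : 2 ≤ K) (hab : 0 ≤ ab) (hM : ∀ x y, T.d x y ≤ M)
    {τ : ℕ} {cov : ℤ → Finset (Finset V)} (hcov : ∀ j, T.Cov (K ^ j) τ (cov j))
    {I : V → Finset (ℤ × Finset V)} {ξ : V → ℤ × Finset V → V → ℝ} {m : V → Finset V → ℝ}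
    {l : V → ℤ × Finset V → Finset V → ℝ} (h : T.Sys K M ab cov I ξ m l) {P : Finset V → ℝ}
    (h0 : ∀ X, 0 ≤ P X) (hP : ∀ v, SameOn (T.B v) P (m v)) (hm : T.Markov P) :
    T.Cert K ab P := by
  classical
  have hAB : ∀ v, T.A v ⊆ T.B v := fun v => subset_insert _ _
  have hon : ∀ v j, T.On K P v j ↔ T.On K (m v) v j := fun v j =>
    T.on_congr ((hP v).mono (hAB v)) j
  refine ⟨h0, fun v u hu w hw => ?_, hm, fun γ n j w hγ hO hw hu hA hs0 => ?_⟩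
  · rw [h74_dP (hP v) (tr_ind hu) (tr_ind hw)]
    exact (h.loc v).lip u w
  have hD : 0 < K ^ j := zpow_pos (by linarith) j
  have hDM : K ^ j ≤ M := let ⟨u, hu⟩ := hu; hu.trans (hM w u)
  obtain ⟨C, hC, hball⟩ := (hcov j).1 w
  have hwC : w ∈ C := hball w (by rw [T.d_self]; exact hD)
  have hfar : ∀ z, 8 * K ^ j < T.d w z → z ∉ C := fun z hz hzC =>
    hz.not_ge ((hcov j).2.1 C hC w hwC z hzC)
  set s := Nat.findGreatest (fun t => ∀ a ∈ T.A (γ t), a ∉ C) n with hs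
  have hsn : s ≤ n := Nat.findGreatest_le n
  have hmeet : ∀ t, s < t → t ≤ n → ∃ a ∈ T.A (γ t), a ∈ C := fun t h1 h2 => by
    have := Nat.findGreatest_is_greatest h1 h2
    push Not at this
    exact this
  have hs1 : s = 0 ∨ ∀ a ∈ T.A (γ s), a ∉ C := by
    by_cases e : s = 0
    · exact Or.inl e
    · exact Or.inr (Nat.findGreatest_of_ne_zero hs.symm e)
  have hsub : ∀ t < n, T.A (γ (t + 1)) ⊆ T.B (γ t) := fun t ht => by
    have := T.A_sub_B (hγ t ht).1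
    rwa [(hγ t ht).2] at this
  have hI : ∀ t, s ≤ t → t ≤ n → (j, C) ∈ I (γ t) := fun t h1 h2 => by
    refine (h.mem _ _).2 ⟨(hon _ _).1 (hO t h2), hC, ?_⟩
    rcases h2.eq_or_lt with e | l
    · exact ⟨w, e ▸ hw, hwC⟩
    · obtain ⟨a, ha, haC⟩ := hmeet (t + 1) (by omega) l
      exact ⟨a, hsub t l ha, haC⟩
  have hfresh : ¬ T.Cont I (γ s) (j, C) := by
    rintro ⟨c1, c2, a, ha, haC⟩
    rcases hs1 with e | e
    · rw [e] at c1 c2 ha
      rcases hs0 with e' | e' | e'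
      · exact c1 e'
      · exact e' ((hon _ _).2 ((h.mem _ _).1 c2).1)
      · exact hfar a (e' a ha) haC
    · exact e a ha haC
  obtain ⟨f1, f2⟩ := h.fresh _ _ (hI s le_rfl hsn) hfresh
  have hcont : ∀ t, s ≤ t → t < n → ξ (γ (t + 1)) (j, C) = ξ (γ t) (j, C) ∧
      SameOn (T.A (γ (t + 1))) (l (γ (t + 1)) (j, C)) (l (γ t) (j, C)) := fun t h1 h2 => by
    have := h.cont _ _ (hI (t + 1) (by omega) h2) ⟨(hγ t h2).1, by
      rw [(hγ t h2).2]; exact hI t h1 h2.le, hmeet (t + 1) (by omega) h2⟩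
    rwa [(hγ t h2).2] at this
  have hξ : ∀ t, s ≤ t → t ≤ n →
      ξ (γ t) (j, C) = T.bump M (K ^ j) (T.A (γ s) ∪ Cᶜ) := fun t h1 => by
    induction t, h1 using Nat.le_induction with
    | base => exact fun _ => f1
    | succ t h1 ih => exact fun h2 => ((hcont t h1 h2).1).trans (ih (by omega))
  obtain ⟨a, ha, hval⟩ := (h.loc (γ n)).val _ (hI n hsn le_rfl)
  rw [hξ n hsn le_rfl] at hval
  have hvw : ab * K ^ j ≤ Ex (l (γ n) (j, C)) (ind w) := by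
    rw [hval, T.bump_eq hDM fun z hz => ?_]
    · exact mul_le_mul_of_nonneg_right ha hD.le
    · have hz' : z ∉ C → K ^ j ≤ T.d w z := fun h1 => not_lt.1 fun h2 => h1 (hball z h2)
      rcases mem_union.1 hz with hz | hz
      · rcases hs1 with e | e
        · exact hA z (e ▸ hz)
        · exact hz' (e z hz)
      · exact hz' (mem_compl.1 hz)
  refine ⟨fun g => ?_, fun z hz hwz => ?_⟩
  · have hl : ∀ t, s ≤ t → t ≤ n → Ex (l (γ t) (j, C)) (tr (T.A (γ t)) (g t)) ≤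
        ∑ i ∈ range t, dP P (tr (T.A (γ i)) (g i)) (tr (T.A (γ (i + 1))) (g (i + 1))) :=
      fun t h1 => by
        induction t, h1 using Nat.le_induction with
        | base =>
          intro _
          rw [f2 (g s)]
          refine le_trans (le_of_eq ?_) (sum_nonneg fun i _ => dP_nonneg h0 _ _)
          simp [Ex]
        | succ t h1 ih =>
          intro h2
          rw [(hcont t h1 h2).2, sum_range_succ,
            h74_dP (hP (γ t)) (tr_tr (hAB _) _) (tr_tr (hsub t h2) _)]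
          exact (h74_Ex ((h.loc (γ t)).abs_le _) _ _).trans (add_le_add (ih (by omega)) le_rfl)
    unfold cost
    rw [h74_dP (hP (γ n)) (tr_tr (hAB _) _) (tr_ind hw)]
    exact hvw.trans ((h74_Ex ((h.loc (γ n)).abs_le _) _ _).trans
      (add_le_add (hl n hsn le_rfl) le_rfl))
  · have := h74_Ex ((h.loc (γ n)).abs_le (j, C)) (ind z) (ind w)
    rw [hval z, T.bump_zero (hD.le.trans hDM) hD.le
      (mem_union_right _ (mem_compl.2 (hfar z hwz))), mul_zero, zero_add] at this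
    rw [dP_comm, h74_dP (hP (γ n)) (tr_ind hz) (tr_ind hw)]
    exact hvw.trans this

end ET

/-- `exists_cov`, `exists_sys`, `glue`, `Sys.cert` -/
theorem exists_cert (k : ℕ) : ∃ ab : ℝ, 0 < ab ∧ ab ≤ 1 ∧ ∀ K : ℝ, 2 ≤ K →
    ∀ (V : Type) [Fintype V] [DecidableEq V] (T : ET V k), ∃ P, T.Cert K ab P := by
  refine ⟨abar k (17 * (k * k + 2 ^ 2 ^ k) * (k * (3 ^ k * (k + 1)))), abar_pos _ _, abar_le _ _,
    fun K hK V _ _ T => ?_⟩
  choose cov hcov using fun j : ℤ => T.exists_cov (zpow_pos (by linarith : (0 : ℝ) < K) j)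
  obtain ⟨M, hM⟩ := Finite.exists_le fun p : V × V => T.d p.1 p.2
  have hM0 : 0 ≤ M := (T.d_nonneg _ _).trans (hM (T.root, T.root))
  obtain ⟨I, ξ, m, l, h⟩ := T.exists_sys hK hM0 hcov
  obtain ⟨P, h0, h1, h2⟩ := T.glue m (2 * M) (fun v => (h.loc v).nonneg)
    (fun v => (h.loc v).total) h.same
  exact ⟨P, h.cert hK (abar_pos _ _).le (fun x y => hM (x, y)) hcov h0 h1 h2⟩

end Crest.Agent.R206
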