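import Mathlib

/-! Row 206: the Markov min-cut lemma of Chlamtac-Krauthgamer-Raghavendra. -/

set_option autoImplicit false
set_option linter.dupNamespace false

namespace Crest.Agent.R206

open Finset

variable {Ω : Type} [Fintype Ω]

/-- mass on which the thresholded values disagree -/
noncomputable def mis (P p p' : Ω → ℝ) (θ θ' : ℝ) : ℝ :=
  ∑ w, P w * |(if θ < p w then (1 : ℝ) else 0) - if θ' < p' w then 1 else 0|

theorem h83_mis {P p p' g : Ω → ℝ} {θ θ' c : ℝ} (hP : ∀ ω, 0 ≤ P ω) (h0 : ∀ ω, 0 ≤ g ω)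
    (h : ∀ ω, (θ < p ω ∧ p' ω ≤ θ') ∨ (p ω ≤ θ ∧ θ' < p' ω) → c ≤ g ω) :
    c * mis P p p' θ θ' ≤ ∑ ω, P ω * g ω := by
  rw [mis, mul_sum]
  refine sum_le_sum fun ω _ => ?_
  rw [mul_left_comm]
  refine mul_le_mul_of_nonneg_left ?_ (hP ω)
  split_ifs with h1 h2 h2
  · simpa using h0 ω
  · simpa using h ω (.inl ⟨h1, not_lt.1 h2⟩)
  · simpa using h ω (.inr ⟨not_lt.1 h1, h2⟩)
  · simpa using h0 ω

theorem h83_sq {u d : ℝ} (hu : 0 < u) (h : u ≤ d ∨ d ≤ -u) : u ^ 2 ≤ d ^ 2 := by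
  rcases h with h | h <;> nlinarith

/-- Window lemma (time runs from `a` to `b`, `F` is the monotone energy).  The open window
`(x, x + w)` contains no value at time `a` and at most `q` values at each time.  Induction on `q`;
`q = 0`: the midpoint, a disagreement needs a jump `≥ w`.  Step: cut the window into five equal parts,
use alternately the second and the fourth part `J`; generalise to: the part `J` together with its two
neighbours is empty at time `a` (strong induction on `b - a`).  Let `τ` be the first time at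
which `J` contains `q + 1` values (then the rest of the window is empty); use the induction hypothesis
on `[a, τ - 1]` and the other part on `[τ, b]`.  A disagreement in the step `τ - 1 → τ` has either
`p τ ∈ J` (then `|p τ - p a| ≥ w / 5`) or a jump `≥ w / 5`. -/
theorem window (q : ℕ) : ∃ C : ℝ, 0 ≤ C ∧ ∀ (Ω : Type) [Fintype Ω] (P : Ω → ℝ) (p : ℕ → Ω → ℝ)
    (F : ℕ → ℝ) (a b : ℕ) (x w : ℝ), (∀ ω, 0 ≤ P ω) → 0 < w → a ≤ b →
    (∀ s t, a ≤ s → s ≤ t → t ≤ b → ∑ ω, P ω * (p t ω - p s ω) ^ 2 ≤ F t - F s) →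
    (∀ ω, p a ω ≤ x ∨ x + w ≤ p a ω) →
    (∀ t, a ≤ t → t ≤ b → ∃ W : Finset ℝ, W.card ≤ q ∧ ∀ ω, x < p t ω → p t ω < x + w → p t ω ∈ W) →
    ∃ θ : ℕ → ℝ, (∀ t, x ≤ θ t ∧ θ t < x + w) ∧
      w ^ 2 * ∑ t ∈ Ico a b, mis P (p t) (p (t + 1)) (θ t) (θ (t + 1)) ≤ C * (F b - F a) := by
  induction q with
  | zero =>
    refine ⟨1, zero_le_one, fun Ω _ P p F a b x w hP hw hab hF _ hq =>
      ⟨fun _ => x, fun _ => ⟨le_rfl, by linarith⟩, ?_⟩⟩
    have h1 : ∀ t, a ≤ t → t ≤ b → ∀ ω, x < p t ω → x + w ≤ p t ω := fun t h1 h2 ω h3 => by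
      obtain ⟨W, hW, h⟩ := hq t h1 h2
      refine not_lt.1 fun h4 => ?_
      simpa [card_eq_zero.1 (Nat.le_zero.1 hW)] using h ω h3 h4
    rw [one_mul, mul_sum, ← sum_Ico_sub F hab]
    refine sum_le_sum fun t ht => ?_
    obtain ⟨h2, h3⟩ := mem_Ico.1 ht
    refine (h83_mis hP (fun ω => sq_nonneg _) fun ω h => h83_sq hw ?_).trans
      (hF t (t + 1) h2 t.le_succ h3)
    rcases h with h | h
    · exact .inr (by linarith [h1 t h2 h3.le ω h.1, h.2])
    · exact .inl (by linarith [h1 (t + 1) (h2.trans t.le_succ) h3 ω h.2, h.1])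
  | succ q ih =>
    obtain ⟨C, hC, ih⟩ := ih
    refine ⟨25 * C + 50, by positivity, fun Ω _ P p F a b x w hP hw hab hF ha hq => ?_⟩
    obtain ⟨u, rfl⟩ : ∃ u, w = 5 * u := ⟨w / 5, by ring⟩
    have hu : 0 < u := by linarith
    replace ha : ∃ y, (y = x + u ∨ y = x + 3 * u) ∧ ∀ ω, p a ω ≤ y - u ∨ y + 2 * u ≤ p a ω :=
      ⟨x + u, .inl rfl, fun ω => (ha ω).imp (fun h => by linarith) fun h => by linarith⟩
    induction hn : b - a using Nat.strong_induction_on generalizing a with | _ n ih2 => ?_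
    obtain ⟨y, hy, ha⟩ := ha
    have hy' : x + u ≤ y ∧ y ≤ x + 3 * u := by rcases hy with h | h <;> constructor <;> linarith
    have hm : ∀ s t, a ≤ s → s ≤ t → t ≤ b → 0 ≤ F t - F s := fun s t h1 h2 h3 =>
      (sum_nonneg fun ω _ => mul_nonneg (hP ω) (sq_nonneg _)).trans (hF s t h1 h2 h3)
    have ha' : ∀ ω, p a ω ≤ y ∨ y + u ≤ p a ω := fun ω =>
      (ha ω).imp (fun h => by linarith) fun h => by linarith
    by_cases hg : ∃ t, a ≤ t ∧ t ≤ b ∧
        ¬ ∃ W : Finset ℝ, W.card ≤ q ∧ ∀ ω, y < p t ω → p t ω < y + u → p t ω ∈ W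
    swap
    · obtain ⟨θ, h1, h2⟩ := ih Ω P p F a b y u hP hu hab hF ha'
        fun t h1 h2 => not_not.1 fun h => hg ⟨t, h1, h2, h⟩
      exact ⟨θ, fun t => ⟨by linarith [(h1 t).1], by linarith [(h1 t).2]⟩,
        by linarith [hm a b le_rfl hab le_rfl]⟩
    classical
    obtain ⟨h1, h2, h3⟩ := Nat.find_spec hg
    have h4 := fun t => Nat.find_min hg (m := t)
    obtain ⟨σ, hσ, e⟩ : ∃ σ, a ≤ σ ∧ Nat.find hg = σ + 1 := by
      refine ⟨Nat.find hg - 1, ?_⟩
      have : Nat.find hg ≠ a := fun e => h3 ⟨∅, Nat.zero_le _, fun ω h h' => by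
        rw [e] at h h'
        rcases ha' ω with h'' | h'' <;> linarith⟩
      omega
    rw [e] at h1 h2 h3 h4
    have h5 : ∀ ω, p (σ + 1) ω ≤ x ∨ x + 5 * u ≤ p (σ + 1) ω ∨
        (y < p (σ + 1) ω ∧ p (σ + 1) ω < y + u) := fun ω => by
      obtain ⟨W, hW, h⟩ := hq (σ + 1) h1 h2
      by_contra hc
      simp only [not_or, not_le] at hc
      refine h3 ⟨W.erase (p (σ + 1) ω), ?_, fun ω' k k' =>
        mem_erase.2 ⟨fun e => hc.2.2 (e ▸ ⟨k, k'⟩), h ω' (by linarith) (by linarith)⟩⟩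
      rw [card_erase_of_mem (h ω hc.1 hc.2.1)]
      omega
    obtain ⟨θ₁, k1, k2⟩ := ih Ω P p F a σ y u hP hu hσ
      (fun s t a1 a2 a3 => hF s t a1 a2 (by omega)) ha'
      fun t a1 a2 => not_not.1 fun h => h4 t (by omega) ⟨a1, by omega, h⟩
    obtain ⟨θ₂, k3, k4⟩ := ih2 (b - (σ + 1)) (by omega) (σ + 1) h2
      (fun s t a1 a2 a3 => hF s t (by omega) a2 a3) (fun t a1 a2 => hq t (by omega) a2)
      ⟨2 * x + 4 * u - y, hy.symm.imp (fun h => by linarith) fun h => by linarith, fun ω => by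
        rcases hy with h | h <;> rcases h5 ω with k | k | k
        exacts [.inl (by linarith), .inr (by linarith), .inl (by linarith [k.2]),
          .inl (by linarith), .inr (by linarith), .inr (by linarith [k.1])]⟩ rfl
    have k5 := h83_mis (p := p σ) (p' := p (σ + 1)) (θ := θ₁ σ) (θ' := θ₂ (σ + 1)) (c := u ^ 2)
      (g := fun ω => (p (σ + 1) ω - p a ω) ^ 2 + (p (σ + 1) ω - p σ ω) ^ 2) hP
      (fun ω => by positivity) fun ω h => by
        have a1 := k1 σ
        have a2 := k3 (σ + 1)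
        rcases h5 ω with k | k | k
        · rcases h with h | h
          · exact le_add_of_nonneg_of_le (sq_nonneg _) (h83_sq hu (.inr (by linarith)))
          · linarith
        · rcases h with h | h
          · linarith
          · exact le_add_of_nonneg_of_le (sq_nonneg _) (h83_sq hu (.inl (by linarith)))
        · exact le_add_of_le_of_nonneg (h83_sq hu
            ((ha ω).imp (fun h => by linarith) fun h => by linarith)) (sq_nonneg _)
    simp only [mul_add, sum_add_distrib] at k5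
    refine ⟨fun t => if t ≤ σ then θ₁ t else θ₂ t, fun t => ?_, ?_⟩
    · dsimp only
      split_ifs
      exacts [⟨by linarith [(k1 t).1], by linarith [(k1 t).2]⟩, k3 t]
    dsimp only
    rw [← sum_Ico_consecutive _ h1 h2, sum_Ico_succ_top hσ, if_pos le_rfl, if_neg (by omega),
      sum_congr rfl fun t ht => by
        rw [if_pos (mem_Ico.1 ht).2.le, if_pos (show t + 1 ≤ σ from (mem_Ico.1 ht).2)],
      sum_congr (s₁ := Ico (σ + 1) b) rfl fun t ht => by
        rw [if_neg (by have := (mem_Ico.1 ht).1; omega),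
          if_neg (by have := (mem_Ico.1 ht).1; omega)]]
    linarith [hF a (σ + 1) le_rfl h1 h2, hF σ (σ + 1) hσ σ.le_succ h2, hm a σ le_rfl hσ (by omega),
      mul_nonneg hC (hm σ (σ + 1) hσ σ.le_succ h2)]

/-- `window` with reversed time and the window `(0, 1)` -/
theorem ckr (q : ℕ) : ∃ C : ℝ, 0 < C ∧ ∀ (Ω : Type) [Fintype Ω] (P : Ω → ℝ) (p : ℕ → Ω → ℝ)
    (F : ℕ → ℝ) (n : ℕ), (∀ ω, 0 ≤ P ω) →
    (∀ s t, s ≤ t → t ≤ n → ∑ ω, P ω * (p t ω - p s ω) ^ 2 ≤ F t - F s) →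
    (∀ ω, p n ω = 0 ∨ p n ω = 1) →
    (∀ t ≤ n, ∃ W : Finset ℝ, W.card ≤ q ∧ ∀ ω, p t ω ∈ W) →
    ∃ θ : ℕ → ℝ, (0 ≤ θ n ∧ θ n < 1) ∧
      ∑ t ∈ range n, mis P (p t) (p (t + 1)) (θ t) (θ (t + 1)) ≤ C * (F n - F 0) := by
  obtain ⟨C, hC, h⟩ := window q
  refine ⟨C + 1, by positivity, fun Ω _ P p F n hP hF hn hq => ?_⟩
  obtain ⟨θ, h1, h2⟩ := h Ω P (fun t => p (n - t)) (fun t => -F (n - t)) 0 n 0 1 hP one_pos
    n.zero_le (fun s t _ a2 _ => by
      have := hF (n - t) (n - s) (by omega) (by omega)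
      simp only [sub_sq_comm (p (n - t) _)]
      linarith)
    (fun ω => (hn ω).imp le_of_eq fun h => by simpa using h.ge)
    fun t _ _ => (hq (n - t) (by omega)).imp fun W hW => ⟨hW.1, fun ω _ _ => hW.2 ω⟩
  refine ⟨fun t => θ (n - t), by simpa using h1 (n - n), ?_⟩
  have h3 := (sum_nonneg fun ω _ => mul_nonneg (hP ω) (sq_nonneg _)).trans (hF 0 n n.zero_le le_rfl)
  rw [one_pow, one_mul, Nat.Ico_zero_eq_range, ← sum_range_reflect, Nat.sub_self, Nat.sub_zero] at h2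
  refine le_trans (le_of_eq (sum_congr rfl fun t ht => ?_)) (h2.trans (by linarith))
  have h4 := mem_range.1 ht
  rw [show n - (n - 1 - t) = t + 1 by omega, show n - (n - 1 - t + 1) = t by omega,
    show n - 1 - t + 1 = n - t by omega, show n - 1 - t = n - (t + 1) by omega]
  simp only [mis, abs_sub_comm]

end Crest.Agent.R206
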