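import Crest.Agent.R206.TBasic

/-! Row 206: sparse covers (Klein-Plotkin-Rao chopping along the elimination tree). -/

set_option autoImplicit false
set_option linter.dupNamespace false
set_option linter.unusedSectionVars false

namespace Crest.Agent.R206

open Finset

variable {V : Type} [Fintype V] [DecidableEq V] {k : ℕ}

namespace ET

variable (T : ET V k)

/-- clusters after `i` chops: inside a ball, or connected with top vertex `r` and `i` disjoint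
lower parts -/
def Clu (D : ℝ) (i : ℕ) (C : Finset V) : Prop :=
  (∃ r, ∀ y ∈ C, T.d r y ≤ 3 * D) ∨
    ∃ r ∈ C, (∀ y ∈ C, T.Anc r y ∧ ∃ ρ, T.Pa (C : Set V) r y ρ) ∧ ∃ Z : ℕ → Set V,
      (∀ a < i, ∀ b < i, a ≠ b → Disjoint (Z a) (Z b)) ∧ (∀ a < i, Disjoint (Z a) (C : Set V)) ∧
      ∀ a < i, ∀ y ∈ C, ∃ q ρ, ¬ T.Anc r q ∧ T.Pa (Z a ∪ {z | T.d y z ≤ 3 * D}) y q ρ

/-- a vertex of least depth of a connected set is an ancestor of all of it (`Pa.sep`,
`anc_of_mem`) -/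
theorem exists_top {C : Finset V} {x : V} (hx : x ∈ C)
    (hC : ∀ y ∈ C, ∃ ρ, T.Pa (C : Set V) x y ρ) :
    ∃ r ∈ C, ∀ y ∈ C, T.Anc r y ∧ ∃ ρ, T.Pa (C : Set V) r y ρ := by
  obtain ⟨r, hr, hmin⟩ := Finset.exists_min_image C T.dep ⟨x, hx⟩
  refine ⟨r, hr, fun y hy => ?_⟩
  obtain ⟨ρ₁, h₁⟩ := hC r hr
  obtain ⟨ρ₂, h₂⟩ := hC y hy
  have h3 := h₁.symm.trans h₂
  refine ⟨?_, _, h3⟩
  by_contra hc
  obtain ⟨a, ha, haC⟩ := h3.sep (T.anc_refl r) hc
  exact (T.anc_of_mem ha).2.not_ge (hmin a (Finset.mem_coe.mp haC))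

/-- one chop.  First case: `{C}`.  Second case: `δ y = sInf {ρ | Pa C r y ρ}`, annuli
`{y ∈ C | (a - 1) D ≤ δ y < (a + 2) D}` (`a : ℕ`), new clusters = their connected components
(for `y` in the annulus: `{z | ∃ ρ, Pa annulus y z ρ}`); a point lies in at most 3 annuli and in one
component of each.  For `a ≤ 1` the first alternative holds with the same `r`; for `a ≥ 2` the new
lower part is `{z ∈ C | δ z < (a - 1) D}`, `q = r` (`Pa.restrict` on a walk of length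
`< (a + 2) D`), the new top (`exists_top`) is a proper descendant of `r`.  Padding: `a = ⌊δ y / D⌋₊`,
geodesics from `y` to points of the open ball stay in the open ball (`geo'`, `Pa.restrict`). -/
theorem chop {D : ℝ} (hD : 0 < D) {i : ℕ} {C : Finset V} (h : T.Clu D i C) :
    ∃ 𝒞 : Finset (Finset V), (∀ C' ∈ 𝒞, C' ⊆ C ∧ T.Clu D (i + 1) C') ∧
      (∀ y, (∀ z, T.d y z < D → z ∈ C) → ∃ C' ∈ 𝒞, ∀ z, T.d y z < D → z ∈ C') ∧
      ∀ y, (𝒞.filter fun C' => y ∈ C').card ≤ 3 := by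
  classical
  rcases h with h | ⟨r, hrC, hr, Z, hZ1, hZ2, hZ3⟩
  · refine ⟨{C}, ?_, ?_, ?_⟩
    · intro C' hC'
      rw [Finset.mem_singleton] at hC'
      subst hC'
      exact ⟨subset_rfl, Or.inl h⟩
    · intro y hy
      exact ⟨C, Finset.mem_singleton_self _, hy⟩
    · intro y
      refine (Finset.card_filter_le _ _).trans ?_
      simp
  obtain ⟨δ, hδ1, hδ2⟩ : ∃ δ : V → ℝ, (∀ y ρ, T.Pa (C : Set V) r y ρ → δ y ≤ ρ) ∧
      ∀ y ∈ C, ∀ t, δ y < t → ∃ ρ < t, T.Pa (C : Set V) r y ρ := by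
    refine ⟨fun y => sInf {ρ | T.Pa (C : Set V) r y ρ}, ?_, ?_⟩
    · intro y ρ hρ
      exact csInf_le ⟨T.d r y, fun s hs => Pa.d_le hs⟩ hρ
    · intro y hy t ht
      obtain ⟨ρ, hρ, hlt⟩ := exists_lt_of_csInf_lt (hr y hy).2 ht
      exact ⟨ρ, hlt, hρ⟩
  have hδd : ∀ y ∈ C, T.d r y ≤ δ y := by
    intro y hy
    by_contra hc
    obtain ⟨ρ, hlt, hρ⟩ := hδ2 y hy _ (not_le.mp hc)
    exact absurd hρ.d_le (not_le.mpr hlt)
  have hδ0 : ∀ y ∈ C, 0 ≤ δ y := fun y hy => (T.d_nonneg r y).trans (hδd y hy)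
  have hδr : δ r ≤ 0 := hδ1 r 0 (Pth.refl r 0 (Finset.mem_coe.mpr hrC) le_rfl)
  have hδt : ∀ y ∈ C, ∀ z s, T.Pa (C : Set V) y z s → δ z ≤ δ y + s := by
    intro y hy z s hs
    by_contra hc
    obtain ⟨ρ, hlt, hρ⟩ := hδ2 y hy (δ z - s) (by linarith [not_le.mp hc])
    have := hδ1 z _ (hρ.trans hs)
    linarith
  obtain ⟨Ann, hAnn⟩ : ∃ Ann : ℕ → Set V, ∀ a y, y ∈ Ann a ↔
      y ∈ C ∧ ((a : ℝ) - 1) * D ≤ δ y ∧ δ y < ((a : ℝ) + 2) * D :=
    ⟨fun a => {y | y ∈ C ∧ ((a : ℝ) - 1) * D ≤ δ y ∧ δ y < ((a : ℝ) + 2) * D},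
      fun _ _ => Iff.rfl⟩
  obtain ⟨cmp, hcmp⟩ : ∃ cmp : ℕ → V → Finset V, ∀ a y z, z ∈ cmp a y ↔
      ∃ ρ, T.Pa (Ann a) y z ρ :=
    ⟨fun a y => univ.filter fun z => ∃ ρ, T.Pa (Ann a) y z ρ, fun _ _ _ => by simp⟩
  have hsub : ∀ a y z, z ∈ cmp a y → z ∈ Ann a := by
    intro a y z hz
    obtain ⟨ρ, hρ⟩ := (hcmp a y z).mp hz
    exact hρ.right_mem
  refine ⟨univ.filter fun C' => ∃ a : ℕ, ∃ y ∈ Ann a, C' = cmp a y, ?_, ?_, ?_⟩
  · intro C' hC'
    obtain ⟨a, x, hx, rfl⟩ := (Finset.mem_filter.mp hC').2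
    have hCC : cmp a x ⊆ C := fun z hz => ((hAnn a z).mp (hsub a x z hz)).1
    refine ⟨hCC, ?_⟩
    by_cases ha : a ≤ 1
    · left
      refine ⟨r, fun y hy => ?_⟩
      obtain ⟨h1, -, h3⟩ := (hAnn a y).mp (hsub a x y hy)
      have ha' : (a : ℝ) ≤ 1 := by exact_mod_cast ha
      have := hδd y h1
      nlinarith
    right
    have ha' : (2 : ℝ) ≤ a := by exact_mod_cast (by omega : 2 ≤ a)
    have hxx : x ∈ cmp a x := (hcmp a x x).mpr ⟨0, Pth.refl x 0 hx le_rfl⟩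
    obtain ⟨r', hr'C, hr'⟩ := T.exists_top hxx (fun y hy => by
      obtain ⟨ρ, hρ⟩ := (hcmp a x y).mp hy
      refine ⟨ρ, hρ.restrict.mono ?_ le_rfl⟩
      rintro z ⟨r₁, r₂, -, h1, -⟩
      exact Finset.mem_coe.mpr ((hcmp a x z).mpr ⟨r₁, h1⟩))
    have hrr' : T.Anc r r' := (hr r' (hCC hr'C)).1
    have hne : ¬ T.Anc r' r := by
      intro hc
      have he : r = r' := hrr'.eq_of_dep hc.dep_le
      have h2 := ((hAnn a r').mp (hsub a x r' hr'C)).2.1
      rw [← he] at h2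
      nlinarith
    refine ⟨r', hr'C, hr', fun b => if b < i then Z b else
      {z | z ∈ C ∧ δ z < ((a : ℝ) - 1) * D}, ?_, ?_, ?_⟩
    · intro b hb c hc hbc
      by_cases hbi : b < i <;> by_cases hci : c < i
      · simp only [hbi, hci, if_true]
        exact hZ1 b hbi c hci hbc
      · simp only [hbi, hci, if_true, if_false]
        exact (hZ2 b hbi).mono_right fun z hz => Finset.mem_coe.mpr hz.1
      · simp only [hbi, hci, if_true, if_false]
        exact ((hZ2 c hci).mono_right fun z hz => Finset.mem_coe.mpr hz.1).symm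
      · omega
    · intro b hb
      by_cases hbi : b < i
      · simp only [hbi, if_true]
        exact (hZ2 b hbi).mono_right (Finset.coe_subset.mpr hCC)
      · simp only [hbi, if_false]
        rw [Set.disjoint_left]
        intro z hz hz'
        have := ((hAnn a z).mp (hsub a x z (Finset.mem_coe.mp hz'))).2.1
        exact absurd hz.2 (not_lt.mpr this)
    · intro b hb y hy
      by_cases hbi : b < i
      · simp only [hbi, if_true]
        obtain ⟨q, ρ, hq, hρ⟩ := hZ3 b hbi y (hCC hy)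
        exact ⟨q, ρ, fun hc => hq (hrr'.trans hc), hρ⟩
      · simp only [hbi, if_false]
        obtain ⟨h1, -, h3⟩ := (hAnn a y).mp (hsub a x y hy)
        obtain ⟨ρ, hlt, hρ⟩ := hδ2 y h1 _ h3
        refine ⟨r, ρ, hne, (hρ.restrict.mono ?_ le_rfl).symm⟩
        rintro z ⟨r₁, r₂, h12, hz1, hz2⟩
        by_cases hz : δ z < ((a : ℝ) - 1) * D
        · exact Or.inl ⟨Finset.mem_coe.mp hz1.right_mem, hz⟩
        · right
          have e1 := hδ1 z r₁ hz1
          have e2 := hz2.d_le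
          rw [T.d_comm] at e2
          show T.d y z ≤ 3 * D
          have := not_lt.mp hz
          linarith
  · intro y hy
    have hyC : y ∈ C := hy y (by rw [T.d_self]; exact hD)
    have hgeo : ∀ z, T.d y z < D → T.Pa {w | T.d y w < D} y z (T.d y z) := by
      intro z hz
      refine (T.geo' y z).restrict.mono ?_ le_rfl
      rintro w ⟨r₁, r₂, h12, h1, h2⟩
      have e1 := h1.d_le
      have e2 := h2.d_le
      have e3 := T.d_nonneg w z
      show T.d y w < D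
      linarith
    have hq : 0 ≤ δ y / D := div_nonneg (hδ0 y hyC) hD.le
    have f1 : (⌊δ y / D⌋₊ : ℝ) * D ≤ δ y := (le_div_iff₀ hD).mp (Nat.floor_le hq)
    have f2 : δ y < ((⌊δ y / D⌋₊ : ℝ) + 1) * D := (div_lt_iff₀ hD).mp (Nat.lt_floor_add_one _)
    have hB : {w | T.d y w < D} ⊆ Ann ⌊δ y / D⌋₊ := by
      intro w hw
      have hw' : T.d y w < D := hw
      have hp : T.Pa (C : Set V) y w (T.d y w) :=
        (hgeo w hw').mono (fun u hu => Finset.mem_coe.mpr (hy u hu)) le_rfl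
      have e1 := hδt y hyC w _ hp
      have e2 := hδt w (hy w hw') y _ hp.symm
      refine (hAnn _ w).mpr ⟨hy w hw', ?_, ?_⟩ <;> linarith
    refine ⟨cmp ⌊δ y / D⌋₊ y, Finset.mem_filter.mpr ⟨Finset.mem_univ _, _, y, hB ?_, rfl⟩, ?_⟩
    · show T.d y y < D
      rw [T.d_self]; exact hD
    · intro z hz
      exact (hcmp _ y z).mpr ⟨_, (hgeo z hz).mono hB le_rfl⟩
  · intro y
    have hs : ((univ.filter fun C' => ∃ a : ℕ, ∃ y ∈ Ann a, C' = cmp a y).filter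
        fun C' => y ∈ C') ⊆ ({⌊δ y / D⌋₊ - 1, ⌊δ y / D⌋₊, ⌊δ y / D⌋₊ + 1} : Finset ℕ).image
          fun a => cmp a y := by
      intro C' hC'
      obtain ⟨h1, h2⟩ := Finset.mem_filter.mp hC'
      obtain ⟨a, x, hx, rfl⟩ := (Finset.mem_filter.mp h1).2
      obtain ⟨hyC, h3, h4⟩ := (hAnn a y).mp (hsub a x y h2)
      obtain ⟨ρ, hρ⟩ := (hcmp a x y).mp h2
      have hq : 0 ≤ δ y / D := div_nonneg (hδ0 y hyC) hD.le
      have f1 : (⌊δ y / D⌋₊ : ℝ) * D ≤ δ y := (le_div_iff₀ hD).mp (Nat.floor_le hq)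
      have f2 : δ y < ((⌊δ y / D⌋₊ : ℝ) + 1) * D := (div_lt_iff₀ hD).mp (Nat.lt_floor_add_one _)
      have g1 : (⌊δ y / D⌋₊ : ℝ) < a + 2 := lt_of_mul_lt_mul_right (f1.trans_lt h4) hD.le
      have g2 : (a : ℝ) - 1 < ⌊δ y / D⌋₊ + 1 := lt_of_mul_lt_mul_right (h3.trans_lt f2) hD.le
      have g1' : ⌊δ y / D⌋₊ < a + 2 := by exact_mod_cast g1
      have g2' : a < ⌊δ y / D⌋₊ + 2 := by
        have : (a : ℝ) < (⌊δ y / D⌋₊ : ℝ) + 2 := by linarith
        exact_mod_cast this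
      refine Finset.mem_image.mpr ⟨a, ?_, ?_⟩
      · simp only [Finset.mem_insert, Finset.mem_singleton]
        omega
      · ext z
        rw [hcmp, hcmp]
        exact ⟨fun ⟨s, hs⟩ => ⟨_, hρ.trans hs⟩, fun ⟨s, hs⟩ => ⟨_, hρ.symm.trans hs⟩⟩
    exact (Finset.card_le_card hs).trans (Finset.card_image_le.trans Finset.card_le_three)

/-- after `k` chops every point of the cluster is within `3 D` of one of at most `k` points
(`Pa.sep`; otherwise `A r` meets `k` disjoint sets) -/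
theorem clu_final {D : ℝ} {C : Finset V} (h : T.Clu D k C) :
    ∃ F : Finset V, F.card ≤ k + 1 ∧ ∀ y ∈ C, ∃ a ∈ F, T.d a y ≤ 3 * D := by
  rcases h with ⟨r, h⟩ | ⟨r, -, hr, Z, hZ1, -, hZ3⟩
  · exact ⟨{r}, by simp, fun y hy => ⟨r, Finset.mem_singleton_self _, h y hy⟩⟩
  refine ⟨T.A r, by have := T.A_card r; omega, fun y hy => ?_⟩
  by_contra hc
  have key : ∀ b : ℕ, ∃ a, b < k → a ∈ T.A r ∧ a ∈ Z b := by
    intro b
    by_cases hb : b < k
    · obtain ⟨q, ρ, hq, hρ⟩ := hZ3 b hb y hy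
      obtain ⟨a, ha, haS⟩ := hρ.sep (hr y hy).1 hq
      refine ⟨a, fun _ => ⟨ha, ?_⟩⟩
      rcases haS with h1 | h1
      · exact h1
      · exact absurd ⟨a, ha, by rw [T.d_comm]; exact h1⟩ hc
    · exact ⟨r, fun h => absurd h hb⟩
  choose f hf using key
  have hcard : (Finset.range k).card ≤ (T.A r).card := by
    refine Finset.card_le_card_of_injOn f
      (fun b hb => Finset.mem_coe.mpr (hf b (Finset.mem_range.mp (Finset.mem_coe.mp hb))).1) ?_
    intro b hb c hc' hbc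
    have hb' := Finset.mem_range.mp (Finset.mem_coe.mp hb)
    have hc'' := Finset.mem_range.mp (Finset.mem_coe.mp hc')
    by_contra hne
    exact Set.disjoint_left.mp (hZ1 b hb' c hc'' hne) (hf b hb').2 (hbc ▸ (hf c hc'').2)
  rw [Finset.card_range] at hcard
  exact (T.A_card r).not_ge hcard

/-- overlap of a union of families of subsets -/
theorem h36_overlap {𝒞 : Finset (Finset V)} {g : Finset V → Finset (Finset V)} {y : V} {n m : ℕ}
    (h1 : (𝒞.filter fun C => y ∈ C).card ≤ n) (h2 : ∀ C ∈ 𝒞, ∀ C' ∈ g C, C' ⊆ C)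
    (h3 : ∀ C ∈ 𝒞, ((g C).filter fun C' => y ∈ C').card ≤ m) :
    ((𝒞.biUnion g).filter fun C' => y ∈ C').card ≤ n * m := by
  have hs : ((𝒞.biUnion g).filter fun C' => y ∈ C') ⊆
      (𝒞.filter fun C => y ∈ C).biUnion fun C => (g C).filter fun C' => y ∈ C' := by
    intro C' hC'
    obtain ⟨e1, e2⟩ := Finset.mem_filter.mp hC'
    obtain ⟨C, hC, e3⟩ := Finset.mem_biUnion.mp e1
    exact Finset.mem_biUnion.mpr ⟨C, Finset.mem_filter.mpr ⟨hC, h2 C hC C' e3 e2⟩,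
      Finset.mem_filter.mpr ⟨e3, e2⟩⟩
  refine (Finset.card_le_card hs).trans ((Finset.card_biUnion_le_card_mul _ _ m ?_).trans
    (Nat.mul_le_mul_right _ h1))
  exact fun C hC => h3 C (Finset.mem_filter.mp hC).1

/-- the clusters after `i` chops -/
theorem h36_chops {D : ℝ} (hD : 0 < D) (i : ℕ) : ∃ 𝒞 : Finset (Finset V),
    (∀ C ∈ 𝒞, T.Clu D i C) ∧ (∀ y, ∃ C ∈ 𝒞, ∀ z, T.d y z < D → z ∈ C) ∧
      ∀ y, (𝒞.filter fun C => y ∈ C).card ≤ 3 ^ i := by
  induction i with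
  | zero =>
    refine ⟨{univ}, ?_, fun y => ⟨univ, Finset.mem_singleton_self _, fun z _ => mem_univ z⟩, ?_⟩
    · intro C hC
      rw [Finset.mem_singleton] at hC
      subst hC
      refine Or.inr ⟨T.root, mem_univ _, fun y _ => ⟨T.anc_root y, T.d T.root y, ?_⟩,
        fun _ => ∅, ?_, ?_, ?_⟩
      · rw [Finset.coe_univ]
        exact T.geo' _ _
      · intro a ha
        omega
      · intro a ha
        omega
      · intro a ha
        omega
    · intro y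
      exact (Finset.card_filter_le _ _).trans (by simp)
  | succ i ih =>
    obtain ⟨𝒞, h1, h2, h3⟩ := ih
    have key : ∀ C : Finset V, ∃ 𝒟 : Finset (Finset V), C ∈ 𝒞 →
        (∀ C' ∈ 𝒟, C' ⊆ C ∧ T.Clu D (i + 1) C') ∧
        (∀ y, (∀ z, T.d y z < D → z ∈ C) → ∃ C' ∈ 𝒟, ∀ z, T.d y z < D → z ∈ C') ∧
        ∀ y, (𝒟.filter fun C' => y ∈ C').card ≤ 3 := by
      intro C
      by_cases hC : C ∈ 𝒞
      · obtain ⟨𝒟, h𝒟⟩ := T.chop hD (h1 C hC)
        exact ⟨𝒟, fun _ => h𝒟⟩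
      · exact ⟨∅, fun h => absurd h hC⟩
    choose g hg using key
    refine ⟨𝒞.biUnion g, ?_, ?_, ?_⟩
    · intro C' hC'
      obtain ⟨C, hC, e⟩ := Finset.mem_biUnion.mp hC'
      exact ((hg C hC).1 C' e).2
    · intro y
      obtain ⟨C, hC, e⟩ := h2 y
      obtain ⟨C', hC', e'⟩ := (hg C hC).2.1 y e
      exact ⟨C', Finset.mem_biUnion.mpr ⟨C, hC, hC'⟩, e'⟩
    · intro y
      rw [pow_succ]
      exact h36_overlap (h3 y) (fun C hC C' e => ((hg C hC).1 C' e).1)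
        fun C hC => (hg C hC).2.2 y

/-- start with `univ`, chop `k` times (`Finset.biUnion`), then intersect with the balls of radius
`4 D` around the points of `clu_final` -/
theorem exists_cov {D : ℝ} (hD : 0 < D) : ∃ 𝒞, T.Cov D (3 ^ k * (k + 1)) 𝒞 := by
  classical
  obtain ⟨𝒞, h1, h2, h3⟩ := T.h36_chops hD k
  have key : ∀ C : Finset V, ∃ F : Finset V, C ∈ 𝒞 →
      F.card ≤ k + 1 ∧ ∀ y ∈ C, ∃ a ∈ F, T.d a y ≤ 3 * D := by
    intro C
    by_cases hC : C ∈ 𝒞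
    · obtain ⟨F, hF⟩ := T.clu_final (h1 C hC)
      exact ⟨F, fun _ => hF⟩
    · exact ⟨∅, fun h => absurd h hC⟩
  choose F hF using key
  refine ⟨𝒞.biUnion fun C => (F C).image fun a => C.filter fun z => T.d a z ≤ 4 * D, ?_, ?_, ?_⟩
  · intro y
    obtain ⟨C, hC, e⟩ := h2 y
    obtain ⟨a, ha, hay⟩ := (hF C hC).2 y (e y (by rw [T.d_self]; exact hD))
    refine ⟨C.filter fun z => T.d a z ≤ 4 * D,
      Finset.mem_biUnion.mpr ⟨C, hC, Finset.mem_image.mpr ⟨a, ha, rfl⟩⟩, fun z hz => ?_⟩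
    refine Finset.mem_filter.mpr ⟨e z hz, ?_⟩
    linarith [T.d_tri a y z]
  · intro C' hC' y hy z hz
    obtain ⟨C, -, e⟩ := Finset.mem_biUnion.mp hC'
    obtain ⟨a, -, rfl⟩ := Finset.mem_image.mp e
    have e1 := (Finset.mem_filter.mp hy).2
    have e2 := (Finset.mem_filter.mp hz).2
    have e3 := T.d_tri y a z
    rw [T.d_comm y a] at e3
    linarith
  · intro y
    refine h36_overlap (h3 y) ?_ fun C hC => ?_
    · intro C _ C' e
      obtain ⟨a, -, rfl⟩ := Finset.mem_image.mp e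
      exact Finset.filter_subset _ _
    · exact (Finset.card_filter_le _ _).trans (Finset.card_image_le.trans (hF C hC).1)

end ET

end Crest.Agent.R206
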