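import Mathlib

/-! Row 206 (bounded treewidth): elimination trees, cut laws. -/

set_option autoImplicit false
set_option linter.dupNamespace false
set_option linter.unusedSectionVars false

namespace Crest.Agent.R206

open Finset

/-- walks inside `S` with steps in `R` and `d`-length at most `r` -/
inductive Pth {V : Type} (R : V → V → Prop) (d : V → V → ℝ) (S : Set V) : V → V → ℝ → Prop
  | refl (x : V) (r : ℝ) : x ∈ S → 0 ≤ r → Pth R d S x x r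
  | step (x y z : V) (r : ℝ) : x ∈ S → R x y → Pth R d S y z r → Pth R d S x z (d x y + r)

/-- a pseudo-metric with an elimination tree of width `< k` -/
structure ET (V : Type) [Fintype V] [DecidableEq V] (k : ℕ) where
  d : V → V → ℝ
  d_self : ∀ x, d x x = 0
  d_comm : ∀ x y, d x y = d y x
  d_tri : ∀ x y z, d x z ≤ d x y + d y z
  root : V
  par : V → V
  dep : V → ℕ
  par_root : par root = root
  dep_root : dep root = 0
  dep_par : ∀ v, v ≠ root → dep v = dep (par v) + 1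
  /-- the adhesion of `v` -/
  A : V → Finset V
  A_root : A root = ∅
  A_sub : ∀ v, v ≠ root → A v ⊆ insert (par v) (A (par v))
  A_card : ∀ v, (A v).card < k
  geo : ∀ x y, Pth (fun u v => u ∈ A v ∨ v ∈ A u) d Set.univ x y (d x y)

variable {V : Type} [Fintype V] [DecidableEq V] {k : ℕ}

/-- integral of `h` against the (signed) weight `m` on cuts -/
def Ex (m h : Finset V → ℝ) : ℝ := ∑ X, m X * h X

/-- indicator of `v ∈ X` -/
def ind (v : V) (X : Finset V) : ℝ := if v ∈ X then 1 else 0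

/-- `L¹` distance -/
def dP (m f g : Finset V → ℝ) : ℝ := Ex m fun X => |f X - g X|

/-- `h` read on the trace on `A` -/
def tr (A : Finset V) (h : Finset V → ℝ) (X : Finset V) : ℝ := h (X ∩ A)

/-- equal marginals on `A` -/
def SameOn (A : Finset V) (m m' : Finset V → ℝ) : Prop := ∀ h, Ex m (tr A h) = Ex m' (tr A h)

/-- conditional expectation given the trace on `A` -/
noncomputable def ce (P : Finset V → ℝ) (A : Finset V) (f : Finset V → ℝ) (Y : Finset V) : ℝ :=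
  Ex P (fun X => if X ∩ A = Y then f X else 0) / Ex P fun X => if X ∩ A = Y then 1 else 0

namespace ET

variable (T : ET V k)

/-- the bag of `v` -/
def B (v : V) : Finset V := insert v (T.A v)

/-- steps inside bags -/
def R (u v : V) : Prop := u ∈ T.A v ∨ v ∈ T.A u

/-- walks -/
def Pa (S : Set V) (x y : V) (r : ℝ) : Prop := Pth T.R T.d S x y r

/-- `u` is an ancestor of `v` (or `v` itself) -/
def Anc (u v : V) : Prop := ∃ n : ℕ, T.par^[n] v = u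

/-- downward chains in the tree -/
def Chain (γ : ℕ → V) (n : ℕ) : Prop := ∀ i < n, γ (i + 1) ≠ T.root ∧ T.par (γ (i + 1)) = γ i

/-- given the trace on `A v`, the part below `v` is independent of the rest -/
def Markov (P : Finset V → ℝ) : Prop :=
  ∀ (v : V) (f g : Finset V → ℝ),
    (∀ X X' : Finset V, (∀ u, T.Anc v u ∨ u ∈ T.A v → (u ∈ X ↔ u ∈ X')) → f X = f X') →
    (∀ X X' : Finset V, (∀ u, ¬ T.Anc v u → (u ∈ X ↔ u ∈ X')) → g X = g X') →
    Ex P (fun X => f X * g X) = Ex P fun X => tr (T.A v) (ce P (T.A v) f) X * g X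

/-- the numbers that switch scales on -/
def Rel (m : Finset V → ℝ) (v : V) (ρ : ℝ) : Prop :=
  (∃ u ∈ T.B v, ∃ w ∈ T.B v, ρ = T.d u w) ∨
    ∃ h : Finset V → ℝ, (∀ Y, h Y = 0 ∨ h Y = 1) ∧ ρ = Ex m (tr (T.A v) h)

/-- scale `j` is on at `v` -/
def On (K : ℝ) (m : Finset V → ℝ) (v : V) (j : ℤ) : Prop :=
  ∃ ρ, T.Rel m v ρ ∧ K ^ (j - 8) ≤ ρ ∧ ρ ≤ K ^ (j + 8)

/-- cost of a sequence of predictors along a chain, ending at the indicator of `w` -/
def cost (P : Finset V → ℝ) (γ : ℕ → V) (n : ℕ) (h : ℕ → Finset V → ℝ) (w : V) : ℝ :=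
  ∑ i ∈ range n, dP P (tr (T.A (γ i)) (h i)) (tr (T.A (γ (i + 1))) (h (i + 1))) +
    dP P (tr (T.A (γ n)) (h n)) (ind w)

/-- sparse cover at scale `D` -/
def Cov (D : ℝ) (τ : ℕ) (𝒞 : Finset (Finset V)) : Prop :=
  (∀ y, ∃ C ∈ 𝒞, ∀ z, T.d y z < D → z ∈ C) ∧ (∀ C ∈ 𝒞, ∀ y ∈ C, ∀ z ∈ C, T.d y z ≤ 8 * D) ∧
    ∀ y, (𝒞.filter fun C => y ∈ C).card ≤ τ

/-- what the construction delivers -/
structure Cert (K ab : ℝ) (P : Finset V → ℝ) : Prop where
  nonneg : ∀ X, 0 ≤ P X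
  lip : ∀ v, ∀ u ∈ T.B v, ∀ w ∈ T.B v, dP P (ind u) (ind w) ≤ T.d u w
  markov : T.Markov P
  cert : ∀ (γ : ℕ → V) (n : ℕ) (j : ℤ) (w : V), T.Chain γ n → (∀ i ≤ n, T.On K P (γ i) j) →
    w ∈ T.B (γ n) → (∃ u, K ^ j ≤ T.d w u) → (∀ a ∈ T.A (γ 0), K ^ j ≤ T.d w a) →
    (γ 0 = T.root ∨ ¬ T.On K P (T.par (γ 0)) j ∨ ∀ a ∈ T.A (γ 0), 8 * K ^ j < T.d w a) →
    (∀ h, ab * K ^ j ≤ T.cost P γ n h w) ∧
      ∀ z ∈ T.B (γ n), 8 * K ^ j < T.d w z → ab * K ^ j ≤ dP P (ind w) (ind z)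

end ET

/-- `g` is `c`-Lipschitz and bounded by `c * M` -/
def Nrm (d : V → V → ℝ) (M : ℝ) (g : V → ℝ) (c : ℝ) : Prop :=
  (∀ u v, |g u - g v| ≤ c * d u v) ∧ ∀ u, |g u| ≤ c * M

/-- level-cut law of `S` in the window `[-c, c]` -/
noncomputable def cutm (c : ℝ) (S : V → ℝ) (X : Finset V) : ℝ :=
  ∫ s in (-c)..c, if (univ.filter fun v => s < S v) = X then (1 : ℝ) else 0

/-- states of the engine: atoms `(μ w, S w, E w)` (`S w` is the function times the mass) -/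
def St {ι : Type} (d : V → V → ℝ) (M ab : ℝ) (I : Finset ι) (ξ : ι → V → ℝ) (m : Finset V → ℝ)
    (l : ι → Finset V → ℝ) : Prop :=
  ∃ (Ω : Type) (_ : Fintype Ω) (μ : Ω → ℝ) (S : Ω → V → ℝ) (E : Ω → ι → ℝ),
    (∀ w, 0 ≤ μ w) ∧ ∑ w, μ w = 1 ∧ (∀ w i, E w i = 1 ∨ E w i = -1) ∧
    (∀ s : Finset Ω, Nrm d M (∑ w ∈ s, S w) ((∑ w ∈ s, μ w) * (1 - ∑ w ∈ s, μ w))) ∧
    (∀ X, m X = ∑ w, cutm (μ w * M) (S w) X) ∧
    (∀ i X, l i X = ∑ w, E w i * cutm (μ w * M) (S w) X) ∧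
    ∀ i ∈ I, ∑ w, E w i * μ w = 0 ∧ ∃ a, ab ≤ a ∧ ∀ v, ∑ w, E w i * S w v = a * ξ i v

/-- what is used of a state -/
structure Loc {ι : Type} (d : V → V → ℝ) (M ab : ℝ) (I : Finset ι) (ξ : ι → V → ℝ)
    (m : Finset V → ℝ) (l : ι → Finset V → ℝ) : Prop where
  nonneg : ∀ X, 0 ≤ m X
  total : ∑ X, m X = 2 * M
  abs_le : ∀ i X, |l i X| ≤ m X
  lip : ∀ u v, dP m (ind u) (ind v) ≤ d u v
  val : ∀ i ∈ I, ∃ a, ab ≤ a ∧ ∀ v, Ex (l i) (ind v) = a * ξ i v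

/-- the amplitude -/
noncomputable def abar (k N : ℕ) : ℝ := 1 / (2 * 2 ^ (k * k + N))

end Crest.Agent.R206
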