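import Crest.Agent.R206.TBasic

/-! Row 206: lower bounds from the certificate. -/

set_option autoImplicit false
set_option linter.dupNamespace false
set_option linter.unusedSectionVars false

namespace Crest.Agent.R206

open Finset

variable {V : Type} [Fintype V] [DecidableEq V] {k : ℕ}

namespace ET

theorem helper30_up (T : ET V k) (Q : V → Prop) : ∀ (m : ℕ) (v : V), T.dep v = m → Q v →
    ∃ (γ : ℕ → V) (n : ℕ), T.Chain γ n ∧ γ n = v ∧ (∀ i ≤ n, Q (γ i)) ∧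
      (γ 0 = T.root ∨ ¬ Q (T.par (γ 0))) := by
  intro m
  induction m using Nat.strong_induction_on with | _ m ih =>
  intro v hm hv
  by_cases h : v = T.root ∨ ¬ Q (T.par v)
  · exact ⟨fun _ => v, 0, fun i hi => absurd hi (Nat.not_lt_zero i), rfl, fun _ _ => hv, h⟩
  · obtain ⟨h1, h2⟩ := not_or.1 h
    obtain ⟨γ, n, c1, c2, c3, c4⟩ := ih (T.dep (T.par v)) (by have := T.dep_par v h1; omega)
      (T.par v) rfl (not_not.1 h2)
    refine ⟨fun i => if i ≤ n then γ i else v, n + 1, fun i hi => ?_, if_neg (by omega),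
      fun i _ => ?_, by simpa using c4⟩
    · by_cases hin : i + 1 ≤ n
      · simp only [if_pos hin, if_pos (show i ≤ n by omega)]
        exact c1 i hin
      · obtain rfl : i = n := by omega
        simp only [if_neg hin, if_pos le_rfl]
        exact ⟨h1, c2.symm⟩
    · by_cases hin : i ≤ n
      · simp only [if_pos hin]
        exact c3 i hin
      · simp only [if_neg hin]
        exact hv

/-- `D = d u w > 0`, `K ^ (j + 1) ≤ D < K ^ (j + 2)`.  Go up from `v` while `j` is on: a chain `γ` from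
`θ` to `v` with `θ = root` or `j` off at `par θ`.  If both `u` and `w` were within `K ^ j` of `A θ`, two
points of `B (par θ)` would have distance in `[D - 2 K ^ j, D + 2 K ^ j]`. -/
theorem Cert.n2 {T : ET V k} {K ab : ℝ} {P : Finset V → ℝ} (h : T.Cert K ab P) (hK : 10 ≤ K)
    (hab : 0 ≤ ab) {v u w : V} (hu : u ∈ T.B v) (hw : w ∈ T.B v) :
    ab * T.d u w ≤ K ^ 2 * dP P (ind u) (ind w) := by
  have hK1 : 1 < K := by linarith
  have hK0 : 0 < K := by linarith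
  rcases (T.d_nonneg u w).eq_or_lt with hD | hD
  · rw [← hD, mul_zero]
    exact mul_nonneg (by positivity) (dP_nonneg h.nonneg _ _)
  obtain ⟨i, hi1, hi2⟩ := exists_mem_Ico_zpow hD hK1
  obtain ⟨j, rfl⟩ : ∃ j, i = j + 1 := ⟨i - 1, by ring⟩
  have hx : 0 < K ^ j := zpow_pos hK0 j
  have e1 : K ^ (j + 1) = K ^ j * K := zpow_add_one₀ hK0.ne' j
  have e2 : K ^ (j + 1 + 1) = K ^ j * K * K := by rw [zpow_add_one₀ hK0.ne', e1]
  have lo : K ^ (j - 8) ≤ K ^ j := zpow_le_zpow_right₀ hK1.le (by omega)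
  have hi : K ^ j * K * K * K ≤ K ^ (j + 8) := by
    rw [← e2, ← zpow_add_one₀ hK0.ne']
    exact zpow_le_zpow_right₀ hK1.le (by omega)
  rw [e1] at hi1
  rw [e2] at hi2
  have b1 : K ^ j * 10 ≤ K ^ j * K := mul_le_mul_of_nonneg_left hK hx.le
  have b2 : K ^ j * K * 10 ≤ K ^ j * K * K := mul_le_mul_of_nonneg_left hK (by positivity)
  have b3 : K ^ j * K * K * 10 ≤ K ^ j * K * K * K :=
    mul_le_mul_of_nonneg_left hK (by positivity)
  obtain ⟨γ, n, c1, rfl, c3, c4⟩ := helper30_up T (fun x => T.On K P x j) _ v rfl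
    ⟨_, Or.inl ⟨u, hu, w, hw, rfl⟩, by linarith, by linarith⟩
  have key : ∀ x y, x ∈ T.B (γ n) → y ∈ T.B (γ n) → T.d x y = T.d u w →
      (∀ a ∈ T.A (γ 0), K ^ j ≤ T.d x a) → ab * T.d u w ≤ K ^ 2 * dP P (ind x) (ind y) := by
    intro x y hx' hy e far
    have a1 := (h.cert γ n j x c1 c3 hx' ⟨y, by linarith⟩ far (c4.imp_right Or.inl)).2 y hy
      (by linarith)
    calc ab * T.d u w ≤ ab * (K ^ j * K * K) := mul_le_mul_of_nonneg_left hi2.le hab
      _ = K ^ 2 * (ab * K ^ j) := by ring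
      _ ≤ _ := mul_le_mul_of_nonneg_left a1 (by positivity)
  by_cases f1 : ∀ a ∈ T.A (γ 0), K ^ j ≤ T.d u a
  · exact key u w hu hw rfl f1
  by_cases f2 : ∀ a ∈ T.A (γ 0), K ^ j ≤ T.d w a
  · rw [dP_comm]
    exact key w u hw hu (T.d_comm _ _) f2
  push Not at f1 f2
  obtain ⟨a, ha, f1⟩ := f1
  obtain ⟨b, hb, f2⟩ := f2
  have hr : γ 0 ≠ T.root := fun e => by simp [e, T.A_root] at ha
  have t1 := T.d_tri u a w
  have t2 := T.d_tri a b w
  have t3 := T.d_tri a u b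
  have t4 := T.d_tri u w b
  rw [T.d_comm b w] at t2
  rw [T.d_comm a u] at t3
  exact absurd ⟨_, Or.inl ⟨a, T.A_sub_B hr ha, b, T.A_sub_B hr hb, rfl⟩, by linarith,
    by linarith⟩ (c4.resolve_left hr)

theorem cost_succ (T : ET V k) (P : Finset V → ℝ) (γ : ℕ → V) (n : ℕ) (h : ℕ → Finset V → ℝ)
    (w : V) : T.cost P γ (n + 1) h w = dP P (tr (T.A (γ 0)) (h 0)) (tr (T.A (γ 1)) (h 1)) +
      T.cost P (fun s => γ (s + 1)) n (fun s => h (s + 1)) w := by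
  simp only [cost, sum_range_succ']
  ring

theorem h78_scale {K x : ℝ} (hK : 1 < K) (hx : 0 < x) : ∃ j : ℤ, x ≤ K ^ j ∧ K ^ j < K * x := by
  obtain ⟨n, h1, h2⟩ := exists_mem_Ioc_zpow hx hK
  have hK0 : 0 < K := by linarith
  refine ⟨n + 1, h2, ?_⟩
  rw [zpow_add_one₀ hK0.ne', mul_comm]
  exact mul_lt_mul_of_pos_left h1 hK0

theorem h78_tele {P : Finset V → ℝ} (hP : ∀ X, 0 ≤ P X) (φ : ℕ → Finset V → ℝ) (t : ℕ) :
    dP P (φ 0) (φ t) ≤ ∑ s ∈ range t, dP P (φ s) (φ (s + 1)) := by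
  induction t with
  | zero => simp [dP_self]
  | succ t ih =>
    rw [Finset.sum_range_succ]
    exact (dP_tri hP _ (φ t) _).trans (by linarith)

theorem h78_rel (T : ET V k) (P : Finset V → ℝ) {v w : V} (hw : w ∈ T.A v) {g : Finset V → ℝ}
    (hg : ∀ Y, g Y = 0 ∨ g Y = 1) : T.Rel P v (dP P (tr (T.A v) g) (ind w)) := by
  refine Or.inr ⟨fun Y => |g Y - ind w Y|, fun Y => ?_, ?_⟩
  · rcases hg Y with h | h <;> by_cases hY : w ∈ Y <;> simp [h, ind, hY]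
  · unfold dP
    congr 1
    funext X
    have := congrFun (tr_ind hw) X
    simp only [tr] at this ⊢
    rw [this]

theorem h78_on (T : ET V k) {K S ρ : ℝ} {P : Finset V → ℝ} {v : V} (hK : 100 ≤ K) (hS : 0 < S)
    (hρ : T.Rel P v ρ) (h1 : S ≤ K ^ 3 * ρ) (h2 : ρ ≤ 2 * S) {j : ℤ} (hj1 : S ≤ K ^ 2 * K ^ j)
    (hj2 : K ^ j ≤ K ^ 2 * S) : T.On K P v j := by
  have hK0 : 0 < K := by linarith
  have hK1 : 1 ≤ K := by linarith
  have hj : 0 < K ^ j := zpow_pos hK0 j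
  have hρ0 : 0 ≤ ρ := by
    by_contra hc
    push Not at hc
    have : K ^ 3 * ρ < 0 := mul_neg_of_pos_of_neg (by positivity) hc
    linarith
  refine ⟨ρ, hρ, ?_, ?_⟩
  · rw [zpow_sub₀ hK0.ne', div_le_iff₀ (zpow_pos hK0 _)]
    have e : K ^ (8 : ℤ) = K ^ 8 := by norm_cast
    rw [e]
    have a1 : K ^ 2 * S ≤ K ^ 2 * (K ^ 3 * ρ) := mul_le_mul_of_nonneg_left h1 (by positivity)
    have a2 : K ^ 5 ≤ K ^ 8 := pow_le_pow_right₀ hK1 (by norm_num)
    have a3 : ρ * K ^ 5 ≤ ρ * K ^ 8 := mul_le_mul_of_nonneg_left a2 hρ0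
    nlinarith
  · rw [zpow_add₀ hK0.ne']
    have e : K ^ (8 : ℤ) = K ^ 8 := by norm_cast
    rw [e]
    have a2 : K ^ 3 ≤ K ^ 8 := pow_le_pow_right₀ hK1 (by norm_num)
    have a4 : 2 * K ^ 2 ≤ K ^ 3 := by
      have : K ^ 3 = K * K ^ 2 := by ring
      rw [this]
      exact mul_le_mul_of_nonneg_right (by linarith) (by positivity)
    have a3 : K ^ j * (2 * K ^ 2) ≤ K ^ j * K ^ 8 :=
      mul_le_mul_of_nonneg_left (a4.trans a2) hj.le
    nlinarith

theorem h78_n2 {T : ET V k} {K ab : ℝ} {P : Finset V → ℝ} (h : T.Cert K ab P) (hK : 100 ≤ K)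
    (hab : 0 < ab) (hKab : 4 ≤ K * ab) {v u w : V} (hu : u ∈ T.B v) (hw : w ∈ T.B v) :
    T.d u w ≤ K ^ 3 * dP P (ind u) (ind w) := by
  have h1 := h.n2 (by linarith) hab.le hu hw
  have hd := T.d_nonneg u w
  have hK0 : 0 < K := by linarith
  have h2 : K * (ab * T.d u w) ≤ K * (K ^ 2 * dP P (ind u) (ind w)) :=
    mul_le_mul_of_nonneg_left h1 hK0.le
  have h3 : 4 * T.d u w ≤ K * ab * T.d u w := mul_le_mul_of_nonneg_right hKab hd
  nlinarith

/-- One segment.  `φ t = tr (A (γ t)) (h t)` for `t ≤ n`, `φ (n + 1) = ind (γ n)`; `w t ∈ A (γ t)`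
minimises `r t = dP P (φ t) (ind (w t))`, `w (n + 1) = γ n`, `r (n + 1) = 0`.  `S = r 0`; for `t ≤ n`
the number `r t` is in `Rel P (γ t)` (`tr_ind`).  Let `t` be the first positive time with
`2 S ≤ r t`, or `K ^ 3 * r t ≤ S`, or `∀ a ∈ A (γ 0), 9 K ^ j' < d (w t) a` where `K S ≤ K ^ j' < K ^ 2 S`;
`c` = the sum of the first `t` steps.  All scales `j` with `S / K ^ 2 ≤ K ^ j ≤ K ^ 2 S` are on at the
times `< t`.  Displacement: `w (t - 1)` is within `9 K ^ j'` of some `a ∈ A (γ 0)`; `n2` for `(w 0, a)` and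
for `(w (t - 1), w t)`, `lip_all`, `dP_tri`.  Payment (if `r t < 2 S`): `cert` on the chain
`0 .. t - 1` with the vertex `w t ∈ B (γ (t - 1))` gives `ab K ^ j ≤ c + r t`, with `j = j'` in the far case;
in the down case take `S / K ^ 2 ≤ K ^ j < S / K`: if `w t` is within `9 K ^ j` of `a ∈ A (γ 0)` then
`S ≤ c + r t + 9 K ^ j`. -/
theorem Cert.segment {T : ET V k} {K ab : ℝ} {P : Finset V → ℝ} (h : T.Cert K ab P)
    (hK : 100 ≤ K) (hab : 0 < ab) (hab1 : ab ≤ 1) (hKab : 4 ≤ K * ab) {γ : ℕ → V} {n : ℕ}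
    (hγ : T.Chain γ n) (φ : ℕ → Finset V → ℝ) (g : ℕ → Finset V → ℝ)
    (hg : ∀ t Y, g t Y = 0 ∨ g t Y = 1) (hφ : ∀ t ≤ n, φ t = tr (T.A (γ t)) (g t))
    (hφn : φ (n + 1) = ind (γ n)) (w : ℕ → V) (hw : ∀ t ≤ n, w t ∈ T.A (γ t) ∧
      ∀ a ∈ T.A (γ t), dP P (φ t) (ind (w t)) ≤ dP P (φ t) (ind a)) (hwn : w (n + 1) = γ n) :
    ∃ t, 1 ≤ t ∧ t ≤ n + 1 ∧
      T.d (w 0) (w t) ≤ 40 * K ^ 5 * (dP P (φ 0) (ind (w 0)) + dP P (φ t) (ind (w t)) +
        ∑ s ∈ range t, dP P (φ s) (φ (s + 1))) ∧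
      (2 * dP P (φ 0) (ind (w 0)) ≤ dP P (φ t) (ind (w t)) ∨
        dP P (φ 0) (ind (w 0)) ≤ 2 * K ^ 3 * ∑ s ∈ range t, dP P (φ s) (φ (s + 1))) := by
  classical
  have hP := h.nonneg
  have hK0 : 0 < K := by linarith
  have hK1 : 1 < K := by linarith
  have hAB : ∀ v, T.A v ⊆ T.B v := fun v => Finset.subset_insert _ _
  have hwB : ∀ s ≤ n, w (s + 1) ∈ T.B (γ s) := by
    intro s hs
    rcases hs.lt_or_eq with hs | rfl
    · have := T.A_sub_B (hγ s hs).1 (hw (s + 1) hs).1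
      rwa [(hγ s hs).2] at this
    · rw [hwn]; exact Finset.mem_insert_self _ _
  obtain ⟨r, hr⟩ : ∃ r : ℕ → ℝ, ∀ t, r t = dP P (φ t) (ind (w t)) := ⟨_, fun _ => rfl⟩
  obtain ⟨c, hc⟩ : ∃ c : ℕ → ℝ, ∀ t, c t = ∑ s ∈ range t, dP P (φ s) (φ (s + 1)) :=
    ⟨_, fun _ => rfl⟩
  simp only [← hr, ← hc]
  have hr0 : ∀ t, 0 ≤ r t := fun t => by rw [hr]; exact dP_nonneg hP _ _
  have hc0 : ∀ t, 0 ≤ c t := fun t => by
    rw [hc]; exact Finset.sum_nonneg fun _ _ => dP_nonneg hP _ _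
  have hcs : ∀ t, c (t + 1) = c t + dP P (φ t) (φ (t + 1)) := fun t => by
    rw [hc, hc, Finset.sum_range_succ]
  have htele : ∀ t, dP P (φ 0) (φ t) ≤ c t := fun t => by rw [hc]; exact h78_tele hP φ t
  have hK35 : K ^ 3 ≤ K ^ 5 := pow_le_pow_right₀ hK1.le (by norm_num)
  have hK25 : K ^ 2 ≤ K ^ 5 := pow_le_pow_right₀ hK1.le (by norm_num)
  have hK3 : 100 ≤ K ^ 3 := hK.trans (le_self_pow₀ hK1.le (by norm_num))
  have hK3' : K ≤ K ^ 3 := le_self_pow₀ hK1.le (by norm_num)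
  -- one step of displacement
  have hstep : ∀ s ≤ n, T.d (w s) (w (s + 1)) ≤ K ^ 3 * (r s + c (s + 1) + r (s + 1)) := by
    intro s hs
    refine (h78_n2 h hK hab hKab (hAB _ (hw s hs).1) (hwB s hs)).trans
      (mul_le_mul_of_nonneg_left ?_ (by positivity))
    have a1 := dP_tri hP (ind (w s)) (φ s) (ind (w (s + 1)))
    have a2 := dP_tri hP (φ s) (φ (s + 1)) (ind (w (s + 1)))
    rw [dP_comm P (ind (w s)) (φ s), ← hr] at a1
    rw [← hr] at a2
    have := hcs s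
    have := hc0 s
    linarith
  rcases (hr0 0).eq_or_lt with hS | hS
  · refine ⟨1, le_rfl, by omega, ?_, Or.inl (by rw [← hS]; simpa using hr0 1)⟩
    have a1 := hstep 0 (Nat.zero_le _)
    have a2 : 0 ≤ r 0 + r 1 + c 1 := add_nonneg (add_nonneg (hr0 0) (hr0 1)) (hc0 1)
    have a3 : K ^ 3 * (r 0 + r 1 + c 1) ≤ 40 * K ^ 5 * (r 0 + r 1 + c 1) :=
      mul_le_mul_of_nonneg_right (by nlinarith) a2
    simp only [zero_add] at a1
    nlinarith
  obtain ⟨j', hj1, hj2⟩ := h78_scale hK1 (mul_pos hK0 hS)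
  have hj0 : 0 < K ^ j' := zpow_pos hK0 _
  have hex : ∃ s, 2 * r 0 ≤ r (s + 1) ∨ K ^ 3 * r (s + 1) ≤ r 0 ∨
      ∀ a ∈ T.A (γ 0), 9 * K ^ j' < T.d (w (s + 1)) a := by
    refine ⟨n, Or.inr (Or.inl ?_)⟩
    rw [hr (n + 1), hφn, hwn, dP_self, mul_zero]
    exact hS.le
  have hsn : Nat.find hex ≤ n := by
    refine Nat.find_min' hex (Or.inr (Or.inl ?_))
    rw [hr (n + 1), hφn, hwn, dP_self, mul_zero]
    exact hS.le
  have hspec := Nat.find_spec hex
  have hmin : ∀ m < Nat.find hex, ¬ _ := fun m hm => Nat.find_min hex hm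
  generalize Nat.find hex = s at hsn hspec hmin
  have hbef : ∀ i ≤ s, r i ≤ 2 * r 0 ∧ r 0 ≤ K ^ 3 * r i ∧
      ∃ a ∈ T.A (γ 0), T.d (w i) a ≤ 9 * K ^ j' := by
    intro i hi
    rcases i with _ | i
    · refine ⟨by linarith, by nlinarith, w 0, (hw 0 (Nat.zero_le _)).1, ?_⟩
      rw [T.d_self]; positivity
    · have := hmin i (by omega)
      push Not at this
      exact ⟨this.1.le, this.2.1.le, this.2.2⟩
  have hon : ∀ j : ℤ, r 0 ≤ K ^ 2 * K ^ j → K ^ j ≤ K ^ 2 * r 0 → ∀ i ≤ s, T.On K P (γ i) j := by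
    intro j h1 h2 i hi
    have hin : i ≤ n := hi.trans hsn
    have hrel := h78_rel T P (hw i hin).1 (hg i)
    rw [← hφ i hin, ← hr] at hrel
    exact h78_on T hK hS hrel (hbef i hi).2.1 (hbef i hi).1 h1 h2
  have hpay : ∀ j : ℤ, r 0 ≤ K ^ 2 * K ^ j → K ^ j ≤ K ^ 2 * r 0 →
      (∀ a ∈ T.A (γ 0), 9 * K ^ j < T.d (w (s + 1)) a) → ab * K ^ j ≤ c (s + 1) + r (s + 1) := by
    intro j h1 h2 hfar
    have hj : 0 < K ^ j := zpow_pos hK0 _
    have hch : T.Chain γ s := fun i hi => hγ i (by omega)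
    have := (h.cert γ s j (w (s + 1)) hch (hon j h1 h2) (hwB s hsn)
      ⟨w 0, by have := hfar _ (hw 0 (Nat.zero_le _)).1; linarith⟩
      (fun a ha => by have := hfar a ha; linarith)
      (Or.inr (Or.inr fun a ha => by have := hfar a ha; linarith))).1 g
    refine this.trans ?_
    unfold ET.cost
    have e1 : ∑ i ∈ range s, dP P (tr (T.A (γ i)) (g i)) (tr (T.A (γ (i + 1))) (g (i + 1))) =
        c s := by
      rw [hc]
      refine Finset.sum_congr rfl fun i hi => ?_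
      have hi' := Finset.mem_range.1 hi
      rw [hφ i (by omega), hφ (i + 1) (by omega)]
    rw [e1, ← hφ s hsn, hcs]
    have a2 := dP_tri hP (φ s) (φ (s + 1)) (ind (w (s + 1)))
    rw [← hr] at a2
    linarith
  refine ⟨s + 1, by omega, by omega, ?_, ?_⟩
  · obtain ⟨b1, -, a, ha, had⟩ := hbef s le_rfl
    have a1 := hstep s hsn
    have a2 := h78_n2 h hK hab hKab (hAB _ (hw 0 (Nat.zero_le _)).1) (hAB _ ha)
    have a3 := dP_tri hP (ind (w 0)) (φ 0) (ind a)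
    have a4 := dP_tri hP (φ 0) (φ s) (ind a)
    have a5 := dP_tri hP (φ s) (ind (w s)) (ind a)
    have a6 := h.lip_all (w s) a
    rw [dP_comm P (ind (w 0)) (φ 0), ← hr] at a3
    rw [← hr] at a5
    have a7 := htele s
    have a8 : c s ≤ c (s + 1) := by
      rw [hcs]; linarith [dP_nonneg hP (φ s) (φ (s + 1))]
    have hj3 : K ^ j' ≤ K ^ 2 * r 0 := by nlinarith
    have a9 : dP P (ind (w 0)) (ind a) ≤ 3 * r 0 + c (s + 1) + 9 * (K ^ 2 * r 0) := by linarith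
    have a10 : K ^ 3 * dP P (ind (w 0)) (ind a) ≤
        K ^ 3 * (3 * r 0 + c (s + 1) + 9 * (K ^ 2 * r 0)) :=
      mul_le_mul_of_nonneg_left a9 (by positivity)
    have a11 : K ^ 3 * (r s + c (s + 1) + r (s + 1)) ≤ K ^ 3 * (2 * r 0 + c (s + 1) + r (s + 1)) :=
      mul_le_mul_of_nonneg_left (by linarith) (by positivity)
    have t1 := T.d_tri (w 0) a (w (s + 1))
    have t2 := T.d_tri a (w s) (w (s + 1))
    rw [T.d_comm a (w s)] at t2
    have m1 : K ^ 3 * r 0 ≤ K ^ 5 * r 0 := mul_le_mul_of_nonneg_right hK35 hS.le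
    have m2 : K ^ 2 * r 0 ≤ K ^ 5 * r 0 := mul_le_mul_of_nonneg_right hK25 hS.le
    have m3 : K ^ 3 * c (s + 1) ≤ K ^ 5 * c (s + 1) := mul_le_mul_of_nonneg_right hK35 (hc0 _)
    have m4 : K ^ 3 * r (s + 1) ≤ K ^ 5 * r (s + 1) := mul_le_mul_of_nonneg_right hK35 (hr0 _)
    have p1 : 0 ≤ K ^ 5 * r 0 := by positivity
    have p2 : 0 ≤ K ^ 5 * c (s + 1) := mul_nonneg (by positivity) (hc0 _)
    have p3 : 0 ≤ K ^ 5 * r (s + 1) := mul_nonneg (by positivity) (hr0 _)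
    have e1 : K ^ 3 * (3 * r 0 + c (s + 1) + 9 * (K ^ 2 * r 0)) =
        3 * (K ^ 3 * r 0) + K ^ 3 * c (s + 1) + 9 * (K ^ 5 * r 0) := by ring
    have e2 : K ^ 3 * (2 * r 0 + c (s + 1) + r (s + 1)) =
        2 * (K ^ 3 * r 0) + K ^ 3 * c (s + 1) + K ^ 3 * r (s + 1) := by ring
    have e3 : 40 * K ^ 5 * (r 0 + r (s + 1) + c (s + 1)) =
        40 * (K ^ 5 * r 0) + 40 * (K ^ 5 * r (s + 1)) + 40 * (K ^ 5 * c (s + 1)) := by ring
    rw [e3]
    linarith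
  · by_cases hup : 2 * r 0 ≤ r (s + 1)
    · exact Or.inl hup
    right
    push Not at hup
    have hcc := hc0 (s + 1)
    have hsmall : r 0 ≤ 2 * c (s + 1) → r 0 ≤ 2 * K ^ 3 * c (s + 1) := fun h' => by nlinarith
    rcases hspec with h1 | h1 | h1
    · exact absurd h1 (not_le.2 hup)
    · obtain ⟨j, k1, k2⟩ := h78_scale hK1 (div_pos hS (pow_pos hK0 2))
      have hj : 0 < K ^ j := zpow_pos hK0 _
      rw [div_le_iff₀ (pow_pos hK0 2)] at k1
      have k3 : K * K ^ j < r 0 := by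
        have := mul_lt_mul_of_pos_left k2 hK0
        have e : K * (K * (r 0 / K ^ 2)) = r 0 := by field_simp
        rwa [e] at this
      have k4 : 100 * K ^ j ≤ K * K ^ j := mul_le_mul_of_nonneg_right hK hj.le
      have k5 : 100 * r (s + 1) ≤ K ^ 3 * r (s + 1) := mul_le_mul_of_nonneg_right hK3 (hr0 _)
      by_cases hnear : ∃ a ∈ T.A (γ 0), T.d (w (s + 1)) a ≤ 9 * K ^ j
      · obtain ⟨a, ha, had⟩ := hnear
        have a1 := (hw 0 (Nat.zero_le _)).2 a ha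
        rw [← hr] at a1
        have a4 := dP_tri hP (φ 0) (φ (s + 1)) (ind a)
        have a5 := dP_tri hP (φ (s + 1)) (ind (w (s + 1))) (ind a)
        have a6 := h.lip_all (w (s + 1)) a
        rw [← hr] at a5
        have a7 := htele (s + 1)
        exact hsmall (by linarith)
      · push Not at hnear
        have hK2 : 1 ≤ K ^ 2 := one_le_pow₀ hK1.le
        have := hpay j (by linarith) (by nlinarith) hnear
        have b1 : K ^ 3 * (ab * K ^ j) ≤ K ^ 3 * (c (s + 1) + r (s + 1)) :=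
          mul_le_mul_of_nonneg_left this (by positivity)
        have b2 : 4 * (K ^ j * K ^ 2) ≤ K * ab * (K ^ j * K ^ 2) :=
          mul_le_mul_of_nonneg_right hKab (by positivity)
        have b3 : 0 ≤ K ^ 3 * c (s + 1) := mul_nonneg (by positivity) hcc
        have e1 : K ^ 3 * (ab * K ^ j) = K * ab * (K ^ j * K ^ 2) := by ring
        have e2 : K ^ 3 * (c (s + 1) + r (s + 1)) = K ^ 3 * c (s + 1) + K ^ 3 * r (s + 1) := by
          ring
        have e3 : 2 * K ^ 3 * c (s + 1) = 2 * (K ^ 3 * c (s + 1)) := by ring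
        rw [e3]
        linarith
    · have hK2 : 1 ≤ K ^ 2 := one_le_pow₀ hK1.le
      have q1 : r 0 ≤ K * r 0 := by nlinarith
      have q2 : K ^ j' ≤ K ^ 2 * K ^ j' := by nlinarith
      have := hpay j' (by linarith) (by nlinarith) h1
      have b1 : ab * (K * r 0) ≤ ab * K ^ j' := mul_le_mul_of_nonneg_left hj1 hab.le
      have b2 : 4 * r 0 ≤ K * ab * r 0 := mul_le_mul_of_nonneg_right hKab hS.le
      exact hsmall (by nlinarith)

theorem helper30_ind {T : ET V k} {K ab : ℝ} {P : Finset V → ℝ} (h : T.Cert K ab P)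
    (hK : 100 ≤ K) (hab : 0 < ab) (hab1 : ab ≤ 1) (hKab : 4 ≤ K * ab) : ∀ (n : ℕ) (γ : ℕ → V),
    T.Chain γ n → ∀ (φ : ℕ → Finset V → ℝ) (g : ℕ → Finset V → ℝ),
    (∀ t Y, g t Y = 0 ∨ g t Y = 1) → (∀ t ≤ n, φ t = tr (T.A (γ t)) (g t)) →
    φ (n + 1) = ind (γ n) → ∀ w : ℕ → V, (∀ t ≤ n, w t ∈ T.A (γ t) ∧
      ∀ a ∈ T.A (γ t), dP P (φ t) (ind (w t)) ≤ dP P (φ t) (ind a)) → w (n + 1) = γ n →
    T.d (w 0) (γ n) + 3 * (40 * K ^ 5) * dP P (φ 0) (ind (w 0)) ≤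
      (8 * (40 * K ^ 5) * K ^ 3 + 40 * K ^ 5) * ∑ s ∈ range (n + 1), dP P (φ s) (φ (s + 1)) := by
  intro n
  induction n using Nat.strong_induction_on with | _ n ih =>
  intro γ hγ φ g hg hφ hφn w hw hwn
  obtain ⟨t, t1, t2, t3, t4⟩ := h.segment hK hab hab1 hKab hγ φ g hg hφ hφn w hw hwn
  have hC : 0 ≤ 40 * K ^ 5 := by positivity
  have hK3 : 0 ≤ K ^ 3 := by positivity
  obtain ⟨c, e1, e2⟩ : ∃ c, ∑ s ∈ range (n + 1), dP P (φ s) (φ (s + 1)) =
      ∑ s ∈ range t, dP P (φ s) (φ (s + 1)) + c ∧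
      T.d (w t) (γ n) + 3 * (40 * K ^ 5) * dP P (φ t) (ind (w t)) ≤
        (8 * (40 * K ^ 5) * K ^ 3 + 40 * K ^ 5) * c := by
    rcases t2.eq_or_lt with rfl | hlt
    · exact ⟨0, (add_zero _).symm, by rw [hwn, hφn, dP_self, T.d_self]; simp⟩
    · obtain ⟨m, rfl⟩ := Nat.exists_eq_add_of_le (Nat.le_of_lt_succ hlt)
      exact ⟨_, sum_range_add (fun s => dP P (φ s) (φ (s + 1))) t (m + 1),
        ih m (by omega) (fun s => γ (t + s)) (hγ.shift le_rfl) (fun s => φ (t + s))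
          (fun s => g (t + s)) (fun s => hg _) (fun s hs => hφ _ (by omega)) hφn
          (fun s => w (t + s)) (fun s hs => hw _ (by omega)) hwn⟩
  have a1 := T.d_tri (w 0) (w t) (γ n)
  have a2 := dP_nonneg h.nonneg (φ t) (ind (w t))
  have a3 : 0 ≤ ∑ s ∈ range t, dP P (φ s) (φ (s + 1)) :=
    sum_nonneg fun s _ => dP_nonneg h.nonneg _ _
  rw [e1]
  generalize 40 * K ^ 5 = C at *
  generalize K ^ 3 = L at *
  rcases t4 with t4 | t4
  · nlinarith [mul_le_mul_of_nonneg_left t4 hC, mul_nonneg (mul_nonneg hC hK3) a3]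
  · nlinarith [mul_le_mul_of_nonneg_left t4 hC, mul_nonneg hC a2]

/-- strong induction on `n` over all chains (`segment`, `Chain.shift`) for
`d (w 0) (γ n) + 3 C r 0 ≤ C' * cost` with `C = 40 K ^ 5`, `C' = 8 C K ^ 3 + C`; `A_nonempty` -/
theorem Cert.seg {T : ET V k} {K ab : ℝ} {P : Finset V → ℝ} (h : T.Cert K ab P)
    (hK : 100 ≤ K) (hab : 0 < ab) (hab1 : ab ≤ 1) (hKab : 4 ≤ K * ab) {γ : ℕ → V} {n : ℕ}
    (hγ : T.Chain γ n) (h0 : γ 0 ≠ T.root) (g : ℕ → Finset V → ℝ)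
    (hg : ∀ t Y, g t Y = 0 ∨ g t Y = 1) :
    ∃ a ∈ T.A (γ 0), T.d a (γ n) ≤ 400 * K ^ 8 * T.cost P γ n g (γ n) := by
  have hne : ∀ t, ∃ x, t ≤ n → x ∈ T.A (γ t) ∧ ∀ a ∈ T.A (γ t),
      dP P (tr (T.A (γ t)) (g t)) (ind x) ≤ dP P (tr (T.A (γ t)) (g t)) (ind a) := by
    intro t
    by_cases ht : t ≤ n
    · have hr : γ t ≠ T.root := by
        rcases t with _ | t
        exacts [h0, (hγ t ht).1]
      obtain ⟨x, h1, h2⟩ := exists_min_image (T.A (γ t))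
        (fun a => dP P (tr (T.A (γ t)) (g t)) (ind a)) (T.A_nonempty hr)
      exact ⟨x, fun _ => ⟨h1, h2⟩⟩
    · exact ⟨γ 0, fun h' => absurd h' ht⟩
  choose x hx using hne
  have key := helper30_ind h hK hab hab1 hKab n γ hγ
    (fun t => if t ≤ n then tr (T.A (γ t)) (g t) else ind (γ n)) g hg (fun t ht => if_pos ht)
    (if_neg (by omega)) (fun t => if t ≤ n then x t else γ n)
    (fun t ht => by simp only [if_pos ht]; exact hx t ht) (if_neg (by omega))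
  have e : ∑ s ∈ range (n + 1), dP P (if s ≤ n then tr (T.A (γ s)) (g s) else ind (γ n))
      (if s + 1 ≤ n then tr (T.A (γ (s + 1))) (g (s + 1)) else ind (γ n)) =
        T.cost P γ n g (γ n) := by
    rw [sum_range_succ, if_pos le_rfl, if_neg (by omega), cost]
    congr 1
    refine sum_congr rfl fun s hs => ?_
    have := mem_range.1 hs
    rw [if_pos (by omega), if_pos (by omega)]
  have hc : 0 ≤ T.cost P γ n g (γ n) := e ▸ sum_nonneg fun s _ => dP_nonneg h.nonneg _ _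
  simp only [if_pos (Nat.zero_le n)] at key
  rw [e] at key
  refine ⟨x 0, (hx 0 (Nat.zero_le n)).1, ?_⟩
  have a1 : 0 ≤ 3 * (40 * K ^ 5) * dP P (tr (T.A (γ 0)) (g 0)) (ind (x 0)) :=
    mul_nonneg (by positivity) (dP_nonneg h.nonneg _ _)
  have a2 : K ^ 5 ≤ K ^ 8 := pow_le_pow_right₀ (by linarith) (by norm_num)
  have a3 : 8 * (40 * K ^ 5) * K ^ 3 + 40 * K ^ 5 ≤ 400 * K ^ 8 := by
    have : 0 ≤ K ^ 8 := by positivity
    linarith [show 8 * (40 * K ^ 5) * K ^ 3 = 320 * K ^ 8 by ring]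
  linarith [mul_le_mul_of_nonneg_right a3 hc]

end ET

end Crest.Agent.R206
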