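import Crest.Agent.R206.TBuild
import Crest.Agent.R206.TSeg
import Crest.Agent.R206.TCkr

/-! Row 206: the embedding on an elimination tree. -/

set_option autoImplicit false
set_option linter.dupNamespace false
set_option linter.unusedSectionVars false

namespace Crest.Agent.R206

open Finset

variable {V : Type} [Fintype V] [DecidableEq V] {k : ℕ}

namespace ET

/-- `p t = tr (A (γ t)) (ce P (A (γ t)) (ind x))` for `t ≤ n`, `p (n + 1) = ind x` (`x = γ n`),
`F t = Ex P (p t ^ 2)`.  `Markov` at `γ t` with `f = ind x`, `g = p s` (`s ≤ t`; `A (γ s)` avoids the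
subtree of `γ t`) gives `Ex P (p s * p t) = Ex P (ind x * p s) = F s`; at most `2 ^ k` values;
`F (n + 1) - F 0 = Ex P (p 0 (1 - p 0))`, and by `Markov` at `γ 0` with `g = ind y`,
`dP P (ind x) (ind y) = Ex P (p 0 (1 - ind y) + (1 - p 0) ind y) ≥ Ex P (p 0 (1 - p 0))`
(`0 ≤ p 0 ≤ 1`).  Take `g t Y = if θ t < ce P (A (γ t)) (ind x) Y then 1 else 0` from `ckr`. -/
theorem markov_cut (k : ℕ) : ∃ C : ℝ, 0 < C ∧ ∀ (V : Type) [Fintype V] [DecidableEq V] (T : ET V k)
    (P : Finset V → ℝ), (∀ X, 0 ≤ P X) → T.Markov P → ∀ (γ : ℕ → V) (n : ℕ), T.Chain γ n →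
    ∀ y, ¬ T.Anc (γ 0) y → ∃ g : ℕ → Finset V → ℝ, (∀ t Y, g t Y = 0 ∨ g t Y = 1) ∧
      T.cost P γ n g (γ n) ≤ C * dP P (ind (γ n)) (ind y) := by
  obtain ⟨C, hC, hck⟩ := ckr (2 ^ k + 2)
  refine ⟨C, hC, fun V _ _ T P hP hM γ n hγ y hy => ?_⟩
  let c : ℕ → Finset V → ℝ := fun t => ce P (T.A (γ t)) (ind (γ n))
  let p : ℕ → Finset V → ℝ := fun t X => if t ≤ n then c t (X ∩ T.A (γ t)) else ind (γ n) X
  have hp : ∀ t ≤ n, ∀ X, p t X = c t (X ∩ T.A (γ t)) := fun t ht X => if_pos ht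
  have hp' : ∀ X, p (n + 1) X = ind (γ n) X := fun X => if_neg (by omega)
  have hind : ∀ (v : V) X, ind v X = 0 ∨ ind v X = 1 := fun v X => by
    unfold ind
    split_ifs <;> simp
  have hmk : ∀ t ≤ n, ∀ g : Finset V → ℝ,
      (∀ X X' : Finset V, (∀ u, ¬ T.Anc (γ t) u → (u ∈ X ↔ u ∈ X')) → g X = g X') →
      ∑ X, P X * (ind (γ n) X * g X) = ∑ X, P X * (p t X * g X) := by
    intro t ht g hg
    have := hM (γ t) (ind (γ n)) g
      (fun X X' h => by simp only [ind, h _ (Or.inl (hγ.anc ht le_rfl))]) hg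
    simpa only [Ex, tr, hp t ht] using this
  have hst : ∀ s t, s ≤ t → t ≤ n →
      ∑ X, P X * (ind (γ n) X * p s X) = ∑ X, P X * (p t X * p s X) := by
    intro s t h1 h2
    refine hmk t h2 (p s) fun X X' h => ?_
    rw [hp s (h1.trans h2), hp s (h1.trans h2)]
    congr 1
    ext u
    simp only [mem_inter, and_congr_left_iff]
    exact fun hu => h u fun h3 => T.not_anc_of_mem hu ((hγ.anc h1 h2).trans h3)
  have hF : ∀ s t, s ≤ t → t ≤ n + 1 →
      ∑ X, P X * (p t X * p s X) = ∑ X, P X * (p s X * p s X) := by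
    intro s t h1 h2
    rcases h1.eq_or_lt with rfl | h1
    · rfl
    rcases h2.eq_or_lt with rfl | h2
    · simp only [hp']
      exact hst s s le_rfl (by omega)
    · rw [← hst s t h1.le (by omega), hst s s le_rfl (by omega)]
  obtain ⟨θ, ⟨hθ0, hθ1⟩, hθ⟩ := hck (Finset V) P p (fun t => ∑ X, P X * (p t X * p t X)) (n + 1) hP
    (fun s t h1 h2 => by
      have h3 := hF s t h1 h2
      have h4 : ∑ X, P X * (p t X - p s X) ^ 2 = ∑ X, P X * (p t X * p t X) -
          2 * ∑ X, P X * (p t X * p s X) + ∑ X, P X * (p s X * p s X) := by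
        rw [mul_sum, ← sum_sub_distrib, ← sum_add_distrib]
        exact sum_congr rfl fun X _ => by ring
      linarith)
    (fun X => by rw [hp']; exact hind _ _)
    (fun t ht => by
      rcases ht.eq_or_lt with rfl | ht
      · refine ⟨{0, 1}, card_le_two.trans (Nat.le_add_left _ _), fun X => ?_⟩
        rw [hp', mem_insert, mem_singleton]
        exact hind _ _
      · refine ⟨(T.A (γ t)).powerset.image (c t), card_image_le.trans ?_, fun X => ?_⟩
        · rw [card_powerset]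
          exact (Nat.pow_le_pow_right two_pos (T.A_card _).le).trans (Nat.le_add_right _ _)
        · rw [hp t (by omega)]
          exact mem_image_of_mem _ (mem_powerset.2 inter_subset_right))
  refine ⟨fun t Y => if θ t < c t Y then 1 else 0, fun t Y => by
    beta_reduce; split_ifs <;> simp, ?_⟩
  have h1 : T.cost P γ n (fun t Y => if θ t < c t Y then 1 else 0) (γ n) =
      ∑ t ∈ range (n + 1), mis P (p t) (p (t + 1)) (θ t) (θ (t + 1)) := by
    rw [sum_range_succ, cost]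
    congr 1
    · refine sum_congr rfl fun t ht => ?_
      have := mem_range.1 ht
      simp only [dP, Ex, tr, mis, hp t (by omega), hp (t + 1) (by omega)]
    · simp only [dP, Ex, tr, mis, hp n le_rfl, hp']
      refine sum_congr rfl fun X _ => ?_
      congr 3
      rcases hind (γ n) X with h | h <;> rw [h]
      · rw [if_neg (not_lt.2 hθ0)]
      · rw [if_pos hθ1]
  rw [h1]
  refine hθ.trans (mul_le_mul_of_nonneg_left ?_ hC.le)
  have h2 := hmk 0 n.zero_le (ind y) fun X X' h => by simp only [ind, h _ hy]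
  have h3 : 0 ≤ ∑ X, P X * (ind y X - p 0 X) ^ 2 :=
    sum_nonneg fun X _ => mul_nonneg (hP X) (sq_nonneg _)
  have h4 : dP P (ind (γ n)) (ind y) + 2 * ∑ X, P X * (ind (γ n) X * ind y X) +
      ∑ X, P X * (p 0 X * p 0 X) = ∑ X, P X * (ind y X - p 0 X) ^ 2 +
        2 * ∑ X, P X * (p 0 X * ind y X) + ∑ X, P X * (p (n + 1) X * p (n + 1) X) := by
    simp only [dP, Ex, mul_sum, ← sum_add_distrib, hp']
    refine sum_congr rfl fun X _ => ?_
    rcases hind (γ n) X with h | h <;> rcases hind y X with h' | h' <;> rw [h, h'] <;>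
      simp only [sub_self, sub_zero, zero_sub, abs_zero, abs_one, abs_neg] <;> ring
  linarith

/-- a deepest common ancestor `z`: each of `x`, `y` equals `z` or lies below a child of `z` that is not
an ancestor of the other -/
theorem lca (T : ET V k) (x y : V) : ∃ z : V,
    (x = z ∨ ∃ x', x' ≠ T.root ∧ T.par x' = z ∧ T.Anc x' x ∧ ¬ T.Anc x' y) ∧
    (y = z ∨ ∃ y', y' ≠ T.root ∧ T.par y' = z ∧ T.Anc y' y ∧ ¬ T.Anc y' x) := by
  classical
  obtain ⟨z, hz, hmax⟩ := (univ.filter fun u => T.Anc u x ∧ T.Anc u y).exists_max_image T.dep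
    ⟨T.root, by simp [T.anc_root]⟩
  simp only [mem_filter, mem_univ, true_and] at hz hmax
  have key : ∀ a b : V, T.Anc z a → (∀ u, T.Anc u a → T.Anc u b → T.dep u ≤ T.dep z) →
      (a = z ∨ ∃ a', a' ≠ T.root ∧ T.par a' = z ∧ T.Anc a' a ∧ ¬ T.Anc a' b) := by
    intro a b ha hm
    obtain ⟨γ, n, hγ, h0, hn⟩ := T.exists_chain ha
    rcases Nat.eq_zero_or_pos n with rfl | hpos
    · exact Or.inl (hn.symm.trans h0)
    · obtain ⟨h1, h2⟩ := hγ 0 hpos
      have h3 : T.Anc (γ (0 + 1)) a := hn ▸ hγ.anc hpos le_rfl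
      refine Or.inr ⟨γ (0 + 1), h1, h2.trans h0, h3, fun h4 => ?_⟩
      have h5 := hm _ h3 h4
      rw [T.dep_par _ h1, h2, h0] at h5
      omega
  exact ⟨z, key x y hz.1 fun u h1 h2 => hmax u ⟨h1, h2⟩,
    key y x hz.2 fun u h1 h2 => hmax u ⟨h2, h1⟩⟩

end ET

/-- `K = 100 / ab`; by `lca`, `markov_cut` and `seg` there are `a, b ∈ B z` with
`d a x, d b y ≤ C dP P (ind x) (ind y)`; then `n2`, `lip_all`, `dP_tri` bound `d a b` -/
theorem exists_law (k : ℕ) : ∃ C : ℝ, 0 < C ∧ ∀ (V : Type) [Fintype V] [DecidableEq V] (T : ET V k),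
    ∃ P : Finset V → ℝ, (∀ X, 0 ≤ P X) ∧ ∀ x y,
      T.d x y ≤ C * dP P (ind x) (ind y) ∧ dP P (ind x) (ind y) ≤ T.d x y := by
  obtain ⟨ab, hab, hab1, hcert⟩ := exists_cert k
  obtain ⟨C₀, hC₀, hcut⟩ := ET.markov_cut k
  set K : ℝ := 100 / ab with hKdef
  have hKab : K * ab = 100 := by rw [hKdef]; field_simp
  have hK : 100 ≤ K := by rw [hKdef, le_div_iff₀ hab]; linarith
  set C₁ : ℝ := 400 * K ^ 8 * C₀ with hC₁
  have hK0 : 0 < K := by linarith
  have hC₁0 : 0 < C₁ := by positivity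
  refine ⟨2 * C₁ + K ^ 2 * (2 * C₁ + 1) / ab, by positivity, fun V _ _ T => ?_⟩
  obtain ⟨P, h⟩ := hcert K (by linarith) V T
  refine ⟨P, h.nonneg, fun x y => ⟨?_, h.lip_all x y⟩⟩
  have side : ∀ x y z : V,
      (x = z ∨ ∃ x', x' ≠ T.root ∧ T.par x' = z ∧ T.Anc x' x ∧ ¬ T.Anc x' y) →
      ∃ a ∈ T.B z, T.d a x ≤ C₁ * dP P (ind x) (ind y) := by
    rintro x y z (rfl | ⟨x', h1, h2, h3, h4⟩)
    · refine ⟨x, mem_insert_self _ _, ?_⟩
      rw [T.d_self]
      exact mul_nonneg hC₁0.le (dP_nonneg h.nonneg _ _)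
    · obtain ⟨γ, n, hγ, h0, hn⟩ := T.exists_chain h3
      obtain ⟨g, hg, hc⟩ := hcut V T P h.nonneg h.markov γ n hγ y (h0 ▸ h4)
      obtain ⟨a, ha, hd⟩ := h.seg hK hab hab1 (by linarith) hγ (h0 ▸ h1) g hg
      rw [h0] at ha
      refine ⟨a, h2 ▸ T.A_sub_B h1 ha, ?_⟩
      rw [hn] at hd hc
      calc T.d a x ≤ 400 * K ^ 8 * T.cost P γ n g x := hd
        _ ≤ 400 * K ^ 8 * (C₀ * dP P (ind x) (ind y)) :=
          mul_le_mul_of_nonneg_left hc (by positivity)
        _ = C₁ * dP P (ind x) (ind y) := by rw [hC₁]; ring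
  obtain ⟨z, hx, hy⟩ := T.lca x y
  obtain ⟨a, ha, hax⟩ := side x y z hx
  obtain ⟨b, hb, hby⟩ := side y x z hy
  rw [dP_comm P (ind y)] at hby
  set D := dP P (ind x) (ind y) with hD
  have h1 := h.n2 (by linarith) hab.le ha hb
  have h2 : dP P (ind a) (ind b) ≤ (2 * C₁ + 1) * D := by
    have e1 := dP_tri h.nonneg (ind a) (ind x) (ind b)
    have e2 := dP_tri h.nonneg (ind x) (ind y) (ind b)
    have e3 := h.lip_all a x
    have e4 := h.lip_all y b
    rw [T.d_comm y b] at e4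
    linarith
  have h3 : T.d a b ≤ K ^ 2 * (2 * C₁ + 1) / ab * D := by
    rw [div_mul_eq_mul_div, le_div_iff₀ hab]
    nlinarith [mul_le_mul_of_nonneg_left h2 (sq_nonneg K)]
  have h4 := T.d_tri x a y
  have h5 := T.d_tri a b y
  rw [T.d_comm x a] at h4
  linarith

open MeasureTheory in
/-- `Ω = Finset V` with the discrete σ-algebra, `μ = ∑ X, ofReal (P X) • dirac X`,
`f x = C • ind x` -/
theorem l1_of_law (P : Finset V → ℝ) (hP : ∀ X, 0 ≤ P X) {C : ℝ} (hC : 0 ≤ C) :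
    ∃ (Ω : Type) (_ : MeasurableSpace Ω) (μ : Measure Ω) (f : V → Lp ℝ 1 μ),
      ∀ x y : V, ‖f x - f y‖ = C * dP P (ind x) (ind y) := by
  letI : MeasurableSpace (Finset V) := ⊤
  haveI : DiscreteMeasurableSpace (Finset V) := ⟨fun _ => trivial⟩
  have hm : ∀ x : V, MemLp (fun X : Finset V => C * P X * ind x X) 1
      (Measure.count : Measure (Finset V)) := fun x => MemLp.of_discrete
  refine ⟨Finset V, ⊤, Measure.count, fun x => (hm x).toLp _, fun x y => ?_⟩
  rw [← MemLp.toLp_sub, L1.norm_eq_integral_norm,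
    integral_congr_ae (g := fun X => ‖C * P X * ind x X - C * P X * ind y X‖)
      (((hm x).sub (hm y)).coeFn_toLp.mono fun X hX => by simp only [hX, Pi.sub_apply]),
    integral_count, dP, Ex, mul_sum]
  refine sum_congr rfl fun X _ => ?_
  rw [← mul_sub, Real.norm_eq_abs, abs_mul, abs_of_nonneg (mul_nonneg hC (hP X)), mul_assoc]

end Crest.Agent.R206
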