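import Crest.Agent.R206.Geo1

/-! # Row 206 (planar): balls, walks inside balls, Lipschitz bounds along walks. -/

set_option autoImplicit false

namespace Crest.Agent.R206

namespace PS

variable {W : Type} {η : ℝ} (P : PS W η)

/-- the points joined to `x` by a walk of length `≤ r` -/
def Ball (x : W) (r : ℝ) : Set W := {w | ∃ L, L ≤ r ∧ P.Wk Set.univ x w L}

variable {P}

namespace BWk

theorem nonneg {S : Set W} {u v : W} {L : ℝ} (h : P.Wk S u v L) : 0 ≤ L := by
  induction h with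
  | nil _ => exact le_rfl
  | snoc _ _ _ ih => exact add_nonneg ih (abs_nonneg _)

theorem left {S : Set W} {u v : W} {L : ℝ} (h : P.Wk S u v L) : u ∈ S := by
  induction h with
  | nil h => exact h
  | snoc _ _ _ ih => exact ih

theorem right {S : Set W} {u v : W} {L : ℝ} (h : P.Wk S u v L) : v ∈ S := by
  cases h with
  | nil h => exact h
  | snoc _ _ h => exact h

theorem mono {S S' : Set W} (hS : S ⊆ S') {u v : W} {L : ℝ} (h : P.Wk S u v L) :
    P.Wk S' u v L := by
  induction h with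
  | nil h => exact .nil (hS h)
  | snoc _ ha hw ih => exact .snoc ih ha (hS hw)

theorem trans {S : Set W} {u v w : W} {L L' : ℝ} (h : P.Wk S u v L) (h' : P.Wk S v w L') :
    P.Wk S u w (L + L') := by
  induction h' with
  | nil _ => simpa using h
  | snoc _ ha hw ih => rw [← add_assoc]; exact .snoc ih ha hw

theorem single {S : Set W} {u v : W} (hu : u ∈ S) (hv : v ∈ S) (h : P.G.Adj u v) :
    P.Wk S u v |P.f u - P.f v| := by
  simpa using Wk.snoc (Wk.nil hu) h hv

theorem symm {S : Set W} {u v : W} {L : ℝ} (h : P.Wk S u v L) : P.Wk S v u L := by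
  induction h with
  | nil h => exact .nil h
  | @snoc v w L h1 ha hw ih =>
    have := trans (single hw (right h1) ha.symm) ih
    rwa [abs_sub_comm, add_comm] at this

/-- an edge-Lipschitz function is Lipschitz along walks -/
theorem lip {S : Set W} {g : W → ℝ} {c : ℝ}
    (hg : ∀ u ∈ S, ∀ v ∈ S, P.G.Adj u v → |g u - g v| ≤ c * |P.f u - P.f v|)
    {u v : W} {L : ℝ} (h : P.Wk S u v L) : |g u - g v| ≤ c * L := by
  induction h with
  | nil _ => simp
  | @snoc v w L h1 ha hw ih =>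
    have h2 := hg v (right h1) w hw ha
    have h3 := abs_sub_le (g u) (g v) (g w)
    rw [mul_add]; linarith

theorem abs_f {S : Set W} {u v : W} {L : ℝ} (h : P.Wk S u v L) : |P.f u - P.f v| ≤ L := by
  simpa using lip (c := 1) (g := P.f) (fun _ _ _ _ _ => by simp) h

/-- a predicate that passes along the edges of `S` passes along walks -/
theorem pass {S : Set W} {Q : W → Prop}
    (hQ : ∀ u ∈ S, ∀ v ∈ S, P.G.Adj u v → Q u → Q v)
    {u v : W} {L : ℝ} (h : P.Wk S u v L) (hu : Q u) : Q v := by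
  induction h with
  | nil _ => exact hu
  | @snoc v w L h1 ha hw ih => exact hQ v (right h1) w hw ha ih

/-- a short walk stays in the ball -/
theorem toBall {S : Set W} {x w : W} {L r : ℝ} (h : P.Wk S x w L) (hL : L ≤ r) :
    P.Wk (S ∩ P.Ball x r) x w L := by
  induction h with
  | nil h => exact .nil ⟨h, 0, hL, .nil trivial⟩
  | @snoc v w L h1 ha hw ih =>
    have h0 : L ≤ r := le_trans (le_add_of_nonneg_right (abs_nonneg _)) hL
    exact .snoc (ih h0) ha ⟨hw, _, hL, .snoc (mono (Set.subset_univ _) h1) ha trivial⟩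

end BWk

theorem self_mem_Ball (x : W) {r : ℝ} (hr : 0 ≤ r) : x ∈ P.Ball x r := ⟨0, hr, .nil trivial⟩

theorem Ball_mono (x : W) {r r' : ℝ} (h : r ≤ r') : P.Ball x r ⊆ P.Ball x r' :=
  fun _ ⟨L, hL, hw⟩ => ⟨L, hL.trans h, hw⟩

theorem Ball_wk {x w : W} {r : ℝ} (hw : w ∈ P.Ball x r) :
    ∃ L, L ≤ r ∧ P.Wk (P.Ball x r) x w L := by
  obtain ⟨L, hL, h⟩ := hw
  exact ⟨L, hL, BWk.mono Set.inter_subset_right (BWk.toBall h hL)⟩

/-- two points of a ball are joined inside the ball by a walk of length `≤ 2 r` -/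
theorem Ball_wk2 {x u w : W} {r : ℝ} (hu : u ∈ P.Ball x r) (hw : w ∈ P.Ball x r) :
    ∃ L, L ≤ 2 * r ∧ P.Wk (P.Ball x r) u w L := by
  obtain ⟨L, hL, h⟩ := Ball_wk hu
  obtain ⟨L', hL', h'⟩ := Ball_wk hw
  exact ⟨L + L', by linarith, BWk.trans (BWk.symm h) h'⟩

theorem Ball_lip {x w : W} {r c : ℝ} {g : W → ℝ} (hc : 0 ≤ c)
    (hg : ∀ u ∈ P.Ball x r, ∀ v ∈ P.Ball x r, P.G.Adj u v → |g u - g v| ≤ c * |P.f u - P.f v|)
    (hw : w ∈ P.Ball x r) : |g x - g w| ≤ c * r := by
  obtain ⟨L, hL, h⟩ := Ball_wk hw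
  exact (BWk.lip hg h).trans (mul_le_mul_of_nonneg_left hL hc)

theorem Ball_f {x w : W} {r : ℝ} (hw : w ∈ P.Ball x r) : |P.f x - P.f w| ≤ r := by
  obtain ⟨L, hL, h⟩ := hw
  exact (BWk.abs_f h).trans hL

theorem Ball_pass {x w : W} {r : ℝ} {Q : W → Prop}
    (hQ : ∀ u ∈ P.Ball x r, ∀ v ∈ P.Ball x r, P.G.Adj u v → Q u → Q v)
    (hx : Q x) (hw : w ∈ P.Ball x r) : Q w := by
  obtain ⟨L, _, h⟩ := Ball_wk hw
  exact BWk.pass hQ h hx

/-- a ball inside `S` lies in the component of its centre -/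
theorem Ball_sub_comp {x : W} {r : ℝ} {S : Set W} (h : P.Ball x r ⊆ S) :
    P.Ball x r ⊆ P.comp S x := fun _ hw => by
  obtain ⟨L, _, hL⟩ := Ball_wk hw
  exact ⟨L, BWk.mono h hL⟩

theorem Ball_sub_band {x : W} {r a b : ℝ} (ha : a ≤ P.f x - r) (hb : P.f x + r < b) :
    P.Ball x r ⊆ P.band a b := fun _ hw => by
  have := abs_le.1 (Ball_f hw)
  constructor <;> linarith [this.1, this.2]

end PS

end Crest.Agent.R206
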