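import Crest.Agent.R206.ZPurA

set_option autoImplicit false
set_option linter.dupNamespace false
set_option linter.unusedSectionVars false

namespace Crest.Agent.R206

open Finset BigOperators

/-- an average is at least `c` times the probability that the integrand is at least `c` -/
theorem mul_uPr_le_expect {A : Type} [Fintype A] (p : A → Prop) (F : A → ℝ) {c : ℝ}
    (h0 : ∀ a, 0 ≤ F a) (h : ∀ a, p a → c ≤ F a) : c * uPr p ≤ 𝔼 a, F a := by
  classical
  unfold uPr
  rw [Finset.mul_expect]
  refine Finset.expect_le_expect fun a _ => ?_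
  split_ifs with ha
  · simpa using h a ha
  · simpa using h0 a

/-- the union bound for a value recursion -/
theorem val_process {St A : Type} [Fintype A] [Nonempty A] (Val : ℕ → St → ℝ)
    (step : ℕ → St → A → St) (m : ℕ) (Pu : ℕ → St → Prop) (e : ℕ → ℝ) (he : ∀ j, 0 ≤ e j)
    (hrec : ∀ j < m, ∀ s, Pu j s → 𝔼 a, Val (j + 1) (step j s a) ≤ Val j s)
    (h0 : ∀ j s, 0 ≤ Val j s)
    (hstep : ∀ j < m, ∀ s, Pu j s → uPr (fun a => ¬ Pu (j + 1) (step j s a)) ≤ e j)
    {c : ℝ} (hc : 0 ≤ c) (hm : ∀ s, Pu m s → c ≤ Val m s) (j : ℕ) (hj : j ≤ m) :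
    ∀ s, Pu j s → c * (1 - ∑ i ∈ Ico j m, e i) ≤ Val j s := by
  induction hj using Nat.decreasingInduction with
  | self => intro s hs; simpa using hm s hs
  | of_succ j hj ih =>
    intro s hs
    rw [Finset.sum_eq_sum_Ico_succ_bot hj]
    set S := ∑ i ∈ Ico (j + 1) m, e i
    have hS : 0 ≤ S := Finset.sum_nonneg fun i _ => he i
    rcases le_or_gt S 1 with h1 | h1
    · have h2 := mul_uPr_le_expect (fun a => Pu (j + 1) (step j s a))
        (fun a => Val (j + 1) (step j s a)) (fun a => h0 _ _) fun a ha => ih _ ha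
      have h3 := hstep j hj s hs
      rw [uPr_not] at h3
      have h4 := hrec j hj s hs
      have h5 : c * (1 - S) * (1 - e j) ≤ c * (1 - S) * uPr fun a => Pu (j + 1) (step j s a) :=
        mul_le_mul_of_nonneg_left (by linarith) (mul_nonneg hc (by linarith))
      have h6 : 0 ≤ c * S * e j := mul_nonneg (mul_nonneg hc hS) (he j)
      nlinarith
    · have := h0 j s
      have h2 : c * (1 - (e j + S)) ≤ 0 :=
        mul_nonpos_of_nonneg_of_nonpos hc (by linarith [he j])
      linarith

end Crest.Agent.R206
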