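import Crest.Agent.R206.ZDefs
import Crest.Agent.R206.ZPurB

/-! # Row 206 (planar): lower bounds for the probabilities of windows of the jitters. -/

set_option autoImplicit false
set_option linter.dupNamespace false

namespace Crest.Agent.R206

open Finset BigOperators

theorem off_nonneg {a : ℝ} (ha : 0 ≤ a) {M : ℕ} (i : Fin M) : 0 ≤ off a i := by
  unfold off; positivity

theorem off_lt {a : ℝ} (ha : 0 < a) {M : ℕ} (i : Fin M) : off a i < a := by
  unfold off
  have hM : (0 : ℝ) < M := by exact_mod_cast i.pos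
  have hi : ((i : ℕ) : ℝ) < M := by exact_mod_cast i.2
  rw [div_lt_iff₀ hM]; nlinarith

theorem flo_le {a : ℝ} (ha : 0 < a) (o t : ℝ) : flo a o t ≤ t := by
  unfold flo
  have := Int.floor_le ((t - o) / a)
  rw [le_div_iff₀ ha] at this
  linarith

theorem lt_flo_add {a : ℝ} (ha : 0 < a) (o t : ℝ) : t < flo a o t + a := by
  unfold flo
  have := Int.lt_floor_add_one ((t - o) / a)
  rw [div_lt_iff₀ ha] at this
  linarith

/-- the cell is determined by any of its points -/
theorem flo_eq_of_mem {a : ℝ} (ha : 0 < a) {o t t' : ℝ} (h1 : flo a o t ≤ t')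
    (h2 : t' < flo a o t + a) : flo a o t' = flo a o t := by
  unfold flo at *
  have : ⌊(t' - o) / a⌋ = ⌊(t - o) / a⌋ := by
    rw [Int.floor_eq_iff, le_div_iff₀ ha, div_lt_iff₀ ha]
    constructor <;> linarith
  rw [this]

/-- a grid point `o + a z` in `(t - a, t]` is the lower end of the cell -/
theorem flo_eq_of_grid {a : ℝ} (ha : 0 < a) {o t : ℝ} (z : ℤ) (h1 : o + a * z ≤ t)
    (h2 : t < o + a * z + a) : flo a o t = o + a * z := by
  unfold flo
  have : ⌊(t - o) / a⌋ = z := by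
    rw [Int.floor_eq_iff, le_div_iff₀ ha, div_lt_iff₀ ha]
    constructor <;> linarith
  rw [this]

/-- integers in a real window, injected into `Fin M` by reduction modulo `M` -/
theorem card_ge_window {M : ℕ} (hM : 0 < M) {A B : ℝ} (hAB : B - A ≤ M) (p : Fin M → Prop)
    [DecidablePred p]
    (hp : ∀ z : ℤ, A < z → (z : ℝ) < B → ∀ i : Fin M, ((i : ℕ) : ℤ) = z % M → p i) :
    B - A - 1 ≤ ((univ.filter p).card : ℝ) := by
  have hM' : (0 : ℤ) < M := by exact_mod_cast hM
  have h1 : (Finset.Ioo ⌊A⌋ ⌈B⌉).card ≤ (univ.filter p).card := by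
    refine Finset.card_le_card_of_injOn
      (fun z => (⟨(z % M).toNat, by
        have := Int.emod_lt_of_pos z hM'
        have := Int.emod_nonneg z hM'.ne'
        omega⟩ : Fin M)) (fun z hz => ?_) ?_
    · simp only [coe_Ioo, Set.mem_Ioo] at hz
      simp only [coe_filter, mem_univ, true_and, Set.mem_ofPred_eq]
      refine hp z (Int.floor_lt.1 hz.1) (Int.lt_ceil.1 hz.2) _ ?_
      have := Int.emod_nonneg z hM'.ne'
      simp only
      omega
    · intro z hz w hw h
      simp only [coe_Ioo, Set.mem_Ioo] at hz hw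
      have h0 : z % M = w % M := by
        have h2 := congrArg (fun i : Fin M => (i : ℕ)) h
        have := Int.emod_nonneg z hM'.ne'
        have := Int.emod_nonneg w hM'.ne'
        simp only at h2
        omega
      have hz1 := Int.floor_lt.1 hz.1
      have hz2 := Int.lt_ceil.1 hz.2
      have hw1 := Int.floor_lt.1 hw.1
      have hw2 := Int.lt_ceil.1 hw.2
      have h3 : (M : ℤ) ∣ z - w := 
        Int.dvd_of_emod_eq_zero (Int.emod_eq_emod_iff_emod_sub_eq_zero.1 h0)
      have h4 : |z - w| < M := by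
        have : |(z : ℝ) - w| < M := by rw [abs_lt]; constructor <;> linarith
        exact_mod_cast this
      have := Int.eq_zero_of_abs_lt_dvd h3 h4
      omega
  rw [Int.card_Ioo] at h1
  have h2 : B - A - 1 ≤ (((⌈B⌉ - ⌊A⌋ - 1).toNat : ℕ) : ℝ) := by
    have h3 : ((⌈B⌉ - ⌊A⌋ - 1 : ℤ) : ℝ) ≤ (((⌈B⌉ - ⌊A⌋ - 1).toNat : ℕ) : ℝ) := by
      exact_mod_cast Int.self_le_toNat _
    push_cast at h3
    linarith [Int.floor_le A, Int.le_ceil B]
  exact h2.trans (Nat.cast_le.2 h1)

theorem uPr_ge_window {M : ℕ} (hM : 0 < M) {A B : ℝ} (hAB : B - A ≤ M) (p : Fin M → Prop)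
    (hp : ∀ z : ℤ, A < z → (z : ℝ) < B → ∀ i : Fin M, ((i : ℕ) : ℤ) = z % M → p i) :
    (B - A - 1) / M ≤ uPr p := by
  classical
  rw [uPr_eq, Fintype.card_fin]
  have := card_ge_window hM hAB p hp
  have hM' : (0 : ℝ) < M := by exact_mod_cast hM
  gcongr

/-- window for an offset -/
theorem uPr_off_win {M : ℕ} (hM : 0 < M) {a α β : ℝ} (ha : 0 < a) (h0 : 0 ≤ α) (h1 : β ≤ a) :
    (β - α) / a - 1 / M ≤ uPr fun i : Fin M => α < off a i ∧ off a i < β := by
  have hM' : (0 : ℝ) < M := by exact_mod_cast hM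
  have hA : 0 ≤ α * M / a := by positivity
  have hB : β * M / a ≤ M := by rw [div_le_iff₀ ha]; nlinarith
  refine le_trans (le_of_eq ?_) (uPr_ge_window hM (A := α * M / a) (B := β * M / a)
    (by linarith) _ fun z hz1 hz2 i hi => ?_)
  · field_simp
  · have hz0 : (0 : ℤ) ≤ z := by
      have : (0 : ℝ) ≤ z := by linarith
      exact_mod_cast this
    have hzM : z < M := by
      have : (z : ℝ) < M := by linarith
      exact_mod_cast this
    rw [Int.emod_eq_of_lt hz0 hzM] at hi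
    have hi' : ((i : ℕ) : ℝ) = z := by exact_mod_cast hi
    unfold off
    rw [hi', lt_div_iff₀ hM', div_lt_iff₀ hM']
    rw [div_lt_iff₀ ha] at hz1
    rw [lt_div_iff₀ ha] at hz2
    constructor <;> linarith

/-- window for the lower end of the cell of `t` -/
theorem uPr_flo_mem {M : ℕ} (hM : 0 < M) {a t c₁ c₂ : ℝ} (ha : 0 < a) (h0 : t - a ≤ c₁)
    (h1 : c₂ ≤ t) :
    (c₂ - c₁) / a - 1 / M ≤ uPr fun i : Fin M =>
      c₁ < flo a (off a i) t ∧ flo a (off a i) t < c₂ := by
  have hM' : (0 : ℝ) < M := by exact_mod_cast hM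
  have hAB : c₂ * M / a - c₁ * M / a ≤ M := by
    rw [← sub_div, div_le_iff₀ ha]; nlinarith
  refine le_trans (le_of_eq ?_) (uPr_ge_window hM (A := c₁ * M / a) (B := c₂ * M / a)
    hAB _ fun z hz1 hz2 i hi => ?_)
  · field_simp
  · rw [div_lt_iff₀ ha] at hz1
    rw [lt_div_iff₀ ha] at hz2
    have e : off a i + a * ((z / M : ℤ) : ℝ) = a * z / M := by
      have h2 : (z : ℝ) = (M : ℝ) * ((z / M : ℤ) : ℝ) + ((i : ℕ) : ℝ) := by
        have := Int.mul_ediv_add_emod z M
        rw [← hi] at this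
        exact_mod_cast this.symm
      unfold off
      rw [h2]
      field_simp
      ring
    have h3 : c₁ < a * z / M := by rw [lt_div_iff₀ hM']; linarith
    have h4 : a * z / M < c₂ := by rw [div_lt_iff₀ hM']; linarith
    rw [flo_eq_of_grid ha (z / M) (by linarith) (by linarith), e]
    exact ⟨h3, h4⟩

/-- window for the position of `t` in its cell -/
theorem uPr_flo_win {M : ℕ} (hM : 0 < M) {a α β : ℝ} (t : ℝ) (ha : 0 < a) (h0 : 0 ≤ α)
    (h1 : β ≤ a) :
    (β - α) / a - 1 / M ≤ uPr fun i : Fin M =>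
      flo a (off a i) t + α < t ∧ t < flo a (off a i) t + β := by
  have h := uPr_flo_mem hM (t := t) (c₁ := t - β) (c₂ := t - α) ha (by linarith) (by linarith)
  refine le_trans (le_of_eq (by ring)) (h.trans (uPr_mono fun i hi => ?_))
  constructor <;> linarith [hi.1, hi.2]

/-- nested windows -/
theorem uPr_prod_ge {A B : Type} [Fintype A] [Fintype B] (p : A → Prop) (q : A × B → Prop)
    {c : ℝ} (h : ∀ a, p a → c ≤ uPr fun b => q (a, b)) : c * uPr p ≤ uPr q := by
  rw [uPr_prod]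
  exact mul_uPr_le_expect p _ (fun _ => uPr_nonneg _) h

theorem uPr_prod_ge' {A B : Type} [Fintype A] [Fintype B] (p : A → Prop) (q : A × B → Prop)
    {c e : ℝ} (hc : 0 ≤ c) (hp : e ≤ uPr p) (h : ∀ a, p a → c ≤ uPr fun b => q (a, b)) :
    e * c ≤ uPr q := by
  have := uPr_prod_ge p q h
  nlinarith

theorem uPr_all {A : Type} [Fintype A] [Nonempty A] {p : A → Prop} (h : ∀ a, p a) :
    uPr p = 1 := by
  have h1 := uPr_not p
  have h2 : uPr (fun a => ¬ p a) ≤ 0 :=
    (uPr_mono (q := fun _ => False) fun a ha => ha (h a)).trans uPr_false.le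
  linarith [uPr_le_one p]

/-- nested windows for the band, the slab and `ν` -/
theorem uPr_jit {M : ℕ} (hM : 0 < M) (E : Jit M → Prop) (B : Fin M → Prop)
    (S : Fin M → Fin M → Prop) (N : Fin M → Fin M → Fin M → Prop) {pb ps pn : ℝ}
    (hps : 0 ≤ ps) (hpn : 0 ≤ pn) (hB : pb ≤ uPr B) (hS : ∀ b, B b → ps ≤ uPr (S b))
    (hN : ∀ b s, B b → S b s → pn ≤ uPr (N b s))
    (hE : ∀ b s ν u, B b → S b s → N b s ν → E (b, s, ν, u)) : pb * (ps * pn) ≤ uPr E := by
  have : Nonempty (Fin M) := ⟨⟨0, hM⟩⟩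
  refine uPr_prod_ge' B E (mul_nonneg hps hpn) hB fun b hb => ?_
  refine uPr_prod_ge' (S b) _ hpn (hS b hb) fun s hs => ?_
  have := uPr_prod_ge' (N b s) (fun x : Fin M × Fin M => E (b, s, x)) zero_le_one
    (hN b s hb hs) fun ν hν => (uPr_all fun u => hE b s ν u hb hs hν).ge
  simpa using this

namespace PS

variable {W : Type} {η : ℝ} (P : PS W η)

theorem gA_eq (θ h : ℝ) (M : ℕ) (x : W) :
    P.gA θ h M x = uPr fun b : Fin M => P.Win h (off h b) x ∧ P.GA θ h (off h b) x := by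
  unfold gA uPr
  congr!

theorem gA_nonneg (θ h : ℝ) (M : ℕ) (x : W) : 0 ≤ P.gA θ h M x := by
  rw [gA_eq]; exact uPr_nonneg _

theorem uPr_Win {h : ℝ} (hh : 0 < h) {M : ℕ} (hM : 1000000 ≤ M) (x : W) :
    1 / 1000000 ≤ uPr fun b : Fin M => P.Win h (off h b) x := by
  have hM' : (1000000 : ℝ) ≤ M := by exact_mod_cast hM
  have h1 := uPr_flo_win (M := M) (by omega) (a := h) (α := h / 2) (β := h / 2 + h / 500000)
    (P.f x) hh (by positivity) (by linarith)
  have h2 : (h / 2 + h / 500000 - h / 2) / h = 2 / 1000000 := by field_simp; ring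
  have h3 : 1 / (M : ℝ) ≤ 1 / 1000000 := by gcongr
  rw [h2] at h1
  refine le_trans (by linarith) (h1.trans (uPr_mono fun b hb => ?_))
  exact ⟨hb.1.le, by linarith [hb.2]⟩

/-- one of the two angles is good for a fixed share of the offsets -/
theorem gA_add {h : ℝ} (hh : 0 < h) {M : ℕ} (hM : 1000000 ≤ M) (x : W) :
    1 / 1000000 ≤ P.gA (1 / 10000) h M x + P.gA (2 / 10000) h M x := by
  rw [gA_eq, gA_eq]
  refine (P.uPr_Win hh hM x).trans ((uPr_mono fun b hb => ?_).trans (uPr_or _ _))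
  by_cases hI : P.AltI h (P.bandC h (off h b) x) x
  · exact Or.inl ⟨hb, Or.inl ⟨rfl, hI⟩⟩
  · exact Or.inr ⟨hb, Or.inr ⟨rfl, hI⟩⟩

end PS

end Crest.Agent.R206
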