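import Crest.Agent.R206.ZOp4
import Crest.Agent.R206.GeoP1
import Crest.Agent.R206.ZWin

/-! # Row 206 (planar): the cluster API (helper94). -/

set_option autoImplicit false

namespace Crest.Agent.R206

open ZS hiding St flip gap

theorem flo_eq {a : ℝ} (ha : 0 < a) {o t t' : ℝ} (h1 : flo a o t ≤ t') (h2 : t' < flo a o t + a) :
    flo a o t' = flo a o t := by
  have : ⌊(t' - o) / a⌋ = ⌊(t - o) / a⌋ := by
    unfold flo at h1 h2
    rw [Int.floor_eq_iff, le_div_iff₀ ha, div_lt_iff₀ ha]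
    constructor <;> linarith
  unfold flo; rw [this]

namespace PS

variable {W : Type} {η : ℝ} {P : PS W η} {n : ℕ}

theorem base_spec {C : Set W} (hC : C.Nonempty) :
    P.base C ∈ C ∧ ∀ v ∈ C, P.first (P.base C) ≤ P.first v := by
  have : ∃ a, a ∈ C ∧ ∀ v ∈ C, P.first a ≤ P.first v := by
    obtain ⟨a, ha, h⟩ := (measure P.first).wf.has_min C hC
    exact ⟨a, ha, fun v hv => not_lt.1 (h v hv)⟩
  exact @Classical.epsilon_spec W (fun a => a ∈ C ∧ ∀ v ∈ C, P.first a ≤ P.first v) this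

theorem base_out {C : Set W} (hC : C.Nonempty) : P.Out C (P.base C) :=
  out_of_min_first (base_spec hC).2

theorem al_nonneg (P : PS W η) (C : Set W) (v : W) : 0 ≤ P.al C v := P.dS_nonneg _ _ _

theorem al_lip_adj {C : Set W} (hc : P.Conn C) {u v : W} (hu : u ∈ C) (hv : v ∈ C)
    (a : P.G.Adj u v) : |P.al C u - P.al C v| ≤ |P.f u - P.f v| :=
  hc.lip_adj (base_spec ⟨u, hu⟩).1 hu hv a

theorem al_lip {C : Set W} (hc : P.Conn C) {u v : W} (hu : u ∈ C) (hv : v ∈ C) :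
    |P.al C u - P.al C v| ≤ P.dS C u v :=
  hc.lip (base_spec ⟨u, hu⟩).1 hu hv

theorem al_wk {C : Set W} (hc : P.Conn C) {u v : W} {L : ℝ} (h : P.Wk C u v L) :
    |P.al C u - P.al C v| ≤ L :=
  (al_lip hc h.left_mem h.right_mem).trans h.dS_le

theorem al_UOn {C : Set W} (hc : P.Conn C) (hx : P.Cvx C) : P.UOn C (P.al C) :=
  ⟨fun u hu v hv a => by rw [one_mul]; exact al_lip_adj hc hu hv a,
    fun p hp q hq w hw e => mouth_enc hx hc hp hq (base_spec ⟨p, hp⟩).1 hw
      ((base_out ⟨p, hp⟩).not_enc hp hq) e⟩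

/-- a walk from the base to an enclosed point passes a column: `α x ≥ α p + d(x,p) - 2h` -/
theorem al_enc {C : Set W} (hc : P.Conn C) (hx : P.Cvx C) {h : ℝ}
    (hh : ∀ u ∈ C, ∀ v ∈ C, |P.f u - P.f v| ≤ h) {p q x : W} (hp : p ∈ C) (hq : q ∈ C)
    (hxC : x ∈ C) (e : P.Enc p q x) : P.al C p + P.dS C x p - 2 * h ≤ P.al C x := by
  have hb := (base_spec (P := P) ⟨p, hp⟩).1
  refine le_dS (hc _ hb x hxC) fun L w => ?_
  obtain ⟨c, L1, L2, h1, h2, h3, h4⟩ := w.symm.leave_enc e ((base_out ⟨p, hp⟩).not_enc hp hq)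
  have hcC := h2.right_mem
  have w1 := hx.wk_col hp hq hcC e.1 h1
  have e1 := (h2.append w1).dS_le
  have e2 : P.al C p ≤ _ := (h3.symm.append w1).dS_le
  have e3 := hh c hcC p hp
  linarith

section band

variable {h ob os : ℝ} {x y : W}

theorem mem_band_flo (hh : 0 < h) (ob : ℝ) (x : W) :
    x ∈ P.band (flo h ob (P.f x)) (flo h ob (P.f x) + h) :=
  ⟨flo_le hh _ _, lt_flo_add hh _ _⟩

theorem bandC_mem (hh : 0 < h) (ob : ℝ) (x : W) : x ∈ P.bandC h ob x :=
  mem_comp_self (mem_band_flo hh ob x)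

theorem bandC_conn (P : PS W η) (h ob : ℝ) (x : W) : P.Conn (P.bandC h ob x) := P.conn_comp _ _

theorem bandC_cvx (P : PS W η) (h ob : ℝ) (x : W) : P.Cvx (P.bandC h ob x) :=
  (P.cvx_band _ _).comp x

theorem bandC_sub (P : PS W η) (h ob : ℝ) (x : W) :
    P.bandC h ob x ⊆ P.band (flo h ob (P.f x)) (flo h ob (P.f x) + h) := P.comp_sub _ _

theorem bandC_abs {u v : W} (hu : u ∈ P.bandC h ob x) (hv : v ∈ P.bandC h ob x) :
    |P.f u - P.f v| ≤ h := by
  simpa using band_abs (P.bandC_sub h ob x hu) (P.bandC_sub h ob x hv)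

theorem bandC_flo (hh : 0 < h) (hy : y ∈ P.bandC h ob x) : flo h ob (P.f y) = flo h ob (P.f x) :=
  flo_eq hh (P.bandC_sub h ob x hy).1 (P.bandC_sub h ob x hy).2

theorem bandC_eq (hh : 0 < h) (hy : y ∈ P.bandC h ob x) : P.bandC h ob y = P.bandC h ob x := by
  have e := bandC_flo hh hy
  unfold bandC at hy ⊢
  rw [e]; exact comp_eq hy

theorem bandC_adj {u v : W} (hu : u ∈ P.bandC h ob x) (a : P.G.Adj u v)
    (h1 : flo h ob (P.f x) ≤ P.f v) (h2 : P.f v < flo h ob (P.f x) + h) : v ∈ P.bandC h ob x :=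
  mem_comp_of_adj hu a ⟨h1, h2⟩

theorem bandC_UOn (P : PS W η) (h ob : ℝ) (x : W) :
    P.UOn (P.bandC h ob x) (P.al (P.bandC h ob x)) :=
  al_UOn (P.bandC_conn h ob x) (P.bandC_cvx h ob x)

@[simp] theorem cl_lo : (P.cl h ob os x).lo = flo h ob (P.f x) := rfl

@[simp] theorem cl_C : (P.cl h ob os x).C = P.bandC h ob x := rfl

theorem cl_c0 : (P.cl h ob os x).c0 = flo (1000 * h) os (P.al (P.bandC h ob x) x) := rfl

theorem cl_R : (P.cl h ob os x).R =
    P.comp (P.slab h (P.cl h ob os x).C (P.cl h ob os x).c0) x := rfl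

theorem cl_mem (hh : 0 < h) (ob os : ℝ) (x : W) : x ∈ (P.cl h ob os x).R :=
  mem_comp_self ⟨bandC_mem hh ob x, flo_le (by linarith) _ _, lt_flo_add (by linarith) _ _⟩

theorem cl_slab (P : PS W η) (h ob os : ℝ) (x : W) :
    (P.cl h ob os x).R ⊆ P.slab h (P.cl h ob os x).C (P.cl h ob os x).c0 := P.comp_sub _ _

theorem cl_sub (P : PS W η) (h ob os : ℝ) (x : W) : (P.cl h ob os x).R ⊆ (P.cl h ob os x).C :=
  fun _ hv => (P.cl_slab h ob os x hv).1

theorem cl_al (hy : y ∈ (P.cl h ob os x).R) :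
    (P.cl h ob os x).c0 ≤ P.al (P.cl h ob os x).C y ∧
      P.al (P.cl h ob os x).C y < (P.cl h ob os x).c0 + 1000 * h := (P.cl_slab h ob os x hy).2

theorem cl_conn (P : PS W η) (h ob os : ℝ) (x : W) : P.Conn (P.cl h ob os x).R := P.conn_comp _ _

theorem cl_connC (P : PS W η) (h ob os : ℝ) (x : W) : P.Conn (P.cl h ob os x).C :=
  P.bandC_conn h ob x

theorem cl_cvxC (P : PS W η) (h ob os : ℝ) (x : W) : P.Cvx (P.cl h ob os x).C :=
  P.bandC_cvx h ob x

theorem cl_band (P : PS W η) (h ob os : ℝ) (x : W) :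
    (P.cl h ob os x).C ⊆ P.band (P.cl h ob os x).lo ((P.cl h ob os x).lo + h) :=
  P.bandC_sub h ob x

/-- points of one cluster have the same cluster data -/
theorem cl_eq (hh : 0 < h) (hy : y ∈ (P.cl h ob os x).R) : P.cl h ob os y = P.cl h ob os x := by
  have hC : y ∈ P.bandC h ob x := P.cl_sub h ob os x hy
  have e1 := bandC_flo hh hC
  have e2 := bandC_eq hh hC
  have e3 : flo (1000 * h) os (P.al (P.bandC h ob x) y) =
      flo (1000 * h) os (P.al (P.bandC h ob x) x) :=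
    flo_eq (by linarith) (cl_al hy).1 (cl_al hy).2
  have e4 := comp_eq hy
  unfold cl
  rw [e1, e2, e3]
  congr 1

theorem cl_symm (hh : 0 < h) (hy : y ∈ (P.cl h ob os x).R) : x ∈ (P.cl h ob os y).R := by
  rw [cl_eq hh hy]; exact cl_mem hh ob os x

/-- (P1) the diameter of a cluster -/
theorem cl_diam' {u v : W} (hu : u ∈ (P.cl h ob os x).R) (hv : v ∈ (P.cl h ob os x).R) :
    P.dS (P.cl h ob os x).C u v ≤ 4008 * h + 5 * η := by
  have hne : (P.bandC h ob x).Nonempty := ⟨u, P.cl_sub h ob os x hu⟩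
  have := h94_p1 P.eta_nonneg (P.bandC_conn h ob x) (P.bandC_cvx h ob x)
    (fun u hu v hv => bandC_abs hu hv) (base_spec hne).1 (base_out hne) (P.cl_sub h ob os x)
    (P.cl_conn h ob os x) (c := (P.cl h ob os x).c0) (Wd := 1000 * h)
    (fun v hv => ⟨(cl_al hv).1, (cl_al hv).2.le⟩) hu hv
  rw [cl_C]; linarith

theorem cl_diam {θ : ℝ} (hL : Lv θ h η) {u v : W} (hu : u ∈ (P.cl h ob os x).R)
    (hv : v ∈ (P.cl h ob os x).R) : P.dS (P.cl h ob os x).C u v ≤ 4009 * h := by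
  have := cl_diam' hu hv
  have := hL.eta
  have := hL.pos
  linarith

/-- two points of a cluster are joined by a short walk in the band component -/
theorem cl_wk {θ : ℝ} (hL : Lv θ h η) {u v : W} (hu : u ∈ (P.cl h ob os x).R)
    (hv : v ∈ (P.cl h ob os x).R) : ∃ L, P.Wk (P.cl h ob os x).C u v L ∧ L < 4010 * h :=
  exists_wk_lt (P.cl_connC h ob os x u (P.cl_sub h ob os x hu) v (P.cl_sub h ob os x hv))
    (by have := cl_diam hL hu hv; have := hL.pos; linarith)

theorem cl_wk_univ {θ : ℝ} (hL : Lv θ h η) {u v : W} (hu : u ∈ (P.cl h ob os x).R)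
    (hv : v ∈ (P.cl h ob os x).R) : ∃ L, P.Wk Set.univ u v L ∧ L < 4010 * h := by
  obtain ⟨L, h1, h2⟩ := cl_wk hL hu hv
  exact ⟨L, h1.mono (Set.subset_univ _), h2⟩

theorem cl_d {θ : ℝ} (hL : Lv θ h η) {u v : W} (hu : u ∈ (P.cl h ob os x).R)
    (hv : v ∈ (P.cl h ob os x).R) : P.d u v ≤ 4010 * h := by
  obtain ⟨L, h1, h2⟩ := cl_wk_univ hL hu hv
  exact h1.dS_le.trans h2.le

/-- an edge inside the slab does not leave the cluster -/
theorem cl_adj {u v : W} (hu : u ∈ (P.cl h ob os x).R) (a : P.G.Adj u v)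
    (hv : v ∈ P.slab h (P.cl h ob os x).C (P.cl h ob os x).c0) : v ∈ (P.cl h ob os x).R :=
  mem_comp_of_adj hu a hv

/-- an edge that leaves the cluster starts within `η` of the band or slab boundary -/
theorem cl_bdry {u v : W} (hu : u ∈ (P.cl h ob os x).R) (a : P.G.Adj u v)
    (hv : v ∉ (P.cl h ob os x).R) :
    P.f u ≤ (P.cl h ob os x).lo + η ∨ (P.cl h ob os x).lo + h - η ≤ P.f u ∨
      P.al (P.cl h ob os x).C u ≤ (P.cl h ob os x).c0 + η ∨
      (P.cl h ob os x).c0 + 1000 * h - η ≤ P.al (P.cl h ob os x).C u := by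
  have e := abs_le.1 (adj_len_le a)
  by_cases h1 : (P.cl h ob os x).lo ≤ P.f v
  swap
  · left; linarith [not_le.1 h1, e.2]
  by_cases h2 : P.f v < (P.cl h ob os x).lo + h
  swap
  · right; left; linarith [not_lt.1 h2, e.1]
  have huC := P.cl_sub h ob os x hu
  have hvC : v ∈ (P.cl h ob os x).C := bandC_adj huC a h1 h2
  have e2 := abs_le.1 ((al_lip_adj (P.cl_connC h ob os x) huC hvC a).trans (adj_len_le a))
  by_cases h3 : (P.cl h ob os x).c0 ≤ P.al (P.cl h ob os x).C v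
  swap
  · right; right; left; linarith [not_le.1 h3, e2.2]
  by_cases h4 : P.al (P.cl h ob os x).C v < (P.cl h ob os x).c0 + 1000 * h
  swap
  · right; right; right; linarith [not_lt.1 h4, e2.1]
  exact absurd (cl_adj hu a ⟨hvC, h3, h4⟩) hv

/-- a walk from `x` of length `≤ r` stays in the band component if the band boundary is far -/
theorem wk_bandC {r L : ℝ} (h1 : flo h ob (P.f x) ≤ P.f x - r) (h2 : P.f x + r < flo h ob (P.f x) + h)
    {S : Set W} (w : P.Wk S x y L) (hL : L ≤ r) : P.Wk (P.bandC h ob x) x y L := by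
  have w' := w.restrict (P.band (flo h ob (P.f x)) (flo h ob (P.f x) + h)) fun z L1 w1 hL1 => by
    have := abs_le.1 w1.abs_le
    constructor <;> linarith [this.1, this.2]
  have w2 := w'.mono Set.inter_subset_right
  exact w2.to_comp (mem_comp_self w2.left_mem)

/-- a walk from `x` of length `≤ r` stays in the cluster if band and slab boundaries are far -/
theorem wk_cl {r L : ℝ} (h1 : (P.cl h ob os x).lo ≤ P.f x - r)
    (h2 : P.f x + r < (P.cl h ob os x).lo + h)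
    (h3 : (P.cl h ob os x).c0 ≤ P.al (P.cl h ob os x).C x - r)
    (h4 : P.al (P.cl h ob os x).C x + r < (P.cl h ob os x).c0 + 1000 * h)
    {S : Set W} (w : P.Wk S x y L) (hL : L ≤ r) : P.Wk (P.cl h ob os x).R x y L := by
  have w1 : P.Wk (P.cl h ob os x).C x y L := wk_bandC h1 h2 w hL
  have w' := w1.restrict (P.slab h (P.cl h ob os x).C (P.cl h ob os x).c0) fun z L1 w2 hL1 => by
    have := abs_le.1 (al_wk (P.cl_connC h ob os x) w2)
    exact ⟨w2.right_mem, by linarith [this.2], by linarith [this.1]⟩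
  have w2 := w'.mono Set.inter_subset_right
  exact w2.to_comp (mem_comp_self w2.left_mem)

/-- a cluster that avoids the two columns stays inside the pocket -/
theorem cl_enc {p q : W} (hh : 0 < h) (e : P.Enc p q x)
    (hcol : ∀ z ∈ (P.cl h ob os x).R, ¬ P.Anc z p ∧ ¬ P.Anc z q) :
    ∀ w ∈ (P.cl h ob os x).R, P.Enc p q w := by
  intro w hw
  obtain ⟨L, hL⟩ := P.cl_conn h ob os x x (cl_mem hh ob os x) w hw
  by_contra hn
  obtain ⟨z, _, _, h1, h2, _⟩ := hL.leave_enc e hn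
  exact h1.elim (hcol z h2.right_mem).1 (hcol z h2.right_mem).2

end band

section J

variable {M : ℕ} {θ h : ℝ}

theorem clJ_mem (hh : 0 < h) (j : Jit M) (x : W) : x ∈ (P.clJ h j x).R := cl_mem hh _ _ x

theorem clJ_eq (hh : 0 < h) {j : Jit M} {x y : W} (hy : y ∈ (P.clJ h j x).R) :
    P.clJ h j y = P.clJ h j x := cl_eq hh hy

theorem allowed_congr (hh : 0 < h) {s : ZSt W n} {j : Jit M} {t : Fin 3} {x y : W}
    (hy : y ∈ (P.clJ h j x).R) (hA : P.Allowed s t (P.clJ h j x) x) :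
    P.Allowed s t (P.clJ h j y) y := by
  rw [clJ_eq hh hy]
  have e := hA.1 y hy
  exact ⟨fun z hz => (hA.1 z hz).trans e.symm, by rw [e]; exact hA.2⟩

/-- an allowed operation has admissible parameters -/
theorem opOK_J [Finite W] (hL : Lv θ h η) {s : ZSt W n} {j : Jit M} {t : Fin 3} {x : W}
    (hA : P.Allowed s t (P.clJ h j x) x) :
    P.OpOK θ h (P.clJ h j x) (s x).G (P.prmJ θ h j t (P.clJ h j x) (s x).G) := by
  unfold prmJ
  split_ifs with ht
  · exact o4_opOK2 _ _ _ _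
  · exact o4_opOK4 hL (P.cl_cvxC _ _ _ _) (P.cl_connC _ _ _ _) (P.cl_band _ _ _ _)
      (P.cl_sub _ _ _ _) (hA.2.resolve_left ht).2 (off_lt (by linarith [hL.pos]) _).le

end J

end PS

end Crest.Agent.R206
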