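import Crest.Agent.R206.ZDefs
import Crest.Agent.R206.ZCut

/-! # Row 206 (planar): `IsL1` is a convex cone. -/

set_option autoImplicit false
set_option linter.dupNamespace false
set_option linter.unusedSectionVars false

namespace Crest.Agent.R206

open Finset
open scoped BigOperators Classical

variable {W : Type} [Fintype W]

/-- `ρ` is a non-negative combination of cut semimetrics -/
def IsL1 (ρ : W → W → ℝ) : Prop :=
  ∃ m : Finset W → ℝ, (∀ X, 0 ≤ m X) ∧ ∀ x y, ρ x y = dP m (ind x) (ind y)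

theorem isL1_cd (G : SimpleGraph W) (T : W → ℝ) : IsL1 (cd G T) :=
  ⟨cl G T, cl_nonneg _ _, fun _ _ => rfl⟩

theorem IsL1.nonneg {ρ : W → W → ℝ} (h : IsL1 ρ) (x y : W) : 0 ≤ ρ x y := by
  obtain ⟨m, hm, h⟩ := h
  rw [h]; exact dP_nonneg hm _ _

theorem IsL1.self {ρ : W → W → ℝ} (h : IsL1 ρ) (x : W) : ρ x x = 0 := by
  obtain ⟨m, -, h⟩ := h
  rw [h]; exact dP_self _ _

theorem IsL1.comm {ρ : W → W → ℝ} (h : IsL1 ρ) (x y : W) : ρ x y = ρ y x := by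
  obtain ⟨m, -, h⟩ := h
  rw [h, h]; exact dP_comm _ _ _

theorem IsL1.tri {ρ : W → W → ℝ} (h : IsL1 ρ) (x y z : W) : ρ x z ≤ ρ x y + ρ y z := by
  obtain ⟨m, hm, h⟩ := h
  rw [h, h, h]; exact dP_tri hm _ _ _

theorem IsL1.sum {ι : Type} (s : Finset ι) {ρ : ι → W → W → ℝ} (h : ∀ i ∈ s, IsL1 (ρ i)) :
    IsL1 fun x y => ∑ i ∈ s, ρ i x y := by
  choose! m hm h using h
  refine ⟨fun X => ∑ i ∈ s, m i X, fun X => sum_nonneg fun i hi => hm i hi X, fun x y => ?_⟩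
  beta_reduce
  rw [sum_congr rfl fun i hi => h i hi x y]
  simp only [dP, Ex, sum_mul]
  exact sum_comm

theorem IsL1.mul {ρ : W → W → ℝ} (h : IsL1 ρ) {c : ℝ} (hc : 0 ≤ c) :
    IsL1 fun x y => c * ρ x y := by
  obtain ⟨m, hm, h⟩ := h
  refine ⟨fun X => c * m X, fun X => mul_nonneg hc (hm X), fun x y => ?_⟩
  simp only [h, dP, Ex, mul_sum, mul_assoc]

theorem IsL1.div {ρ : W → W → ℝ} (h : IsL1 ρ) {c : ℝ} (hc : 0 ≤ c) :
    IsL1 fun x y => ρ x y / c := by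
  simpa only [div_eq_inv_mul] using h.mul (inv_nonneg.2 hc)

theorem IsL1.add {ρ ρ' : W → W → ℝ} (h : IsL1 ρ) (h' : IsL1 ρ') :
    IsL1 fun x y => ρ x y + ρ' x y := by
  obtain ⟨m, hm, h⟩ := h
  obtain ⟨m', hm', h'⟩ := h'
  refine ⟨fun X => m X + m' X, fun X => add_nonneg (hm X) (hm' X), fun x y => ?_⟩
  simp only [h, h', dP, Ex, add_mul, sum_add_distrib]

theorem IsL1.expect {ι : Type} [Fintype ι] {ρ : ι → W → W → ℝ} (h : ∀ i, IsL1 (ρ i)) :
    IsL1 fun x y => 𝔼 i, ρ i x y := by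
  simpa only [Finset.expect_eq_sum_div_card] using
    (IsL1.sum univ fun i _ => h i).div (Nat.cast_nonneg (univ : Finset ι).card)

theorem IsL1.avg {n : ℕ} {ρ : ZS.Sg n → W → W → ℝ} (h : ∀ σ, IsL1 (ρ σ)) :
    IsL1 fun x y => ZS.avg fun σ => ρ σ x y :=
  (IsL1.sum univ fun i _ => h i).div (by positivity)

/-- the statement of the main theorem on plane shortest path trees, `IsL1` form -/
def ZStmt' : Prop :=
  ∃ C : ℝ, 0 < C ∧ ∀ η : ℝ, 0 < η → ∀ (W : Type) [Fintype W] (P : PS W η),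
    ∃ ρ : W → W → ℝ, IsL1 ρ ∧ (∀ u v, P.G.Adj u v → ρ u v ≤ |P.f u - P.f v|) ∧
      ∀ x y, C * η ≤ P.d x y → P.d x y ≤ C * ρ x y

end Crest.Agent.R206
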