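import Crest.Agent.R206.GDefs
import Crest.Agent.R206.ZShell
import Crest.Agent.R206.ZStmt

/-! # Row 206 (planar): definitions of the random construction (owner helper23).

Units at a level of height `h`: `θ₀ = 1/10000`, `D = 200 h`, `W = 1000 h`, `r₀ = 20 h`,
`diam = 9000 h`, `μ = h/100`, `μ' = h/50`, `r₁ = h/100000`, `cap = νmax = 10000 h`,
jitter unit `u < h/1000`, `η ≤ h/10^6`, `K = 2^60`. -/

set_option autoImplicit false

namespace Crest.Agent.R206

open scoped BigOperators Classical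
open ZS hiding St flip gap

/-- data of a live label: domain and band -/
structure Kd (W : Type) where
  dom : Set W
  lo : ℝ
  hi : ℝ

/-- states -/
abbrev ZSt (W : Type) (n : ℕ) := ZS.St W (Kd W) n

/-- cluster data: band `[lo, lo+h)`, band component `C`, slab `[c0, c0+1000h)`, cluster `R` -/
structure Cl (W : Type) where
  lo : ℝ
  C : Set W
  c0 : ℝ
  R : Set W

/-- parameters of an operation -/
structure Prm (W : Type) where
  A : ℝ
  B : ℝ
  e : ℝ
  N : Set W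

/-- grid offset in `[0, a)` -/
noncomputable def off (a : ℝ) {M : ℕ} (i : Fin M) : ℝ := a * (i : ℕ) / M

/-- lower end of the cell of `t` in the grid `o + a ℤ` -/
noncomputable def flo (a o t : ℝ) : ℝ := o + a * ⌊(t - o) / a⌋

/-- an index of a minimum; depends only on the order type -/
noncomputable def am6 (a : Fin 6 → ℝ) : Fin 6 := Classical.epsilon fun k => ∀ j, a k ≤ a j

/-- jitters: band, slab, `ν`, fine jitter -/
abbrev Jit (M : ℕ) := Fin M × Fin M × Fin M × Fin M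

/-- randomness of one level: jitters, type (`0` skip, `1` = O2, `2` = O4), coins of the clusters -/
abbrev Om (M : ℕ) (W : Type) := Jit M × Fin 3 × (Set W → Bool)

/-- heights of the levels -/
noncomputable def hk (H : ℝ) (k : ℕ) : ℝ := H / 2 ^ (60 * k)

/-- hypotheses on one level -/
structure Lv (θ h η : ℝ) : Prop where
  th : θ = 1 / 10000 ∨ θ = 2 / 10000
  pos : 0 < h
  eta : η ≤ h / 1000000

/-- hypotheses on the whole construction (`J` levels) -/
structure Cx (θ H η : ℝ) (M n J : ℕ) : Prop where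
  lv : ∀ k < J, Lv θ (hk H k) η
  hn : J < n
  hM : 1000000000 * (J + 1) ≤ M

variable {W : Type} {η : ℝ} {n : ℕ}

/-- domain of a label -/
def ZS.Lab.dom (l : Lab W (Kd W) n) : Set W :=
  match l.kind with
  | none => Set.univ
  | some κ => κ.dom

/-- later levels change `T` by at most `ε V` -/
def Close (θ : ℝ) (f : W → ℝ) (s s' : ZSt W n) (ε : ℝ) : Prop :=
  ∀ σ v, |T θ f s' σ v - T θ f s σ v| ≤ ε * (s v).V σ

namespace PS

variable (P : PS W η)

/-- the distance -/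
noncomputable def d (x y : W) : ℝ := P.dS Set.univ x y

/-- left (`true`) and right (`false`) -/
def Lf : Bool → W → W → Prop
  | true => P.Lt
  | false => _root_.flip P.Lt

/-- `c`-Lipschitz along the edges of `S` -/
def Lip (c : ℝ) (S : Set W) (G : W → ℝ) : Prop :=
  ∀ u ∈ S, ∀ v ∈ S, P.G.Adj u v → |G u - G v| ≤ c * |P.f u - P.f v|

/-- mouth property -/
def Mouth (S : Set W) (G : W → ℝ) : Prop :=
  ∀ p ∈ S, ∀ q ∈ S, ∀ w ∈ S, P.Enc p q w → G p - |P.f p - P.f w| ≤ G w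

def UOn (S : Set W) (G : W → ℝ) : Prop := P.Lip 1 S G ∧ P.Mouth S G

/-- label of kind U -/
def IsU (l : Lab W (Kd W) n) : Prop :=
  ∃ κ, l.kind = some κ ∧ P.UOn κ.dom l.G ∧
    ∀ v ∈ κ.dom, ∀ w, P.G.Adj v w → κ.lo ≤ P.f w → P.f w < κ.hi → w ∈ κ.dom

/-- label of kind M (this includes Dead labels) -/
def IsM (b : Bool) (l : Lab W (Kd W) n) : Prop :=
  P.Lip 2 l.dom l.G ∧
    ∀ x ∈ l.dom, ∀ w ∈ l.dom, P.Lf b x w → l.G x ≤ l.G w + 2 * |P.f x - P.f w|

def KInv (s : ZSt W n) : Prop :=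
  ∀ v, v ∈ (s v).dom ∧ (P.IsU (s v) ∨ ∃ b, P.IsM b (s v))

/-- invariant after `k` levels -/
def Good (θ : ℝ) (k : ℕ) (s : ZSt W n) : Prop := Inv θ P.f P.G.Adj k s ∧ P.KInv s

/-- one label on the ball of radius `r`, whose band contains `[f x - r, f x + r]` -/
def Pure (s : ZSt W n) (x : W) (r : ℝ) : Prop :=
  (∀ y L, P.Wk Set.univ x y L → L ≤ r → s y = s x) ∧
    ∀ κ, (s x).kind = some κ → κ.lo ≤ P.f x - r ∧ P.f x + r < κ.hi

/-- a point of `C` with the least `first` -/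
noncomputable def base (C : Set W) : W :=
  @Classical.epsilon W ⟨P.root⟩ fun a => a ∈ C ∧ ∀ v ∈ C, P.first a ≤ P.first v

/-- `α` -/
noncomputable def al (C : Set W) (v : W) : ℝ := P.dS C (P.base C) v

/-- band component -/
def bandC (h ob : ℝ) (x : W) : Set W :=
  P.comp (P.band (flo h ob (P.f x)) (flo h ob (P.f x) + h)) x

/-- slab of a band component -/
def slab (h : ℝ) (C : Set W) (c : ℝ) : Set W :=
  {v | v ∈ C ∧ c ≤ P.al C v ∧ P.al C v < c + 1000 * h}

/-- the cluster of `x` for the band offset `ob` and the slab offset `os` -/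
noncomputable def cl (h ob os : ℝ) (x : W) : Cl W where
  lo := flo h ob (P.f x)
  C := P.bandC h ob x
  c0 := flo (1000 * h) os (P.al (P.bandC h ob x) x)
  R := P.comp (P.slab h (P.bandC h ob x) (flo (1000 * h) os (P.al (P.bandC h ob x) x))) x

/-- minimum of `G` on the cluster -/
noncomputable def _root_.Crest.Agent.R206.n0 (K : Cl W) (G : W → ℝ) : ℝ := sInf (G '' K.R)

/-- parameters of O2 -/
noncomputable def _root_.Crest.Agent.R206.prm2 (θ h : ℝ) (K : Cl W) (G : W → ℝ) : Prm W where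
  A := n0 K G + 200 * h
  B := n0 K G
  e := K.lo + h + θ * (n0 K G + 200 * h)
  N := K.C

def Obs (θ h : ℝ) (C : Set W) (G : W → ℝ) (x : W) : Prop :=
  ∃ p ∈ C, ∃ q ∈ C, P.Enc p q x ∧ 20 * h < P.dS C x p ∧ G x - 100 * h ≤ G p ∧
    P.f p + θ * G p < P.f x + θ * G x + h / 10000

def core (θ h : ℝ) (K : Cl W) (G : W → ℝ) (N0 : ℝ) : Set W :=
  {x | x ∈ K.R ∧ K.lo + h / 2 ≤ P.f x ∧ P.f x ≤ K.lo + h / 2 + h / 500000 ∧
    N0 - h / 25 ≤ G x ∧ G x ≤ N0 - h / 50 ∧ ¬ P.Obs θ h K.C G x}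

def near (h : ℝ) (C S : Set W) : Set W := {v | v ∈ C ∧ ∃ x ∈ S, P.dS C x v ≤ 20 * h}

/-- parameters of O4 -/
noncomputable def prm4 (θ h ν : ℝ) (K : Cl W) (G : W → ℝ) : Prm W where
  A := n0 K G + ν
  B := n0 K G + ν - 60 * h
  e := K.lo + h / 2 + h / 500000 + θ * (n0 K G + ν)
  N := P.hull K.C (P.near h K.C (P.core θ h K G (n0 K G + ν)))

/-- the six pieces that are not ramps -/
noncomputable def hp (θ h u : ℝ) (K : Cl W) (q : Prm W) : Fin 6 → Piece W (Kd W)
  | 0 => .dead (q.A - 3 * u) 0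
  | 1 => .dead (q.B - (K.lo + η) / θ - 4 * u) (1 / θ)
  | 2 => .dead (q.B + (K.lo + h - η) / θ - 5 * u) (-1 / θ)
  | 3 => .dead (q.e / θ - 6 * u) (-1 / θ)
  | 4 => .live (q.B - K.c0 - η - 7 * u) 1 (P.al K.C) ⟨K.C, K.lo, K.lo + h⟩
  | 5 => .live (q.B + K.c0 + 1000 * h - η - 8 * u) (-1) (P.al K.C) ⟨K.C, K.lo, K.lo + h⟩

/-- `2 F` -/
noncomputable def ramp (h : ℝ) (K : Cl W) (q : Prm W) (b : Bool) (w : W) : ℝ :=
  if w ∈ q.N then 0 else 2 * P.FF (P.Lf b) K.C q.N (10000 * h) w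

/-- the gap of `w` -/
def gap (K : Cl W) (q : Prm W) (w : W) : Set W :=
  {v | v ∈ K.C ∧ v ∉ q.N ∧ SameGap P.Lt q.N v w}

/-- the two ramp pieces at `w` -/
noncomputable def rp (h u : ℝ) (K : Cl W) (q : Prm W) (w : W) (b : Bool) : Piece W (Kd W) :=
  .live (q.A + h / 50000 - (if b then 1 else 2) * u) (-1) (P.ramp h K q b)
    ⟨P.gap K q w, K.lo, K.lo + h⟩

/-- the smallest of the six pieces -/
noncomputable def Hp (θ h u : ℝ) (K : Cl W) (q : Prm W) (w : W) : Piece W (Kd W) :=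
  P.hp θ h u K q (am6 fun k => (P.hp θ h u K q k).val P.f w)

/-- the larger ramp -/
noncomputable def Qp (h u : ℝ) (K : Cl W) (q : Prm W) (w : W) : Piece W (Kd W) :=
  if (P.rp h u K q w false).val P.f w ≤ (P.rp h u K q w true).val P.f w then P.rp h u K q w true
  else P.rp h u K q w false

noncomputable def Mp (θ h u : ℝ) (K : Cl W) (q : Prm W) (w : W) : Piece W (Kd W) :=
  if (P.Hp θ h u K q w).val P.f w ≤ (P.Qp h u K q w).val P.f w then P.Hp θ h u K q w
  else P.Qp h u K q w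

/-- the choice at `w`: `G' = max G (min H Q)` -/
noncomputable def pick (θ h u : ℝ) (K : Cl W) (q : Prm W) (G : W → ℝ) (w : W) :
    Option (Piece W (Kd W)) :=
  if (P.Mp θ h u K q w).val P.f w ≤ G w then none else some (P.Mp θ h u K q w)

/-- what the generic lemmas need from the parameters -/
structure OpOK (θ h : ℝ) (K : Cl W) (G : W → ℝ) (q : Prm W) : Prop where
  tcl : P.TClosed K.C q.N
  amp : q.A ≤ q.B + 200 * h
  low : ∀ w ∈ K.R, G w < q.B → w ∉ q.N ∧ ∀ b, q.A + h / 50000 - P.ramp h K q b w ≤ G w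
  cross : ∀ p ∈ K.C, ∀ p' ∈ K.C, p ∉ q.N → p' ∉ q.N → P.ch p p' → ¬ SameGap P.Lt q.N p p' →
    ∀ w ∈ K.R, ∀ L, P.Wk K.C p w L → L ≤ h / 100000 → G w < q.B ∨ q.e ≤ P.f w + θ * G w

variable {M : ℕ}

noncomputable def clJ (h : ℝ) (j : Jit M) (x : W) : Cl W :=
  P.cl h (off h j.1) (off (1000 * h) j.2.1) x

noncomputable def prmJ (θ h : ℝ) (j : Jit M) (t : Fin 3) (K : Cl W) (G : W → ℝ) : Prm W :=
  if t = 1 then prm2 θ h K G else P.prm4 θ h (off (10000 * h) j.2.2.1) K G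

def Allowed (s : ZSt W n) (t : Fin 3) (K : Cl W) (x : W) : Prop :=
  (∀ y ∈ K.R, s y = s x) ∧ (t = 1 ∨ (t = 2 ∧ P.UOn K.C (s x).G))

/-- the choice at `x` if the coin of its cluster says yes -/
noncomputable def pickJ (θ h : ℝ) (s : ZSt W n) (j : Jit M) (t : Fin 3) (x : W) :
    Option (Piece W (Kd W)) :=
  P.pick θ h (off (h / 1000) j.2.2.2) (P.clJ h j x) (P.prmJ θ h j t (P.clJ h j x) (s x).G)
    (s x).G x

/-- the choices of one level -/
noncomputable def chs (θ h : ℝ) (s : ZSt W n) (ω : Om M W) : Ch W (Kd W) := fun x =>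
  if P.Allowed s ω.2.1 (P.clJ h ω.1 x) x ∧ ω.2.2 (P.clJ h ω.1 x).R = true then
    P.pickJ θ h s ω.1 ω.2.1 x else none

/-- one level -/
noncomputable def stp (θ h : ℝ) (k : ℕ) (s : ZSt W n) (ω : Om M W) : ZSt W n :=
  step θ k s (P.chs θ h s ω)

/-- with jitters `j` and type `t` the coin of the cluster of `x` moves `x` and not `y` -/
def Moves (θ h : ℝ) (s : ZSt W n) (j : Jit M) (t : Fin 3) (x y : W) : Prop :=
  P.Allowed s t (P.clJ h j x) x ∧ y ∉ (P.clJ h j x).R ∧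
    ∃ p, P.pickJ θ h s j t x = some p ∧ (s x).G x + h / 100 ≤ p.val P.f x

/-- expected cut semimetric when `r` levels remain, the next one being level `k` -/
noncomputable def Val [Fintype W] (θ H : ℝ) (M : ℕ) :
    ℕ → ℕ → ZSt W n → W → W → ℝ
  | 0, _, s => fun x y => acd P.G θ P.f s x y
  | r + 1, k, s => fun x y => 𝔼 ω : Om M W, Val θ H M r (k + 1) (P.stp θ (hk H k) k s ω) x y

/-- `f x` is in the core window of its band -/
def Win (h ob : ℝ) (x : W) : Prop :=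
  flo h ob (P.f x) + h / 2 ≤ P.f x ∧ P.f x ≤ flo h ob (P.f x) + h / 2 + h / 500000

/-- alternative (I) -/
def AltI (h : ℝ) (C : Set W) (x : W) : Prop :=
  ∀ p ∈ C, ∀ q ∈ C, P.Enc p q x → 20 * h < P.dS C x p → P.dS C x p ≤ 200 * h →
    h / 10000 ≤ P.f p - P.f x - P.dS C x p / 10000

/-- `θ` is the good angle for the band offset `ob` -/
def GA (θ h ob : ℝ) (x : W) : Prop :=
  (θ = 1 / 10000 ∧ P.AltI h (P.bandC h ob x) x) ∨ (θ = 2 / 10000 ∧ ¬ P.AltI h (P.bandC h ob x) x)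

/-- share of the band offsets in the window for which `θ` is good -/
noncomputable def gA (θ h : ℝ) (M : ℕ) (x : W) : ℝ :=
  𝔼 b : Fin M, if P.Win h (off h b) x ∧ P.GA θ h (off h b) x then (1 : ℝ) else 0

end PS

end Crest.Agent.R206
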