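import Crest.Agent.R206.ZStmt
import Crest.Agent.R206.ZCutOK
import Crest.Agent.R206.TFin
import Crest.Agent.R206.TTd

/-! # Row 206 (planar): from the random functions on the subdivision to the embedding. -/

set_option autoImplicit false
set_option linter.dupNamespace false
set_option linter.unusedSectionVars false

namespace Crest.Agent.R206

open Finset MeasureTheory Crest.GeometryTopology.GraphMetric

namespace PS

variable {W : Type} {η : ℝ} (P : PS W η)

theorem wk_of_walk {x y : W} (p : P.G.Walk x y) : P.Wk Set.univ x y (p.edges.map P.len).sum := by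
  have key : ∀ {a b : W} (q : P.G.Walk a b) (L : ℝ), P.Wk Set.univ x a L →
      P.Wk Set.univ x b (L + (q.edges.map P.len).sum) := by
    intro a b q
    induction q with
    | nil => intro L h; simpa using h
    | cons h q ih =>
      intro L hL
      have := ih _ (Wk.snoc hL h (Set.mem_univ _))
      simpa [add_assoc] using this
  simpa using key p 0 (Wk.nil (Set.mem_univ _))

theorem walk_of_wk {x y : W} {L : ℝ} (h : P.Wk Set.univ x y L) :
    ∃ p : P.G.Walk x y, (p.edges.map P.len).sum = L := by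
  induction h with
  | nil => exact ⟨SimpleGraph.Walk.nil, by simp⟩
  | snoc _ h _ ih =>
    obtain ⟨p, rfl⟩ := ih
    exact ⟨p.concat h, by simp⟩

theorem wdist_eq_dS (x y : W) : wdist P.G P.len x y = P.dS Set.univ x y := by
  unfold wdist dS iInf
  congr 1
  ext L
  exact ⟨by rintro ⟨p, rfl⟩; exact P.wk_of_walk p, fun h => P.walk_of_wk h⟩

theorem reach_root [Finite W] (v : W) : P.G.Reachable P.root v := by
  have hw : WellFounded fun a b : W => P.f a < P.f b := by
    have : IsTrans W fun a b : W => P.f a < P.f b := ⟨fun _ _ _ => lt_trans⟩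
    have : Std.Irrefl fun a b : W => P.f a < P.f b := ⟨fun _ => lt_irrefl _⟩
    exact Finite.wellFounded_of_trans_of_irrefl _
  induction v using hw.induction with
  | _ v ih =>
    by_cases hv : v = P.root
    · rw [hv]
    · have h := P.f_lt v hv
      refine (ih _ h).trans (SimpleGraph.Adj.reachable ⟨fun e => ?_, Or.inr (Or.inl rfl)⟩)
      rw [e] at h
      exact lt_irrefl _ h

theorem le_wdist [Finite W] {D : W → W → ℝ} (h0 : ∀ x, D x x ≤ 0)
    (htri : ∀ x y z, D x z ≤ D x y + D y z) (hadj : ∀ u v, P.G.Adj u v → D u v ≤ |P.f u - P.f v|)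
    (x y : W) : D x y ≤ wdist P.G P.len x y := by
  have : Nonempty (P.G.Walk x y) := ((P.reach_root x).symm.trans (P.reach_root y))
  refine le_ciInf fun p => ?_
  induction p with
  | nil => simpa using h0 _
  | @cons a b c h p ih =>
    refine (htri a b c).trans ?_
    simp only [SimpleGraph.Walk.edges_cons, List.map_cons, List.sum_cons, len_mk]
    exact add_le_add (hadj _ _ h) (ih ⟨p⟩)

end PS

theorem wdist_pos {V : Type} [Fintype V] {G : SimpleGraph V} (hG : G.Connected) {ℓ : Sym2 V → ℝ}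
    (hℓ : ∀ e ∈ G.edgeSet, 0 < ℓ e) {x y : V} (h : x ≠ y) : 0 < wdist G ℓ x y := by
  classical
  obtain ⟨p, hp⟩ := exists_shortest hG hℓ x y
  rw [← hp]
  cases p with
  | nil => exact (h rfl).elim
  | cons ha q =>
    have h1 := h33_len_nonneg hℓ q
    have h2 := hℓ _ ((G.mem_edgeSet).2 ha)
    simp only [SimpleGraph.Walk.edges_cons, List.map_cons, List.sum_cons]
    linarith

theorem planar_of (hPS : PSStmt) (hZ : ZStmt) :
    ∃ C : ℝ, ∀ (V : Type) [Fintype V] (G : SimpleGraph V), G.Connected → IsPlanar G →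
      ∀ ℓ : Sym2 V → ℝ, (∀ e ∈ G.edgeSet, 0 < ℓ e) →
        ∃ (Ω : Type) (_ : MeasurableSpace Ω) (μ : Measure Ω) (f : V → Lp ℝ 1 μ),
          ∀ x y : V, wdist G ℓ x y ≤ ‖f x - f y‖ ∧ ‖f x - f y‖ ≤ C * wdist G ℓ x y := by
  obtain ⟨C, hC, hZ⟩ := hZ
  refine ⟨C * 2, fun V _ G hG hP ℓ hℓ => ?_⟩
  classical
  obtain ⟨ρ, hρ0, hρ⟩ : ∃ ρ : ℝ, 0 < ρ ∧ ∀ x y : V, x ≠ y → ρ ≤ wdist G ℓ x y := by
    have : Nonempty V := hG.nonempty
    obtain ⟨a, ha⟩ := Finite.exists_min
      fun a : V × V => if a.1 = a.2 then (1 : ℝ) else wdist G ℓ a.1 a.2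
    refine ⟨_, ?_, fun x y hxy => (ha (x, y)).trans_eq (if_neg hxy)⟩
    split_ifs with h
    · exact one_pos
    · exact wdist_pos hG hℓ h
  obtain ⟨W, _, P, i, hi⟩ := hPS V G hG hP ℓ hℓ (ρ / C) (div_pos hρ0 hC)
  obtain ⟨O, _, w, T, hw, hadj, hlow⟩ := hZ _ (div_pos hρ0 hC) W P
  obtain ⟨Ω, mΩ, μ, f, hf⟩ := l1_of_law (fun X => ∑ o, w o * cl P.G (T o) X)
    (fun X => sum_nonneg fun o _ => mul_nonneg (hw o) (cl_nonneg _ _ _)) hC.le
  have hD : ∀ u v, dP (fun X => ∑ o, w o * cl P.G (T o) X) (ind u) (ind v) =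
      ∑ o, w o * cd P.G (T o) u v := by
    intro u v
    simp only [cd, dP, Ex, sum_mul, mul_sum, mul_assoc]
    exact sum_comm
  refine ⟨Ω, mΩ, μ, fun x => f (i x), fun x y => ?_⟩
  rw [hf, hD]
  constructor
  · by_cases hxy : x = y
    · rw [hxy, wdist_self hℓ]
      exact mul_nonneg hC.le (sum_nonneg fun o _ => mul_nonneg (hw o) (cd_nonneg _ _ _))
    · have h1 := (hi x y).1
      rw [P.wdist_eq_dS] at h1
      refine h1.trans (hlow _ _ ?_)
      rw [mul_div_cancel₀ _ hC.ne']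
      exact (hρ x y hxy).trans h1
  · rw [mul_assoc]
    refine mul_le_mul_of_nonneg_left (le_trans ?_ (hi x y).2) hC.le
    refine P.le_wdist (D := fun u v => ∑ o, w o * cd P.G (T o) u v) (fun u => ?_)
      (fun u v z => ?_) (fun u v h => ?_) _ _
    · simp [cd_self]
    · rw [← sum_add_distrib]
      refine sum_le_sum fun o _ => ?_
      rw [← mul_add]
      exact mul_le_mul_of_nonneg_left (cd_tri _ _ _ _) (hw o)
    · exact (sum_le_sum fun o _ => mul_le_mul_of_nonneg_left (cd_adj _ h) (hw o)).trans (hadj u v h)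

theorem planar_of' (hPS : PSStmt) (hZ : ZStmt') :
    ∃ C : ℝ, ∀ (V : Type) [Fintype V] (G : SimpleGraph V), G.Connected → IsPlanar G →
      ∀ ℓ : Sym2 V → ℝ, (∀ e ∈ G.edgeSet, 0 < ℓ e) →
        ∃ (Ω : Type) (_ : MeasurableSpace Ω) (μ : Measure Ω) (f : V → Lp ℝ 1 μ),
          ∀ x y : V, wdist G ℓ x y ≤ ‖f x - f y‖ ∧ ‖f x - f y‖ ≤ C * wdist G ℓ x y := by
  obtain ⟨C, hC, hZ⟩ := hZ
  refine ⟨C * 2, fun V _ G hG hP ℓ hℓ => ?_⟩
  classical
  obtain ⟨ρ, hρ0, hρ⟩ : ∃ ρ : ℝ, 0 < ρ ∧ ∀ x y : V, x ≠ y → ρ ≤ wdist G ℓ x y := by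
    have : Nonempty V := hG.nonempty
    obtain ⟨a, ha⟩ := Finite.exists_min
      fun a : V × V => if a.1 = a.2 then (1 : ℝ) else wdist G ℓ a.1 a.2
    refine ⟨_, ?_, fun x y hxy => (ha (x, y)).trans_eq (if_neg hxy)⟩
    split_ifs with h
    · exact one_pos
    · exact wdist_pos hG hℓ h
  obtain ⟨W, _, P, i, hi⟩ := hPS V G hG hP ℓ hℓ (ρ / C) (div_pos hρ0 hC)
  obtain ⟨D, hD, hadj, hlow⟩ := hZ _ (div_pos hρ0 hC) W P
  obtain ⟨m, hm, hmD⟩ := id hD
  obtain ⟨Ω, mΩ, μ, f, hf⟩ := l1_of_law m hm hC.le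
  refine ⟨Ω, mΩ, μ, fun x => f (i x), fun x y => ?_⟩
  rw [hf, ← hmD]
  constructor
  · by_cases hxy : x = y
    · rw [hxy, wdist_self hℓ]
      exact mul_nonneg hC.le (hD.nonneg _ _)
    · have h1 := (hi x y).1
      rw [P.wdist_eq_dS] at h1
      refine h1.trans (hlow _ _ ?_)
      rw [mul_div_cancel₀ _ hC.ne']
      exact (hρ x y hxy).trans h1
  · rw [mul_assoc]
    exact mul_le_mul_of_nonneg_left
      ((P.le_wdist (fun u => (hD.self u).le) hD.tri hadj _ _).trans (hi x y).2) hC.le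

end Crest.Agent.R206
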