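import Crest.Agent.R206.ZDefs
import Crest.Agent.R206.O4

/-! # Row 206 (planar): the parameters of O2 and O4 satisfy `OpOK` (helper99). -/

set_option autoImplicit false
set_option linter.unusedVariables false

namespace Crest.Agent.R206

open ZS hiding St flip

namespace PS

variable {W : Type} {η : ℝ} {P : PS W η}

theorem o4_lrb (P : PS W η) (b : Bool) : P.LR (P.Lf b) := by
  cases b
  · exact P.lr'
  · exact P.lr

theorem o4_enc_of {b : Bool} {p q w : W} (hc : P.ch p q) (h1 : P.Lf b p w) (h2 : P.Lf b w q) :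
    P.Enc p q w := by
  cases b
  · exact ⟨hc, Or.inr ⟨h2, h1⟩⟩
  · exact ⟨hc, Or.inl ⟨h1, h2⟩⟩

theorem o4_n0_le [Finite W] (K : Cl W) (G : W → ℝ) {w : W} (hw : w ∈ K.R) : n0 K G ≤ G w :=
  csInf_le ((Set.toFinite K.R).image G).bddBelow ⟨w, hw, rfl⟩

theorem UOn.lip1 {S : Set W} {G : W → ℝ} (h : P.UOn S G) :
    ∀ u ∈ S, ∀ v ∈ S, P.G.Adj u v → |G u - G v| ≤ |P.f u - P.f v| := fun u hu v hv a => by
  simpa using h.1 u hu v hv a

/-- path version of the mouth property -/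
theorem o4_path_mouth {C : Set W} (hC : P.Cvx C) {G : W → ℝ} (hG : P.UOn C G) {b : Bool}
    {a w z : W} {L : ℝ} (hw : w ∈ C) (h1 : P.Lf b a w) (hz : P.Wk C a z L) (h2 : ¬ P.Lf b z w) :
    G a - L - |P.f z - P.f w| ≤ G w := by
  have hR := P.o4_lrb b
  obtain ⟨x, y, L1, L2, hx, hy, hxy, w1, w2, e⟩ := hz.exit (fun v => P.Lf b v w) h1 h2
  have hxC := w1.right_mem
  have hyC := w2.left_mem
  have e1 := abs_le.1 (o4_lip1 hG.lip1 w1)
  have e2 := abs_le.1 (hG.lip1 x hxC y hyC hxy)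
  have e3 := w2.abs_le
  have e4 := abs_sub_le (P.f y) (P.f z) (P.f w)
  have rel : (P.Anc y w ∨ P.Anc w y) → G a - L - |P.f z - P.f w| ≤ G w := by
    intro hr
    have e5 := abs_le.1 (o4_lip1 hG.lip1 (hC.wk_rel hyC hw hr))
    linarith [e1.1, e1.2, e2.1, e2.2, e5.1, e5.2]
  rcases hR.tri y w with c | c | c | c
  · exact rel (Or.inl c)
  · exact rel (Or.inr c)
  · exact absurd c hy
  · have hlt := hR.trans _ _ _ hx c
    have hc : P.ch x y := by
      rcases hxy.2 with e | e | e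
      · exact absurd (e ▸ P.anc_par x) (hR.notrel _ _ hlt).2
      · exact absurd (e ▸ P.anc_par y) (hR.notrel _ _ hlt).1
      · exact e
    have e5 := hG.2 x hxC y hyC w hw (o4_enc_of hc hx c)
    have e6 := P.ch_f _ _ hc
    rw [e6] at e5 e
    rw [sub_self, abs_zero] at e
    linarith [e1.1, e1.2]

theorem o4_FF_bdd (R : W → W → Prop) (C N : Set W) (cap : ℝ) (w : W) :
    BddBelow (({cap} : Set ℝ) ∪
      {x | ∃ b ∈ N, R b w ∧ ∃ z L, P.Wk C b z L ∧ ¬ R z w ∧ x = L + |P.f z - P.f w|}) := by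
  refine ⟨min cap 0, ?_⟩
  rintro x (hx | ⟨b, _, _, z, L, hw, _, rfl⟩)
  · rw [Set.mem_singleton_iff.1 hx]; exact min_le_left _ _
  · exact (min_le_right _ _).trans (add_nonneg hw.nonneg (abs_nonneg _))

theorem o4_FF_le {R : W → W → Prop} {C N : Set W} (cap : ℝ) {w b z : W} {L : ℝ} (hb : b ∈ N)
    (h1 : R b w) (hz : P.Wk C b z L) (h2 : ¬ R z w) :
    P.FF R C N cap w ≤ L + |P.f z - P.f w| :=
  csInf_le (o4_FF_bdd R C N cap w) (Or.inr ⟨b, hb, h1, z, L, hz, h2, rfl⟩)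

theorem o4_FF_le_cap (R : W → W → Prop) (C N : Set W) (cap : ℝ) (w : W) :
    P.FF R C N cap w ≤ cap := csInf_le (o4_FF_bdd R C N cap w) (Or.inl rfl)

theorem o4_le_FF {R : W → W → Prop} {C N : Set W} {cap m : ℝ} {w : W} (h0 : m ≤ cap)
    (h : ∀ b ∈ N, R b w → ∀ z L, P.Wk C b z L → ¬ R z w → m ≤ L + |P.f z - P.f w|) :
    m ≤ P.FF R C N cap w := by
  refine le_csInf ⟨cap, Or.inl rfl⟩ ?_
  rintro x (hx | ⟨b, hb, h1, z, L, hw, h2, rfl⟩)
  · rw [Set.mem_singleton_iff.1 hx]; exact h0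
  · exact h b hb h1 z L hw h2

theorem o4_FF_nonneg (R : W → W → Prop) (C N : Set W) {cap : ℝ} (h0 : 0 ≤ cap) (w : W) :
    0 ≤ P.FF R C N cap w :=
  o4_le_FF h0 fun _ _ _ _ _ hw _ => add_nonneg hw.nonneg (abs_nonneg _)

/-- the ramp is at least the depth of `G` below its lower bound on `N` (up to the cap) -/
theorem o4_FF_mouth {C N : Set W} (hC : P.Cvx C) {G : W → ℝ} (hG : P.UOn C G) (b : Bool)
    {m cap : ℝ} (hm : ∀ a ∈ N, m ≤ G a) {w : W} (hw : w ∈ C) :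
    min cap (m - G w) ≤ P.FF (P.Lf b) C N cap w := by
  refine o4_le_FF (min_le_left _ _) fun a ha h1 z L hz h2 => (min_le_right _ _).trans ?_
  have := o4_path_mouth hC hG hw h1 hz h2
  linarith [hm a ha]

/-- in a finite graph the points of `near` are joined to `S` inside `near` -/
theorem o4_near_wk [Finite W] {C S : Set W} (hC : P.Conn C) (hS : S ⊆ C) (h : ℝ) :
    ∀ n ∈ P.near h C S, ∃ x ∈ S, ∃ L, P.Wk (P.near h C S) x n L := by
  rintro n ⟨hn, x, hx, hd⟩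
  have hfin : ((fun z => P.dS C x z) '' {z | 20 * h < P.dS C x z}).Finite :=
    (Set.toFinite _).image _
  obtain ⟨m, hm1, hm2⟩ : ∃ m, 20 * h < m ∧ ∀ z, 20 * h < P.dS C x z → m ≤ P.dS C x z := by
    by_cases hne : {z | 20 * h < P.dS C x z}.Nonempty
    · obtain ⟨z, hz, hmin⟩ := Set.exists_min_image _ (fun z => P.dS C x z) (Set.toFinite _) hne
      exact ⟨_, hz, hmin⟩
    · exact ⟨20 * h + 1, by linarith, fun z hz => (hne ⟨z, hz⟩).elim⟩
  obtain ⟨L, hw, hL⟩ := exists_wk_lt (hC x (hS hx) n hn) (hd.trans_lt hm1)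
  refine ⟨x, hx, L, (hw.restrict (P.near h C S) fun y L1 h1 h2 => ⟨h1.right_mem, x, hx, ?_⟩).mono
    Set.inter_subset_right⟩
  by_contra hy
  have := hm2 y (not_le.1 hy)
  linarith [h1.dS_le]

theorem o4_tclosed_self (C : Set W) : P.TClosed C C :=
  ⟨le_rfl, fun _ hu _ hv _ => ⟨fun _ => hv, fun _ => hu⟩⟩

/-- O2 -/
theorem o4_opOK2 [Finite W] (θ h : ℝ) (K : Cl W) (G : W → ℝ) : P.OpOK θ h K G (prm2 θ h K G) where
  tcl := o4_tclosed_self K.C
  amp := le_rfl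
  low := fun w hw hlt => absurd (o4_n0_le K G hw) (not_le.2 hlt)
  cross := fun p hp _ _ hp' => absurd hp hp'

/-- lower bound of `G` on the set `N` of O4 -/
theorem o4_N_ge {θ h ν : ℝ} {K : Cl W} {G : W → ℝ} (hC : P.Cvx K.C) (hCo : P.Conn K.C)
    (hb : K.C ⊆ P.band K.lo (K.lo + h)) (hR : K.R ⊆ K.C) (hG : P.UOn K.C G) :
    ∀ a ∈ (P.prm4 θ h ν K G).N, n0 K G + ν - h / 25 - 20 * h - 2 * h ≤ G a := by
  intro a ha
  refine o4_hull_ge hC (fun _ hv => hv.1) (fun u hu v hv => ?_) hG.lip1 ?_ ha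
  · have := band_abs (hb hu) (hb hv); linarith
  · rintro n ⟨hn, x, hx, hd⟩
    have h1 := lip_dS (hCo n hn x (hR hx.1)) G one_pos fun u hu v hv a => by
      have := abs_le.1 (hG.lip1 u hu v hv a); linarith [this.1]
    rw [P.dS_comm] at h1
    linarith [hx.2.2.2.1]

/-- O4 -/
theorem o4_opOK4 [Finite W] {θ h ν : ℝ} (hL : Lv θ h η) {K : Cl W} {G : W → ℝ} (hC : P.Cvx K.C)
    (hCo : P.Conn K.C) (hb : K.C ⊆ P.band K.lo (K.lo + h)) (hR : K.R ⊆ K.C) (hG : P.UOn K.C G)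
    (hν : ν ≤ 10000 * h) : P.OpOK θ h K G (P.prm4 θ h ν K G) where
  tcl := P.hull_closed _ _
  amp := by have := hL.pos; simp only [prm4]; linarith
  low := by
    intro w hw hlt
    have hpos := hL.pos
    have hN := o4_N_ge (θ := θ) (ν := ν) hC hCo hb hR hG
    have hB : (P.prm4 θ h ν K G).B = n0 K G + ν - 60 * h := rfl
    have hA : (P.prm4 θ h ν K G).A = n0 K G + ν := rfl
    have hwN : w ∉ (P.prm4 θ h ν K G).N := fun hw' => by
      have := hN w hw'; linarith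
    refine ⟨hwN, fun b => ?_⟩
    have h1 := o4_FF_mouth (cap := 10000 * h) hC hG b hN (hR hw)
    have h2 := o4_n0_le K G hw
    unfold ramp
    rw [if_neg hwN, hA]
    rcases min_cases (10000 * h) (n0 K G + ν - h / 25 - 20 * h - 2 * h - G w) with e | e <;>
      rw [e.1] at h1 <;> linarith
  cross := by
    intro p hp p' hp' hpN hpN' hc hg w hw L hwk hL'
    have hpos := hL.pos
    have hcore : P.core θ h K G (n0 K G + ν) ⊆ K.C := fun x hx => hR hx.1
    obtain ⟨x, hx, henc⟩ := o4_gap_core (C := K.C)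
      (M := P.near h K.C (P.core θ h K G (n0 K G + ν))) (X := P.core θ h K G (n0 K G + ν))
      (fun _ hv => hv.1) (o4_near_wk hCo hcore h) hp hp' hpN hpN' (ch_adj hc) hg
    have hd : 20 * h < P.dS K.C x p := by
      by_contra hd
      exact hpN (sub_hull (fun _ hv => hv.1) ⟨hp, x, hx, not_lt.1 hd⟩)
    obtain ⟨_, x1, x2, x3, x4, x5⟩ := hx
    have e1 := abs_le.1 (o4_lip1 hG.lip1 hwk)
    have e2 := abs_le.1 hwk.abs_le
    have hB : (P.prm4 θ h ν K G).B = n0 K G + ν - 60 * h := rfl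
    have he : (P.prm4 θ h ν K G).e = K.lo + h / 2 + h / 500000 + θ * (n0 K G + ν) := rfl
    by_cases c1 : G x - 100 * h ≤ G p
    · by_cases c2 : P.f p + θ * G p < P.f x + θ * G x + h / 10000
      · exact absurd ⟨p, hp, p', hp', henc, hd, c1, c2⟩ x5
      · right
        rw [he]
        rcases hL.th with e | e <;> rw [e] at c2 ⊢ <;> linarith [e1.1, e1.2, e2.1, e2.2]
    · left
      rw [hB]; linarith [e1.1, e1.2]

end PS

end Crest.Agent.R206
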