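import Crest.Agent.R206.ZDefs
import Crest.Agent.R206.Geo2
import Crest.Agent.R206.ZOp4
import Crest.Agent.R206.ZPurB

/-! # Row 206 (planar): purity. -/

set_option autoImplicit false
set_option linter.unusedSectionVars false

namespace Crest.Agent.R206

open scoped BigOperators Classical
open ZS hiding St flip gap

theorem pu_flo_eq {a o t t' : ℝ} (ha : 0 < a) (h1 : flo a o t ≤ t') (h2 : t' < flo a o t + a) :
    flo a o t' = flo a o t := by
  unfold flo at *
  have : ⌊(t' - o) / a⌋ = ⌊(t - o) / a⌋ := by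
    rw [Int.floor_eq_iff, le_div_iff₀ ha, div_lt_iff₀ ha]
    constructor <;> linarith
  rw [this]

theorem pu_flo_prob {M : ℕ} (hM : 0 < M) {a r : ℝ} (t : ℝ) (ha : 0 < a) (hr : 0 ≤ r) :
    uPr (fun i : Fin M => ¬ (flo a (off a i) t ≤ t - r ∧ t + r < flo a (off a i) t + a)) ≤
      4 * r / a + 2 / M := by
  refine (uPr_mono fun i hi he => hi ?_).trans (uPr_floor hM t ha hr)
  have ho : off a i = (i : ℕ) * a / M := by unfold off; ring
  rw [← ho] at he
  set o := off a i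
  have h1 : ⌊(t - r - o) / a⌋ ≤ ⌊(t - o) / a⌋ := Int.floor_le_floor (by gcongr; linarith)
  have h2 : ⌊(t - o) / a⌋ ≤ ⌊(t + r - o) / a⌋ := Int.floor_le_floor (by gcongr; linarith)
  have h3 := Int.floor_le ((t - r - o) / a)
  have h4 := Int.lt_floor_add_one ((t + r - o) / a)
  have e1 : ⌊(t - r - o) / a⌋ = ⌊(t - o) / a⌋ := by omega
  have e2 : ⌊(t + r - o) / a⌋ = ⌊(t - o) / a⌋ := by omega
  rw [e1, le_div_iff₀ ha] at h3
  rw [e2, div_lt_iff₀ ha] at h4
  unfold flo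
  constructor <;> linarith

theorem pu_amin_le (a : Fin 6 → ℝ) (j : Fin 6) : a (am6 a) ≤ a j := by
  have : ∃ k, ∀ j, a k ≤ a j := Finite.exists_min a
  exact Classical.epsilon_spec this j

theorem pu_amin_congr {a b : Fin 6 → ℝ} (h : ∀ i j, a i ≤ a j ↔ b i ≤ b j) : am6 a = am6 b := by
  unfold am6
  congr 1
  funext k
  exact propext (forall_congr' fun j => h k j)

theorem pu_ord {a b a' b' t : ℝ} (h1 : |a - a'| ≤ t) (h2 : |b - b'| ≤ t) (h : 2 * t < |a - b|) :
    (a ≤ b ↔ a' ≤ b') := by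
  have h1 := abs_le.1 h1
  have h2 := abs_le.1 h2
  rcases lt_abs.1 h with h3 | h3
  · constructor <;> intro h4 <;> linarith [h1.1, h1.2, h2.1, h2.2]
  · constructor <;> intro _ <;> linarith [h1.1, h1.2, h2.1, h2.2]

namespace PS

variable {W : Type} {η : ℝ} {n : ℕ} (P : PS W η)

/-- ball for walks -/
def PB (x : W) (r : ℝ) : Set W := {y | ∃ L, P.Wk Set.univ x y L ∧ L ≤ r}

variable {P}

theorem PB_wk {x y : W} {r : ℝ} (hy : y ∈ P.PB x r) : ∃ L, P.Wk (P.PB x r) x y L ∧ L ≤ r := by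
  obtain ⟨L, h, hL⟩ := hy
  exact ⟨L, (h.restrict (P.PB x r) fun z L1 h1 h2 => ⟨L1, h1, h2.trans hL⟩).mono
    Set.inter_subset_right, hL⟩

theorem PB_wk2 {x y z : W} {r : ℝ} (hy : y ∈ P.PB x r) (hz : z ∈ P.PB x r) :
    ∃ L, P.Wk (P.PB x r) y z L ∧ L ≤ 2 * r := by
  obtain ⟨L, h, hL⟩ := PB_wk hy
  obtain ⟨L', h', hL'⟩ := PB_wk hz
  exact ⟨_, h.symm.append h', by linarith⟩

theorem PB_self (x : W) {r : ℝ} (hr : 0 ≤ r) : x ∈ P.PB x r := ⟨0, Wk.nil trivial, hr⟩

theorem PB_lip {x y : W} {r c : ℝ} {g : W → ℝ} (hc : 0 ≤ c) (hg : P.Lip c (P.PB x r) g)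
    (hy : y ∈ P.PB x r) : |g x - g y| ≤ c * r := by
  obtain ⟨L, h, hL⟩ := PB_wk hy
  have h1 := h.lip g c fun u hu v hv a => by
    have := abs_le.1 (hg u hu v hv a); linarith [this.1]
  have h2 := h.symm.lip g c fun u hu v hv a => by
    have := abs_le.1 (hg u hu v hv a); linarith [this.1]
  have h3 := mul_le_mul_of_nonneg_left hL hc
  rw [abs_le]; constructor <;> linarith

theorem PB_comp {x : W} {r : ℝ} {S : Set W} (h : P.PB x r ⊆ S) : P.PB x r ⊆ P.comp S x :=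
  fun _ hy => let ⟨L, hw, _⟩ := PB_wk hy; ⟨L, hw.mono h⟩

theorem pu_base_mem {C : Set W} {x : W} (hx : x ∈ C) : P.base C ∈ C := by
  have : ∃ a, a ∈ C ∧ ∀ v ∈ C, P.first a ≤ P.first v := by
    obtain ⟨a, ha, h⟩ := WellFounded.has_min (InvImage.wf P.first wellFounded_lt) C ⟨x, hx⟩
    exact ⟨a, ha, fun v hv => not_lt.1 (h v hv)⟩
  exact (@Classical.epsilon_spec W _ this).1

theorem pu_al_lip {C : Set W} (hC : P.Conn C) : P.Lip 1 C (P.al C) := fun u hu v hv a => by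
  rw [one_mul]
  exact hC.lip_adj (pu_base_mem hu) hu hv a

theorem Lip.pu_mono {c c' : ℝ} {S S' : Set W} {g : W → ℝ} (h : P.Lip c S g) (hc : c ≤ c')
    (hS : S' ⊆ S) : P.Lip c' S' g := fun u hu v hv a =>
  (h u (hS hu) v (hS hv) a).trans (mul_le_mul_of_nonneg_right hc (abs_nonneg _))

/-- no band or slab boundary is near: the ball lies in one cluster -/
theorem pu_cl {h ob os r : ℝ} {x : W} (hh : 0 < h)
    (hb : flo h ob (P.f x) ≤ P.f x - r ∧ P.f x + r < flo h ob (P.f x) + h)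
    (hs : flo (1000 * h) os (P.al (P.bandC h ob x) x) ≤ P.al (P.bandC h ob x) x - r ∧
      P.al (P.bandC h ob x) x + r < flo (1000 * h) os (P.al (P.bandC h ob x) x) + 1000 * h) :
    P.PB x r ⊆ (P.cl h ob os x).R ∧ ∀ y ∈ P.PB x r, P.cl h ob os y = P.cl h ob os x := by
  have h1 : P.PB x r ⊆ P.band (flo h ob (P.f x)) (flo h ob (P.f x) + h) := by
    rintro y ⟨L, hw, hL⟩
    have := abs_le.1 (hw.abs_le.trans hL)
    constructor <;> linarith [this.1, this.2, hb.1, hb.2]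
  have h2 : P.PB x r ⊆ P.bandC h ob x := PB_comp h1
  have h3 : ∀ y ∈ P.PB x r, |P.al (P.bandC h ob x) x - P.al (P.bandC h ob x) y| ≤ r := by
    intro y hy
    have := PB_lip zero_le_one ((pu_al_lip (P.conn_comp _ _)).pu_mono le_rfl h2) hy
    rwa [one_mul] at this
  have h4 : P.PB x r ⊆ P.slab h (P.bandC h ob x) (flo (1000 * h) os (P.al (P.bandC h ob x) x)) := by
    intro y hy
    have := abs_le.1 (h3 y hy)
    refine ⟨h2 hy, ?_, ?_⟩ <;> linarith [this.1, this.2, hs.1, hs.2]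
  have h5 := PB_comp h4
  refine ⟨h5, fun y hy => ?_⟩
  have e1 : flo h ob (P.f y) = flo h ob (P.f x) := pu_flo_eq hh (h1 hy).1 (h1 hy).2
  have e2 : P.bandC h ob y = P.bandC h ob x := by
    unfold bandC
    rw [e1]
    exact comp_eq (h2 hy)
  have e3 : flo (1000 * h) os (P.al (P.bandC h ob x) y) =
      flo (1000 * h) os (P.al (P.bandC h ob x) x) :=
    pu_flo_eq (by linarith) (h4 hy).2.1 (h4 hy).2.2
  unfold cl
  rw [e1, e2, e3, comp_eq (h5 hy)]

theorem pu_FF_le {R : W → W → Prop} {C N : Set W} {cap : ℝ} {b z w : W} {L : ℝ} (hb : b ∈ N)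
    (hR : R b w) (hw : P.Wk C b z L) (hz : ¬ R z w) :
    P.FF R C N cap w ≤ L + |P.f z - P.f w| := by
  refine csInf_le ⟨min cap 0, ?_⟩ (Or.inr ⟨b, hb, hR, z, L, hw, hz, rfl⟩)
  rintro y (rfl | ⟨b, _, _, z, L, hw, _, rfl⟩)
  · exact min_le_left _ _
  · exact (min_le_right _ _).trans (add_nonneg hw.nonneg (abs_nonneg _))

theorem pu_FF_lip {R : W → W → Prop} (hR : P.LR R) {C N : Set W} (hC : P.Cvx C) {cap : ℝ}
    {u v : W} (hu : u ∈ C) (hv : v ∈ C) (a : P.G.Adj u v) (hg : SameGap R N u v) :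
    P.FF R C N cap v ≤ P.FF R C N cap u + |P.f u - P.f v| := by
  have := abs_le.1 (FF_lip (cap := cap) hR hC hu hv a hg)
  linarith [this.1]

theorem pu_lr (b : Bool) : P.LR (P.Lf b) := by
  cases b
  · exact P.lr'
  · exact P.lr

/-- outside `N` the two notions of gap agree -/
theorem pu_gap_flip {C N : Set W} (hN : P.TClosed C N) {u v : W} (hu : u ∈ C) (hv : v ∈ C)
    (hu' : u ∉ N) (hv' : v ∉ N) (h : SameGap P.Lt N u v) (b : Bool) : SameGap (P.Lf b) N u v := by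
  cases b
  · have key : ∀ w ∈ C, w ∉ N → ∀ b ∈ N, (P.Lt w b ↔ ¬ P.Lt b w) := by
      intro w hw hw' b hb
      refine ⟨fun h => P.lr.asymm h, fun h => ?_⟩
      rcases P.lr.tri w b with a | a | a | a
      · exact absurd ((hN.2 w hw b (hN.1 hb) a).2 hb) hw'
      · exact absurd ((hN.2 b (hN.1 hb) w hw a).1 hb) hw'
      · exact a
      · exact absurd a h
    intro b hb
    change P.Lt u b ↔ P.Lt v b
    rw [key u hu hu' b hb, key v hv hv' b hb, h b hb]
  · exact h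

/-- related points outside `N` are in the same gap -/
theorem pu_gap_anc {C N : Set W} (hN : P.TClosed C N) {u v : W} (hu : u ∈ C)
    (hu' : u ∉ N) (a : P.Anc u v) : SameGap P.Lt N u v := by
  intro b hb
  refine ⟨fun h => P.lr.down _ _ _ _ h (Anc.refl P b) a, fun h => ?_⟩
  rcases P.lr.tri b u with c | c | c | c
  · exact absurd ((hN.2 b (hN.1 hb) u hu c).1 hb) hu'
  · exact absurd ((hN.2 u hu b (hN.1 hb) c).2 hb) hu'
  · exact c
  · exact absurd (P.lr.down _ _ _ _ c a (Anc.refl P b)) (P.lr.asymm h)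

theorem pu_gap_adj {C N : Set W} (hN : P.TClosed C N) {u v : W} (hu : u ∈ C) (hv : v ∈ C)
    (hu' : u ∉ N) (hv' : v ∉ N) (a : P.G.Adj u v) (hc : P.ch u v → SameGap P.Lt N u v) :
    SameGap P.Lt N u v := by
  rcases a.2 with h | h | h
  · exact fun b hb => (pu_gap_anc hN hv hv' (h ▸ P.anc_par u) b hb).symm
  · exact pu_gap_anc hN hu hu' (h ▸ P.anc_par v)
  · exact hc h

theorem pu_gap_wk {C N S : Set W} (hN : P.TClosed C N) (hS : S ⊆ C)
    (hc : ∀ p ∈ S, ∀ p' ∈ S, p ∉ N → p' ∉ N → P.ch p p' → SameGap P.Lt N p p')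
    {u v : W} {L : ℝ} (h : P.Wk (S ∩ Nᶜ) u v L) : SameGap P.Lt N u v := by
  induction h with
  | nil _ => exact fun _ _ => Iff.rfl
  | @snoc v w L h1 a hw ih =>
    have hv := h1.right_mem
    have := pu_gap_adj hN (hS hv.1) (hS hw.1) hv.2 hw.2 a (hc v hv.1 w hw.1 hv.2 hw.2)
    exact fun b hb => (ih b hb).trans (this b hb)

variable (P) in
/-- the nine values at `w` before the jitter -/
noncomputable def raw (θ h : ℝ) (K : Cl W) (q : Prm W) (G : W → ℝ) (w : W) : Fin 9 → ℝ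
  | 0 => G w
  | 1 => (P.rp h 0 K q w true).val P.f w
  | 2 => (P.rp h 0 K q w false).val P.f w
  | 3 => (P.hp θ h 0 K q 0).val P.f w
  | 4 => (P.hp θ h 0 K q 1).val P.f w
  | 5 => (P.hp θ h 0 K q 2).val P.f w
  | 6 => (P.hp θ h 0 K q 3).val P.f w
  | 7 => (P.hp θ h 0 K q 4).val P.f w
  | 8 => (P.hp θ h 0 K q 5).val P.f w

variable (P) in
/-- no tie at `x` -/
def NoTie (θ h u t : ℝ) (K : Cl W) (q : Prm W) (G : W → ℝ) (x : W) : Prop :=
  ∀ i j : Fin 9, i ≠ j →
    t < |(P.raw θ h K q G x i - (i : ℕ) * u) - (P.raw θ h K q G x j - (j : ℕ) * u)|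

theorem pu_hp_val (θ h u : ℝ) (K : Cl W) (q : Prm W) (G : W → ℝ) (w : W) (k : Fin 6) :
    (P.hp θ h u K q k).val P.f w =
      P.raw θ h K q G w ⟨k + 3, by omega⟩ - ((k + 3 : ℕ) : ℝ) * u := by
  fin_cases k <;> simp [raw, hp, Piece.val] <;> ring

theorem pu_rp_val (θ h u : ℝ) (K : Cl W) (q : Prm W) (G : W → ℝ) (w : W) (b : Bool) :
    (P.rp h u K q w b).val P.f w =
      P.raw θ h K q G w (if b then 1 else 2) - (((if b then 1 else 2 : Fin 9) : ℕ) : ℝ) * u := by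
  cases b <;> simp [raw, rp, Piece.val] <;> ring

theorem pu_hp_lip {θ h u : ℝ} (hθ : 0 < θ) (hθ1 : θ ≤ 1) {K : Cl W} (hC : P.Conn K.C) (q : Prm W)
    (k : Fin 6) : P.Lip (1 / θ) K.C ((P.hp θ h u K q k).val P.f) := by
  intro v hv w hw a
  have h0 : 0 ≤ 1 / θ * |P.f v - P.f w| := by positivity
  have h1 : 1 ≤ 1 / θ := by rw [le_div_iff₀ hθ]; linarith
  have h2 := pu_al_lip hC v hv w hw a
  have h3 := mul_le_mul_of_nonneg_right h1 (abs_nonneg (P.f v - P.f w))
  have e1 : ∀ c : ℝ, |c + 1 / θ * P.f v - (c + 1 / θ * P.f w)| = 1 / θ * |P.f v - P.f w| := by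
    intro c
    rw [show c + 1 / θ * P.f v - (c + 1 / θ * P.f w) = 1 / θ * (P.f v - P.f w) by ring, abs_mul,
      abs_of_pos (by positivity)]
  have e2 : ∀ c : ℝ, |c + -1 / θ * P.f v - (c + -1 / θ * P.f w)| = 1 / θ * |P.f v - P.f w| := by
    intro c
    rw [show c + -1 / θ * P.f v - (c + -1 / θ * P.f w) = -(1 / θ * (P.f v - P.f w)) by ring,
      abs_neg, abs_mul, abs_of_pos (by positivity)]
  fin_cases k
  · simpa [hp, Piece.val] using h0
  · exact (e1 _).le
  · exact (e2 _).le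
  · exact (e2 _).le
  · refine le_trans (le_of_eq ?_) (h2.trans h3)
    simp only [hp, Piece.val]
    congr 1; ring
  · refine le_trans (le_of_eq ?_) (h2.trans h3)
    simp only [hp, Piece.val]
    rw [← abs_neg]
    congr 1; ring

theorem pu_Hp_le (θ h u : ℝ) (K : Cl W) (q : Prm W) (w : W) (k : Fin 6) :
    (P.Hp θ h u K q w).val P.f w ≤ (P.hp θ h u K q k).val P.f w :=
  pu_amin_le (fun k => (P.hp θ h u K q k).val P.f w) k

theorem pu_Mp_le (θ h u : ℝ) (K : Cl W) (q : Prm W) (w : W) :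
    (P.Mp θ h u K q w).val P.f w ≤ (P.Hp θ h u K q w).val P.f w ∧
      (P.Mp θ h u K q w).val P.f w ≤ (P.Qp h u K q w).val P.f w := by
  unfold Mp
  split_ifs with h1
  · exact ⟨le_rfl, h1⟩
  · exact ⟨(not_le.1 h1).le, le_rfl⟩

theorem pu_Qp (h u : ℝ) (K : Cl W) (q : Prm W) (w : W) :
    (∃ b, P.Qp h u K q w = P.rp h u K q w b) ∧
      ∀ b, (P.rp h u K q w b).val P.f w ≤ (P.Qp h u K q w).val P.f w := by
  unfold Qp
  split_ifs with h1
  · exact ⟨⟨_, rfl⟩, fun b => by cases b; exacts [h1, le_rfl]⟩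
  · exact ⟨⟨_, rfl⟩, fun b => by cases b; exacts [le_rfl, (not_le.1 h1).le]⟩

/-- the deterministic part of purity -/
theorem pu_pick {θ h u r : ℝ} (hθ : 0 < θ) (hθ2 : θ ≤ 1 / 2) (hu : 0 ≤ u) (hr0 : 0 ≤ r)
    (hr : r ≤ h / 200000) {K : Cl W} {q : Prm W} {G : W → ℝ} {x : W} (hC : P.Conn K.C)
    (hCx : P.Cvx K.C) (hRC : K.R ⊆ K.C) (hB : P.PB x r ⊆ K.R) (hG : P.Lip 2 (P.PB x r) G)
    (hop : P.OpOK θ h K G q) (hn : P.NoTie θ h u (2 * (1 / θ * r)) K q G x) {y : W}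
    (hy : y ∈ P.PB x r) : P.pick θ h u K q G y = P.pick θ h u K q G x := by
  have hBC : P.PB x r ⊆ K.C := hB.trans hRC
  have hx := PB_self (P := P) x hr0
  have h2θ : 2 ≤ 1 / θ := by rw [le_div_iff₀ hθ]; linarith
  by_cases hc : ∀ p ∈ P.PB x r, ∀ p' ∈ P.PB x r, p ∉ q.N → p' ∉ q.N → P.ch p p' →
      SameGap P.Lt q.N p p'
  swap
  · -- a chord between two gaps
    push Not at hc
    obtain ⟨p, hp1, p', hp2, h1, h2, h3, h4⟩ := hc
    have key : ∀ w ∈ P.PB x r, P.pick θ h u K q G w = none := by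
      intro w hw
      obtain ⟨L, hL, hL'⟩ := PB_wk2 hp1 hw
      refine if_pos ?_
      rcases hop.cross p (hBC hp1) p' (hBC hp2) h1 h2 h3 h4 w (hB hw) L (hL.mono hBC)
        (by linarith) with h5 | h5
      · obtain ⟨⟨b, hb⟩, -⟩ := pu_Qp (P := P) h u K q w
        refine (pu_Mp_le θ h u K q w).2.trans ?_
        rw [hb]
        have := (hop.low w (hB hw) h5).2 b
        have h6 : 0 ≤ (if b then 1 else 2 : ℝ) * u := mul_nonneg (by split_ifs <;> norm_num) hu
        simp only [rp, Piece.val]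
        linarith
      · refine (pu_Mp_le θ h u K q w).1.trans ((pu_Hp_le θ h u K q w 3).trans ?_)
        simp only [hp, Piece.val]
        have h6 : q.e / θ + -1 / θ * P.f w ≤ G w := by
          rw [show q.e / θ + -1 / θ * P.f w = (q.e - P.f w) / θ by ring, div_le_iff₀ hθ]
          linarith
        linarith
    rw [key y hy, key x hx]
  -- order of the values
  have hcl : ∀ k : Fin 6, |(P.hp θ h u K q k).val P.f x - (P.hp θ h u K q k).val P.f y| ≤
      1 / θ * r := fun k =>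
    PB_lip (by positivity) ((pu_hp_lip hθ (by linarith) hC q k).pu_mono le_rfl hBC) hy
  have hcG : |G x - G y| ≤ 1 / θ * r :=
    PB_lip (by positivity) (hG.pu_mono h2θ subset_rfl) hy
  have hH : P.Hp θ h u K q y = P.Hp θ h u K q x := by
    unfold Hp
    congr 1
    refine (pu_amin_congr fun i j => ?_).symm
    by_cases hij : i = j
    · simp [hij]
    refine pu_ord (hcl i) (hcl j) ?_
    rw [pu_hp_val θ h u K q G, pu_hp_val θ h u K q G]
    exact hn ⟨i + 3, by omega⟩ ⟨j + 3, by omega⟩ fun e => hij (Fin.ext (by simpa using e))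
  have hHG : (P.Hp θ h u K q x).val P.f x ≤ G x ↔ (P.Hp θ h u K q x).val P.f y ≤ G y := by
    refine pu_ord (hcl _) hcG ?_
    unfold Hp
    rw [pu_hp_val θ h u K q G]
    have := hn ⟨(am6 fun k => (P.hp θ h u K q k).val P.f x) + 3, by omega⟩ 0
      fun e => by simpa using congrArg Fin.val e
    simpa [raw] using this
  by_cases hN : ∃ m ∈ P.PB x r, m ∈ q.N
  · -- the ramps are inactive
    obtain ⟨m, hm, hmN⟩ := hN
    have key : ∀ w ∈ P.PB x r, P.Mp θ h u K q w = P.Hp θ h u K q w := by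
      intro w hw
      have h1 : ∃ b, P.ramp h K q b w ≤ 4 * r := by
        by_cases hw' : w ∈ q.N
        · exact ⟨true, by unfold ramp; rw [if_pos hw']; linarith⟩
        obtain ⟨L, hL, hL'⟩ := PB_wk2 hw hm
        obtain ⟨v, m', L1, L2, g1, g2, g3, g4, g5⟩ := hL.exit_first q.Nᶜ hw' fun e => e hmN
        have g1' : m' ∈ q.N := not_not.1 g1
        have hv := g3.right_mem
        have g6 := pu_gap_wk hop.tcl hBC hc g3
        have g7 : ∃ b, P.Lf b m' v := by
          rcases P.lr.tri m' v with c | c | c | c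
          · exact absurd ((hop.tcl.2 m' (hop.tcl.1 g1') v (hBC hv.1) c).1 g1') hv.2
          · exact absurd ((hop.tcl.2 v (hBC hv.1) m' (hop.tcl.1 g1') c).2 g1') hv.2
          · exact ⟨true, c⟩
          · exact ⟨false, c⟩
        obtain ⟨b, g7⟩ := g7
        have g8 := (pu_gap_flip hop.tcl (hBC hw) (hBC hv.1) hw' hv.2 g6 b m' g1').2 g7
        have g9 : P.Wk K.C m' w _ := (Wk.snoc (g3.mono fun z hz => hBC hz.1) g2
          (hop.tcl.1 g1')).symm
        have := pu_FF_le (cap := 10000 * h) g1' g8 g9 ((pu_lr b).irrefl w)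
        refine ⟨b, ?_⟩
        unfold ramp
        rw [if_neg hw']
        have := g4.nonneg
        simp only [sub_self, abs_zero, add_zero] at *
        linarith
      obtain ⟨b, hb⟩ := h1
      refine if_pos ((pu_Hp_le θ h u K q w 0).trans (le_trans ?_ ((pu_Qp h u K q w).2 b)))
      have h6 : (if b then 1 else 2 : ℝ) * u ≤ 3 * u :=
        mul_le_mul_of_nonneg_right (by split_ifs <;> norm_num) hu
      simp only [hp, rp, Piece.val]
      linarith
    unfold pick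
    rw [key y hy, key x hx, hH]
    exact if_congr hHG.symm rfl rfl
  · -- the ball lies in one gap
    push Not at hN
    have hsg : ∀ v ∈ P.PB x r, ∀ w ∈ P.PB x r, SameGap P.Lt q.N v w := by
      intro v hv w hw
      obtain ⟨L, hL, -⟩ := PB_wk2 hv hw
      exact pu_gap_wk hop.tcl hBC hc (hL.mono fun z hz => ⟨hz, hN z hz⟩)
    have hgap : P.gap K q y = P.gap K q x := by
      ext v
      have := hsg y hy x hx
      exact and_congr_right fun _ => and_congr_right fun _ =>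
        ⟨fun g b hb => (g b hb).trans (this b hb), fun g b hb => (g b hb).trans (this b hb).symm⟩
    have hrp : ∀ b, P.rp h u K q y b = P.rp h u K q x b := fun b => by unfold rp; rw [hgap]
    have hcr : ∀ b, |(P.rp h u K q x b).val P.f x - (P.rp h u K q x b).val P.f y| ≤ 1 / θ * r := by
      intro b
      refine PB_lip (g := (P.rp h u K q x b).val P.f) (by positivity)
        (Lip.pu_mono (c := 2) ?_ h2θ subset_rfl) hy
      intro v hv w hw a
      have g1 := pu_gap_flip hop.tcl (hBC hv) (hBC hw) (hN v hv) (hN w hw) (hsg v hv w hw) b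
      have g2 := pu_FF_lip (cap := 10000 * h) (pu_lr b) hCx (hBC hv) (hBC hw) a g1
      have g3 := pu_FF_lip (cap := 10000 * h) (pu_lr b) hCx (hBC hw) (hBC hv) a.symm
        fun c hc => (g1 c hc).symm
      rw [abs_sub_comm (P.f w)] at g3
      simp only [rp, Piece.val, ramp, if_neg (hN v hv), if_neg (hN w hw)]
      rw [abs_le]; constructor <;> linarith
    have hQ : P.Qp h u K q y = P.Qp h u K q x := by
      unfold Qp
      rw [hrp, hrp]
      refine if_congr (pu_ord (hcr false) (hcr true) ?_).symm rfl rfl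
      rw [pu_rp_val θ h u K q G, pu_rp_val θ h u K q G]
      exact hn _ _ (by decide)
    obtain ⟨⟨b, hb⟩, -⟩ := pu_Qp (P := P) h u K q x
    have hM : P.Mp θ h u K q y = P.Mp θ h u K q x := by
      unfold Mp
      rw [hH, hQ, hb]
      refine if_congr (pu_ord (hcl _) (hcr b) ?_).symm rfl rfl
      rw [pu_hp_val θ h u K q G, pu_rp_val θ h u K q G]
      refine hn ⟨(am6 fun k => (P.hp θ h u K q k).val P.f x) + 3, by omega⟩ _ fun e => ?_
      have := congrArg Fin.val e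
      cases b <;> simp at this
    unfold pick
    rw [hM]
    refine if_congr ?_ rfl rfl
    unfold Mp
    split_ifs
    · exact hHG.symm
    · rw [hb]
      refine (pu_ord (hcr b) hcG ?_).symm
      rw [pu_rp_val θ h u K q G]
      have := hn (if b then 1 else 2) 0 (by cases b <;> decide)
      simpa [raw] using this

theorem pu_off {a : ℝ} (ha : 0 ≤ a) {M : ℕ} (i : Fin M) : 0 ≤ off a i ∧ off a i ≤ a := by
  have hM : (0 : ℝ) < M := by exact_mod_cast i.pos
  have hi : ((i : ℕ) : ℝ) ≤ M := by exact_mod_cast i.2.le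
  unfold off
  refine ⟨by positivity, ?_⟩
  rw [div_le_iff₀ hM]
  exact mul_le_mul_of_nonneg_left hi ha

theorem pu_cl_facts (h ob os : ℝ) (x : W) :
    P.Conn (P.cl h ob os x).C ∧ P.Cvx (P.cl h ob os x).C ∧
      (P.cl h ob os x).C ⊆ P.band (P.cl h ob os x).lo ((P.cl h ob os x).lo + h) ∧
      (P.cl h ob os x).R ⊆ (P.cl h ob os x).C :=
  ⟨P.conn_comp _ _, (P.cvx_band _ _).comp _, P.comp_sub _ _,
    fun _ hv => (P.comp_sub _ _ hv).1⟩

theorem pu_opOK [Finite W] {θ h : ℝ} {M : ℕ} (hL : Lv θ h η) {s : ZSt W n} {j : Jit M} {t : Fin 3}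
    {x : W} (ha : P.Allowed s t (P.clJ h j x) x) :
    P.OpOK θ h (P.clJ h j x) (s x).G (P.prmJ θ h j t (P.clJ h j x) (s x).G) := by
  obtain ⟨h1, h2, h3, h4⟩ := pu_cl_facts (P := P) h (off h j.1) (off (1000 * h) j.2.1) x
  unfold prmJ
  split_ifs with ht
  · exact o4_opOK2 _ _ _ _
  · exact o4_opOK4 hL h2 h1 h3 h4 (ha.2.resolve_left ht).2
      (pu_off (by linarith [hL.pos]) _).2

theorem pu_kind {θ h u : ℝ} {K : Cl W} {q : Prm W} {G : W → ℝ} {x : W} {p : Piece W (Kd W)}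
    (hp : P.pick θ h u K q G x = some p) (l : Lab W (Kd W) n) (k : ℕ) (κ : Kd W)
    (hκ : (l.relabel θ k p).kind = some κ) : κ.lo = K.lo ∧ κ.hi = K.lo + h := by
  have h1 : ∀ i : Fin 6, (l.relabel θ k (P.hp θ h u K q i)).kind = some κ →
      κ.lo = K.lo ∧ κ.hi = K.lo + h := by
    intro i
    fin_cases i <;> simp only [PS.hp, Lab.relabel] <;> intro e <;>
      first
        | (cases e; exact ⟨rfl, rfl⟩)
        | cases e
  unfold pick at hp
  split_ifs at hp
  cases hp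
  unfold Mp at hκ
  split_ifs at hκ
  · exact h1 _ hκ
  · obtain ⟨⟨b, hb⟩, -⟩ := pu_Qp (P := P) h u K q x
    rw [hb] at hκ
    simp only [rp, Lab.relabel] at hκ
    cases hκ
    exact ⟨rfl, rfl⟩

theorem pu_lip2 {s : ZSt W n} (hs : P.KInv s) {x : W} {r : ℝ} (hp : P.Pure s x r) :
    P.Lip 2 (P.PB x r) (s x).G := by
  have h1 : P.PB x r ⊆ (s x).dom := by
    rintro y ⟨L, hw, hL⟩
    rw [← hp.1 y L hw hL]
    exact (hs y).1
  rcases (hs x).2 with ⟨κ, hκ, hU, -⟩ | ⟨b, hM⟩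
  · refine hU.1.pu_mono one_le_two (h1.trans ?_)
    unfold ZS.Lab.dom
    rw [hκ]
  · exact hM.1.pu_mono le_rfl h1

/-- deterministic purity of one level -/
theorem pure_det [Finite W] {θ h r : ℝ} {M k : ℕ} (hL : Lv θ h η) {s : ZSt W n} (hs : P.KInv s)
    {x : W} (hr0 : 0 ≤ r) (hr : r ≤ h / 200000) (hp : P.Pure s x r) (ω : Om M W)
    (hb : flo h (off h ω.1.1) (P.f x) ≤ P.f x - r ∧ P.f x + r < flo h (off h ω.1.1) (P.f x) + h)
    (hsl : flo (1000 * h) (off (1000 * h) ω.1.2.1) (P.al (P.bandC h (off h ω.1.1) x) x) ≤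
        P.al (P.bandC h (off h ω.1.1) x) x - r ∧
      P.al (P.bandC h (off h ω.1.1) x) x + r <
        flo (1000 * h) (off (1000 * h) ω.1.2.1) (P.al (P.bandC h (off h ω.1.1) x) x) + 1000 * h)
    (hn : P.NoTie θ h (off (h / 1000) ω.1.2.2.2) (2 * (1 / θ * r)) (P.clJ h ω.1 x)
      (P.prmJ θ h ω.1 ω.2.1 (P.clJ h ω.1 x) (s x).G) (s x).G x) :
    P.Pure (P.stp θ h k s ω) x r := by
  have hh := hL.pos
  have hθ : 0 < θ ∧ θ ≤ 1 / 2 := by rcases hL.th with e | e <;> rw [e] <;> norm_num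
  obtain ⟨hB, hcl⟩ := pu_cl hh hb hsl
  obtain ⟨h1, h2, h3, h4⟩ := pu_cl_facts (P := P) h (off h ω.1.1) (off (1000 * h) ω.1.2.1) x
  constructor
  · intro y L hw hL'
    have hy : y ∈ P.PB x r := ⟨L, hw, hL'⟩
    have e1 : s y = s x := hp.1 y L hw hL'
    have e2 : P.clJ h ω.1 y = P.clJ h ω.1 x := hcl y hy
    have e3 : P.chs θ h s ω y = P.chs θ h s ω x := by
      unfold chs
      have e4 : P.Allowed s ω.2.1 (P.clJ h ω.1 x) y ↔ P.Allowed s ω.2.1 (P.clJ h ω.1 x) x := by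
        unfold Allowed
        rw [e1]
      rw [e2]
      by_cases ha : P.Allowed s ω.2.1 (P.clJ h ω.1 x) x ∧ ω.2.2 (P.clJ h ω.1 x).R = true
      · rw [if_pos ha, if_pos ⟨e4.2 ha.1, ha.2⟩]
        unfold pickJ
        rw [e1, e2]
        exact pu_pick hθ.1 hθ.2 (pu_off (by linarith) _).1 hr0 hr h1 h2 h4 hB (pu_lip2 hs hp)
          (pu_opOK hL ha.1) hn hy
      · rw [if_neg ha, if_neg fun e => ha ⟨e4.1 e.1, e.2⟩]
    unfold stp step
    rw [e3, e1]
  · intro κ hκ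
    unfold stp step at hκ
    cases e : P.chs θ h s ω x with
    | none =>
      rw [e] at hκ
      exact hp.2 κ hκ
    | some p =>
      rw [e] at hκ
      unfold chs at e
      split_ifs at e
      obtain ⟨g1, g2⟩ := pu_kind e (s x) k κ hκ
      rw [g1, g2]
      exact hb

/-- a band boundary is near -/
def puE1 (P : PS W η) (h r : ℝ) {M : ℕ} (x : W) (j : Jit M) : Prop :=
  ¬ (flo h (off h j.1) (P.f x) ≤ P.f x - r ∧ P.f x + r < flo h (off h j.1) (P.f x) + h)

/-- a slab boundary is near -/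
def puE2 (P : PS W η) (h r : ℝ) {M : ℕ} (x : W) (j : Jit M) : Prop :=
  ¬ (flo (1000 * h) (off (1000 * h) j.2.1) (P.al (P.bandC h (off h j.1) x) x) ≤
      P.al (P.bandC h (off h j.1) x) x - r ∧
    P.al (P.bandC h (off h j.1) x) x + r <
      flo (1000 * h) (off (1000 * h) j.2.1) (P.al (P.bandC h (off h j.1) x) x) + 1000 * h)

/-- a tie -/
def puE3 (P : PS W η) (θ h r : ℝ) {M : ℕ} (G : W → ℝ) (t : Fin 3) (x : W) (j : Jit M) : Prop :=
  ¬ P.NoTie θ h (off (h / 1000) j.2.2.2) (2 * (1 / θ * r)) (P.clJ h j x)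
    (P.prmJ θ h j t (P.clJ h j x) G) G x

theorem puE1_prob {h r : ℝ} {M : ℕ} (hM : 0 < M) (hh : 0 < h) (hr0 : 0 ≤ r) (x : W) :
    uPr (P.puE1 h r (M := M) x) ≤ 4 * r / h + 2 / M := by
  have : Nonempty (Fin M) := ⟨⟨0, hM⟩⟩
  refine uPr_prod_le' _ fun _ => ?_
  unfold puE1
  exact pu_flo_prob hM _ hh hr0

theorem puE2_prob {h r : ℝ} {M : ℕ} (hM : 0 < M) (hh : 0 < h) (hr0 : 0 ≤ r) (x : W) :
    uPr (P.puE2 h r (M := M) x) ≤ 4 * r / (1000 * h) + 2 / M := by
  have : Nonempty (Fin M) := ⟨⟨0, hM⟩⟩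
  refine uPr_prod_le _ fun b => uPr_prod_le' _ fun _ => ?_
  unfold puE2
  exact pu_flo_prob hM (P.al (P.bandC h (off h b) x) x) (by linarith) hr0

theorem puE3_prob {θ h r : ℝ} {M : ℕ} (hM : 0 < M) (hθ : 0 < θ) (hh : 0 < h) (hr0 : 0 ≤ r)
    (G : W → ℝ) (t : Fin 3) (x : W) : uPr (P.puE3 θ h r (M := M) G t x) ≤
      ((9 : ℕ) : ℝ) ^ 2 * (2 * (2 * (1 / θ * r)) / (h / 1000) + 1 / M) := by
  have : Nonempty (Fin M) := ⟨⟨0, hM⟩⟩
  refine uPr_prod_le _ fun b => uPr_prod_le _ fun c => uPr_prod_le _ fun d => ?_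
  obtain ⟨K, hK⟩ : ∃ K, ∀ i, P.clJ h (b, c, d, i) x = K :=
    ⟨P.cl h (off h b) (off (1000 * h) c) x, fun _ => rfl⟩
  obtain ⟨q, hq⟩ : ∃ q, ∀ i, P.prmJ θ h (b, c, d, i) t K G = q :=
    ⟨if t = 1 then prm2 θ h K G else P.prm4 θ h (off (10000 * h) d) K G, fun _ => rfl⟩
  refine (uPr_mono fun i hi => ?_).trans (uPr_ties hM (U := h / 1000) (t := 2 * (1 / θ * r))
    (P.raw θ h K q G x) (by positivity) (by positivity))
  have ho : ((i : ℕ) : ℝ) * (h / 1000) / M = off (h / 1000) i := by unfold off; ring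
  rw [ho]
  unfold puE3 at hi
  rw [hK, hq] at hi
  exact hi

/-- purity survives one level with high probability -/
theorem pure_step [Fintype W] {θ h r : ℝ} {M k : ℕ} (hL : Lv θ h η) (hM : 0 < M) {s : ZSt W n}
    (hs : P.KInv s) {x : W} (hr0 : 0 ≤ r) (hp : P.Pure s x r) :
    uPr (fun ω : Om M W => ¬ P.Pure (P.stp θ h k s ω) x r) ≤ 4000000000 * r / h + 100 / M := by
  have hh := hL.pos
  have hM' : (0 : ℝ) < M := by exact_mod_cast hM
  have hθ : 0 < θ ∧ 1 / θ ≤ 10000 := by rcases hL.th with e | e <;> rw [e] <;> norm_num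
  have hrh : 0 ≤ r / h := by positivity
  have hM1 : 0 ≤ 1 / (M : ℝ) := by positivity
  have e0 : 4000000000 * r / h + 100 / (M : ℝ) = 4000000000 * (r / h) + 100 * (1 / M) := by ring
  rcases lt_or_ge (h / 200000) r with hr | hr
  · refine (uPr_le_one _).trans ?_
    have : 1 / 200000 ≤ r / h := by rw [le_div_iff₀ hh]; linarith
    linarith
  refine uPr_prod_le' _ fun tc => ?_
  have p1 := puE1_prob (P := P) hM hh hr0 x
  have p2 := puE2_prob (P := P) hM hh hr0 x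
  have p3 := puE3_prob (P := P) hM hθ.1 hh hr0 (s x).G tc.1 x
  refine (uPr_mono (q := fun j => P.puE1 h r x j ∨ P.puE2 h r x j ∨
    P.puE3 θ h r (s x).G tc.1 x j) fun j hj => ?_).trans ?_
  · by_contra hc
    rw [not_or, not_or] at hc
    exact hj (pure_det hL hs hr0 hr hp (j, tc) (not_not.1 hc.1) (not_not.1 hc.2.1)
      (not_not.1 hc.2.2))
  · have q1 := uPr_or (P.puE1 h r (M := M) x) fun j => P.puE2 h r x j ∨
      P.puE3 θ h r (s x).G tc.1 x j
    have q2 := uPr_or (P.puE2 h r (M := M) x) (P.puE3 θ h r (s x).G tc.1 x)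
    have e1 : 4 * r / h + 2 / (M : ℝ) = 4 * (r / h) + 2 * (1 / M) := by ring
    have e2 : 4 * r / (1000 * h) + 2 / (M : ℝ) = 1 / 250 * (r / h) + 2 * (1 / M) := by
      field_simp; ring
    have e3 : ((9 : ℕ) : ℝ) ^ 2 * (2 * (2 * (1 / θ * r)) / (h / 1000) + 1 / M) =
        324000 * (1 / θ * (r / h)) + 81 * (1 / M) := by
      push_cast; field_simp; ring
    have e4 : 1 / θ * (r / h) ≤ 10000 * (r / h) := mul_le_mul_of_nonneg_right hθ.2 hrh
    linarith

end PS

end Crest.Agent.R206
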