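import Crest.Agent.R206.ZCutOK

/-! # Row 206 (planar): choice of the scales; from the serving inequality to `ZStmt'`. -/

set_option autoImplicit false
set_option linter.dupNamespace false
set_option linter.unusedSectionVars false

namespace Crest.Agent.R206

open Finset
open scoped BigOperators Classical

theorem PS.val_l1 {W : Type} [Fintype W] {η : ℝ} {n : ℕ} (P : PS W η) (θ H : ℝ)
    (M r k : ℕ) (s : ZSt W n) : IsL1 (P.Val θ H M r k s) := by
  induction r generalizing k s with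
  | zero => exact IsL1.avg fun σ => isL1_cd _ _
  | succ r ih => exact IsL1.expect fun ω => ih _ _

/-- the load of an edge -/
def LoadStmt : Prop :=
  ∀ η : ℝ, 0 < η → ∀ (W : Type) [Fintype W] (P : PS W η) (θ H : ℝ) (M n J : ℕ),
    Cx θ H η M n J → ∀ u v, P.G.Adj u v →
      P.Val θ H M J 0 (ZS.init : ZSt W n) u v ≤ |P.f u - P.f v|

/-- the serving inequality -/
def ServeStmt : Prop :=
  ∃ A c : ℝ, 0 < A ∧ 0 < c ∧ ∀ η : ℝ, 0 < η →
    ∀ (W : Type) [Fintype W] (P : PS W η) (H : ℝ) (M n J m : ℕ),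
      Cx (1 / 10000) H η M n J → Cx (2 / 10000) H η M n J → m + 2 ≤ J → ∀ x y,
        A * hk H m ≤ P.d x y → P.d x y ≤ 2 * A * hk H m →
          c * hk H m ≤ P.Val (1 / 10000) H M J 0 (ZS.init : ZSt W n) x y +
            P.Val (2 / 10000) H M J 0 (ZS.init : ZSt W n) x y

theorem zStmt_of (hL : LoadStmt) (hS : ServeStmt) : ZStmt' := by
  obtain ⟨A, c, hA, hc, hS⟩ := hS
  refine ⟨max (A * 1000000 * 2 ^ 60) (240 * A / c), lt_max_of_lt_left (by positivity),
    fun η hη W _ P => ?_⟩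
  set b : ℝ := 1000000 * η with hb
  have hb0 : 0 < b := by positivity
  obtain ⟨J, hJ⟩ : ∃ J : ℕ, ∀ x y, P.d x y / (A * b) < 2 ^ (60 * (J + 1)) := by
    obtain ⟨J, hJ⟩ := pow_unbounded_of_one_lt (∑ a : W × W, |P.d a.1 a.2 / (A * b)|)
      (one_lt_two : (1 : ℝ) < 2)
    refine ⟨J, fun x y => ?_⟩
    have h1 := single_le_sum (f := fun a : W × W => |P.d a.1 a.2 / (A * b)|)
      (fun _ _ => abs_nonneg _) (mem_univ (x, y))
    exact (((le_abs_self _).trans h1).trans_lt hJ).trans_le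
      (pow_le_pow_right₀ one_le_two (by omega))
  let H : ℕ → ℝ := fun i => b * 2 ^ (60 * J + i)
  have hhk : ∀ i k, k ≤ J → hk (H i) k = b * 2 ^ (60 * (J - k) + i) := by
    intro i k hk'
    obtain ⟨j, rfl⟩ := Nat.exists_eq_add_of_le hk'
    simp only [hk, H, Nat.add_sub_cancel_left]
    rw [div_eq_iff (by positivity), mul_assoc b, ← pow_add]
    congr 2
    ring
  let M : ℕ := 1000000000 * (J + 1 + 1)
  have hcx : ∀ θ : ℝ, θ = 1 / 10000 ∨ θ = 2 / 10000 → ∀ i, Cx θ (H i) η M (J + 2) (J + 1) := by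
    intro θ hθ i
    refine ⟨fun k hk' => ⟨hθ, ?_, ?_⟩, by omega, le_rfl⟩
    · rw [hhk i k (by omega)]; positivity
    · rw [hhk i k (by omega)]
      have : (1 : ℝ) ≤ 2 ^ (60 * (J - k) + i) := one_le_pow₀ one_le_two
      rw [le_div_iff₀ (by norm_num)]
      nlinarith
  let U : ℕ → W → W → ℝ := fun i x y =>
    P.Val (1 / 10000) (H i) M (J + 1) 0 (ZS.init : ZSt W (J + 2)) x y +
      P.Val (2 / 10000) (H i) M (J + 1) 0 (ZS.init : ZSt W (J + 2)) x y
  have hU : ∀ i, IsL1 (U i) := fun i => (P.val_l1 _ _ _ _ _ _).add (P.val_l1 _ _ _ _ _ _)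
  refine ⟨fun x y => (∑ i ∈ range 60, U i x y) / 120,
    (IsL1.sum _ fun i _ => hU i).div (by norm_num), fun u v huv => ?_, fun x y hxy => ?_⟩
  · have h1 : ∑ i ∈ range 60, U i u v ≤ ∑ _i ∈ range 60, 2 * |P.f u - P.f v| :=
      sum_le_sum fun i _ => by
        have h1 := hL η hη W P _ _ _ _ _ (hcx _ (Or.inl rfl) i) u v huv
        have h2 := hL η hη W P _ _ _ _ _ (hcx _ (Or.inr rfl) i) u v huv
        simp only [U]
        linarith
    rw [sum_const, card_range, nsmul_eq_mul] at h1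
    push_cast at h1
    rw [div_le_iff₀ (by norm_num)]
    linarith
  · have hAb : 0 < A * b := by positivity
    have h1 : (2 : ℝ) ^ 60 ≤ P.d x y / (A * b) := by
      rw [le_div_iff₀ hAb]
      have := mul_le_mul_of_nonneg_right (le_max_left (A * 1000000 * 2 ^ 60) (240 * A / c)) hη.le
      calc (2 : ℝ) ^ 60 * (A * b) = A * 1000000 * 2 ^ 60 * η := by rw [hb]; ring
        _ ≤ _ := this.trans hxy
    obtain ⟨t, ht1, ht2⟩ := exists_nat_pow_near ((one_le_pow₀ one_le_two).trans h1)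
      (one_lt_two : (1 : ℝ) < 2)
    have ht3 : 60 < t + 1 := (pow_lt_pow_iff_right₀ one_lt_two).1 (h1.trans_lt ht2)
    have ht4 : t < 60 * (J + 1) := (pow_lt_pow_iff_right₀ one_lt_two).1 (ht1.trans_lt (hJ x y))
    have he : hk (H (t % 60)) (J - t / 60) = b * 2 ^ t := by
      rw [hhk _ _ (Nat.sub_le _ _)]
      congr 2
      omega
    rw [le_div_iff₀ hAb] at ht1
    rw [div_lt_iff₀ hAb, pow_succ] at ht2
    have h2 := hS η hη W P (H (t % 60)) M (J + 2) (J + 1) (J - t / 60) (hcx _ (Or.inl rfl) _)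
      (hcx _ (Or.inr rfl) _) (by omega) x y (by rw [he]; linarith) (by rw [he]; linarith)
    rw [he] at h2
    have h3 : U (t % 60) x y ≤ ∑ i ∈ range 60, U i x y :=
      single_le_sum (f := fun i => U i x y) (fun i _ => (hU i).nonneg x y)
        (mem_range.2 (Nat.mod_lt _ (by norm_num)))
    have h4 : 0 ≤ ∑ i ∈ range 60, U i x y := sum_nonneg fun i _ => (hU i).nonneg x y
    refine le_trans ?_ (mul_le_mul_of_nonneg_right (le_max_right _ _) (div_nonneg h4 (by norm_num)))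
    have h5 : c * (b * 2 ^ t) ≤ ∑ i ∈ range 60, U i x y := h2.trans h3
    have h6 : 240 * A / c * ((∑ i ∈ range 60, U i x y) / 120) =
        2 * A * (∑ i ∈ range 60, U i x y) / c := by ring
    rw [h6, le_div_iff₀ hc]
    nlinarith

end Crest.Agent.R206
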