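import Crest.Agent.R206.SvCase
import Crest.Agent.R206.ZWin

/-! # Row 206 (planar): windows of moves have positive probability. -/

set_option autoImplicit false
set_option linter.dupNamespace false

namespace Crest.Agent.R206

namespace PS

variable {W : Type} {η : ℝ} {n M : ℕ} {P : PS W η}

theorem MvW_one {θ h : ℝ} (hh : 0 < h) (hM : 1000000000 ≤ M) {s : ZSt W n} {b : Fin M}
    {t : Fin 3} {z z' : W} (H : P.MvW θ h s b t z z') :
    1 / 4000000000 ≤ uPr fun x : Fin M × Fin M × Fin M => P.Moves θ h s (b, x) t z z' := by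
  have hM0 : 0 < M := by omega
  have : Nonempty (Fin M) := ⟨⟨0, hM0⟩⟩
  have hM' : (1000000000 : ℝ) ≤ M := by exact_mod_cast hM
  have h3 : 1 / (M : ℝ) ≤ 1 / 1000000000 := by gcongr
  obtain ⟨lo, h0, h1, H⟩ := H
  have hS := uPr_flo_win hM0 (a := 1000 * h) (α := lo) (β := lo + h / 2)
    (P.al (P.bandC h (off h b) z) z) (by positivity) h0 (by linarith)
  have e1 : (lo + h / 2 - lo) / (1000 * h) = 1 / 2000 := by field_simp; ring
  rw [e1] at hS
  have key := uPr_prod_ge' _ (fun x : Fin M × Fin M × Fin M => P.Moves θ h s (b, x) t z z')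
    (c := 1 / 1000000) (e := 1 / 4000) (by norm_num) (le_trans (by linarith) hS) fun i hi => by
      obtain ⟨ν, n0, n1, Hν⟩ := H i (by unfold sdep; linarith [hi.1])
        (by unfold sdep; linarith [hi.2])
      have hN := uPr_off_win hM0 (a := 10000 * h) (α := ν) (β := ν + h / 50) (by positivity) n0
        (by linarith)
      have e2 : (ν + h / 50 - ν) / (10000 * h) = 1 / 500000 := by field_simp; ring
      rw [e2] at hN
      have := uPr_prod_ge' _ (fun x : Fin M × Fin M => P.Moves θ h s (b, i, x) t z z')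
        (e := 1 / 1000000) zero_le_one (le_trans (by linarith) hN) fun k hk =>
          (uPr_all fun u => Hν k u hk.1.le hk.2.le).ge
      simpa using this
  linarith

theorem MvW_uPr {θ h : ℝ} (hh : 0 < h) (hM : 1000000000 ≤ M) {s : ZSt W n} {t : Fin 3}
    {z z' : W} (B : Fin M → Prop) (H : ∀ b, B b → P.MvW θ h s b t z z') :
    uPr B / 4000000000 ≤ uPr fun j : Jit M => P.Moves θ h s j t z z' := by
  have := uPr_prod_ge B (fun j : Jit M => P.Moves θ h s j t z z') fun b hb =>
    MvW_one hh hM (H b hb)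
  linarith

theorem MvW_win {θ h : ℝ} (hh : 0 < h) (hM : 1000000000 ≤ M) {s : ZSt W n} {t : Fin 3}
    {z z' : W} (H : ∀ b : Fin M, P.Win h (off h b) z → P.MvW θ h s b t z z') :
    1 / 4000000000000000 ≤ uPr fun j : Jit M => P.Moves θ h s j t z z' := by
  have h1 := MvW_uPr hh hM _ H
  have h2 := P.uPr_Win hh (M := M) (by omega) z
  linarith

theorem MvW_gA {θ h : ℝ} (hh : 0 < h) (hM : 1000000000 ≤ M) {s : ZSt W n} {x y : W}
    (H : ∀ b : Fin M, P.Win h (off h b) x → P.GA θ h (off h b) x →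
      P.MvW θ h s b 1 x y ∨ P.MvW θ h s b 2 x y) :
    P.gA θ h M x / 4000000000 ≤ (uPr fun j : Jit M => P.Moves θ h s j 1 x y) +
      uPr fun j : Jit M => P.Moves θ h s j 2 x y := by
  have h1 := MvW_uPr hh hM (fun b => P.MvW θ h s b 1 x y) fun _ hb => hb
  have h2 := MvW_uPr hh hM (fun b => P.MvW θ h s b 2 x y) fun _ hb => hb
  have h3 : P.gA θ h M x ≤ (uPr fun b : Fin M => P.MvW θ h s b 1 x y) +
      uPr fun b : Fin M => P.MvW θ h s b 2 x y := by
    rw [gA_eq]
    exact (uPr_mono fun b hb => H b hb.1 hb.2).trans (uPr_or _ _)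
  linarith

end PS

end Crest.Agent.R206
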