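import Crest.Agent.R206.ZVal
import Crest.Agent.R206.ZWin2
import Crest.Agent.R206.ZClH
import Crest.Agent.R206.ZTop

/-! # Row 206 (planar): from the case analysis and purity to the lower bound for `Val`. -/

set_option autoImplicit false
set_option linter.unusedSectionVars false

namespace Crest.Agent.R206

open scoped BigOperators Classical
open ZS hiding St flip gap

variable {W : Type} {η : ℝ} {n : ℕ}

namespace PS

variable (P : PS W η)

/-- two low columns separate `x` from `y` -/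
def Barrier (θ h : ℝ) (s : ZSt W n) (x y : W) : Prop :=
  ∃ (S : Set W) (p q : W), x ∈ S ∧ y ∉ S ∧
    (∀ a ∈ S, ∀ b, P.G.Adj a b → b ∈ S ∨ P.Anc b p ∨ P.Anc b q) ∧ s p = s x ∧ s q = s x ∧
    P.f p + θ * (s x).G p ≤ P.f x + θ * (s x).G x - h / 100000 ∧
    P.f q + θ * (s x).G q ≤ P.f x + θ * (s x).G x - h / 100000

/-- the outcome of the case analysis (`h0`, `h1` heights of the two levels, `c` a probability) -/
def Cases (θ h0 h1 c : ℝ) (M : ℕ) (s : ZSt W n) (x y : W) : Prop :=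
  h1 / 40000 ≤ |P.f x - P.f y| ∨ h1 ≤ |(s x).G x - (s x).G y| ∨
  (∃ t, c ≤ uPr fun j : Jit M => P.Moves θ h0 s j t x y) ∨
  (∃ t, c ≤ uPr fun j : Jit M => P.Moves θ h0 s j t y x) ∨
  (∃ t, c ≤ uPr fun j : Jit M => P.Moves θ h1 s j t x y) ∨
  (∃ t, c ≤ uPr fun j : Jit M => P.Moves θ h1 s j t y x) ∨
  P.Barrier θ h1 s x y ∨
  ∀ b : Fin M, P.Win h1 (off h1 b) x → P.GA θ h1 (off h1 b) x →
    ∃ t, c ≤ uPr fun j : Fin M × Fin M × Fin M => P.Moves θ h1 s (b, j) t x y

variable [Fintype W] {P} {θ H : ℝ} {M J : ℕ}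

theorem s26_gA_le_one (θ h : ℝ) (M : ℕ) (x : W) : P.gA θ h M x ≤ 1 := by
  rw [gA_eq]; exact uPr_le_one _

/-- a pure pair is served by the next two levels -/
theorem serve_of_cases (hc : Cx θ H η M n J) (hH : 0 ≤ H)
    (hop : ∀ k < J, P.StpOK θ (hk H k) M n k)
    (hR : ∀ k < J, ∀ (j : Jit M) (x : W), x ∈ (P.clJ (hk H k) j x).R)
    {r m : ℕ} {s : ZSt W n} (hkr : m + (r + 2) ≤ J) (hs : P.Good θ m s) {x y : W} (hl : s x = s y)
    {c : ℝ} (hc0 : 0 ≤ c) (hc1 : c ≤ 1) (h : P.Cases θ (hk H m) (hk H (m + 1)) c M s x y) :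
    c * P.gA θ (hk H (m + 1)) M x * hk H (m + 1) / 100000000 ≤ P.Val θ H M (r + 2) m s x y := by
  have := hc.neM
  have l0 := hc.lv m (by omega)
  have l1 := hc.lv (m + 1) (by omega)
  have g0 := P.gA_nonneg θ (hk H (m + 1)) M x
  have g1 := s26_gA_le_one (P := P) θ (hk H (m + 1)) M x
  have p1 := l1.pos
  have p0 := l0.pos
  have e1 : hk H (m + 1) ≤ hk H m := by
    rw [hk_succ]; exact div_le_self p0.le (by norm_num)
  have e2 : hk H (m + 1 + 1) ≤ hk H (m + 1) / 1000000 := by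
    rw [hk_succ H (m + 1)]; gcongr; norm_num
  have cg : c * P.gA θ (hk H (m + 1)) M x * hk H (m + 1) ≤ c * hk H (m + 1) :=
    mul_le_mul_of_nonneg_right (mul_le_of_le_one_right hc0 g1) p1.le
  have ch1 : c * hk H (m + 1) ≤ hk H (m + 1) := mul_le_of_le_one_left p1.le hc1
  have sk1 : ∀ u v, P.Val θ H M (r + 1) (m + 1) s u v / 3 ≤ P.Val θ H M (r + 2) m s u v :=
    fun u v => Val_skip hc (r + 1) m s u v
  have sk2 : ∀ u v, P.Val θ H M r (m + 1 + 1) s u v / 3 ≤ P.Val θ H M (r + 1) (m + 1) s u v :=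
    fun u v => Val_skip hc r (m + 1) s u v
  have mv0 : ∀ t u v, c ≤ (uPr fun j : Jit M => P.Moves θ (hk H m) s j t u v) →
      c * hk H (m + 1) / 100000000 ≤ P.Val θ H M (r + 2) m s u v := fun t u v ht => by
    have a1 := Val_move hc hH hop (hR m (by omega)) (r := r + 1) hkr hs t u v
    have a2 := mul_le_mul ht e1 p1.le (uPr_nonneg _)
    have a3 := mul_nonneg hc0 p1.le
    linarith
  have mv1' : ∀ t u v, (uPr fun j : Jit M => P.Moves θ (hk H (m + 1)) s j t u v) * hk H (m + 1) /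
      30000000 ≤ P.Val θ H M (r + 2) m s u v := fun t u v => by
    have a1 := Val_move hc hH hop (hR (m + 1) (by omega)) (r := r) (by omega) hs.succ t u v
    linarith [sk1 u v]
  have mv1 : ∀ t u v, c ≤ (uPr fun j : Jit M => P.Moves θ (hk H (m + 1)) s j t u v) →
      c * hk H (m + 1) / 100000000 ≤ P.Val θ H M (r + 2) m s u v := fun t u v ht => by
    have a1 := mv1' t u v
    have a2 := mul_le_mul_of_nonneg_right ht p1.le
    have a3 := mul_nonneg hc0 p1.le
    linarith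
  by_cases hf : hk H (m + 1) / 40000 ≤ |P.f x - P.f y|
  · have a1 := Val_mean hc hH hop hkr hs x y
    linarith
  rcases h with h | h | ⟨t, h⟩ | ⟨t, h⟩ | ⟨t, h⟩ | ⟨t, h⟩ | h | h
  · exact absurd h hf
  · have a1 := Val_tilt hc hH hop (r := r) (k := m + 1 + 1) (by omega) hs.succ.succ hl
      l0.th_pos.le
    have a2 := mul_le_mul l0.th_ge h p1.le l0.th_pos.le
    linarith [sk1 x y, sk2 x y, not_le.1 hf]
  · linarith [mv0 t x y h]
  · rw [Val_comm]; linarith [mv0 t y x h]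
  · linarith [mv1 t x y h]
  · rw [Val_comm]; linarith [mv1 t y x h]
  · obtain ⟨S, p, q, hx, hy, hS, lp, lq, hp, hq⟩ := h
    have a1 := Val_bar hc hH hop (r := r) (k := m + 1 + 1) (by omega) hs.succ.succ S hx hy hS lp lq
      hp hq
    linarith [sk1 x y, sk2 x y]
  · have a1 : P.gA θ (hk H (m + 1)) M x * c ≤
        uPr fun j : Jit M => ∃ t ∈ (Finset.univ : Finset (Fin 3)),
          P.Moves θ (hk H (m + 1)) s j t x y := by
      rw [gA_eq]
      refine le_uPr_prod fun b hb => ?_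
      obtain ⟨t, ht⟩ := h b hb.1 hb.2
      exact ht.trans (uPr_mono fun j hj => ⟨t, Finset.mem_univ _, hj⟩)
    have a2 := a1.trans (uPr_exists _ _)
    rw [Fin.sum_univ_three] at a2
    have a3 := mul_le_mul_of_nonneg_right a2 p1.le
    have a4 := Val_nonneg (P := P) (θ := θ) (H := H) (M := M) (r + 2) m s x y
    nlinarith [mv1' 0 x y, mv1' 1 x y, mv1' 2 x y]

theorem s26_good_init : P.Good θ 0 (init : ZSt W n) :=
  ⟨inv_init, fun _ => ⟨trivial, Or.inr ⟨true, fun _ _ _ _ _ => by simp [init], fun _ _ _ _ _ => by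
    simp [init]⟩⟩⟩

theorem s26_pure_init (x : W) (r : ℝ) : P.Pure (init : ZSt W n) x r :=
  ⟨fun _ _ _ _ => rfl, fun _ h => by simp [init] at h⟩

/-- purity up to level `m` and a bound for pure states give a bound for the whole construction -/
theorem val_of_pure (hc : Cx θ H η M n J) (hop : ∀ k < J, P.StpOK θ (hk H k) M n k)
    {m : ℕ} (hm : m ≤ J) {x y : W} {ρ a : ℝ} (ha : 0 ≤ a) (e : ℕ → ℝ) (he : ∀ j, 0 ≤ e j)
    (hsum : ∑ j ∈ Finset.range m, e j ≤ 1 / 2)
    (hpure : ∀ j < m, ∀ s : ZSt W n, P.Good θ j s → P.Pure s x ρ →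
      uPr (fun ω : Om M W => ¬ P.Pure (P.stp θ (hk H j) j s ω) x ρ) ≤ e j)
    (hval : ∀ s : ZSt W n, P.Good θ m s → P.Pure s x ρ → a ≤ P.Val θ H M (J - m) m s x y) :
    a / 2 ≤ P.Val θ H M J 0 (init : ZSt W n) x y := by
  have := hc.neM
  have h := val_process (St := ZSt W n) (A := Om M W) (fun j s => P.Val θ H M (J - j) j s x y)
    (fun j s ω => P.stp θ (hk H j) j s ω) m (fun j s => P.Good θ j s ∧ P.Pure s x ρ) e he
    (fun j hj s _ => by
      rw [show J - j = J - (j + 1) + 1 by omega, Val_succ])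
    (fun j s => Val_nonneg _ _ _ _ _)
    (fun j hj s hs => (uPr_mono fun ω hω hp =>
      hω ⟨(hop j (by omega)).good hs.1 ω, hp⟩).trans (hpure j hj s hs.1 hs.2))
    ha (fun s hs => hval s hs.1 hs.2) 0 (Nat.zero_le _) init ⟨s26_good_init, s26_pure_init x ρ⟩
  rw [← Finset.range_eq_Ico] at h
  simp only [Nat.sub_zero] at h
  nlinarith

theorem cases_of_sv {h0 h1 : ℝ} (l0 : Lv θ h0 η) (l1 : Lv θ h1 η) (hK : 1000000 * h1 ≤ h0)
    (hM : 1000000000 ≤ M) {s : ZSt W n} (hs : P.KInv s) {x y : W}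
    (hρ : 100000 * h0 ≤ P.d x y) (hp : P.Pure s x (2 * P.d x y)) (hl : s x = s y) :
    P.Cases θ h0 h1 (1 / 4000000000000000) M s x y := by
  rcases sv_cases (M := M) l0 l1 hK hs hρ hp with h | h | ⟨z, z', hz, h⟩ | ⟨z, z', hz, h⟩ | h
  · exact Or.inl h
  · refine Or.inr (Or.inl ?_)
    have h2 := h.2
    unfold Gv at h2
    rwa [← hl] at h2
  · have h2 := MvW_win l0.pos hM h
    rcases hz with ⟨rfl, rfl⟩ | ⟨rfl, rfl⟩
    · exact Or.inr (Or.inr (Or.inl ⟨1, h2⟩))
    · exact Or.inr (Or.inr (Or.inr (Or.inl ⟨1, h2⟩)))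
  · have h2 := MvW_win l1.pos hM h
    rcases hz with ⟨rfl, rfl⟩ | ⟨rfl, rfl⟩
    · exact Or.inr (Or.inr (Or.inr (Or.inr (Or.inl ⟨1, h2⟩))))
    · exact Or.inr (Or.inr (Or.inr (Or.inr (Or.inr (Or.inl ⟨1, h2⟩)))))
  · refine Or.inr (Or.inr (Or.inr (Or.inr (Or.inr (Or.inr ?_)))))
    by_cases hb : P.Bar θ h1 s x y
    · obtain ⟨p, q, hx, hy, lp, lq, hp', hq'⟩ := hb
      unfold Gv at hp' hq'
      rw [lp] at hp'
      rw [lq] at hq'
      have := l1.pos
      exact Or.inl ⟨{w | P.Enc p q w}, p, q, hx, hy, sv_enc_closed p q, lp, lq, by linarith,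
        by linarith⟩
    · refine Or.inr fun b hw hg => ?_
      rcases h b hw hg with h | h | h
      · exact ⟨1, le_trans (by norm_num) (MvW_one l1.pos hM h)⟩
      · exact ⟨2, le_trans (by norm_num) (MvW_one l1.pos hM h)⟩
      · exact absurd h hb

theorem s26_sum_inv (hH : 0 < H) (m : ℕ) :
    ∑ j ∈ Finset.range m, hk H m / hk H j ≤ 2 / 2 ^ 60 := by
  induction m with
  | zero => simp; positivity
  | succ m ih =>
    have hp : 0 < hk H m := by unfold hk; positivity
    have e : ∀ j, hk H (m + 1) / hk H j = hk H m / hk H j / 2 ^ 60 := fun j => by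
      rw [hk_succ]; ring
    simp only [e]
    rw [← Finset.sum_div, Finset.sum_range_succ, div_self hp.ne']
    gcongr
    have : (2 : ℝ) / 2 ^ 60 ≤ 1 := by norm_num
    linarith

theorem s26_same {s : ZSt W n} {x y : W} (h0 : 0 < P.d x y) (hp : P.Pure s x (2 * P.d x y)) :
    s x = s y := by
  have hne : ∃ L, P.Wk Set.univ x y L := by
    by_contra h
    have : {L | P.Wk Set.univ x y L} = ∅ := Set.eq_empty_of_forall_notMem fun L hL => h ⟨L, hL⟩
    unfold d dS at h0
    rw [this, Real.sInf_empty] at h0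
    exact lt_irrefl _ h0
  obtain ⟨L, hL, h1⟩ := exists_wk_lt (m := 2 * P.d x y) hne (by unfold d at h0 ⊢; linarith)
  exact (hp.1 y L hL h1.le).symm

/-- the serving inequality for one angle -/
theorem serve_one (hc : Cx θ H η M n J) (hop : ∀ k < J, P.StpOK θ (hk H k) M n k)
    (hpure : ∀ j < J, ∀ (s : ZSt W n) (x : W) (r : ℝ), P.Good θ j s → 0 ≤ r →
      r ≤ hk H j / 200000 → P.Pure s x r →
      uPr (fun ω : Om M W => ¬ P.Pure (P.stp θ (hk H j) j s ω) x r) ≤
        4000000000 * r / hk H j + 100 / M)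
    {m : ℕ} (hm : m + 2 ≤ J) {x y : W} (h1 : 100000 * hk H m ≤ P.d x y)
    (h2 : P.d x y ≤ 2 * 100000 * hk H m) :
    1 / 4000000000000000 * P.gA θ (hk H (m + 1)) M x * hk H (m + 1) / 100000000 / 2 ≤
      P.Val θ H M J 0 (init : ZSt W n) x y := by
  have l0 := hc.lv m (by omega)
  have l1 := hc.lv (m + 1) (by omega)
  have p0 := l0.pos
  have p1 := l1.pos
  have hH : 0 < H := by
    have := (hc.lv 0 (by omega)).pos
    simpa [hk] using this
  have hM : 1000000000 ≤ M := le_trans (by omega) hc.hM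
  have hM' : (1000000000 : ℝ) * (J + 1) ≤ M := by exact_mod_cast hc.hM
  have hM0 : (0 : ℝ) < M := lt_of_lt_of_le (by positivity) hM'
  have hpos : ∀ j, 0 < hk H j := fun j => by unfold hk; positivity
  have hd : 0 < P.d x y := by linarith
  have hsum := s26_sum_inv hH m
  refine val_of_pure hc hop (m := m) (by omega) (ρ := 2 * P.d x y)
    (by have := P.gA_nonneg θ (hk H (m + 1)) M x; positivity)
    (fun j => 4000000000 * (2 * P.d x y) / hk H j + 100 / M)
    (fun j => by have := hpos j; positivity) ?_ (fun j hj s hs hp => ?_) fun s hs hp => ?_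
  · rw [Finset.sum_add_distrib, Finset.sum_const, Finset.card_range, nsmul_eq_mul]
    have a1 : ∑ j ∈ Finset.range m, 4000000000 * (2 * P.d x y) / hk H j ≤
        ∑ j ∈ Finset.range m, 1600000000000000 * (hk H m / hk H j) := by
      refine Finset.sum_le_sum fun j _ => ?_
      rw [← mul_div_assoc]
      exact div_le_div_of_nonneg_right (by linarith) (hpos j).le
    rw [← Finset.mul_sum] at a1
    have a2 : (m : ℝ) * (100 / M) ≤ 1 / 4 := by
      rw [← mul_div_assoc, div_le_iff₀ hM0]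
      have : (m : ℝ) ≤ J := by exact_mod_cast (by omega : m ≤ J)
      have : (0 : ℝ) ≤ J := Nat.cast_nonneg _
      linarith
    have a3 : (1600000000000000 : ℝ) * (2 / 2 ^ 60) ≤ 1 / 4 := by norm_num
    linarith
  · refine hpure j (by omega) s x _ hs (by linarith) ?_ hp
    have a1 : hk H m / hk H j ≤ 2 / 2 ^ 60 :=
      (Finset.single_le_sum (f := fun j => hk H m / hk H j)
        (fun i _ => (div_pos p0 (hpos i)).le) (Finset.mem_range.2 hj)).trans hsum
    rw [div_le_iff₀ (hpos j)] at a1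
    have a2 : (2 : ℝ) / 2 ^ 60 ≤ 1 / 100000000000 := by norm_num
    nlinarith [hpos j]
  · obtain ⟨r, hr⟩ : ∃ r, J - m = r + 2 := ⟨J - m - 2, by omega⟩
    rw [hr]
    have hl := s26_same hd hp
    refine serve_of_cases hc hH.le hop (fun k hk' j v => c94_clJ_mem (hpos k) j v) (by omega) hs hl
      (by norm_num) (by norm_num) (cases_of_sv l0 l1 ?_ hM hs.2 h1 hp hl)
    rw [hk_succ]
    have : hk H m / 2 ^ 60 ≤ hk H m / 1000000 := by gcongr; norm_num
    linarith

end PS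

/-- one level keeps the invariants -/
def StpStmt2 : Prop :=
  ∀ (η : ℝ) (W : Type) [Fintype W] (P : PS W η) (θ h : ℝ) (M n k : ℕ), Lv θ h η →
    P.StpOK θ h M n k

/-- one level keeps small balls pure with high probability -/
def PureStmt : Prop :=
  ∀ (η : ℝ) (W : Type) [Fintype W] (P : PS W η) (θ h : ℝ) (M n k : ℕ), Lv θ h η → 0 < M →
    ∀ (s : ZSt W n) (x : W) (r : ℝ), P.KInv s → 0 ≤ r → r ≤ h / 200000 → P.Pure s x r →
      uPr (fun ω : Om M W => ¬ P.Pure (P.stp θ h k s ω) x r) ≤ 4000000000 * r / h + 100 / M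

theorem serveStmt_of (hS : StpStmt2) (hP : PureStmt) : ServeStmt := by
  refine ⟨100000, 1 / 4000000000000000 * (1 / 1000000) / 2 ^ 60 / 100000000 / 2, by norm_num,
    by positivity, fun η _ W _ P H M n J m c1 c2 hm x y h1 h2 => ?_⟩
  have hM : 1000000000 ≤ M := le_trans (by omega) c1.hM
  have key : ∀ θ, Cx θ H η M n J → _ := fun θ c => PS.serve_one (P := P) c
    (fun k hk' => hS η W P θ _ M n k (c.lv k hk'))
    (fun j hj s x r hs h0 hr hp => hP η W P θ _ M n j (c.lv j hj) (by omega) s x r hs.2 h0 hr hp)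
    hm h1 h2
  have a1 := key _ c1
  have a2 := key _ c2
  have p1 := (c1.lv (m + 1) (by omega)).pos
  have a3 := mul_le_mul_of_nonneg_right (P.gA_add p1 (M := M) (by omega) x) p1.le
  have e : hk H m = hk H (m + 1) * 2 ^ 60 := by rw [hk_succ]; ring
  rw [e]
  have e2 : 1 / 4000000000000000 * (1 / 1000000) / 2 ^ 60 / 100000000 / 2 *
      (hk H (m + 1) * 2 ^ 60) =
      1 / 4000000000000000 * (1 / 1000000 * hk H (m + 1)) / 100000000 / 2 := by ring
  rw [e2]
  linarith

end Crest.Agent.R206
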