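import Crest.Agent.R206.ZStp
import Crest.Agent.R206.ZServe2
import Crest.Agent.R206.ZPure
import Crest.Agent.R206.ZFinal
import Crest.Agent.R206.PSSub

/-! # Row 206 (planar): assembly. -/

set_option autoImplicit false

namespace Crest.Agent.R206

theorem zend_stp : StpStmt2 := fun _ _ _ P _ _ M n k hL => P.stpOK hL M n k

theorem zend_pure : PureStmt := by
  intro η W _ P θ h M n j hL hM s x r hs h0 hr hp
  exact PS.pure_step hL hM hs h0 hp

theorem zend_stmt : ZStmt' := zStmt_of loadStmt (serveStmt_of zend_stp zend_pure)

end Crest.Agent.R206
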