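import Crest.Agent.R206.ZVal
import Crest.Agent.R206.ZTop

/-! # Row 206 (planar): the load of an edge. -/

set_option autoImplicit false
set_option linter.dupNamespace false
set_option linter.unusedSectionVars false

namespace Crest.Agent.R206

open scoped BigOperators Classical
open ZS hiding St flip gap

namespace PS

variable {W : Type} [Fintype W] {η : ℝ} {n : ℕ} {P : PS W η} {θ H : ℝ} {M J : ℕ}

theorem good_init : P.Good θ 0 (init : ZSt W n) :=
  ⟨inv_init, fun v => ⟨Set.mem_univ v, Or.inr ⟨true,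
    fun _ _ _ _ _ => by simp [init], fun _ _ _ _ _ => by simp [init]⟩⟩⟩

theorem acd_adj {k : ℕ} {s : ZSt W n} (hs : P.Good θ k s) {u v : W} (h : P.G.Adj u v) :
    acd P.G θ P.f s u v ≤ |P.f u - P.f v| := by
  have key : ∀ a b, P.G.Adj a b → P.f a ≤ P.f b → acd P.G θ P.f s a b ≤ P.f b - P.f a := by
    intro a b hab hf
    rw [← hs.1.T_avg a, ← hs.1.T_avg b, ← avg_sub]
    refine avg_mono fun σ => (cd_adj _ hab).trans ?_
    rw [abs_sub_comm, abs_of_nonneg (sub_nonneg.2 (hs.1.T_mono a b hab hf σ))]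
  rcases le_total (P.f u) (P.f v) with hf | hf
  · rw [abs_sub_comm]
    exact (key u v h hf).trans (le_abs_self _)
  · rw [acd_comm]
    exact (key v u h.symm hf).trans (le_abs_self _)

theorem Val_adj (hc : Cx θ H η M n J) (hop : ∀ k < J, P.StpOK θ (hk H k) M n k) {u v : W}
    (h : P.G.Adj u v) (r : ℕ) : ∀ (k : ℕ) (s : ZSt W n), k + r ≤ J → P.Good θ k s →
      P.Val θ H M r k s u v ≤ |P.f u - P.f v| := by
  have := hc.neM
  induction r with
  | zero => exact fun k s _ hs => acd_adj hs h
  | succ r ih =>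
    intro k s hk' hs
    rw [Val_succ]
    exact Finset.expect_le Finset.univ_nonempty fun ω _ =>
      ih (k + 1) _ (by omega) ((hop k (by omega)).good hs ω)

end PS

/-- every level is admissible -/
def StpStmt : Prop :=
  ∀ (η : ℝ), 0 < η → ∀ (W : Type) [Fintype W] (P : PS W η) (θ h : ℝ) (M n k : ℕ), Lv θ h η →
    P.StpOK θ h M n k

theorem loadStmt_of (h : StpStmt) : LoadStmt := fun η hη W _ P θ H M n J hc _ _ huv =>
  PS.Val_adj hc (fun k hk' => h η hη W P θ _ M n k (hc.lv k hk')) huv J 0 _ (by omega) PS.good_init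

end Crest.Agent.R206
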