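import Crest.Agent.R206.ZPure
import Crest.Agent.R206.ZVal

/-! # Row 206 (planar): purity along the whole construction. -/

set_option autoImplicit false
set_option linter.unusedSectionVars false

namespace Crest.Agent.R206

open scoped BigOperators Classical
open ZS hiding St flip gap

theorem pu_sum {H r : ℝ} (hH : 0 < H) (m : ℕ) (hr : r ≤ 10000000 * hk H m) :
    ∑ j ∈ Finset.range m, 4000000000 * r / hk H j ≤ 1 / 10 := by
  have key : ∀ m : ℕ, ∑ j ∈ Finset.range m, 1 / hk H j ≤ 1 / (2 ^ 59 * hk H m) := by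
    intro m
    induction m with
    | zero => simp only [Finset.range_zero, Finset.sum_empty, hk]; positivity
    | succ m ih =>
      rw [Finset.sum_range_succ]
      have h1 : hk H m = 2 ^ 60 * hk H (m + 1) := by
        unfold hk
        rw [mul_add, pow_add]
        field_simp
      have h2 : 0 < hk H (m + 1) := by unfold hk; positivity
      have h3 : 1 / (2 ^ 59 * hk H m) ≤ 1 / hk H m := by
        have h5 : 0 < hk H m := by unfold hk; positivity
        exact one_div_le_one_div_of_le h5 (by nlinarith)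
      have h4 : 1 / (2 ^ 59 * hk H (m + 1)) = 2 * (1 / hk H m) := by
        rw [h1]; field_simp
      linarith
  have h2 : 0 < hk H m := by unfold hk; positivity
  rcases le_total r 0 with h0 | h0
  · refine le_trans (Finset.sum_nonpos fun j _ => ?_) (by norm_num)
    have : 0 < hk H j := by unfold hk; positivity
    exact div_nonpos_of_nonpos_of_nonneg (by linarith) this.le
  have h3 : ∑ j ∈ Finset.range m, 4000000000 * r / hk H j =
      4000000000 * r * ∑ j ∈ Finset.range m, 1 / hk H j := by
    rw [Finset.mul_sum]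
    exact Finset.sum_congr rfl fun j _ => by ring
  rw [h3]
  calc _ ≤ 4000000000 * (10000000 * hk H m) * (1 / (2 ^ 59 * hk H m)) := by
        gcongr
        · exact Finset.sum_nonneg fun j _ => by unfold hk; positivity
        · exact key m
    _ = 4000000000 * 10000000 / 2 ^ 59 := by field_simp
    _ ≤ 1 / 10 := by norm_num

namespace PS

variable {W : Type} {η : ℝ} {n : ℕ} {P : PS W η}

theorem pu_good_init (P : PS W η) (θ : ℝ) : P.Good θ 0 (init : ZSt W n) :=
  ⟨inv_init, fun _ => ⟨trivial, Or.inr ⟨true,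
    fun u _ v _ _ => by
      show |(0 : ℝ) - 0| ≤ _
      rw [sub_self, abs_zero]; positivity,
    fun x _ w _ _ => by
      show (0 : ℝ) ≤ 0 + _
      positivity⟩⟩⟩

theorem pu_pure_init (P : PS W η) (x : W) (r : ℝ) : P.Pure (init : ZSt W n) x r :=
  ⟨fun _ _ _ _ => rfl, fun _ h => by cases h⟩

/-- with probability at least `1 / 2` the ball is pure after `m` levels -/
theorem pure_val [Fintype W] {θ H : ℝ} {M J : ℕ} (hc : Cx θ H η M n J) (hH : 0 < H)
    (hop : ∀ k < J, P.StpOK θ (hk H k) M n k) {m : ℕ} (hm : m ≤ J) {x y : W} {r c : ℝ}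
    (hr0 : 0 ≤ r) (hr : r ≤ 10000000 * hk H m) (hc0 : 0 ≤ c)
    (hs : ∀ s : ZSt W n, P.Good θ m s → P.Pure s x r → c ≤ P.Val θ H M (J - m) m s x y) :
    c / 2 ≤ P.Val θ H M J 0 (init : ZSt W n) x y := by
  have := hc.neM
  have hM : 0 < M := lt_of_lt_of_le (by positivity) hc.hM
  have hM' : (0 : ℝ) < M := by exact_mod_cast hM
  have h1 := val_process (St := ZSt W n) (A := Om M W)
    (fun j s => P.Val θ H M (J - j) j s x y) (fun j s ω => P.stp θ (hk H j) j s ω) m
    (fun j s => P.Good θ j s ∧ P.Pure s x r) (fun j => 4000000000 * r / hk H j + 100 / M)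
    (fun j => by unfold hk; positivity)
    (fun j hj s _ => by
      rw [show J - j = J - (j + 1) + 1 by omega, Val_succ])
    (fun j s => P.Val_nonneg _ _ _ _ _)
    (fun j hj s hs => by
      refine le_trans (uPr_mono fun ω h hp => h ⟨(hop j (by omega)).good hs.1 ω, hp⟩)
        (pure_step (k := j) (hc.lv j (by omega)) hM hs.1.2 hr0 hs.2))
    hc0 (fun s h => hs s h.1 h.2) 0 (Nat.zero_le _) init ⟨P.pu_good_init θ, P.pu_pure_init x r⟩
  rw [← Finset.range_eq_Ico, Finset.sum_add_distrib, Finset.sum_const, Finset.card_range,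
    nsmul_eq_mul] at h1
  have h2 := pu_sum hH m hr
  have h3 : (m : ℝ) * (100 / M) ≤ 1 / 10 := by
    have h4 : (1000000000 : ℝ) * (J + 1) ≤ M := by exact_mod_cast hc.hM
    have h5 : (m : ℝ) ≤ J := by exact_mod_cast hm
    rw [← mul_div_assoc, div_le_iff₀ hM']
    linarith [Nat.cast_nonneg (α := ℝ) J]
  refine le_trans ?_ h1
  nlinarith

end PS

end Crest.Agent.R206
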