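import Mathlib

/-! # Row 206 (planar): generic label states, one level step, invariants (no geometry). -/

set_option autoImplicit false

namespace Crest.Agent.R206.ZS

/-- sign vectors -/
abbrev Sg (n : ℕ) := Fin n → Bool

/-- the `i`-th sign (`0` out of range) -/
noncomputable def sg {n : ℕ} (σ : Sg n) (i : ℕ) : ℝ :=
  if h : i < n then (if σ ⟨i, h⟩ then 1 else -1) else 0

/-- average over the signs -/
noncomputable def avg {n : ℕ} (F : Sg n → ℝ) : ℝ := (∑ σ, F σ) / 2 ^ n

/-- `F` depends only on the signs of index `< i` -/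
def Dep {n : ℕ} (F : Sg n → ℝ) (i : ℕ) : Prop :=
  ∀ σ τ : Sg n, (∀ j : Fin n, j.1 < i → σ j = τ j) → F σ = F τ

/-- a label is DATA; `kind = none` means Dead -/
structure Lab (W K : Type) (n : ℕ) where
  kind : Option K
  G : W → ℝ
  idx : ℕ
  o : ℝ
  V : Sg n → ℝ
  c : Sg n → ℝ

/-- a piece of the new function: `a + sl * f` (new label Dead) or `a + e * H` (new live label) -/
inductive Piece (W K : Type) where
  | dead (a sl : ℝ) : Piece W K
  | live (a e : ℝ) (H : W → ℝ) (kind : K) : Piece W K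

variable {W K : Type} {n : ℕ}

/-- value of a piece -/
def Piece.val (f : W → ℝ) : Piece W K → W → ℝ
  | .dead a sl, v => a + sl * f v
  | .live a e H _, v => a + e * H v

/-- admissible piece -/
def Piece.ok (θ : ℝ) : Piece W K → Prop
  | .dead _ sl => |θ * sl| ≤ 1
  | .live _ e _ _ => e = 1 ∨ e = -1

/-- index of the sign used by an operation at level `k` (fresh sign `k` for a Dead label) -/
def Lab.ix (k : ℕ) (l : Lab W K n) : ℕ := if l.kind.isNone then k else l.idx

/-- orientation used by an operation -/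
def Lab.ox (l : Lab W K n) : ℝ := if l.kind.isNone then 1 else l.o

/-- the function `T` on a label -/
noncomputable def Lab.T (θ : ℝ) (f : W → ℝ) (l : Lab W K n) (σ : Sg n) (v : W) : ℝ :=
  l.V σ * (f v + sg σ l.idx * l.o * θ * l.G v) + l.c σ

/-- the new label of a piece -/
noncomputable def Lab.relabel (θ : ℝ) (k : ℕ) (l : Lab W K n) : Piece W K → Lab W K n
  | .dead a sl =>
    { kind := none, G := fun _ => 0, idx := 0, o := 1
      V := fun σ => l.V σ * (1 + sg σ (l.ix k) * l.ox * θ * sl)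
      c := fun σ => l.c σ + l.V σ * (sg σ (l.ix k) * l.ox * θ * a) }
  | .live a e H κ =>
    { kind := some κ, G := H, idx := l.ix k, o := l.ox * e, V := l.V
      c := fun σ => l.c σ + l.V σ * (sg σ (l.ix k) * l.ox * θ * a) }

/-- states -/
abbrev St (W K : Type) (n : ℕ) := W → Lab W K n

/-- choices of one level: `none` = the label is kept -/
abbrev Ch (W K : Type) := W → Option (Piece W K)

/-- `T` of a state -/
noncomputable def T (θ : ℝ) (f : W → ℝ) (s : St W K n) (σ : Sg n) (v : W) : ℝ := (s v).T θ f σ v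

/-- `G` of a state -/
def Gv (s : St W K n) (v : W) : ℝ := (s v).G v

/-- the new value `G'` -/
def Gn (f : W → ℝ) (s : St W K n) (ch : Ch W K) (v : W) : ℝ :=
  match ch v with
  | none => (s v).G v
  | some p => p.val f v

/-- one level -/
noncomputable def step (θ : ℝ) (k : ℕ) (s : St W K n) (ch : Ch W K) : St W K n := fun v =>
  match ch v with
  | none => s v
  | some p => (s v).relabel θ k p

/-- initial state: `T = f` -/
def init : St W K n := fun _ =>
  { kind := none, G := fun _ => 0, idx := 0, o := 1, V := fun _ => 1, c := fun _ => 0 }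

/-- the states after `k` levels -/
noncomputable def run (θ : ℝ) (op : ℕ → St W K n → Ch W K) : ℕ → St W K n
  | 0 => init
  | k + 1 => step θ k (run θ op k) (op k (run θ op k))

/-- invariant of a label after `k` levels -/
structure LInv (k : ℕ) (l : Lab W K n) : Prop where
  dead_G : l.kind = none → ∀ v, l.G v = 0
  o_pm : l.o = 1 ∨ l.o = -1
  idx_lt : l.kind ≠ none → l.idx < k
  V_nonneg : ∀ σ, 0 ≤ l.V σ
  V_avg : avg l.V = 1
  V_dep : Dep l.V (l.ix k)

/-- invariant of a state after `k` levels -/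
structure Inv (θ : ℝ) (f : W → ℝ) (A : W → W → Prop) (k : ℕ) (s : St W K n) : Prop where
  lab : ∀ v, LInv k (s v)
  T_avg : ∀ v, avg (fun σ => T θ f s σ v) = f v
  T_mono : ∀ u v, A u v → f u ≤ f v → ∀ σ, T θ f s σ u ≤ T θ f s σ v

/-- admissible choice with amplitude `Dm` -/
structure OK (θ : ℝ) (f : W → ℝ) (A : W → W → Prop) (s : St W K n) (ch : Ch W K) (Dm : ℝ) :
    Prop where
  piece : ∀ v p, ch v = some p → p.ok θ
  edge : ∀ u v, A u v → (Gn f s ch u = Gv s u ∧ Gn f s ch v = Gv s v) ∨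
    (s u = s v ∧ |θ * (Gn f s ch u - Gn f s ch v)| ≤ |f u - f v|)
  amp : ∀ v, |Gn f s ch v - Gv s v| ≤ Dm

/-! ## signs -/

theorem abs_sg_le (σ : Sg n) (i : ℕ) : |sg σ i| ≤ 1 := by
  unfold sg; split_ifs <;> simp

theorem abs_sg_eq (σ : Sg n) {i : ℕ} (h : i < n) : |sg σ i| = 1 := by
  unfold sg; rw [dif_pos h]; split_ifs <;> simp

theorem avg_add (F G : Sg n → ℝ) : avg (fun σ => F σ + G σ) = avg F + avg G := by
  unfold avg; rw [Finset.sum_add_distrib, add_div]

theorem avg_mul_const (F : Sg n → ℝ) (a : ℝ) : avg (fun σ => F σ * a) = avg F * a := by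
  unfold avg; rw [← Finset.sum_mul]; ring

theorem avg_const_mul (F : Sg n → ℝ) (a : ℝ) : avg (fun σ => a * F σ) = a * avg F := by
  unfold avg; rw [← Finset.mul_sum]; ring

theorem avg_sub (F G : Sg n → ℝ) : avg (fun σ => F σ - G σ) = avg F - avg G := by
  unfold avg; rw [Finset.sum_sub_distrib, sub_div]

theorem avg_const (a : ℝ) : avg (fun _ : Sg n => a) = a := by
  unfold avg
  rw [Finset.sum_const, Finset.card_univ, Fintype.card_fun, Fintype.card_bool, Fintype.card_fin,
    nsmul_eq_mul]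
  push_cast
  field_simp

theorem avg_mono {F G : Sg n → ℝ} (h : ∀ σ, F σ ≤ G σ) : avg F ≤ avg G := by
  unfold avg
  exact div_le_div_of_nonneg_right (Finset.sum_le_sum fun σ _ => h σ) (by positivity)

theorem avg_nonneg {F : Sg n → ℝ} (h : ∀ σ, 0 ≤ F σ) : 0 ≤ avg F := by
  have := avg_mono (F := fun _ : Sg n => (0 : ℝ)) (G := F) h
  rwa [avg_const] at this

theorem abs_avg_le (F : Sg n → ℝ) : |avg F| ≤ avg (fun σ => |F σ|) := by
  unfold avg
  rw [abs_div, abs_of_pos (by positivity : (0 : ℝ) < 2 ^ n)]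
  exact div_le_div_of_nonneg_right (Finset.abs_sum_le_sum_abs _ _) (by positivity)

theorem Dep.mono {F : Sg n → ℝ} {i j : ℕ} (h : Dep F i) (hij : i ≤ j) : Dep F j :=
  fun σ τ hst => h σ τ fun a ha => hst a (lt_of_lt_of_le ha hij)

theorem dep_sg (i : ℕ) : Dep (fun σ : Sg n => sg σ i) (i + 1) := by
  intro σ τ h
  simp only [sg]
  by_cases hi : i < n
  · rw [dif_pos hi, dif_pos hi, h ⟨i, hi⟩ (Nat.lt_succ_self i)]
  · rw [dif_neg hi, dif_neg hi]

/-- flip of the sign `i` -/
def flip (i : Fin n) (σ : Sg n) : Sg n := Function.update σ i (!σ i)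

theorem flip_flip (i : Fin n) (σ : Sg n) : flip i (flip i σ) = σ := by
  funext j
  by_cases h : j = i
  · subst h; simp [flip]
  · simp [flip, Function.update_of_ne h]

theorem sg_flip (i : Fin n) (σ : Sg n) : sg (flip i σ) i.1 = -sg σ i.1 := by
  simp only [sg, dif_pos i.2, flip, Fin.eta, Function.update_self]
  cases σ i <;> simp

theorem Dep.flip {F : Sg n → ℝ} {i : Fin n} (h : Dep F i.1) (σ : Sg n) : F (flip i σ) = F σ := by
  refine h _ _ fun j hj => ?_
  have : j ≠ i := fun e => by rw [e] at hj; exact lt_irrefl _ hj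
  simp [ZS.flip, Function.update_of_ne this]

theorem avg_flip (i : Fin n) (F : Sg n → ℝ) : avg (fun σ => F (flip i σ)) = avg F := by
  unfold avg
  congr 1
  exact Equiv.sum_comp (Function.Involutive.toPerm (flip i) (flip_flip i)) F

/-- a function of the earlier signs is orthogonal to the sign `i` -/
theorem avg_mul_sg {F : Sg n → ℝ} {i : ℕ} (h : Dep F i) : avg (fun σ => F σ * sg σ i) = 0 := by
  by_cases hi : i < n
  · have h1 := avg_flip ⟨i, hi⟩ (fun σ => F σ * sg σ i)
    have h2 : (fun σ => F (flip ⟨i, hi⟩ σ) * sg (flip ⟨i, hi⟩ σ) i) =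
        fun σ => (-1) * (F σ * sg σ i) := by
      funext σ
      have := sg_flip ⟨i, hi⟩ σ
      simp only at this
      rw [this, Dep.flip (i := ⟨i, hi⟩) h σ]; ring
    rw [h2, avg_const_mul] at h1
    linarith
  · simp only [sg, dif_neg hi, mul_zero]
    exact avg_const 0

/-- half of the mass of `V` sits on each value of the sign `i` -/
theorem avg_ite_sg {F : Sg n → ℝ} {i : ℕ} (h : Dep F i) (hi : i < n) (ε : ℝ)
    (hε : ε = 1 ∨ ε = -1) : avg (fun σ => if sg σ i = ε then F σ else 0) = avg F / 2 := by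
  have h1 : (fun σ => if sg σ i = ε then F σ else 0) =
      fun σ => F σ * (1 / 2) + (F σ * sg σ i) * (ε / 2) := by
    funext σ
    have hs : sg σ i = 1 ∨ sg σ i = -1 := by
      unfold sg; rw [dif_pos hi]; split_ifs <;> simp
    rcases hs with hs | hs <;> rcases hε with hε | hε <;> rw [hs, hε] <;> norm_num <;> ring
  rw [h1, avg_add, avg_mul_const, avg_mul_const, avg_mul_sg h]
  ring

/-! ## one label -/

theorem LInv.ox_pm {k : ℕ} {l : Lab W K n} (h : LInv k l) : l.ox = 1 ∨ l.ox = -1 := by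
  unfold Lab.ox; split_ifs
  · exact Or.inl rfl
  · exact h.o_pm

theorem LInv.abs_ox {k : ℕ} {l : Lab W K n} (h : LInv k l) : |l.ox| = 1 := by
  rcases h.ox_pm with e | e <;> rw [e] <;> simp

theorem LInv.ix_le {k : ℕ} {l : Lab W K n} (h : LInv k l) : l.ix k ≤ k := by
  unfold Lab.ix; split_ifs with hk
  · exact le_rfl
  · exact (h.idx_lt (by simpa using hk)).le

theorem ix_live {k : ℕ} {l : Lab W K n} (h : l.kind ≠ none) : l.ix k = l.idx := by
  unfold Lab.ix; rw [if_neg (by simpa using h)]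

theorem ox_live {l : Lab W K n} (h : l.kind ≠ none) : l.ox = l.o := by
  unfold Lab.ox; rw [if_neg (by simpa using h)]

theorem LInv.succ {k : ℕ} {l : Lab W K n} (h : LInv k l) : LInv (k + 1) l where
  dead_G := h.dead_G
  o_pm := h.o_pm
  idx_lt := fun hk => (h.idx_lt hk).trans (Nat.lt_succ_self k)
  V_nonneg := h.V_nonneg
  V_avg := h.V_avg
  V_dep := by
    refine h.V_dep.mono ?_
    unfold Lab.ix; split_ifs <;> omega

/-- `T` written with the sign and orientation of an operation at level `k` -/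
theorem LInv.T_eq {k : ℕ} {l : Lab W K n} (h : LInv k l) (θ : ℝ) (f : W → ℝ) (j : ℕ) (σ : Sg n)
    (v : W) : l.T θ f σ v = l.V σ * (f v + sg σ (l.ix j) * l.ox * θ * l.G v) + l.c σ := by
  unfold Lab.T
  by_cases hk : l.kind = none
  · rw [h.dead_G hk v]; simp
  · rw [ix_live hk, ox_live hk]

theorem T_relabel (θ : ℝ) (f : W → ℝ) (k : ℕ) (l : Lab W K n) (p : Piece W K) (σ : Sg n) (v : W) :
    (l.relabel θ k p).T θ f σ v =
      l.V σ * (f v + sg σ (l.ix k) * l.ox * θ * p.val f v) + l.c σ := by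
  cases p <;> simp only [Lab.relabel, Lab.T, Piece.val] <;> ring

theorem abs_coef_le {k : ℕ} {l : Lab W K n} (h : LInv k l) (σ : Sg n) (j : ℕ) (x : ℝ) :
    |sg σ j * l.ox * x| ≤ |x| := by
  rw [abs_mul, abs_mul, h.abs_ox, mul_one]
  exact mul_le_of_le_one_left (abs_nonneg _) (abs_sg_le σ j)

theorem LInv.relabel {θ : ℝ} {k : ℕ} {l : Lab W K n} (h : LInv k l) {p : Piece W K}
    (hp : p.ok θ) : LInv (k + 1) (l.relabel θ k p) := by
  cases p with
  | dead a sl =>
    refine ⟨fun _ _ => rfl, Or.inl rfl, fun hk => (hk rfl).elim, fun σ => ?_, ?_, ?_⟩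
    · refine mul_nonneg (h.V_nonneg σ) ?_
      have h1 := abs_coef_le h σ (l.ix k) (θ * sl)
      have h2 : |θ * sl| ≤ 1 := hp
      have h3 := neg_abs_le (sg σ (l.ix k) * l.ox * (θ * sl))
      have : sg σ (l.ix k) * l.ox * θ * sl = sg σ (l.ix k) * l.ox * (θ * sl) := by ring
      rw [this]; linarith
    · have : (l.relabel θ k (.dead a sl)).V =
          fun σ => l.V σ + (l.V σ * sg σ (l.ix k)) * (l.ox * θ * sl) := by
        funext σ; simp only [Lab.relabel]; ring
      rw [this, avg_add, avg_mul_const, avg_mul_sg h.V_dep, h.V_avg]; ring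
    · intro σ τ hst
      have hix : (l.relabel θ k (.dead a sl)).ix (k + 1) = k + 1 := by simp [Lab.ix, Lab.relabel]
      rw [hix] at hst
      have h1 := (h.V_dep.mono (h.ix_le.trans (Nat.le_succ k))) σ τ hst
      have h2 := ((dep_sg (n := n) (l.ix k)).mono (Nat.succ_le_succ h.ix_le)) σ τ hst
      simp only [Lab.relabel] at h2 ⊢
      rw [h1, h2]
  | live a e H κ =>
    refine ⟨fun hk => by simp [Lab.relabel] at hk, ?_, fun _ => Nat.lt_succ_of_le h.ix_le,
      h.V_nonneg, h.V_avg, ?_⟩
    · have h2 : e = 1 ∨ e = -1 := hp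
      simp only [Lab.relabel]
      rcases h.ox_pm with e1 | e1 <;> rcases h2 with e2 | e2 <;> rw [e1, e2] <;> norm_num
    · have hix : (l.relabel θ k (.live a e H κ)).ix (k + 1) = l.ix k := by
        simp [Lab.ix, Lab.relabel]
      rw [hix]; exact h.V_dep

theorem LInv.V_relabel_le {θ : ℝ} {k : ℕ} {l : Lab W K n} (h : LInv k l) {p : Piece W K}
    (hp : p.ok θ) (σ : Sg n) : (l.relabel θ k p).V σ ≤ 2 * l.V σ := by
  have hV := h.V_nonneg σ
  cases p with
  | dead a sl =>
    have h1 := abs_coef_le h σ (l.ix k) (θ * sl)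
    have h2 : |θ * sl| ≤ 1 := hp
    have h3 := le_abs_self (sg σ (l.ix k) * l.ox * (θ * sl))
    have : sg σ (l.ix k) * l.ox * θ * sl = sg σ (l.ix k) * l.ox * (θ * sl) := by ring
    simp only [Lab.relabel]
    rw [this]; nlinarith
  | live a e H κ => simp only [Lab.relabel]; linarith

/-! ## one level -/

variable {θ : ℝ} {f : W → ℝ} {A : W → W → Prop}

theorem step_none {k : ℕ} {s : St W K n} {ch : Ch W K} {v : W} (h : ch v = none) :
    step θ k s ch v = s v := by simp only [step, h]

theorem step_some {k : ℕ} {s : St W K n} {ch : Ch W K} {v : W} {p : Piece W K}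
    (h : ch v = some p) : step θ k s ch v = (s v).relabel θ k p := by simp only [step, h]

theorem Gn_none {s : St W K n} {ch : Ch W K} {v : W} (h : ch v = none) :
    Gn f s ch v = Gv s v := by simp only [Gn, Gv, h]

theorem Gn_some {s : St W K n} {ch : Ch W K} {v : W} {p : Piece W K} (h : ch v = some p) :
    Gn f s ch v = p.val f v := by simp only [Gn, h]

/-- same label and same choice give the same new label -/
theorem step_congr {k : ℕ} {s s' : St W K n} {ch ch' : Ch W K} {u v : W} (h : s u = s' v)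
    (hc : ch u = ch' v) : step θ k s ch u = step θ k s' ch' v := by
  simp only [step, hc, h]

theorem T_step {k : ℕ} {s : St W K n} (ch : Ch W K) {v : W} (h : LInv k (s v)) (σ : Sg n) :
    T θ f (step θ k s ch) σ v =
      (s v).V σ * (f v + sg σ ((s v).ix k) * (s v).ox * θ * Gn f s ch v) + (s v).c σ := by
  unfold T
  cases hc : ch v with
  | none => rw [step_none hc, Gn_none hc, h.T_eq θ f k]; rfl
  | some p => rw [step_some hc, Gn_some hc, T_relabel]

theorem T_step_sub {k : ℕ} {s : St W K n} (ch : Ch W K) {v : W} (h : LInv k (s v)) (σ : Sg n) :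
    T θ f (step θ k s ch) σ v - T θ f s σ v =
      (s v).V σ * (sg σ ((s v).ix k) * (s v).ox * (θ * (Gn f s ch v - Gv s v))) := by
  rw [T_step ch h]
  unfold T Gv
  rw [h.T_eq θ f k]; ring

theorem T_step_of_eq {k : ℕ} {s : St W K n} {ch : Ch W K} {v : W} (h : LInv k (s v))
    (hG : Gn f s ch v = Gv s v) (σ : Sg n) : T θ f (step θ k s ch) σ v = T θ f s σ v := by
  have := T_step_sub (θ := θ) (f := f) ch h σ
  rw [hG, sub_self, mul_zero, mul_zero, mul_zero] at this
  linarith

theorem LInv_step {k : ℕ} {s : St W K n} {ch : Ch W K} {v : W} (h : LInv k (s v))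
    (hp : ∀ p, ch v = some p → p.ok θ) : LInv (k + 1) (step θ k s ch v) := by
  cases hc : ch v with
  | none => rw [step_none hc]; exact h.succ
  | some p => rw [step_some hc]; exact h.relabel (hp p hc)

theorem V_step_le {k : ℕ} {s : St W K n} {ch : Ch W K} {v : W} (h : LInv k (s v))
    (hp : ∀ p, ch v = some p → p.ok θ) (σ : Sg n) :
    (step θ k s ch v).V σ ≤ 2 * (s v).V σ := by
  cases hc : ch v with
  | none => rw [step_none hc]; linarith [h.V_nonneg σ]
  | some p => rw [step_some hc]; exact h.V_relabel_le (hp p hc) σ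

theorem abs_T_step_le {k : ℕ} {s : St W K n} {ch : Ch W K} {v : W} (h : LInv k (s v)) {Dm : ℝ}
    (hθ : 0 ≤ θ) (hD : |Gn f s ch v - Gv s v| ≤ Dm) (σ : Sg n) :
    |T θ f (step θ k s ch) σ v - T θ f s σ v| ≤ (s v).V σ * (θ * Dm) := by
  rw [T_step_sub ch h, abs_mul, abs_of_nonneg (h.V_nonneg σ)]
  refine mul_le_mul_of_nonneg_left ((abs_coef_le h σ _ _).trans ?_) (h.V_nonneg σ)
  rw [abs_mul, abs_of_nonneg hθ]
  exact mul_le_mul_of_nonneg_left hD hθ

theorem inv_init : Inv θ f A 0 (init : St W K n) where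
  lab := fun _ => ⟨fun _ _ => rfl, Or.inl rfl, fun h => (h rfl).elim, fun _ => zero_le_one,
    avg_const 1, fun _ _ _ => rfl⟩
  T_avg := fun v => by
    have : (fun σ => T θ f (init : St W K n) σ v) = fun _ => f v := by
      funext σ; simp [T, Lab.T, init]
    rw [this, avg_const]
  T_mono := fun u v _ h σ => by simpa [T, Lab.T, init] using h

theorem Inv.step {k : ℕ} {s : St W K n} {ch : Ch W K} {Dm : ℝ} (h : Inv θ f A k s)
    (hc : OK θ f A s ch Dm) : Inv θ f A (k + 1) (step θ k s ch) where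
  lab := fun v => LInv_step (h.lab v) (hc.piece v)
  T_avg := fun v => by
    have : (fun σ => T θ f (ZS.step θ k s ch) σ v) = fun σ => T θ f s σ v +
        ((s v).V σ * sg σ ((s v).ix k)) * ((s v).ox * (θ * (Gn f s ch v - Gv s v))) := by
      funext σ
      have := T_step_sub (θ := θ) (f := f) ch (h.lab v) σ
      linarith
    rw [this, avg_add, avg_mul_const, avg_mul_sg (h.lab v).V_dep, h.T_avg v]; ring
  T_mono := fun u v huv hf σ => by
    rcases hc.edge u v huv with ⟨h1, h2⟩ | ⟨h1, h2⟩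
    · rw [T_step_of_eq (h.lab u) h1, T_step_of_eq (h.lab v) h2]
      exact h.T_mono u v huv hf σ
    · rw [T_step ch (h.lab u), T_step ch (h.lab v), h1]
      have h3 := abs_coef_le (h.lab v) σ ((s v).ix k) (θ * (Gn f s ch u - Gn f s ch v))
      have h4 := le_abs_self
        (sg σ ((s v).ix k) * (s v).ox * (θ * (Gn f s ch u - Gn f s ch v)))
      rw [abs_of_nonpos (by linarith : f u - f v ≤ 0)] at h2
      have h5 : f u + sg σ ((s v).ix k) * (s v).ox * θ * Gn f s ch u ≤
          f v + sg σ ((s v).ix k) * (s v).ox * θ * Gn f s ch v := by nlinarith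
      have := mul_le_mul_of_nonneg_left h5 ((h.lab v).V_nonneg σ)
      linarith

/-! ## runs -/

/-- every level of the run is admissible with amplitude `Dm k` -/
def RunOK (θ : ℝ) (f : W → ℝ) (A : W → W → Prop) (op : ℕ → St W K n → Ch W K) (Dm : ℕ → ℝ) :
    Prop := ∀ k, OK θ f A (run θ op k) (op k (run θ op k)) (Dm k)

theorem run_succ (op : ℕ → St W K n → Ch W K) (k : ℕ) :
    run θ op (k + 1) = step θ k (run θ op k) (op k (run θ op k)) := rfl

theorem inv_run {op : ℕ → St W K n → Ch W K} {Dm : ℕ → ℝ} (h : RunOK θ f A op Dm) (k : ℕ) :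
    Inv θ f A k (run θ op k) := by
  induction k with
  | zero => exact inv_init
  | succ k ih => exact ih.step (h k)

/-- a state predicate `Q` kept by the operations (kind invariants) gives `RunOK` -/
theorem runOK_of {op : ℕ → St W K n → Ch W K} {Dm : ℕ → ℝ} (Q : ℕ → St W K n → Prop)
    (h0 : Q 0 init)
    (hs : ∀ k s, Inv θ f A k s → Q k s → OK θ f A s (op k s) (Dm k) ∧
      Q (k + 1) (step θ k s (op k s))) :
    RunOK θ f A op Dm ∧ ∀ k, Q k (run θ op k) := by
  have key : ∀ k, Inv θ f A k (run θ op k) ∧ Q k (run θ op k) := by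
    intro k
    induction k with
    | zero => exact ⟨inv_init, h0⟩
    | succ k ih => exact ⟨ih.1.step (hs k _ ih.1 ih.2).1, (hs k _ ih.1 ih.2).2⟩
  exact ⟨fun k => (hs k _ (key k).1 (key k).2).1, fun k => (key k).2⟩

/-- the state after `k` levels only depends on the operations of the levels `< k` -/
theorem run_congr {op op' : ℕ → St W K n → Ch W K} {k : ℕ} (h : ∀ j < k, op j = op' j) :
    run θ op k = run θ op' k := by
  induction k with
  | zero => rfl
  | succ k ih =>
    rw [run_succ, run_succ, ih fun j hj => h j (hj.trans (Nat.lt_succ_self k)),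
      h k (Nat.lt_succ_self k)]

theorem V_run_le {op : ℕ → St W K n → Ch W K} {Dm : ℕ → ℝ} (h : RunOK θ f A op Dm) (m i : ℕ)
    (v : W) (σ : Sg n) : (run θ op (m + i) v).V σ ≤ 2 ^ i * (run θ op m v).V σ := by
  induction i with
  | zero => simp
  | succ i ih =>
    have := V_step_le (θ := θ) ((inv_run h (m + i)).lab v) ((h (m + i)).piece v) σ
    rw [← add_assoc, run_succ, pow_succ]
    linarith

/-- the levels `≥ m` change `T` by at most `2 V θ Dm m` -/
theorem T_tail {op : ℕ → St W K n → Ch W K} {Dm : ℕ → ℝ} (h : RunOK θ f A op Dm) (hθ : 0 ≤ θ)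
    (hD0 : ∀ k, 0 ≤ Dm k) (hD : ∀ k, 4 * Dm (k + 1) ≤ Dm k) {m j : ℕ} (hmj : m ≤ j) (v : W)
    (σ : Sg n) :
    |T θ f (run θ op j) σ v - T θ f (run θ op m) σ v| ≤
      2 * (run θ op m v).V σ * (θ * Dm m) := by
  obtain ⟨i, rfl⟩ := Nat.exists_eq_add_of_le hmj
  have hV0 := ((inv_run h m).lab v).V_nonneg σ
  have hDi : ∀ i, 4 ^ i * Dm (m + i) ≤ Dm m := by
    intro i
    induction i with
    | zero => simp
    | succ i ih =>
      have := hD (m + i)
      have h4 : (0 : ℝ) ≤ 4 ^ i := by positivity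
      rw [← add_assoc, pow_succ]; nlinarith
  have key : ∀ i, |T θ f (run θ op (m + i)) σ v - T θ f (run θ op m) σ v| ≤
      (2 - 2 * (1 / 2) ^ i) * ((run θ op m v).V σ * (θ * Dm m)) := by
    intro i
    induction i with
    | zero => simp
    | succ i ih =>
      have h1 := abs_T_step_le (θ := θ) (f := f) ((inv_run h (m + i)).lab v) hθ
        ((h (m + i)).amp v) σ
      have h2 := V_run_le h m i v σ
      have h3 := hDi i
      have h5 : (run θ op (m + i) v).V σ * (θ * Dm (m + i)) ≤
          (1 / 2) ^ i * ((run θ op m v).V σ * (θ * Dm m)) := by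
        have e : (2 : ℝ) ^ i = (1 / 2) ^ i * 4 ^ i := by rw [← mul_pow]; norm_num
        calc (run θ op (m + i) v).V σ * (θ * Dm (m + i))
            ≤ (2 ^ i * (run θ op m v).V σ) * (θ * Dm (m + i)) :=
              mul_le_mul_of_nonneg_right h2 (mul_nonneg hθ (hD0 _))
          _ = (1 / 2) ^ i * ((run θ op m v).V σ * (θ * (4 ^ i * Dm (m + i)))) := by
              rw [e]; ring
          _ ≤ _ := by
              refine mul_le_mul_of_nonneg_left (mul_le_mul_of_nonneg_left
                (mul_le_mul_of_nonneg_left h3 hθ) hV0) (by positivity)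
      rw [← add_assoc, run_succ]
      have h6 := abs_sub_le (T θ f (step θ (m + i) (run θ op (m + i))
        (op (m + i) (run θ op (m + i)))) σ v) (T θ f (run θ op (m + i)) σ v)
        (T θ f (run θ op m) σ v)
      rw [pow_succ]; linarith
  have h7 := key i
  have h8 : 0 ≤ (1 / 2 : ℝ) ^ i * ((run θ op m v).V σ * (θ * Dm m)) :=
    mul_nonneg (by positivity) (mul_nonneg hV0 (mul_nonneg hθ (hD0 _)))
  nlinarith

end Crest.Agent.R206.ZS
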