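import Crest.Agent.R206.OGen
import Crest.Agent.R206.ZCl
import Crest.Agent.R206.ZLoad

/-! # Row 206 (planar): one level is admissible; the load. -/

set_option autoImplicit false

namespace Crest.Agent.R206

theorem PS.stpOK {W : Type} [Finite W] {η θ h : ℝ} (P : PS W η) (hL : Lv θ h η) (M n k : ℕ) :
    P.StpOK θ h M n k := fun s ω hs =>
  have hop : P.HOp θ h M s := fun _ _ _ hA => PS.opOK_J hL hA
  ⟨PS.chs_ok hL hs.2 hop ω, PS.kinv_stp hL hs.2 hop k ω⟩

theorem stpStmt : StpStmt := fun _ _ _ _ P _ _ M n k hL => P.stpOK hL M n k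

theorem loadStmt : LoadStmt := loadStmt_of stpStmt

end Crest.Agent.R206
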